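import Crest.Agent.R109.Key

/-! Task 109-RAY: `fpos` as an integral of arguments along a ray. -/

set_option autoImplicit false

open Polynomial

namespace Crest.Agent.R109

theorem gC_im_pos (S : Finset ℝ) {ν : ℝ → ℝ} (hν : ∀ p, 0 ≤ ν p) (c : ℝ) {t : ℂ}
    (ht : 0 < t.im) : t.im ≤ (gC S ν c t).im := by
  have h : (∑ p ∈ S, (ν p : ℂ) / (t - p)).im ≤ 0 := by
    rw [Complex.im_sum]
    refine Finset.sum_nonpos fun p _ => ?_
    rw [Complex.div_im]
    simp only [Complex.ofReal_im, Complex.ofReal_re, Complex.sub_im, zero_mul, zero_div, sub_zero,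
      zero_sub, neg_nonpos]
    exact div_nonneg (mul_nonneg (hν p) ht.le) (Complex.normSq_nonneg _)
  simp only [gC, Complex.sub_im, Complex.add_im, Complex.ofReal_im, add_zero]
  linarith

theorem Ray_arg {t : ℂ} (ht : 0 < t.im) (x : ℝ) :
    Complex.arg (t - x) = Real.pi / 2 + Real.arctan ((x - t.re) / t.im) := by
  have h1 : 0 < (t - x).im := by simpa using ht
  rw [Complex.arg_of_im_pos h1, Real.arccos_eq_pi_div_two_sub_arcsin, Real.arctan_eq_arcsin,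
    sub_eq_add_neg, ← Real.arcsin_neg]
  congr 2
  have h2 : ‖t - x‖ = t.im * Real.sqrt (1 + ((x - t.re) / t.im) ^ 2) := by
    rw [Complex.norm_eq_sqrt_sq_add_sq, ← Real.sqrt_sq ht.le, ← Real.sqrt_mul (sq_nonneg _),
      Real.sqrt_sq ht.le]
    congr 1
    simp only [Complex.sub_re, Complex.ofReal_re, Complex.sub_im, Complex.ofReal_im, sub_zero]
    field_simp
    ring
  rw [h2, div_div]
  simp only [Complex.sub_re, Complex.ofReal_re]
  ring

theorem Ray_ker {t : ℂ} (ht : 0 < t.im) (x : ℝ) :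
    t.im / ‖t - x‖ ^ 2 = t.im⁻¹ * (1 + ((x - t.re) / t.im) ^ 2)⁻¹ := by
  rw [Complex.sq_norm, Complex.normSq_apply]
  simp only [Complex.sub_re, Complex.ofReal_re, Complex.sub_im, Complex.ofReal_im, sub_zero]
  have h1 : 0 < (t.re - x) * (t.re - x) + t.im * t.im := by
    have := mul_self_nonneg (t.re - x)
    have := mul_pos ht ht
    linarith
  have h2 : 0 < 1 + ((x - t.re) / t.im) ^ 2 := by positivity
  field_simp
  ring

theorem Ray_deriv {t : ℂ} (ht : 0 < t.im) (x : ℝ) :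
    HasDerivAt (fun x : ℝ => Complex.arg (t - x)) (t.im / ‖t - x‖ ^ 2) x := by
  simp only [Ray_arg ht, Ray_ker ht]
  have h := (((hasDerivAt_id x).sub_const t.re).div_const t.im).arctan.const_add (Real.pi / 2)
  refine h.congr_deriv ?_
  simp only [id, one_div]
  ring

theorem Ray_kint {t : ℂ} (ht : 0 < t.im) :
    MeasureTheory.Integrable fun x : ℝ => t.im / ‖t - x‖ ^ 2 := by
  simp only [Ray_ker ht]
  exact ((integrable_inv_one_add_sq.comp_div ht.ne').comp_sub_right t.re).const_mul _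

theorem Ray_ftc {t : ℂ} (ht : 0 < t.im) (a b : ℝ) :
    ∫ x in a..b, t.im / ‖t - x‖ ^ 2 = Complex.arg (t - b) - Complex.arg (t - a) :=
  intervalIntegral.integral_eq_sub_of_hasDerivAt (fun x _ => Ray_deriv ht x)
    (Ray_kint ht).intervalIntegrable

theorem Ray_xi (g : ℝ → ℝ) (x : ℝ) : 0 ≤ xi g x ∧ xi g x ≤ 1 := by
  unfold xi
  split_ifs <;> norm_num

theorem Ray_xi_norm (g : ℝ → ℝ) (x : ℝ) : ‖xi g x‖ ≤ 1 := by
  rw [Real.norm_of_nonneg (Ray_xi g x).1]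
  exact (Ray_xi g x).2

theorem Ray_bdd (l : Multiset ℝ) : ∃ T : ℝ, 0 ≤ T ∧ ∀ x ∈ l, |x| ≤ T :=
  ⟨(l.map fun x => |x|).sum, Multiset.sum_nonneg fun y hy => by
      obtain ⟨x, -, rfl⟩ := Multiset.mem_map.1 hy
      exact abs_nonneg x,
    fun x hx => Multiset.single_le_sum (fun y hy => by
      obtain ⟨x, -, rfl⟩ := Multiset.mem_map.1 hy
      exact abs_nonneg x) _ (Multiset.mem_map_of_mem _ hx)⟩

theorem Ray_kxi {t : ℂ} (ht : 0 < t.im) (S : Finset ℝ) (ν : ℝ → ℝ) (c : ℝ) :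
    MeasureTheory.Integrable fun x : ℝ => xi (gR S ν c) x * (t.im / ‖t - x‖ ^ 2) :=
  (Ray_kint ht).bdd_mul (measurable_xi S ν c).aestronglyMeasurable
    (Filter.Eventually.of_forall (Ray_xi_norm _))

theorem Ray_layer {P Q : ℂ[X]} {lq : Multiset ℝ} (hQ : RR Q lq) {S : Finset ℝ}
    (hS : S ⊆ lq.toFinset) {ν : ℝ → ℝ} (hν : ∀ p, 0 ≤ ν p) {c : ℝ} (hP : Rel P Q S ν c)
    {t : ℂ} (ht : 0 < t.im) : ∃ T0 : ℝ, 0 ≤ T0 ∧ ∀ T, T0 ≤ T →
    sumR (fun x => Complex.arg (t - x)) P - sumR (fun x => Complex.arg (t - x)) Q =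
      Complex.arg (t - ((-T : ℝ) : ℂ)) +
        ∫ x in (-T)..T, xi (gR S ν c) x * (t.im / ‖t - x‖ ^ 2) := by
  obtain ⟨lp, hp, hc, -, Z, hZ⟩ := interlace hQ hS hν hP
  obtain ⟨T1, h1, h1'⟩ := Ray_bdd lp
  obtain ⟨T2, h2, h2'⟩ := Ray_bdd lq
  refine ⟨T1 + T2, by linarith, fun T hT => ?_⟩
  rw [hp.sumR, hQ.sumR, layer hc hZ (T := T) (by linarith)
    (fun x hx => (h1' x hx).trans (by linarith)) (fun x hx => (h2' x hx).trans (by linarith))
    (φ := fun x : ℝ => Complex.arg (t - x)) (k := fun x : ℝ => t.im / ‖t - x‖ ^ 2)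
    (Ray_kint ht).intervalIntegrable (fun x _ => by rw [Ray_ftc ht]; ring)]
  simp only [mul_comm]

theorem Ray_angle {t : ℂ} (ht : 0 < t.im) (l : Multiset ℝ) :
    (l.map fun x : ℝ => t - (x : ℂ)).prod ≠ 0 ∧
    (((l.map fun x : ℝ => Complex.arg (t - x)).sum : ℝ) : Real.Angle) =
      Complex.arg (l.map fun x : ℝ => t - (x : ℂ)).prod := by
  induction l using Multiset.induction_on with
  | empty => simp
  | cons a l ih =>
    have h0 : t - (a : ℂ) ≠ 0 := fun h => by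
      have := congrArg Complex.im h
      simp at this
      exact ht.ne' this
    simp only [Multiset.map_cons, Multiset.prod_cons, Multiset.sum_cons]
    exact ⟨mul_ne_zero h0 ih.1, by
      rw [Complex.arg_mul_coe_angle h0 ih.1, Real.Angle.coe_add, ih.2]⟩

/-- `x ↦ arg (t - x)` has derivative the Poisson kernel `t.im / ‖t - x‖ ^ 2` and tends to `0` at
`-∞`; by `layer` the difference of the two sums is `∫ ξ * Poisson ∈ [0, π]`; it agrees with
`arg (g t) ∈ (0, π)` modulo `2 π` since `P t = g t * Q t`. -/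
theorem arg_sum {P Q : ℂ[X]} {lq : Multiset ℝ} (hQ : RR Q lq) {S : Finset ℝ}
    (hS : S ⊆ lq.toFinset) {ν : ℝ → ℝ} (hν : ∀ p, 0 ≤ ν p) {c : ℝ} (hP : Rel P Q S ν c)
    {t : ℂ} (ht : 0 < t.im) :
    sumR (fun x => Complex.arg (t - x)) P - sumR (fun x => Complex.arg (t - x)) Q =
      Complex.arg (gC S ν c t) := by
  obtain ⟨T, hT, h⟩ := Ray_layer hQ hS hν hP ht
  have h1 := h T le_rfl
  have b1 : 0 ≤ ∫ x in (-T)..T, xi (gR S ν c) x * (t.im / ‖t - x‖ ^ 2) :=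
    intervalIntegral.integral_nonneg (by linarith) fun x _ =>
      mul_nonneg (Ray_xi _ x).1 (by positivity)
  have b2 : ∫ x in (-T)..T, xi (gR S ν c) x * (t.im / ‖t - x‖ ^ 2) ≤
      ∫ x in (-T)..T, t.im / ‖t - x‖ ^ 2 :=
    intervalIntegral.integral_mono_on (by linarith) (Ray_kxi ht S ν c).intervalIntegrable
      (Ray_kint ht).intervalIntegrable fun x _ =>
        mul_le_of_le_one_left (by positivity) (Ray_xi _ x).2
  rw [Ray_ftc ht] at b2
  have b3 : 0 ≤ Complex.arg (t - ((-T : ℝ) : ℂ)) :=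
    Complex.arg_nonneg_iff.2 (by simpa using ht.le)
  have b4 := Complex.arg_le_pi (t - (T : ℂ))
  obtain ⟨lp, hp, -⟩ := interlace hQ hS hν hP
  have a1 := Ray_angle ht lp
  have a2 := Ray_angle ht lq
  rw [← hp.eval, ← hp.sumR] at a1
  rw [← hQ.eval, ← hQ.sumR] at a2
  have g0 : gC S ν c t ≠ 0 := fun h0 => by
    have := gC_im_pos S hν c ht
    rw [h0, Complex.zero_im] at this
    linarith
  have a3 : ((sumR (fun x => Complex.arg (t - x)) P - sumR (fun x => Complex.arg (t - x)) Q : ℝ) :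
      Real.Angle) = Complex.arg (gC S ν c t) := by
    rw [Real.Angle.coe_sub, a1.2, a2.2, hP t a2.1, Complex.arg_mul_coe_angle g0 a2.1,
      add_sub_cancel_right]
  rw [← Complex.arg_coe_angle_toReal_eq_arg (gC S ν c t), ← a3,
    Real.Angle.toReal_coe_eq_self_iff.2 ⟨by linarith [Real.pi_pos], by linarith⟩]

theorem arg_eq_poisson (S : Finset ℝ) {ν : ℝ → ℝ} (hν : ∀ p, 0 ≤ ν p) (c : ℝ) {t : ℂ}
    (ht : 0 < t.im) :
    Complex.arg (gC S ν c t) = ∫ x : ℝ, xi (gR S ν c) x * (t.im / ‖t - x‖ ^ 2) := by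
  classical
  obtain ⟨P, Q, hQ, hP⟩ := exists_rel S ν c
  have hS : S ⊆ S.val.toFinset := by rw [Finset.val_toFinset]
  obtain ⟨T0, -, h⟩ := Ray_layer hQ hS hν hP ht
  rw [arg_sum hQ hS hν hP ht] at h
  have l1 := MeasureTheory.intervalIntegral_tendsto_integral (Ray_kxi ht S ν c)
    Filter.tendsto_neg_atTop_atBot Filter.tendsto_id
  have l2 : Filter.Tendsto (fun T : ℝ => Complex.arg (t - ((-T : ℝ) : ℂ))) Filter.atTop
      (nhds 0) := by
    simp only [Ray_arg ht]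
    have l3 : Filter.Tendsto (fun T : ℝ => (-T - t.re) / t.im) Filter.atTop Filter.atBot :=
      (Filter.tendsto_atBot_add_const_right _ (-t.re)
        Filter.tendsto_neg_atTop_atBot).atBot_div_const ht
    have l4 := ((Real.tendsto_arctan_atBot.mono_right nhdsWithin_le_nhds).comp l3).const_add
      (Real.pi / 2)
    simpa using l4
  have l5 := l2.add l1
  rw [zero_add] at l5
  refine tendsto_nhds_unique (tendsto_const_nhds.congr' ?_) l5
  filter_upwards [Filter.eventually_ge_atTop T0] with T hT using h T hT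

/-- The point of modulus `σ` on the ray of angle `ϑ`. -/
noncomputable def rayPt (ϑ σ : ℝ) : ℂ := σ * Complex.exp (ϑ * Complex.I)

theorem Ray_re (ϑ σ : ℝ) : (rayPt ϑ σ).re = σ * Real.cos ϑ := by
  simp [rayPt, Complex.exp_ofReal_mul_I_re, Complex.exp_ofReal_mul_I_im]

theorem Ray_im (ϑ σ : ℝ) : (rayPt ϑ σ).im = σ * Real.sin ϑ := by
  simp [rayPt, Complex.exp_ofReal_mul_I_re, Complex.exp_ofReal_mul_I_im]

theorem Ray_im_pos {ϑ σ : ℝ} (h0 : 0 < ϑ) (h1 : ϑ < 1) (hσ : 0 < σ) : 0 < (rayPt ϑ σ).im := by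
  rw [Ray_im]
  exact mul_pos hσ (Real.sin_pos_of_pos_of_lt_pi h0 (by linarith [Real.pi_gt_three]))

theorem continuousOn_arg_ray (S : Finset ℝ) {ν : ℝ → ℝ} (hν : ∀ p, 0 ≤ ν p) (c : ℝ) {ϑ : ℝ}
    (h0 : 0 < ϑ) (h1 : ϑ < 1) :
    ContinuousOn (fun σ => Complex.arg (gC S ν c (rayPt ϑ σ))) (Set.Ioi 0) := by
  intro σ hσ
  have hi := Ray_im_pos h0 h1 hσ
  have c1 : Continuous (rayPt ϑ) := by unfold rayPt; fun_prop
  have c2 : ContinuousAt (gC S ν c) (rayPt ϑ σ) := by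
    unfold gC
    refine (continuousAt_id.add continuousAt_const).sub (tendsto_finsetSum _ fun p _ => ?_)
    refine continuousAt_const.div (continuousAt_id.sub continuousAt_const) fun h => ?_
    have := congrArg Complex.im h
    simp at this
    exact hi.ne' this
  have c3 : ContinuousAt Complex.arg (gC S ν c (rayPt ϑ σ)) :=
    Complex.continuousAt_arg (Or.inr (hi.trans_le (gC_im_pos S hν c hi)).ne')
  exact (ContinuousAt.comp (f := fun σ => gC S ν c (rayPt ϑ σ)) c3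
    (ContinuousAt.comp (f := rayPt ϑ) c2 c1.continuousAt)).continuousWithinAt

theorem Ray_cauchy (S : Finset ℝ) {ν : ℝ → ℝ} (hν : ∀ p, 0 ≤ ν p) (c : ℝ) {t : ℂ}
    (ht : 0 < t.im) :
    Complex.arg (gC S ν c t) = ∫ v : ℝ, xi (gR S ν c) (t.re + t.im * v) * (1 + v ^ 2)⁻¹ := by
  rw [arg_eq_poisson S hν c ht]
  simp only [Ray_ker ht]
  set f : ℝ → ℝ := fun x => xi (gR S ν c) x * (t.im⁻¹ * (1 + ((x - t.re) / t.im) ^ 2)⁻¹) with hf
  have h1 := MeasureTheory.integral_add_left_eq_self (μ := MeasureTheory.volume) f t.re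
  have h2 := MeasureTheory.Measure.integral_comp_mul_left (fun x => f (t.re + x)) t.im
  rw [h1, abs_of_pos (inv_pos.2 ht), smul_eq_mul] at h2
  have h3 : ∀ v, f (t.re + t.im * v) =
      t.im⁻¹ * (xi (gR S ν c) (t.re + t.im * v) * (1 + v ^ 2)⁻¹) := by
    intro v
    simp only [hf, add_sub_cancel_left, mul_div_cancel_left₀ v ht.ne']
    ring
  simp only [h3] at h2
  rw [MeasureTheory.integral_const_mul] at h2
  exact (mul_left_cancel₀ (inv_ne_zero ht.ne') h2).symm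

theorem Ray_theta {ε : ℝ} (hε : 0 < ε) : ∃ ϑ : ℝ, 0 < ϑ ∧ ϑ < 1 ∧
    ∫ v : ℝ, min 1 |Real.cos ϑ + Real.sin ϑ * v - 1| * (1 + v ^ 2)⁻¹ ≤ ε := by
  have hc : Continuous fun ϑ : ℝ =>
      ∫ v : ℝ, min 1 |Real.cos ϑ + Real.sin ϑ * v - 1| * (1 + v ^ 2)⁻¹ := by
    refine MeasureTheory.continuous_of_dominated (bound := fun v => (1 + v ^ 2)⁻¹)
      (fun ϑ => ?_) (fun ϑ => Filter.Eventually.of_forall fun v => ?_) integrable_inv_one_add_sq
      (Filter.Eventually.of_forall fun v => by fun_prop)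
    · exact Measurable.aestronglyMeasurable (by fun_prop)
    · rw [Real.norm_of_nonneg (by positivity)]
      exact mul_le_of_le_one_left (by positivity) (min_le_left _ _)
  have h0 := hc.tendsto 0
  simp only [Real.cos_zero, Real.sin_zero, zero_mul, add_zero, sub_self, abs_zero,
    min_eq_right zero_le_one, MeasureTheory.integral_zero] at h0
  have h1 := (h0.eventually (ge_mem_nhds hε)).and (gt_mem_nhds zero_lt_one)
  obtain ⟨ϑ, h2, h3⟩ := ((h1.filter_mono nhdsWithin_le_nhds).and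
    (self_mem_nhdsWithin (s := Set.Ioi (0 : ℝ)))).exists
  exact ⟨ϑ, h3, h2.2, h2.1⟩

theorem Ray_ii {ξ : ℝ → ℝ} (hm : Measurable ξ) (hb : ∀ x, ‖ξ x‖ ≤ 1) (a b : ℝ) :
    IntervalIntegrable ξ MeasureTheory.volume a b :=
  (intervalIntegrable_const (c := (1 : ℝ))).mono_fun' hm.aestronglyMeasurable
    (Filter.Eventually.of_forall hb)

theorem Ray_dil {ξ : ℝ → ℝ} (hm : Measurable ξ) (hb : ∀ x, ‖ξ x‖ ≤ 1) {σ₁ σ₂ : ℝ} (h1 : 0 < σ₁)
    (h2 : σ₁ ≤ σ₂) (u : ℝ) :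
    |∫ σ in σ₁..σ₂, (ξ (σ * u) - ξ σ)| ≤ 2 * σ₂ * min 1 |u - 1| := by
  have hm' : Measurable fun σ => ξ (σ * u) := hm.comp (by fun_prop)
  rw [intervalIntegral.integral_sub (Ray_ii hm' (fun _ => hb _) _ _) (Ray_ii hm hb _ _)]
  have nb : ∀ (f : ℝ → ℝ), (∀ x, ‖f x‖ ≤ 1) → ∀ a b, |∫ x in a..b, f x| ≤ |b - a| := by
    intro f hf a b
    have := intervalIntegral.norm_integral_le_of_norm_le_const (a := a) (b := b)
      (f := f) (C := 1) fun x _ => hf x
    rwa [one_mul] at this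
  have b1 := nb (fun σ => ξ (σ * u)) (fun _ => hb _) σ₁ σ₂
  have b2 := nb ξ hb σ₁ σ₂
  rw [abs_of_nonneg (sub_nonneg.2 h2)] at b1 b2
  rw [mul_min_of_nonneg _ _ (by linarith), le_min_iff]
  constructor
  · refine (abs_sub _ _).trans ?_
    linarith
  · have e1 := intervalIntegral.mul_integral_comp_mul_right (a := σ₁) (b := σ₂) (f := ξ) u
    have e2 := intervalIntegral.integral_interval_sub_interval_comm (Ray_ii hm hb (σ₁ * u) (σ₂ * u))
      (Ray_ii hm hb σ₁ σ₂) (Ray_ii hm hb (σ₁ * u) σ₁)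
    have b3 := nb ξ hb (σ₁ * u) σ₁
    have b4 := nb ξ hb (σ₂ * u) σ₂
    rw [show σ₁ - σ₁ * u = σ₁ * (1 - u) by ring, abs_mul, abs_of_pos h1, abs_sub_comm] at b3
    rw [show σ₂ - σ₂ * u = σ₂ * (1 - u) by ring, abs_mul, abs_of_pos (h1.trans_le h2),
      abs_sub_comm] at b4
    rw [← e1] at e2
    set F := ∫ σ in σ₁..σ₂, ξ (σ * u)
    set G := ∫ σ in σ₁..σ₂, ξ σ
    have e3 : F - G = (u * F - G) - (u - 1) * F := by ring
    rw [e3]
    refine (abs_sub _ _).trans ?_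
    rw [e2, abs_mul]
    have b5 := abs_sub (∫ x in σ₁ * u..σ₁, ξ x) (∫ x in σ₂ * u..σ₂, ξ x)
    have b6 := mul_le_mul_of_nonneg_left b1 (abs_nonneg (u - 1))
    linarith

theorem Ray_fpos (S : Finset ℝ) {ν : ℝ → ℝ} (hν : ∀ p, 0 ≤ ν p) {c m σ₁ σ₂ : ℝ} (hc : 0 ≤ c)
    (hm : ∑ p ∈ S, ν p ≤ m) (h1 : 0 < σ₁) (h2 : σ₁ ≤ σ₂) (h8 : 8 * m ≤ σ₂ ^ 2) :
    |(∫ σ in σ₁..σ₂, xi (gR S ν c) σ) - fpos (gR S ν c)| ≤ σ₁ + 4 * m / σ₂ := by
  set A := {t : ℝ | gR S ν c t < 0} with hA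
  have hx : xi (gR S ν c) = A.indicator 1 := by
    funext t
    simp [xi, hA, Set.indicator_apply]
  have hAm : MeasurableSet A := by
    have := measurable_xi S ν c (measurableSet_singleton 1)
    convert this using 1
    ext t
    simp [xi, hA]
  have e1 : ∫ σ in σ₁..σ₂, xi (gR S ν c) σ = MeasureTheory.volume.real (A ∩ Set.Ioc σ₁ σ₂) := by
    rw [intervalIntegral.integral_of_le h2, hx, MeasureTheory.integral_indicator_one hAm,
      MeasureTheory.measureReal_restrict_apply hAm]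
  obtain ⟨T, hT, hT1, -⟩ := gR_bdd S ν c
  have fin : ∀ a : ℝ, MeasureTheory.volume {t : ℝ | a < t ∧ gR S ν c t < 0} ≠ ⊤ := by
    intro a
    refine ne_top_of_le_ne_top (measure_Ioo_lt_top (μ := MeasureTheory.volume) (a := a) (b := T)).ne
      (MeasureTheory.measure_mono fun t ht => ⟨ht.1, ?_⟩)
    by_contra h
    exact absurd (hT1 t (not_lt.1 h)) (not_lt.2 ht.2.le)
  have t1 := tail_le S hν hc hm (h1.trans_le h2) h8
  have lo : MeasureTheory.volume.real (A ∩ Set.Ioc σ₁ σ₂) ≤ fpos (gR S ν c) :=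
    MeasureTheory.measureReal_mono (fun t ht => ⟨h1.trans ht.2.1, ht.1⟩) (fin 0)
  have hi : fpos (gR S ν c) ≤ MeasureTheory.volume.real ((Set.Ioc 0 σ₁ ∪ A ∩ Set.Ioc σ₁ σ₂) ∪
      {t : ℝ | σ₂ < t ∧ gR S ν c t < 0}) := by
    refine MeasureTheory.measureReal_mono (fun t ht => ?_) ?_
    · rcases le_or_gt t σ₁ with h | h
      · exact Or.inl (Or.inl ⟨ht.1, h⟩)
      · rcases le_or_gt t σ₂ with h' | h'
        · exact Or.inl (Or.inr ⟨ht.2, h, h'⟩)
        · exact Or.inr ⟨h', ht.2⟩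
    · refine MeasureTheory.measure_union_ne_top (MeasureTheory.measure_union_ne_top
        measure_Ioc_lt_top.ne ?_) (fin σ₂)
      exact ne_top_of_le_ne_top measure_Ioc_lt_top.ne
        (MeasureTheory.measure_mono Set.inter_subset_right)
  have u1 := MeasureTheory.measureReal_union_le (μ := MeasureTheory.volume)
    (Set.Ioc 0 σ₁ ∪ A ∩ Set.Ioc σ₁ σ₂) {t : ℝ | σ₂ < t ∧ gR S ν c t < 0}
  have u2 := MeasureTheory.measureReal_union_le (μ := MeasureTheory.volume)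
    (Set.Ioc 0 σ₁) (A ∩ Set.Ioc σ₁ σ₂)
  rw [Real.volume_real_Ioc_of_le h1.le] at u2
  have t2 : MeasureTheory.volume.real {t : ℝ | σ₂ < t ∧ gR S ν c t < 0} ≤ 4 * m / σ₂ := t1
  rw [e1, abs_sub_comm, abs_of_nonneg (sub_nonneg.2 lo)]
  linarith

/-- With `κ u = π⁻¹ sin ϑ / ‖e^{iϑ} - u‖ ^ 2` (a probability density concentrating at `u = 1` when
`ϑ → 0`): `π⁻¹ arg g(σ e^{iϑ}) = ∫ ξ(σ u) κ u du`; Fubini; for `|u - 1| ≤ γ ≤ 1/2` the inner
integral `∫_{σ₁}^{σ₂} ξ(σ u) dσ = u⁻¹ ∫_{u σ₁}^{u σ₂} ξ` is within `6 γ σ₂` of `∫_{σ₁}^{σ₂} ξ`,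
otherwise within `σ₂`. Then `tail_le`. -/
theorem ray {ε : ℝ} (hε : 0 < ε) : ∃ ϑ : ℝ, 0 < ϑ ∧ ϑ < 1 ∧
    ∀ (S : Finset ℝ) (ν : ℝ → ℝ) (c m σ₁ σ₂ : ℝ), (∀ p, 0 ≤ ν p) → 0 ≤ c →
      ∑ p ∈ S, ν p ≤ m → 0 < σ₁ → σ₁ ≤ σ₂ → 8 * m ≤ σ₂ ^ 2 →
      |Real.pi⁻¹ * (∫ σ in σ₁..σ₂, Complex.arg (gC S ν c (rayPt ϑ σ))) - fpos (gR S ν c)| ≤
        ε * σ₂ + σ₁ + 4 * m / σ₂ := by
  obtain ⟨ϑ, h0, h1, hϑ⟩ := Ray_theta hε
  refine ⟨ϑ, h0, h1, fun S ν c m σ₁ σ₂ hν hc hm s1 s2 h8 => ?_⟩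
  set ξ := xi (gR S ν c) with hξ
  have hm' : Measurable ξ := measurable_xi S ν c
  have hb : ∀ x, ‖ξ x‖ ≤ 1 := Ray_xi_norm _
  set u : ℝ → ℝ := fun v => Real.cos ϑ + Real.sin ϑ * v with hu
  have hum : Measurable u := by simp only [hu]; fun_prop
  have e1 : ∀ σ ∈ Set.uIcc σ₁ σ₂, Complex.arg (gC S ν c (rayPt ϑ σ)) - Real.pi * ξ σ =
      ∫ v : ℝ, (ξ (σ * u v) - ξ σ) * (1 + v ^ 2)⁻¹ := by
    intro σ hσ
    rw [Set.uIcc_of_le s2] at hσ
    rw [Ray_cauchy S hν c (Ray_im_pos h0 h1 (s1.trans_le hσ.1)), Ray_re, Ray_im]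
    simp only [sub_mul]
    rw [MeasureTheory.integral_sub, MeasureTheory.integral_const_mul,
      integral_univ_inv_one_add_sq, mul_comm Real.pi]
    · congr 2
      funext v
      congr 2
      simp only [hu]
      ring
    · exact integrable_inv_one_add_sq.bdd_mul
        (hm'.comp (hum.const_mul σ)).aestronglyMeasurable
        (Filter.Eventually.of_forall fun _ => hb _)
    · exact integrable_inv_one_add_sq.const_mul _
  have i1 : IntervalIntegrable (fun σ => Complex.arg (gC S ν c (rayPt ϑ σ)))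
      MeasureTheory.volume σ₁ σ₂ := by
    refine ((continuousOn_arg_ray S hν c h0 h1).mono ?_).intervalIntegrable
    rw [Set.uIcc_of_le s2]
    exact fun σ hσ => s1.trans_le hσ.1
  have e2 : (∫ σ in σ₁..σ₂, Complex.arg (gC S ν c (rayPt ϑ σ))) - Real.pi * ∫ σ in σ₁..σ₂, ξ σ =
      ∫ v : ℝ, (∫ σ in σ₁..σ₂, (ξ (σ * u v) - ξ σ)) * (1 + v ^ 2)⁻¹ := by
    rw [← intervalIntegral.integral_const_mul,
      ← intervalIntegral.integral_sub i1 ((Ray_ii hm' hb _ _).const_mul _),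
      intervalIntegral.integral_congr e1, MeasureTheory.intervalIntegral_integral_swap]
    · simp only [intervalIntegral.integral_mul_const]
    · have i2 : MeasureTheory.Integrable (fun z : ℝ × ℝ => (1 : ℝ) * (1 + z.2 ^ 2)⁻¹)
          ((MeasureTheory.volume.restrict (Set.uIoc σ₁ σ₂)).prod MeasureTheory.volume) :=
        MeasureTheory.Integrable.mul_prod (f := fun _ => (1 : ℝ))
          (MeasureTheory.integrableOn_const (by
            rw [Set.uIoc_of_le s2]; exact measure_Ioc_lt_top.ne))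
          integrable_inv_one_add_sq
      simp only [one_mul] at i2
      refine i2.bdd_mul (f := fun z : ℝ × ℝ => ξ (z.1 * u z.2) - ξ z.1) (c := 2) ?_
        (Filter.Eventually.of_forall fun z => ?_)
      · exact ((hm'.comp (measurable_fst.mul (hum.comp measurable_snd))).sub
          (hm'.comp measurable_fst)).aestronglyMeasurable
      · have := hb (z.1 * u z.2)
        have := hb z.1
        exact (norm_sub_le _ _).trans (by linarith)
  have i3 : MeasureTheory.Integrable fun v : ℝ => min 1 |u v - 1| * (1 + v ^ 2)⁻¹ :=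
    integrable_inv_one_add_sq.bdd_mul (c := 1) (Measurable.aestronglyMeasurable (by fun_prop))
      (Filter.Eventually.of_forall fun v => by
        rw [Real.norm_of_nonneg (by positivity)]; exact min_le_left _ _)
  have b1 : ‖∫ v : ℝ, (∫ σ in σ₁..σ₂, (ξ (σ * u v) - ξ σ)) * (1 + v ^ 2)⁻¹‖ ≤
      ∫ v : ℝ, 2 * σ₂ * (min 1 |u v - 1| * (1 + v ^ 2)⁻¹) := by
    refine MeasureTheory.norm_integral_le_of_norm_le (i3.const_mul _)
      (Filter.Eventually.of_forall fun v => ?_)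
    rw [norm_mul, Real.norm_of_nonneg (r := (1 + v ^ 2)⁻¹) (by positivity), ← mul_assoc]
    exact mul_le_mul_of_nonneg_right (Ray_dil hm' hb s1 s2 (u v)) (by positivity)
  rw [MeasureTheory.integral_const_mul, ← e2, Real.norm_eq_abs] at b1
  have b2 := Ray_fpos S hν hc hm s1 s2 h8
  have s0 : 0 < σ₂ := s1.trans_le s2
  have b3 : 2 * σ₂ * ∫ v : ℝ, min 1 |u v - 1| * (1 + v ^ 2)⁻¹ ≤ 2 * σ₂ * ε :=
    mul_le_mul_of_nonneg_left hϑ (by linarith)
  set I := ∫ σ in σ₁..σ₂, Complex.arg (gC S ν c (rayPt ϑ σ))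
  set G := ∫ σ in σ₁..σ₂, ξ σ
  have e3 : Real.pi⁻¹ * I - fpos (gR S ν c) =
      Real.pi⁻¹ * (I - Real.pi * G) + (G - fpos (gR S ν c)) := by
    field_simp
    ring
  have b4 : |Real.pi⁻¹ * (I - Real.pi * G)| ≤ ε * σ₂ := by
    rw [abs_mul, abs_of_pos (inv_pos.2 Real.pi_pos), inv_mul_le_iff₀ Real.pi_pos]
    have := mul_pos hε s0
    nlinarith [Real.pi_gt_three]
  rw [e3]
  refine (abs_add_le _ _).trans ?_
  linarith

end Crest.Agent.R109
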