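import Crest.Agent.R109.Nev
import Crest.Agent.R109.Ray

/-! Task 109-BOT: light vertices do not matter. -/

set_option autoImplicit false

open Polynomial

namespace Crest.Agent.R109

variable {V : Type*} [DecidableEq V] {r : ℕ}

/-- `M u u'` multiplied by `θ` when `u ∉ B`, `u' ∈ B`. -/
def Bot_M (B : Finset V) (θ : ℂ) (M : V → V → ℂ) : V → V → ℂ :=
  fun u u' => if u ∉ B ∧ u' ∈ B then θ * M u u' else M u u'

theorem Bot_posIm {M : V → V → ℂ} {W : Finset V} (hM : HC M W) (B : Finset V) (Z : V × Fin r → ℂ)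
    (θ : ℂ) {L : ℝ} (hθ : ‖θ - 1‖ ≤ L) (hZ : ∀ a : V × Fin r, a.1 ∈ W → 0 < (Z a).im)
    (hB : ∀ a : V × Fin r, a.1 ∈ W → a.1 ∈ B → L ≤ (Z a).im)
    (hN : ∀ a : V × Fin r, a.1 ∈ W → ∀ u' ∈ W, u' ∈ B → M a.1 u' ≠ 0 → L ≤ (Z a).im) :
    PosIm (Bz Z (Bot_M B θ M)) (W ×ˢ Finset.univ) := by
  classical
  intro η hη
  let p : V → Prop := fun u => u ∉ B ∧ ∃ u' ∈ W, u' ∈ B ∧ M u u' ≠ 0
  let η1 : Fin r → V → ℂ := fun i u => if p u then η (u, i) else 0
  let η2 : Fin r → V → ℂ := fun i u => if u ∈ B then η (u, i) else 0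
  set Xs := ∑ i, ∑ u ∈ W, ∑ u' ∈ W, (starRingEnd ℂ) (η1 i u) * M u u' * η2 i u' with hX
  have e1 : form (Bz Z (Bot_M B θ M)) (W ×ˢ Finset.univ) η =
      form (Bz Z M) (W ×ˢ Finset.univ) η - (θ - 1) * Xs := by
    rw [hX, Finset.sum_comm]
    unfold form
    simp only [Finset.sum_product, Finset.mul_sum, ← Finset.sum_sub_distrib]
    refine Finset.sum_congr rfl fun u hu => Finset.sum_congr rfl fun i _ =>
      Finset.sum_congr rfl fun u' hu' => ?_
    have : (θ - 1) * ((starRingEnd ℂ) (η1 i u) * M u u' * η2 i u') =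
        ∑ j, if i = j then (θ - 1) * ((starRingEnd ℂ) (η1 i u) * M u u' * η2 i u') else 0 := by
      simp
    rw [this, ← Finset.sum_sub_distrib]
    refine Finset.sum_congr rfl fun j _ => ?_
    unfold Bz
    by_cases h1 : (u, i) = (u', j)
    · obtain ⟨rfl, rfl⟩ := Prod.ext_iff.1 h1
      simp [hM.diag u hu]
    · rw [if_neg h1, if_neg h1]
      by_cases h2 : i = j
      · subst h2
        simp only [if_true, Bot_M]
        by_cases h3 : u ∉ B ∧ u' ∈ B
        · rw [if_pos h3]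
          by_cases h4 : M u u' = 0
          · simp [h4]
          · have hp : p u := ⟨h3.1, u', hu', h3.2, h4⟩
            simp only [η1, η2, if_pos hp, if_pos h3.2]
            ring
        · rw [if_neg h3]
          by_cases h4 : u' ∈ B
          · have hp : ¬ p u := fun hp => h3 ⟨hp.1, h4⟩
            simp only [η1, if_neg hp]
            simp
          · simp only [η2, if_neg h4]
            simp
      · simp [h2]
  obtain ⟨x, -, e2⟩ := form_Bz hM Z (S := W ×ˢ Finset.univ)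
    (fun a ha => (Finset.mem_product.1 ha).1) η
  set A := ∑ a ∈ W ×ˢ Finset.univ, (Z a).im * ‖η a‖ ^ 2 with hA
  have e3 : (form (Bz Z M) (W ×ˢ Finset.univ) η).im = A := by
    rw [e2, Complex.sub_im, Complex.ofReal_im, sub_zero, Complex.im_sum]
    refine Finset.sum_congr rfl fun a _ => ?_
    rw [Complex.mul_im, Complex.ofReal_im, Complex.ofReal_re]; ring
  have hApos : 0 < A := by
    obtain ⟨a, ha, h0⟩ := hη
    refine Finset.sum_pos' (fun b hb => mul_nonneg (hZ b (Finset.mem_product.1 hb).1).le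
      (sq_nonneg _)) ⟨a, ha, mul_pos (hZ a (Finset.mem_product.1 ha).1) (by positivity)⟩
  have hL : 0 ≤ L := (norm_nonneg _).trans hθ
  have e4 : ‖Xs‖ ≤ ∑ i, (nsq W (η1 i) + nsq W (η2 i)) / 2 := by
    refine (norm_sum_le _ _).trans (Finset.sum_le_sum fun i _ => (hM.bilin _ _).trans ?_)
    have n1 : 0 ≤ nsq W (η1 i) := Finset.sum_nonneg fun _ _ => sq_nonneg _
    have n2 : 0 ≤ nsq W (η2 i) := Finset.sum_nonneg fun _ _ => sq_nonneg _
    nlinarith [Real.sq_sqrt n1, Real.sq_sqrt n2,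
      sq_nonneg (Real.sqrt (nsq W (η1 i)) - Real.sqrt (nsq W (η2 i)))]
  have e5 : L * ∑ i, (nsq W (η1 i) + nsq W (η2 i)) ≤ A := by
    rw [hA, Finset.sum_product, Finset.sum_comm, Finset.mul_sum]
    refine Finset.sum_le_sum fun i _ => ?_
    unfold nsq
    rw [← Finset.sum_add_distrib, Finset.mul_sum]
    refine Finset.sum_le_sum fun u hu => ?_
    by_cases h1 : u ∈ B
    · have hp : ¬ p u := fun hp => hp.1 h1
      simp only [η1, η2, if_neg hp, if_pos h1, norm_zero]
      nlinarith [hB (u, i) hu h1, sq_nonneg ‖η (u, i)‖]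
    · by_cases hp : p u
      · obtain ⟨-, u', hu', h2, h3⟩ := id hp
        simp only [η1, η2, if_pos hp, if_neg h1, norm_zero]
        nlinarith [hN (u, i) hu u' hu' h2 h3, sq_nonneg ‖η (u, i)‖]
      · simp only [η1, η2, if_neg hp, if_neg h1, norm_zero]
        nlinarith [hZ (u, i) hu, sq_nonneg ‖η (u, i)‖]
  rw [e1, Complex.sub_im, e3]
  have e6 : ((θ - 1) * Xs).im ≤ L * ‖Xs‖ := by
    refine (Complex.im_le_norm _).trans ?_
    rw [norm_mul]
    exact mul_le_mul_of_nonneg_right hθ (norm_nonneg _)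
  rw [← Finset.sum_div] at e4
  nlinarith [mul_le_mul_of_nonneg_left e4 hL]

omit [DecidableEq V] in
theorem Bot_ws_pos {w : V → ℝ} (s : V → St r) {u : V} (h : 0 < w u) :
    0 < ws w s u ∧ ws w s u ≤ w u := by
  unfold ws
  split_ifs
  · exact ⟨h, le_rfl⟩
  · constructor <;> linarith

theorem Bot_ratio [NeZero r] (z : ℝ) (N : V → V → ℂ) {w : V → ℝ} (s : V → St r) {U : Finset V}
    (hw : ∀ u ∈ U, 0 < w u) {v : V} (hv : v ∈ U) {o : St r} (ho : o ≠ St.del) (t : ℂ)
    (hP : PosIm (Bz (Zt z w (Function.update s v o) t) N) (U ×ˢ Finset.univ)) :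
    (PP z N w (Function.update s v St.del) U).eval t ≠ 0 ∧
      0 < ((PP z N w (Function.update s v o) U).eval t /
        (PP z N w (Function.update s v St.del) U).eval t).im := by
  set s0 := Function.update s v St.del with hs0
  set s1 := Function.update s v o with hs1
  have a0 : s0 v = St.del := by simp [hs0]
  have a1 : s1 v = o := by simp [hs1]
  have a2 : ∀ u, u ≠ v → s1 u = s0 u := fun u hu => by simp [hs0, hs1, hu]
  have hw' : ∀ u ∈ U, w u ≠ 0 := fun u hu => (hw u hu).ne'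
  have hr : (0 : ℝ) < (r : ℝ)⁻¹ := inv_pos.2 (Nat.cast_pos.2 (Nat.pos_of_ne_zero (NeZero.ne r)))
  set π : V × Fin r → ℝ := fun _ => (r : ℝ)⁻¹ with hπ
  have eπ : (fun _ : V × Fin r => (r : ℂ)⁻¹) = fun a => ((π a : ℝ) : ℂ) := by
    funext a; simp [hπ]
  set Bm := Bz (Zt z w s1 t) N with hBm
  set U' := Uu s0 U with hU'
  set T := Tc s0 U with hT
  have hvU : v ∉ U' := fun h => by
    have := (PfB_mem_Uu.1 h).2
    rw [a0] at this; cases this
  have hvT : ∀ i, (v, i) ∉ T := fun i h => by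
    have := (PfB_mem_Tc.1 h).2
    rw [a0] at this; cases this
  have hD : Dis U' T := dis_state s0 U
  have hsup : ∀ i, supp U' (insert (v, i) T) ⊆ U ×ˢ Finset.univ := by
    intro i a ha
    refine Finset.mem_product.2 ⟨?_, Finset.mem_univ _⟩
    rcases PfB_mem_supp.1 ha with h | h
    · rcases Finset.mem_insert.1 h with rfl | h
      · exact hv
      · exact (PfB_mem_Tc.1 h).1
    · exact (PfB_mem_Uu.1 h).1
  have hsup0 : supp U' T ⊆ U ×ˢ Finset.univ := fun a ha =>
    Finset.mem_product.2 ⟨(PfB_supp_live ha).1, Finset.mem_univ _⟩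
  have e0 : Pf (Bz (Zt z w s0 t) N) (fun a => ((π a : ℝ) : ℂ)) U' T =
      Pf Bm (fun a => ((π a : ℝ) : ℂ)) U' T := by
    refine Pf_congr (fun a ha b _ => ?_) fun _ _ _ => rfl
    have hav : a.1 ≠ v := fun h => (PfB_supp_live ha).2 (h ▸ a0)
    simp only [hBm, Bz, Zt, zs, ws, a2 a.1 hav]
  have hl : live s1 U = insert v (live s0 U) := by
    ext u
    simp only [PfB_mem_live, Finset.mem_insert]
    by_cases h : u = v
    · subst h; simp [hv, a1, ho]
    · simp [h, a2 u h]
  have hvl : v ∉ live s0 U := fun h => (PfB_mem_live.1 h).2 a0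
  set c0 : ℂ := ∏ u ∈ live s0 U, (ws w s0 u : ℂ) with hc0
  have hc : c0 ≠ 0 := Finset.prod_ne_zero_iff.2 fun u hu =>
    Complex.ofReal_ne_zero.2 (Bot_ws_pos s0 (hw u (PfB_mem_live.1 hu).1)).1.ne'
  have e1 : ∏ u ∈ live s1 U, (ws w s1 u : ℂ) = (ws w s1 v : ℂ) * c0 := by
    rw [hl, Finset.prod_insert hvl]
    congr 1
    refine Finset.prod_congr rfl fun u hu => ?_
    have : u ≠ v := fun h => hvl (h ▸ hu)
    simp only [ws, a2 u this]
  have hne : Pf Bm (fun a => ((π a : ℝ) : ℂ)) U' T ≠ 0 :=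
    Pf_ne hD (fun _ _ _ => hr) (hP.mono hsup0)
  have hrat : ∀ i, 0 < (Pf Bm (fun a => ((π a : ℝ) : ℂ)) U' (insert (v, i) T) /
      Pf Bm (fun a => ((π a : ℝ) : ℂ)) U' T).im := fun i =>
    Pf_ratio hD (hvT i) hvU (fun _ _ _ => hr) (hP.mono (hsup i))
  have hwv := (Bot_ws_pos s1 (hw v hv)).1
  rw [PP_eval z N s0 hw', PP_eval z N s1 hw', eπ, e0, e1]
  refine ⟨mul_ne_zero hc hne, ?_⟩
  rw [mul_assoc, mul_div_assoc, mul_div_mul_left _ _ hc, Complex.im_ofReal_mul]
  refine mul_pos hwv ?_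
  cases o with
  | del => exact absurd rfl ho
  | unc =>
    have b1 : Uu s1 U = insert v U' := by
      ext u
      simp only [hU', PfB_mem_Uu, Finset.mem_insert]
      by_cases h : u = v
      · subst h; simp [hv, a1]
      · simp [h, a2 u h]
    have b2 : Tc s1 U = T := by
      ext a
      simp only [hT, PfB_mem_Tc]
      by_cases h : a.1 = v
      · rw [h, a0, a1]; simp
      · rw [a2 _ h]
    rw [b1, b2, Pf_insert _ _ hvU, Finset.sum_div, Complex.im_sum]
    refine Finset.sum_pos (fun i _ => ?_) Finset.univ_nonempty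
    rw [mul_div_assoc, Complex.im_ofReal_mul]
    exact mul_pos hr (hrat i)
  | col i =>
    have b1 : Uu s1 U = U' := by
      ext u
      simp only [hU', PfB_mem_Uu]
      by_cases h : u = v
      · rw [h, a0, a1]; simp
      · rw [a2 _ h]
    have b2 : Tc s1 U = insert (v, i) T := by
      ext a
      simp only [hT, PfB_mem_Tc, Finset.mem_insert]
      by_cases h : a.1 = v
      · rw [h, a0, a1]
        simp only [hv, true_and, St.col.injEq, reduceCtorEq, or_false]
        exact ⟨fun h2 => Prod.ext h h2.symm, fun h2 => by rw [h2]⟩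
      · have : a ≠ (v, i) := fun h2 => h (by rw [h2])
        simp [this, a2 _ h]
    rw [b1, b2]
    exact hrat i

theorem Bot_diff_minor {ι : Type*} [DecidableEq ι] {B : ℂ → ι → ι → ℂ}
    (h : ∀ a b, Differentiable ℂ fun θ => B θ a b) (T : Finset ι) :
    Differentiable ℂ fun θ => minor (B θ) T := by
  unfold minor
  simp only [Matrix.det_apply', Matrix.of_apply]
  exact Differentiable.fun_sum fun σ _ =>
    (Differentiable.fun_finsetProd fun i _ => h _ _).const_mul _

theorem Bot_diff (z : ℝ) (B : Finset V) (M : V → V → ℂ) {w : V → ℝ} (s : V → St r) {U : Finset V}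
    (hw : ∀ u ∈ U, w u ≠ 0) (t : ℂ) :
    Differentiable ℂ fun θ => (PP z (Bot_M B θ M) w s U).eval t := by
  simp only [PP_eval z _ s hw, Pf]
  refine (Differentiable.fun_sum fun c _ => (Bot_diff_minor (fun a b => ?_) _).const_mul _).const_mul _
  unfold Bz Bot_M
  split_ifs <;> fun_prop

theorem Bot_zero (z : ℝ) (B : Finset V) (M : V → V → ℂ) (w : V → ℝ) (s : V → St r) (U : Finset V)
    {v : V} (hv : v ∉ B) (o : St r) :
    PP z (Bot_M B 0 M) w (Function.update s v o) U =
      PP z M w (Function.update (delOn B s) v o) U * PP z M w s (U.filter fun u => ¬ u ∉ B) := by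
  rw [PP_block z _ w _ U (fun u => u ∉ B) (fun u _ u' _ h1 h2 => by
    simp only [Bot_M, if_pos (And.intro h1 (not_not.1 h2)), zero_mul])]
  congr 1
  · rw [PP_congr z (M' := M) (w' := w) (s' := Function.update s v o) (fun _ _ => rfl)
      (fun _ _ _ => rfl) (fun u _ _ u' hu' _ _ => by
        unfold Bot_M
        rw [if_neg (fun h => (Finset.mem_filter.1 hu').2 h.2)])]
    have k : ∀ u, u ∉ B → Function.update s v o u = Function.update (delOn B s) v o u := by
      intro u hu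
      by_cases h : u = v
      · subst h; simp
      · simp [h, delOn, hu]
    refine PP_of_live z M w ?_ fun u hu => k u (Finset.mem_filter.1 (PfB_mem_live.1 hu).1).2
    ext u
    simp only [PfB_mem_live, Finset.mem_filter]
    by_cases hu : u ∈ B
    · have h : u ≠ v := fun h => hv (h ▸ hu)
      simp [hu, h, delOn]
    · simp [hu, k u hu]
  · refine PP_congr z (fun u hu => ?_) (fun _ _ _ => rfl) (fun u hu _ u' _ _ _ => ?_)
    · have h : u ≠ v := fun h => (Finset.mem_filter.1 hu).2 (h ▸ hv)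
      simp [h]
    · unfold Bot_M
      rw [if_neg (fun h => (Finset.mem_filter.1 hu).2 h.1)]

theorem Bot_arg [NeZero r] {K z Θ b : ℝ} (hK : 1 ≤ K) (hΘ : 8 ≤ Θ) {M : V → V → ℂ} {w : V → ℝ}
    (s : V → St r) {U B : Finset V} {v : V} {o : St r} (h : Env K M w U) (hv : v ∈ U) (hvB : v ∉ B)
    (hB : ∀ u ∈ B, w u ≤ b * w v) (ho : o ≠ St.del) {t : ℂ} (ht : 0 < t.im)
    (hb : (Θ + 1) * (K * (b * w v)) ≤ t.im) :
    |Complex.arg ((PP z M w (Function.update s v o) U).eval t /
        (PP z M w (Function.update s v St.del) U).eval t) -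
      Complex.arg ((PP z M w (Function.update (delOn B s) v o) U).eval t /
        (PP z M w (Function.update (delOn B s) v St.del) U).eval t)| ≤ 16 / Θ := by
  have hw' : ∀ u ∈ U, w u ≠ 0 := fun u hu => (h.pos u hu).ne'
  have him : ∀ a : V × Fin r, (Zt z w (Function.update s v o) t a).im =
      t.im / ws w (Function.update s v o) a.1 := by
    intro a
    unfold Zt
    rw [Complex.add_im, Complex.ofReal_im, zero_add, Complex.div_ofReal_im]
  have hlow : ∀ a : V × Fin r, a.1 ∈ U → w a.1 ≤ K * (b * w v) →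
      Θ + 1 ≤ (Zt z w (Function.update s v o) t a).im := by
    intro a ha hle
    obtain ⟨h1, h2⟩ := Bot_ws_pos (Function.update s v o) (h.pos _ ha)
    rw [him, le_div_iff₀ h1]
    nlinarith
  have hP : ∀ θ ∈ Metric.ball (0 : ℂ) Θ,
      PosIm (Bz (Zt z w (Function.update s v o) t) (Bot_M B θ M)) (U ×ˢ Finset.univ) := by
    intro θ hθ
    rw [mem_ball_zero_iff] at hθ
    refine Bot_posIm h.toHC B _ θ (L := Θ + 1) ?_ (fun a ha => ?_) (fun a ha haB => ?_)
      (fun a ha u' hu' huB hne => ?_)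
    · refine (norm_sub_le _ _).trans ?_
      rw [norm_one]; linarith
    · rw [him]
      exact div_pos ht (Bot_ws_pos _ (h.pos _ ha)).1
    · refine hlow a ha ?_
      have h1 := hB _ haB
      have h2 := h.pos _ ha
      nlinarith
    · refine hlow a ha ?_
      have h1 : M u' a.1 ≠ 0 := by
        rw [h.herm _ ha _ hu']
        exact (_root_.map_ne_zero _).2 hne
      exact (h.lip u' hu' a.1 ha h1).trans (mul_le_mul_of_nonneg_left (hB u' huB) (by linarith))
  have hR := fun θ hθ => Bot_ratio z (Bot_M B θ M) s h.pos hv ho t (hP θ hθ)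
  have key := schwarz_arg (g := fun θ => (PP z (Bot_M B θ M) w (Function.update s v o) U).eval t /
      (PP z (Bot_M B θ M) w (Function.update s v St.del) U).eval t) hΘ
    ((Bot_diff z B M _ hw' t).differentiableOn.div (Bot_diff z B M _ hw' t).differentiableOn
      fun θ hθ => (hR θ hθ).1) fun θ hθ => (hR θ hθ).2
  have e1 : Bot_M B 1 M = M := by
    funext u u'
    simp [Bot_M]
  have h0 := (hR 0 (Metric.mem_ball_self (by linarith))).1
  simp only [e1, Bot_zero z B M w s U hvB, eval_mul] at key h0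
  rwa [mul_div_mul_right _ _ (right_ne_zero_of_mul h0)] at key

/-- For `o = del` both sides vanish. Otherwise `nev'`, `sum_pos_eq` and `ray` (with
`σ₁ = β' w v`, `σ₂ = Λ w v`, `m = K w v ^ 2`) reduce to comparing `arg g(t)` for the two states at
`t = rayPt ϑ σ`, `g = PP (update _ v o) / PP (update _ v del)`. Multiply `M u u'` by `θ` when
`u ∉ B`, `u' ∈ B`; `g θ` (a quotient of `Pf`, `PP_eval`) is holomorphic in `θ`, `g 1` is the ratio
for `s`, `g 0` the ratio for `delOn B s` (`PP_block`, `PP_of_live`). The scaled matrix is `PosIm` for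
`‖θ‖ < Θ` when `b` is small: `Im Z ≥ t.im / (K b w v)` on `B` and on the neighbours of `B`
(`form_Bz`, `HC.bilin`), so `Pf_ne`, `Pf_ratio` (and `Pf_insert` if `o = unc`) give
`0 < (g θ).im`; conclude by `schwarz_arg`. -/
theorem bot (V : Type*) [DecidableEq V] (r : ℕ) [NeZero r] {K z β : ℝ} (hK : 1 ≤ K) (hz : 0 ≤ z)
    (hβ : 0 < β) : ∃ b : ℝ, 0 < b ∧ ∀ (M : V → V → ℂ) (w : V → ℝ) (s : V → St r) (U B : Finset V)
      (v : V) (o : St r), Env K M w U → v ∈ U → v ∉ B → (∀ u ∈ B, w u ≤ b * w v) →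
      |Dp z M w s U v o - Dp z M w (delOn B s) U v o| ≤ β * w v := by
  have hK0 : 0 < K := by linarith
  set Λ := 64 * K / β + 8 * K + β with hΛ
  have hq : 0 < 64 * K / β := by positivity
  have hΛ0 : 0 < Λ := by positivity
  obtain ⟨ϑ, h0, h1, hray⟩ := ray (ε := β / (16 * Λ)) (by positivity)
  have hsin : 0 < Real.sin ϑ := Real.sin_pos_of_pos_of_lt_pi h0 (by linarith [Real.two_le_pi])
  set Θ := 8 + 32 * Λ / β with hΘ
  have hq2 : 0 < 32 * Λ / β := by positivity
  have hΘ8 : 8 ≤ Θ := by linarith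
  refine ⟨β / 16 * Real.sin ϑ / (K * (Θ + 1)), by positivity, ?_⟩
  intro M w s U B v o h hv hvB hB
  have hwv := h.pos v hv
  by_cases ho : o = St.del
  · subst ho
    rw [Dp_del, Dp_del, sub_zero, abs_zero]
    positivity
  obtain ⟨lq, ν, c, hQ, hν, hc, hm, hrel⟩ := nev' hK0 hz s h hv ho
  obtain ⟨lq', ν', c', hQ', hν', hc', hm', hrel'⟩ := nev' hK0 hz (delOn B s) h hv ho
  have hσ1 : 0 < β / 16 * w v := by positivity
  have hσ2 : β / 16 * w v ≤ Λ * w v := mul_le_mul_of_nonneg_right (by linarith) hwv.le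
  have h8 : 8 * (K * w v ^ 2) ≤ (Λ * w v) ^ 2 := by
    have : 8 * K ≤ Λ ^ 2 := by nlinarith
    rw [mul_pow]
    nlinarith [sq_nonneg (w v)]
  have r1 := hray _ ν c _ _ _ hν hc hm hσ1 hσ2 h8
  have r2 := hray _ ν' c' _ _ _ hν' hc' hm' hσ1 hσ2 h8
  unfold Dp
  rw [sum_pos_eq hQ (Finset.Subset.refl _) hν hrel, sum_pos_eq hQ' (Finset.Subset.refl _) hν' hrel']
  have hsub : Set.uIcc (β / 16 * w v) (Λ * w v) ⊆ Set.Ioi 0 := by
    rw [Set.uIcc_of_le hσ2]
    exact fun x hx => lt_of_lt_of_le hσ1 hx.1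
  have i1 := ((continuousOn_arg_ray lq.toFinset hν c h0 h1).mono hsub).intervalIntegrable
    (μ := MeasureTheory.volume)
  have i2 := ((continuousOn_arg_ray lq'.toFinset hν' c' h0 h1).mono hsub).intervalIntegrable
    (μ := MeasureTheory.volume)
  have r3 : ‖∫ σ in (β / 16 * w v)..(Λ * w v), (Complex.arg (gC lq.toFinset ν c (rayPt ϑ σ)) -
      Complex.arg (gC lq'.toFinset ν' c' (rayPt ϑ σ)))‖ ≤ 16 / Θ * |Λ * w v - β / 16 * w v| := by
    refine intervalIntegral.norm_integral_le_of_norm_le_const fun σ hσ => ?_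
    rw [Set.uIoc_of_le hσ2] at hσ
    have hσ0 : 0 < σ := hσ1.trans hσ.1
    have ht := Ray_im_pos h0 h1 hσ0
    have n1 := PP_eval_ne z (Function.update s v St.del) h ht.ne'
    have n2 := PP_eval_ne z (Function.update (delOn B s) v St.del) h ht.ne'
    have := Bot_arg (z := z) hK hΘ8 s h hv hvB hB ho ht (by
      rw [Ray_im]
      have : (Θ + 1) * (K * (β / 16 * Real.sin ϑ / (K * (Θ + 1)) * w v)) =
          β / 16 * w v * Real.sin ϑ := by field_simp
      rw [this]
      exact mul_le_mul_of_nonneg_right hσ.1.le hsin.le)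
    rwa [hrel _ n1, hrel' _ n2, mul_div_cancel_right₀ _ n1, mul_div_cancel_right₀ _ n2] at this
  rw [intervalIntegral.integral_sub i1 i2, Real.norm_eq_abs, abs_of_nonneg (sub_nonneg.2 hσ2)] at r3
  set I1 := ∫ σ in (β / 16 * w v)..(Λ * w v), Complex.arg (gC lq.toFinset ν c (rayPt ϑ σ))
  set I2 := ∫ σ in (β / 16 * w v)..(Λ * w v), Complex.arg (gC lq'.toFinset ν' c' (rayPt ϑ σ))
  have c1 : β / (16 * Λ) * (Λ * w v) = β / 16 * w v := by field_simp
  have c2 : 4 * (K * w v ^ 2) / (Λ * w v) ≤ β / 16 * w v := by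
    rw [div_le_iff₀ (by positivity)]
    have : 64 * K ≤ β * Λ := by
      have : β * (64 * K / β) = 64 * K := by field_simp
      rw [hΛ, mul_add, mul_add, this]
      nlinarith
    nlinarith [sq_nonneg (w v)]
  have c3 : 16 / Θ * (Λ * w v - β / 16 * w v) ≤ β / 2 * w v := by
    have : 16 / Θ * Λ ≤ β / 2 := by
      rw [div_mul_eq_mul_div, div_le_iff₀ (by linarith)]
      have : β * (32 * Λ / β) = 32 * Λ := by field_simp
      rw [hΘ]
      nlinarith
    have h16 : 0 < 16 / Θ := by positivity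
    nlinarith
  have c4 : |Real.pi⁻¹ * I1 - Real.pi⁻¹ * I2| ≤ |I1 - I2| := by
    rw [← mul_sub, abs_mul, abs_of_pos (inv_pos.2 Real.pi_pos)]
    exact mul_le_of_le_one_left (abs_nonneg _) (inv_le_one_of_one_le₀ (by linarith [Real.two_le_pi]))
  rw [c1] at r1 r2
  have d1 := abs_le.1 r1
  have d2 := abs_le.1 r2
  have d3 := abs_le.1 (c4.trans (r3.trans c3))
  rw [abs_le]
  constructor <;> nlinarith

end Crest.Agent.R109
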