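import Crest.Agent.R109.VN0

/-! Task 109-CE: partitions, weak limits, Mazur's lemma, the conditional expectation. -/

set_option autoImplicit false

open scoped InnerProductSpace ComplexOrder
open Filter Topology

namespace Crest.Agent.R109

variable {H : Type*} [NormedAddCommGroup H] [InnerProductSpace ℂ H] [CompleteSpace H]
variable {M A : VonNeumannAlgebra H} {ι κ : Type*}

/-- `A = A' ∩ M` is a von Neumann algebra (`R124.vnOf` of `A ∪ M'`). -/
theorem exists_masa (M : VonNeumannAlgebra H) (A : StarSubalgebra ℂ (H →L[ℂ] H))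
    (hAM : A ≤ M.toStarSubalgebra) (hA : ∀ a ∈ A, ∀ b ∈ A, a * b = b * a)
    (hAmax : ∀ y ∈ M, (∀ a ∈ A, a * y = y * a) → y ∈ A) :
    ∃ A' : VonNeumannAlgebra H, (∀ a, a ∈ A' ↔ a ∈ A) ∧ Masa M A' := by
  have key : ∀ a, a ∈ R124.vnOf ((A : Set (H →L[ℂ] H)) ∪ (M.commutant : Set (H →L[ℂ] H))) ↔
      a ∈ A := by
    intro a
    rw [R124.mem_vnOf]
    constructor
    · intro h
      exact hAmax a (R124.mem_of_comm M fun b hb => (h b (Or.inr hb)).1)
        fun b hb => (h b (Or.inl hb)).1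
    · rintro ha b (hb | hb)
      · exact ⟨hA b hb a ha, hA _ (star_mem hb) a ha⟩
      · exact ⟨R124.comm_of_mem (hAM ha) hb, R124.comm_of_mem (hAM ha) (star_mem hb)⟩
  refine ⟨_, key, fun a ha => hAM ((key a).1 ha),
    fun a ha b hb => hA a ((key a).1 ha) b ((key b).1 hb),
    fun y hy hc => (key y).2 (hAmax y hy fun a ha => hc a ((key a).2 ha))⟩

/-- An element of `M` commuting with the projections of `A` is in `A` (`R124.exists_step`). -/
theorem Masa.mem_of_proj (h : Masa M A) {y : Op H} (hy : y ∈ M)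
    (hc : ∀ p ∈ A, IsStarProjection p → p * y = y * p) : y ∈ A := by
  have hsa : ∀ a ∈ A, IsSelfAdjoint a → a * y = y * a := by
    intro a ha hs
    rw [← sub_eq_zero, ← norm_le_zero_iff]
    refine le_of_forall_pos_le_add fun ε hε => ?_
    have hδ : 0 < ε / (2 * ‖y‖ + 1) := by positivity
    obtain ⟨n, c, t, c₀, hb⟩ := R124.exists_step hs hδ
    set b : Op H := c₀ • (1 : Op H) + ∑ i, c i • R124.sp a (t i) with hbdef
    have hby : b * y = y * b := by
      simp only [hbdef, add_mul, mul_add, Finset.sum_mul, Finset.mul_sum, smul_mul_assoc,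
        mul_smul_comm, one_mul, mul_one]
      congr 1
      exact Finset.sum_congr rfl fun i _ => by
        rw [hc _ (R124.sp_mem hs ha _) (R124.sp_proj _ _)]
    have h1 : a * y - y * a = (a - b) * y - y * (a - b) := by
      rw [sub_mul, mul_sub, hby]; abel
    rw [h1, zero_add]
    have h2 := norm_sub_le ((a - b) * y) (y * (a - b))
    have h3 := norm_mul_le (a - b) y
    have h4 := norm_mul_le y (a - b)
    have h5 : ‖a - b‖ * (2 * ‖y‖ + 1) ≤ ε := by rwa [le_div_iff₀ (by positivity)] at hb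
    nlinarith [norm_nonneg (a - b), norm_nonneg y]
  refine h.max y hy fun a ha => ?_
  have h1 := hsa (a + star a) (add_mem ha (star_mem ha)) (IsSelfAdjoint.add_star_self a)
  have h2 := hsa (Complex.I • (a - star a)) (R124.csmul_mem _ (sub_mem ha (star_mem ha))) (by
    rw [IsSelfAdjoint, star_smul, star_sub, star_star, Complex.star_def, Complex.conj_I, neg_smul,
      ← smul_neg, neg_sub])
  rw [smul_mul_assoc, mul_smul_comm] at h2
  have h3 := smul_right_injective _ Complex.I_ne_zero h2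
  have h4 : (2 : ℂ) • (a * y) = (2 : ℂ) • (y * a) := by
    rw [two_smul, two_smul]
    have : a * y + a * y = (a + star a) * y + (a - star a) * y := by noncomm_ring
    rw [this, h1, h3]; noncomm_ring
  exact smul_right_injective _ two_ne_zero h4

theorem Masa.corner (h : Masa M A) {e : Op H} (he : IsStarProjection e) (heA : e ∈ A) :
    Masa (R124.corner M e) (R124.corner A e) := by
  have heM := h.le e heA
  refine ⟨fun a ha => (R124.mem_corner he heM).2 (h.le _ ((R124.mem_corner he heA).1 ha)),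
    fun a ha b hb => R124.lift_injective ?_, fun y hy hc => ?_⟩
  · rw [R124.lift_mul, R124.lift_mul]
    exact h.comm _ ((R124.mem_corner he heA).1 ha) _ ((R124.mem_corner he heA).1 hb)
  · refine (R124.mem_corner he heA).2 (h.max _ ((R124.mem_corner he heM).1 hy) fun a ha => ?_)
    have h1 := congrArg (R124.lift e) (hc _ (R124.cmp_mem_corner he heA ha))
    rw [R124.lift_mul, R124.lift_mul, R124.lift_cmp he] at h1
    have h2 := h.comm e heA a ha
    have h3 : e * a * e = a * e := by rw [h2, mul_assoc, he.isIdempotentElem.eq]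
    calc a * R124.lift e y = e * a * e * R124.lift e y := by
          rw [h3, mul_assoc, R124.mul_lift he]
      _ = R124.lift e y * (e * a * e) := h1
      _ = R124.lift e y * a := by rw [h3, ← h2, ← mul_assoc, R124.lift_mul_self he]

theorem Ref.refl (p : ι → Op H) (hp : ∀ i, IsStarProjection (p i)) : Ref p p := by
  exact fun k => ⟨k, (hp k).isIdempotentElem.eq⟩

theorem Ref.trans {μ : Type*} {p : ι → Op H} {q : κ → Op H} {s : μ → Op H} (h : Ref p q)
    (h' : Ref q s) : Ref p s := by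
  intro k
  obtain ⟨j, hj⟩ := h' k
  obtain ⟨i, hi⟩ := h j
  exact ⟨i, by rw [← hj, mul_assoc, hi]⟩

theorem CE_proj_sum {p : ι → Op H} (hp : ∀ i, IsStarProjection (p i))
    (hp' : ∀ i j, i ≠ j → p i * p j = 0) (S : Finset ι) : IsStarProjection (∑ i ∈ S, p i) := by
  refine ⟨?_, ?_⟩
  · show (∑ i ∈ S, p i) * (∑ i ∈ S, p i) = ∑ i ∈ S, p i
    rw [Finset.sum_mul_sum]
    refine Finset.sum_congr rfl fun i hi => ?_
    rw [Finset.sum_eq_single_of_mem i hi fun j _ hj => hp' i j hj.symm]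
    exact (hp i).isIdempotentElem.eq
  · show star (∑ i ∈ S, p i) = ∑ i ∈ S, p i
    simp only [star_sum, (hp _).isSelfAdjoint.star_eq]

theorem CE_norm_sq (T : Op H) (ξ : H) : ‖T ξ‖ ^ 2 = (⟪ξ, (star T * T) ξ⟫_ℂ).re := by
  rw [ContinuousLinearMap.mul_apply, ContinuousLinearMap.star_eq_adjoint,
    ContinuousLinearMap.adjoint_inner_right, ← inner_self_eq_norm_sq (𝕜 := ℂ)]
  rfl

theorem CE_norm_sq_sum (v : ι → Op H) (h : ∀ i j, i ≠ j → star (v i) * v j = 0) (S : Finset ι)
    (ξ : H) : ‖(∑ i ∈ S, v i) ξ‖ ^ 2 = ∑ i ∈ S, ‖v i ξ‖ ^ 2 := by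
  rw [CE_norm_sq, R124.star_sum_mul_sum v h S, ContinuousLinearMap.sum_apply, inner_sum,
    Complex.re_sum]
  exact Finset.sum_congr rfl fun i _ => (CE_norm_sq _ _).symm

theorem CE_nonneg_iff {T : Op H} : 0 ≤ T ↔ ∀ ξ, 0 ≤ ⟪ξ, T ξ⟫_ℂ := by
  rw [ContinuousLinearMap.nonneg_iff_isPositive, ContinuousLinearMap.isPositive_iff_complex]
  refine forall_congr' fun ξ => ?_
  rw [← inner_conj_symm ξ, Complex.le_def]
  simp only [Complex.zero_re, Complex.conj_re, Complex.zero_im, Complex.conj_im, RCLike.re_to_complex]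
  constructor
  · rintro ⟨h1, h2⟩
    refine ⟨h2, ?_⟩
    have := congrArg Complex.im h1
    simp only [Complex.coe_algebraMap, Complex.ofReal_im] at this
    rw [← this, neg_zero]
  · rintro ⟨h1, h2⟩
    refine ⟨Complex.ext rfl ?_, h1⟩
    simp only [Complex.coe_algebraMap, Complex.ofReal_im]
    linarith

variable [Fintype ι] [Fintype κ]

theorem CE_norm_sum {p q y : ι → Op H} (hp : ∀ i, IsStarProjection (p i))
    (hp' : ∀ i j, i ≠ j → p i * p j = 0) (hq : ∀ i, IsStarProjection (q i))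
    (hq' : ∀ i j, i ≠ j → q i * q j = 0) {c : ℝ} (hc : 0 ≤ c)
    (hy : ∀ i, ‖p i * y i * q i‖ ≤ c) : ‖∑ i, p i * y i * q i‖ ≤ c := by
  refine ContinuousLinearMap.opNorm_le_bound _ hc fun ξ => ?_
  refine R124.le_of_sq_le_sq_nn (by positivity) ?_
  rw [CE_norm_sq_sum (fun i => p i * y i * q i) (fun i j hij => by
    simp only [star_mul, (hp _).isSelfAdjoint.star_eq, mul_assoc]
    rw [← mul_assoc (p i), hp' i j hij]; simp)]
  have h1 : ∑ i, ‖q i ξ‖ ^ 2 ≤ ‖ξ‖ ^ 2 := by
    rw [← CE_norm_sq_sum q (fun i j hij => by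
      rw [(hq i).isSelfAdjoint.star_eq, hq' i j hij])]
    gcongr
    simpa using (∑ i, q i).le_of_opNorm_le (CE_proj_sum hq hq' Finset.univ).norm_le ξ
  calc ∑ i, ‖(p i * y i * q i) ξ‖ ^ 2 ≤ ∑ i, c ^ 2 * ‖q i ξ‖ ^ 2 := by
        refine Finset.sum_le_sum fun i _ => ?_
        have h2 : (p i * y i * q i) ξ = (p i * y i * q i) (q i ξ) := by
          rw [← ContinuousLinearMap.mul_apply _ (q i), mul_assoc _ (q i),
            (hq i).isIdempotentElem.eq]
        rw [h2, ← mul_pow]
        gcongr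
        exact ContinuousLinearMap.le_of_opNorm_le _ (hy i) _
    _ ≤ (c * ‖ξ‖) ^ 2 := by
        rw [← Finset.mul_sum, mul_pow]
        gcongr

theorem part_one (A : VonNeumannAlgebra H) : Part A (fun _ : Fin 1 => (1 : Op H)) := by
  exact ⟨⟨fun _ => .one _, fun i j hij => absurd (Subsingleton.elim i j) hij, by simp⟩,
    fun _ => one_mem A⟩

theorem part_two {p : Op H} (hp : IsStarProjection p) (hA : p ∈ A) : Part A ![p, 1 - p] := by
  refine ⟨⟨fun i => ?_, fun i j hij => ?_, by simp⟩, fun i => ?_⟩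
  · fin_cases i
    · exact hp
    · exact hp.one_sub
  · fin_cases i <;> fin_cases j
    · exact absurd rfl hij
    · exact hp.mul_one_sub_self
    · exact hp.one_sub_mul_self
    · exact absurd rfl hij
  · fin_cases i
    · exact hA
    · exact sub_mem (one_mem A) hA

theorem Part.equiv {p : ι → Op H} (hp : Part A p) (e : κ ≃ ι) : Part A (p ∘ e) := by
  exact ⟨⟨fun k => hp.proj _, fun k k' h => hp.orth _ _ (e.injective.ne h),
    (e.sum_comp p).trans hp.sum⟩, fun k => hp.mem _⟩

theorem EP_equiv (p : ι → Op H) (e : κ ≃ ι) (x : Op H) : EP (p ∘ e) x = EP p x := by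
  exact e.sum_comp fun i => p i * x * p i

theorem Part.prod (h : Masa M A) {p : ι → Op H} {q : κ → Op H} (hp : Part A p) (hq : Part A q) :
    Part A (fun ik : ι × κ => p ik.1 * q ik.2) ∧ Ref p (fun ik : ι × κ => p ik.1 * q ik.2) ∧
      Ref q (fun ik : ι × κ => p ik.1 * q ik.2) := by
  have hc : ∀ i k, p i * q k = q k * p i := fun i k => h.comm _ (hp.mem i) _ (hq.mem k)
  refine ⟨⟨⟨fun ik => (hp.proj _).mul (hq.proj _) (hc _ _), fun ik jl hne => ?_, ?_⟩,
    fun ik => mul_mem (hp.mem _) (hq.mem _)⟩, fun ik => ⟨ik.1, ?_⟩, fun ik => ⟨ik.2, ?_⟩⟩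
  · have h1 : p ik.1 * q ik.2 * (p jl.1 * q jl.2) = p ik.1 * p jl.1 * (q ik.2 * q jl.2) := by
      rw [mul_assoc, ← mul_assoc (q ik.2), ← hc, mul_assoc, mul_assoc]
    rw [h1]
    by_cases h2 : ik.1 = jl.1
    · rw [hq.orth ik.2 jl.2 fun h3 => hne (Prod.ext h2 h3), mul_zero]
    · rw [hp.orth _ _ h2, zero_mul]
  · rw [Fintype.sum_prod_type]
    simp only [← Finset.mul_sum, hq.sum, mul_one, hp.sum]
  · show p ik.1 * q ik.2 * p ik.1 = p ik.1 * q ik.2
    rw [mul_assoc, ← hc, ← mul_assoc, (hp.proj _).isIdempotentElem.eq]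
  · show p ik.1 * q ik.2 * q ik.2 = p ik.1 * q ik.2
    rw [mul_assoc, (hq.proj _).isIdempotentElem.eq]

/-- Common refinement, indexed by `Fin n`. -/
theorem Part.exists_ref (h : Masa M A) {p : ι → Op H} {q : κ → Op H} (hp : Part A p)
    (hq : Part A q) : ∃ (n : ℕ) (s : Fin n → Op H), Part A s ∧ Ref p s ∧ Ref q s := by
  obtain ⟨h1, h2, h3⟩ := Part.prod h hp hq
  exact ⟨_, _, h1.equiv (Fintype.equivFin (ι × κ)).symm, fun k => h2 _, fun k => h3 _⟩

/-- Grouping the atoms of a partition along a map. -/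
theorem Part.fiber [DecidableEq κ] {p : ι → Op H} (hp : Part A p) (c : ι → κ) :
    Part A fun k => ∑ i ∈ Finset.univ.filter (fun i => c i = k), p i := by
  refine ⟨⟨fun k => CE_proj_sum hp.proj hp.orth _, fun k l hkl => ?_, ?_⟩,
    fun k => sum_mem fun i _ => hp.mem i⟩
  · rw [Finset.sum_mul_sum]
    refine Finset.sum_eq_zero fun i hi => Finset.sum_eq_zero fun j hj => hp.orth i j ?_
    rintro rfl
    exact hkl ((Finset.mem_filter.1 hi).2.symm.trans (Finset.mem_filter.1 hj).2)
  · rw [Finset.sum_fiberwise_of_maps_to fun _ _ => Finset.mem_univ _, hp.sum]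

/-- An atom of the coarse partition is the sum of the fine atoms below it. -/
theorem Ref.exists_map {p : ι → Op H} {q : κ → Op H} (hp : Part0 p) (hq : Part0 q) (h : Ref p q)
    [DecidableEq ι] : ∃ c : κ → ι, (∀ k, q k * p (c k) = q k) ∧
      ∀ i, p i = ∑ k ∈ Finset.univ.filter (fun k => c k = i), q k := by
  choose c hc using h
  refine ⟨c, hc, fun i => ?_⟩
  rw [Finset.sum_filter, ← one_mul (p i), ← hq.sum, Finset.sum_mul]
  refine Finset.sum_congr rfl fun k _ => ?_
  split_ifs with hk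
  · rw [← hk, hc]
  · rw [← hc k, mul_assoc, hp.orth _ _ hk, mul_zero]

theorem EP_mem (h : Masa M A) {p : ι → Op H} (hp : Part A p) {x : Op H} (hx : x ∈ M) :
    EP p x ∈ M := by
  exact sum_mem fun i _ => mul_mem (mul_mem (h.le _ (hp.mem i)) hx) (h.le _ (hp.mem i))

theorem norm_EP_le {p : ι → Op H} (hp : Part0 p) (x : Op H) : ‖EP p x‖ ≤ ‖x‖ := by
  refine CE_norm_sum (y := fun _ => x) hp.proj hp.orth hp.proj hp.orth (norm_nonneg x) fun i => ?_
  have h1 := (hp.proj i).norm_le
  calc ‖p i * x * p i‖ ≤ ‖p i‖ * ‖x‖ * ‖p i‖ := norm_mul₃_le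
    _ ≤ 1 * ‖x‖ * 1 := by gcongr
    _ = ‖x‖ := by ring

theorem star_EP {p : ι → Op H} (hp : Part0 p) (x : Op H) : star (EP p x) = EP p (star x) := by
  simp only [EP, star_sum, star_mul, (hp.proj _).isSelfAdjoint.star_eq, mul_assoc]

theorem EP_nonneg {p : ι → Op H} (hp : Part0 p) {x : Op H} (hx : 0 ≤ x) : 0 ≤ EP p x := by
  refine Finset.sum_nonneg fun i _ => ?_
  have := star_left_conjugate_nonneg hx (p i)
  rwa [(hp.proj i).isSelfAdjoint.star_eq] at this

theorem EP_of_mem (h : Masa M A) {p : ι → Op H} (hp : Part A p) {a : Op H} (ha : a ∈ A) :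
    EP p a = a := by
  have : ∀ i, p i * a * p i = a * p i := fun i => by
    rw [h.comm _ (hp.mem i) _ ha, mul_assoc, (hp.proj i).isIdempotentElem.eq]
  simp only [EP, this, ← Finset.mul_sum, hp.sum, mul_one]

theorem EP_EP {p : ι → Op H} {q : κ → Op H} (hp : Part0 p) (hq : Part0 q) (h : Ref p q)
    (x : Op H) : EP q (EP p x) = EP q x := by
  refine Finset.sum_congr rfl fun k _ => ?_
  obtain ⟨i, hi⟩ := h k
  have hi' : p i * q k = q k := by
    simpa [(hp.proj i).isSelfAdjoint.star_eq, (hq.proj k).isSelfAdjoint.star_eq] using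
      congrArg star hi
  rw [EP, Finset.mul_sum, Finset.sum_mul, Finset.sum_eq_single i]
  · rw [← mul_assoc, ← mul_assoc, hi, mul_assoc, hi']
  · intro j _ hj
    rw [← mul_assoc, ← mul_assoc, ← hi, mul_assoc (q k), hp.orth _ _ hj.symm]
    simp
  · simp

theorem EP_comm {p : ι → Op H} {q : κ → Op H} (hp : Part0 p) (hq : Part0 q) (h : Ref p q)
    (x : Op H) (i : ι) : p i * EP q x = EP q x * p i := by
  rw [EP, Finset.mul_sum, Finset.sum_mul]
  refine Finset.sum_congr rfl fun k _ => ?_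
  obtain ⟨j, hj⟩ := h k
  have hj' : p j * q k = q k := by
    simpa [(hp.proj j).isSelfAdjoint.star_eq, (hq.proj k).isSelfAdjoint.star_eq] using
      congrArg star hj
  by_cases hij : i = j
  · subst hij
    rw [← mul_assoc, ← mul_assoc, hj', mul_assoc (q k * x), hj]
  · have h1 : p i * q k = 0 := by rw [← hj', ← mul_assoc, hp.orth _ _ hij, zero_mul]
    have h2 : q k * p i = 0 := by rw [← hj, mul_assoc, hp.orth _ _ (Ne.symm hij), mul_zero]
    rw [← mul_assoc, ← mul_assoc, h1, mul_assoc (q k * x), h2]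
    simp

/-- Norm of a sum `∑ p i * y i * q i` for two orthogonal families of projections. -/
theorem norm_sum_orth_le {p q y : ι → Op H} (hp : ∀ i, IsStarProjection (p i))
    (hp' : ∀ i j, i ≠ j → p i * p j = 0) (hq : ∀ i, IsStarProjection (q i))
    (hq' : ∀ i j, i ≠ j → q i * q j = 0) {c : ℝ} (hc : 0 ≤ c)
    (hy : ∀ i, ‖p i * y i * q i‖ ≤ c) : ‖∑ i, p i * y i * q i‖ ≤ c := by
  exact CE_norm_sum hp hp' hq hq' hc hy

section WLim
variable {α : Type*} {l : Filter α} {x : α → Op H} {y : Op H}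

theorem CE_mul_left (h : WLim l x y) (a : Op H) : WLim l (fun i => a * x i) (a * y) := by
  intro ξ η
  simpa only [ContinuousLinearMap.mul_apply, ContinuousLinearMap.adjoint_inner_left] using
    h (ContinuousLinearMap.adjoint a ξ) η

theorem CE_mul_right (h : WLim l x y) (a : Op H) : WLim l (fun i => x i * a) (y * a) :=
  fun ξ η => h ξ (a η)

theorem CE_congr {x' : α → Op H} (h : WLim l x y) (hx : x =ᶠ[l] x') : WLim l x' y :=
  fun ξ η => (h ξ η).congr' (by filter_upwards [hx] with i hi using by rw [hi])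

/-- Weak compactness of balls (`R124.exists_wlim`). -/
theorem exists_wLim (U : Ultrafilter α) (x : α → Op H) {C : ℝ} (hx : ∀ i, ‖x i‖ ≤ C) :
    ∃ y, WLim (U : Filter α) x y := by
  have hC : (0 : ℝ) < |C| + 1 := by positivity
  obtain ⟨T, hT⟩ := R124.SimA.exists_wlim U (fun i => (((|C| + 1)⁻¹ : ℝ) : ℂ) • x i) fun i => by
    rw [norm_smul, Complex.norm_real, Real.norm_eq_abs, abs_of_pos (inv_pos.2 hC),
      inv_mul_le_iff₀ hC]
    have := hx i
    have := le_abs_self C
    linarith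
  refine ⟨((|C| + 1 : ℝ) : ℂ) • T, fun ξ η => ?_⟩
  have h1 := ((Complex.continuous_conj.tendsto _).comp (hT ξ η)).const_mul ((|C| + 1 : ℝ) : ℂ)
  have hC' : ((|C| + 1 : ℝ) : ℂ) ≠ 0 := Complex.ofReal_ne_zero.2 hC.ne'
  simp only [Function.comp_def, inner_conj_symm, ContinuousLinearMap.smul_apply, inner_smul_right,
    Complex.ofReal_inv, mul_inv_cancel_left₀ hC'] at h1
  simpa only [ContinuousLinearMap.smul_apply, inner_smul_right] using h1

theorem WLim.unique [l.NeBot] {y' : Op H} (h : WLim l x y) (h' : WLim l x y') : y = y' := by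
  ext η
  exact ext_inner_left ℂ fun ξ => tendsto_nhds_unique (h ξ η) (h' ξ η)

theorem WLim.mem [l.NeBot] (h : WLim l x y) (hx : ∀ᶠ i in l, x i ∈ M) : y ∈ M := by
  refine R124.mem_of_comm M fun b hb => ?_
  refine WLim.unique (CE_mul_left h b) (CE_congr (CE_mul_right h b) ?_)
  filter_upwards [hx] with i hi using (R124.comm_of_mem hi hb).symm

theorem WLim.norm_le [l.NeBot] (h : WLim l x y) {C : ℝ} (hx : ∀ᶠ i in l, ‖x i‖ ≤ C) : ‖y‖ ≤ C := by
  have hC : 0 ≤ C := by
    obtain ⟨i, hi⟩ := hx.exists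
    exact (norm_nonneg _).trans hi
  refine ContinuousLinearMap.opNorm_le_bound _ hC fun η => ?_
  have h1 : ‖⟪y η, y η⟫_ℂ‖ ≤ ‖y η‖ * (C * ‖η‖) := by
    refine le_of_tendsto (h (y η) η).norm ?_
    filter_upwards [hx] with i hi
    refine (norm_inner_le_norm _ _).trans ?_
    gcongr
    exact (x i).le_of_opNorm_le hi η
  rw [inner_self_eq_norm_sq_to_K, norm_pow, RCLike.norm_ofReal, abs_norm, sq] at h1
  rcases (norm_nonneg (y η)).eq_or_lt with h0 | h0
  · rw [← h0]; positivity
  · exact le_of_mul_le_mul_left h1 h0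

theorem WLim.nonneg [l.NeBot] (h : WLim l x y) (hx : ∀ᶠ i in l, 0 ≤ x i) : 0 ≤ y := by
  rw [CE_nonneg_iff]
  intro ξ
  refine ge_of_tendsto (h ξ ξ) ?_
  filter_upwards [hx] with i hi using CE_nonneg_iff.1 hi ξ

theorem WLim.mul_left (h : WLim l x y) (a : Op H) : WLim l (fun i => a * x i) (a * y) := by
  exact CE_mul_left h a

theorem WLim.mul_right (h : WLim l x y) (a : Op H) : WLim l (fun i => x i * a) (y * a) := by
  exact CE_mul_right h a

theorem WLim.star (h : WLim l x y) : WLim l (fun i => star (x i)) (star y) := by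
  intro ξ η
  have := (Complex.continuous_conj.tendsto _).comp (h η ξ)
  simpa only [Function.comp_def, inner_conj_symm, ContinuousLinearMap.star_eq_adjoint,
    ContinuousLinearMap.adjoint_inner_right] using this

theorem WLim.add {x' : α → Op H} {y' : Op H} (h : WLim l x y) (h' : WLim l x' y') :
    WLim l (fun i => x i + x' i) (y + y') := by
  intro ξ η
  simpa only [ContinuousLinearMap.add_apply, inner_add_right] using (h ξ η).add (h' ξ η)

theorem WLim.smul (h : WLim l x y) (c : ℂ) : WLim l (fun i => c • x i) (c • y) := by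
  intro ξ η
  simpa only [ContinuousLinearMap.smul_apply, inner_smul_right] using (h ξ η).const_mul c

theorem WLim.congr' {x' : α → Op H} (h : WLim l x y) (hx : x =ᶠ[l] x') : WLim l x' y := by
  exact CE_congr h hx

theorem wLim_const (l : Filter α) (y : Op H) : WLim l (fun _ => y) y := by
  exact fun _ _ => tendsto_const_nhds

theorem Normal.tendsto {ψ : Op H →ₗ[ℂ] ℂ} (hψ : Normal M ψ) {C : ℝ}
    (hx : ∀ᶠ i in l, x i ∈ M ∧ ‖x i‖ ≤ C) (hy : y ∈ M) (h : WLim l x y) :
    Tendsto (fun i => ψ (x i)) l (𝓝 (ψ y)) := by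
  exact hψ (l.map x) C y hx hy h

/-- Mazur: in the Hilbert space `PiLp 2 (fun _ : F => H)` a weak limit lies in the closed convex
hull (`geometric_hahn_banach_point_closed`, or the projection onto a closed convex set). -/
theorem mazur [l.NeBot] (h : WLim l x y) {s : Set α} (hs : s ∈ l) (F : Finset H) {ε : ℝ}
    (hε : 0 < ε) : ∃ (n : ℕ) (c : Fin n → ℝ) (i : Fin n → α), (∀ k, 0 ≤ c k ∧ i k ∈ s) ∧
      ∑ k, c k = 1 ∧ ∀ ξ ∈ F, ‖(∑ k, c k • x (i k)) ξ - y ξ‖ ≤ ε := by
  classical
  let Φ : Op H →ₗ[ℝ] PiLp 2 (fun _ : F => H) :=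
    { toFun := fun T => WithLp.toLp 2 fun ξ => T ξ
      map_add' := fun _ _ => rfl
      map_smul' := fun _ _ => rfl }
  have hmem : Φ y ∈ closure (convexHull ℝ ((fun i => Φ (x i)) '' s)) := by
    by_contra hn
    obtain ⟨f, u, h1, h2⟩ := RCLike.geometric_hahn_banach_point_closed (𝕜 := ℂ)
      (convex_convexHull ℝ ((fun i => Φ (x i)) '' s)).closure isClosed_closure hn
    obtain ⟨v, rfl⟩ := (InnerProductSpace.toDual ℂ _).surjective f
    have h3 : Tendsto (fun i => RCLike.re ⟪v, Φ (x i)⟫_ℂ) l (𝓝 (RCLike.re ⟪v, Φ y⟫_ℂ)) := by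
      refine (RCLike.continuous_re.tendsto _).comp ?_
      simp only [PiLp.inner_apply]
      exact tendsto_finset_sum _ fun ξ _ => h (v ξ) ξ
    have h4 : u ≤ RCLike.re ⟪v, Φ y⟫_ℂ := by
      refine ge_of_tendsto h3 ?_
      filter_upwards [hs] with i hi
      exact (h2 _ (subset_closure (subset_convexHull ℝ _ ⟨i, hi, rfl⟩))).le
    exact absurd h1 (not_lt.2 h4)
  obtain ⟨z, hz, hzε⟩ := Metric.mem_closure_iff.1 hmem ε hε
  obtain ⟨J, _, w, z', hw, hw1, hz', rfl⟩ := mem_convexHull_iff_exists_fintype.1 hz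
  choose i hi hiz using hz'
  let e := (Fintype.equivFin J).symm
  refine ⟨_, w ∘ e, i ∘ e, fun k => ⟨hw _, hi _⟩, (e.sum_comp w).trans hw1, fun ξ hξ => ?_⟩
  have h5 : ∑ k, (w ∘ e) k • x ((i ∘ e) k) = ∑ j, w j • x (i j) :=
    e.sum_comp fun j => w j • x (i j)
  have h6 : ∑ j, w j • z' j = Φ (∑ j, w j • x (i j)) := by
    simp only [map_sum, map_smul, ← hiz]
  rw [h6, dist_comm, dist_eq_norm] at hzε
  rw [h5]
  exact (PiLp.norm_apply_le (Φ (∑ j, w j • x (i j)) - Φ y) ⟨ξ, hξ⟩).trans hzε.le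

end WLim

/-- Take an ultrafilter on the directed set `PT A` containing all the tails, and the weak limits
of `EP` (on all of `B(H)`, so that `E` is a linear map). -/
theorem exists_ce (h : Masa M A) : ∃ (E : Op H →ₗ[ℂ] Op H) (U : Ultrafilter (PT A)),
    IsCE M A E ∧ (∀ Q : PT A, ∀ᶠ P in (U : Filter (PT A)), Ref Q.2.1 P.2.1) ∧
      ∀ x, WLim (U : Filter (PT A)) (fun P => EP P.2.1 x) (E x) := by
  haveI : Nonempty (PT A) := ⟨⟨1, _, part_one A⟩⟩
  let l : Filter (PT A) := ⨅ Q : PT A, 𝓟 {P : PT A | Ref Q.2.1 P.2.1}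
  haveI : l.NeBot := by
    refine iInf_neBot_of_directed (fun Q Q' => ?_) fun Q => ?_
    · obtain ⟨n, s, hs, h1, h2⟩ := Part.exists_ref h Q.2.2 Q'.2.2
      exact ⟨⟨n, s, hs⟩, principal_mono.2 fun P hP => h1.trans hP,
        principal_mono.2 fun P hP => h2.trans hP⟩
    · exact principal_neBot_iff.2 ⟨Q, Ref.refl _ Q.2.2.proj⟩
  let U := Ultrafilter.of l
  have hU : ∀ Q : PT A, ∀ᶠ P in (U : Filter (PT A)), Ref Q.2.1 P.2.1 := fun Q =>
    Ultrafilter.of_le l (mem_iInf_of_mem Q (mem_principal_self _))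
  choose E hE using fun x : Op H =>
    exists_wLim U (fun P : PT A => EP P.2.1 x) fun P => norm_EP_le P.2.2.toPart0 x
  let E' : Op H →ₗ[ℂ] Op H :=
    { toFun := E
      map_add' := fun x y => (hE (x + y)).unique (((hE x).add (hE y)).congr'
        (Eventually.of_forall fun P => by
          simp only [EP, mul_add, add_mul, Finset.sum_add_distrib]))
      map_smul' := fun c x => (hE (c • x)).unique (((hE x).smul c).congr'
        (Eventually.of_forall fun P => by
          simp only [EP, Finset.smul_sum, mul_smul_comm, smul_mul_assoc])) }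
  refine ⟨E', U, ⟨fun x hx => ?_, fun a ha x _ => ?_, fun a ha x _ => ?_, ?_, fun x _ hx => ?_,
    fun x _ => ?_, fun x _ => ?_⟩, hU, hE⟩
  · refine h.mem_of_proj ((hE x).mem (Eventually.of_forall fun P => EP_mem h P.2.2 hx))
      fun p hpA hp => ((hE x).mul_left p).unique (((hE x).mul_right p).congr' ?_)
    filter_upwards [hU ⟨2, _, part_two hp hpA⟩] with P hP
    exact (EP_comm (part_two hp hpA).toPart0 P.2.2.toPart0 hP x 0).symm
  · refine (hE (a * x)).unique (((hE x).mul_left a).congr' (Eventually.of_forall fun P => ?_))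
    simp only [EP, Finset.mul_sum]
    refine Finset.sum_congr rfl fun i _ => ?_
    rw [← mul_assoc, ← mul_assoc, h.comm a ha _ (P.2.2.mem i), mul_assoc _ a]
  · refine (hE (x * a)).unique (((hE x).mul_right a).congr' (Eventually.of_forall fun P => ?_))
    simp only [EP, Finset.sum_mul]
    refine Finset.sum_congr rfl fun i _ => ?_
    simp only [mul_assoc, h.comm a ha _ (P.2.2.mem i)]
  · exact (hE 1).unique ((wLim_const _ 1).congr'
      (Eventually.of_forall fun P => (EP_of_mem h P.2.2 (one_mem A)).symm))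
  · exact (hE x).nonneg (Eventually.of_forall fun P => EP_nonneg P.2.2.toPart0 hx)
  · exact (hE (star x)).unique ((hE x).star.congr'
      (Eventually.of_forall fun P => star_EP P.2.2.toPart0 x))
  · exact (hE x).norm_le (Eventually.of_forall fun P => norm_EP_le P.2.2.toPart0 x)

end Crest.Agent.R109
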