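import Crest.Agent.R109.Gr

/-! Task 109-CORE: the random colouring procedure. -/

set_option autoImplicit false

open Polynomial MeasureTheory

namespace Crest.Agent.R109

open R124 (av)

variable {G X : Type*} [Fintype G] [DecidableEq G] [DecidableEq X] [MeasurableSpace X] {r : ℕ}

namespace CoreAux

theorem exists_min {α : Type*} [Fintype α] [Nonempty α] : ∃ m : (α → ℝ) → α,
    (∀ (v : α → ℝ) a, v (m v) ≤ v a) ∧ ∀ a, MeasurableSet (m ⁻¹' {a}) := by
  classical
  let ψ : (α → α → Prop) → α := fun Q =>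
    if h : ∃ a, ∀ b, Q a b then h.choose else Classical.arbitrary α
  let Φ : (α → ℝ) → α → α → Prop := fun v a b => v a ≤ v b
  have hΦ : Measurable Φ := measurable_pi_lambda _ fun a => measurable_pi_lambda _ fun b =>
    measurableSet_setOfPred.1 (measurableSet_le (measurable_pi_apply a) (measurable_pi_apply b))
  refine ⟨fun v => ψ (Φ v), fun v a => ?_, fun a => ?_⟩
  · have h : ∃ a, ∀ b, Φ v a b := Finite.exists_min v
    simp only [ψ, dif_pos h]
    exact h.choose_spec a
  · exact hΦ (MeasurableSet.of_discrete (s := ψ ⁻¹' {a}))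

omit [Fintype G] [DecidableEq G] [DecidableEq X] in
theorem av_int {Ω : Type*} [Fintype Ω] (μ : Measure X) {F : Ω → X → ℝ}
    (h : ∀ ω, Integrable (F ω) μ) :
    Integrable (fun x => av (fun ω => F ω x)) μ ∧
      ∫ x, av (fun ω => F ω x) ∂μ = av fun ω => ∫ x, F ω x ∂μ := by
  simp only [av, smul_eq_mul]
  refine ⟨(integrable_finsetSum _ fun ω _ => h ω).const_mul _, ?_⟩
  rw [integral_const_mul, integral_finsetSum _ fun ω _ => h ω]

theorem fib_meas (𝓜 : Model G X) {α : Type*} [Countable α] [MeasurableSpace α] {c : X → α}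
    (hc : Fib 𝓜.𝓑 c) : Measurable c :=
  measurable_to_countable' fun a => 𝓜.meas_𝓑 _ (hc a)

omit [Fintype G] [DecidableEq G] [DecidableEq X] [MeasurableSpace X] in
theorem fib_const {α : Type*} {𝓑 : Set (Set X)} (h : IsSetAlgebra 𝓑) (a : α) :
    Fib 𝓑 fun _ : X => a := by
  intro b
  by_cases e : a = b
  · convert h.univ_mem
    ext x; simp [e]
  · convert h.empty_mem
    ext x; simp [e]

/-- cost of an option -/
noncomputable def cost (z : ℝ) (j : St r → ℝ) : Option (Lab r ↪ Fin r) → ℝ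
  | none => j St.del + z
  | some f => av fun l => j (St.col (f l))

/-- the new state -/
def nw : Option (Lab r ↪ Fin r) → Lab r → St r
  | none, _ => St.del
  | some f, l => St.col (f l)

theorem lab_ne [NeZero r] : Nonempty (Lab r) :=
  ⟨⟨0, by have := NeZero.pos r; omega⟩⟩

theorem av_nw [NeZero r] (z : ℝ) (j : St r → ℝ) (o : Option (Lab r ↪ Fin r)) :
    av (fun l => j (nw o l) + z * if nw o l = St.del then 1 else 0) = cost z j o := by
  have := lab_ne (r := r)
  cases o with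
  | none => simp [nw, cost, R124.av_const]
  | some f => simp [nw, cost]

theorem nw_ne (o : Option (Lab r ↪ Fin r)) (l : Lab r) : nw o l ≠ St.unc := by
  cases o <;> simp [nw]

theorem nw_own {o : Option (Lab r ↪ Fin r)} {l l' : Lab r} {i : Fin r}
    (h : (nw o l).toOpt = some i) (h' : (nw o l').toOpt = some i) : l = l' := by
  cases o with
  | none => simp [nw, St.toOpt] at h
  | some f =>
    simp only [nw, St.toOpt, Option.some.injEq] at h h'
    exact f.injective (h.trans h'.symm)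

end CoreAux

open CoreAux

/-- One round. `S x ω` is the current state, `C` a separated class of uncoloured points.
Let `Opt = Option (Lab r ↪ Fin r)` (or `(Lab r ↪ Fin r) ⊕ Unit`), `cost σ x none = J σ x del + z`,
`cost σ x (some f) = av l, J σ x (col (f l))`. Let `O x ω` minimise `cost (S · ω) x` by a fixed
choice function applied to the vector `J (S · ω) x` (so `O x ω = O x ω'` when the patterns
`w ↦ S (act w x) ω`, `w ∈ words G R`, agree, by `loc`; fibres are measurable since the sets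
`{x | cost a ≤ cost b}` are, e.g. take the first minimiser for an enumeration). Approximate
`x ↦ O x` by `O'` with fibres in `𝓑`, still factoring through the pattern (`Model.approx` with
`c x` the pattern function). New state at `x ∈ C`: `del` if `x` is in
`Bad = {x | ∃ y ∈ ball ((n + 1) R) x, y ≠ x ∧ lab y = lab x}` or `O' x ω = none`, and
`col (f (ω (lab x)))` if `O' x ω = some f`. For `x ∉ Bad` the pattern does not depend on
`ω (lab x)` (points of `P` only; `x ∉ P`), so averaging over this coordinate first (`av_update`)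
gives `av ω, (J (S · ω) x (new) + z 1[new = del]) = av ω, cost ≤ β + av err`. -/
theorem Model.round [NeZero r] (𝓜 : Model G X) {ρ : ℕ} {z c β : ℝ} {R : ℕ} {CJ : ℝ}
    {𝓟 : (X → St r) → ℝ} {J : (X → St r) → X → St r → ℝ} {err : (X → St r) → X → ℝ}
    (hP : Poti 𝓜 r ρ z c β R CJ 𝓟 J err) (hz : 0 ≤ z) {ι : Type*} [Fintype ι] [DecidableEq ι]
    {lab : X → ι} (hlab : Fib 𝓜.𝓑 lab) {n : ℕ} {P C : Set X} (hP' : P ∈ 𝓜.𝓑) (hC : C ∈ 𝓜.𝓑)
    (hPC : Disjoint P C) (hsep : Sepd 𝓜.φ R C) {S : X → (ι → Lab r) → St r} (hS : Fib 𝓜.𝓑 S)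
    (hunc : ∀ x ω, S x ω = St.unc ↔ x ∉ P)
    (hdep : ∀ x ω ω', (∀ y ∈ ball 𝓜.φ (n * R) x, y ∈ P → ω (lab y) = ω' (lab y)) → S x ω = S x ω')
    (hown : ∀ x, Own (lab x) fun ω => (S x ω).toOpt) {ε : ℝ} (hε : 0 < ε) :
    ∃ S' : X → (ι → Lab r) → St r, Fib 𝓜.𝓑 S' ∧ (∀ x ω, S' x ω = St.unc ↔ x ∉ P ∪ C) ∧
      (∀ x ω ω', (∀ y ∈ ball 𝓜.φ ((n + 1) * R) x, y ∈ P ∪ C → ω (lab y) = ω' (lab y)) →
        S' x ω = S' x ω') ∧
      (∀ x, Own (lab x) fun ω => (S' x ω).toOpt) ∧
      av (fun ω => 𝓟 (fun x => S' x ω) + z * 𝓜.μ.real {x | S' x ω = St.del}) ≤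
        av (fun ω => 𝓟 (fun x => S x ω) + z * 𝓜.μ.real {x | S x ω = St.del}) +
          β * 𝓜.μ.real C + av (fun ω => ∫ x in C, err (fun y => S y ω) x ∂𝓜.μ) + ε +
          2 * (CJ + z) * 𝓜.μ.real
            (C ∩ {x | ∃ y ∈ ball 𝓜.φ ((n + 1) * R) x, y ≠ x ∧ lab y = lab x}) := by
  classical
  have := 𝓜.fin
  have := lab_ne (r := r)
  set Bad := {x | ∃ y ∈ ball 𝓜.φ ((n + 1) * R) x, y ≠ x ∧ lab y = lab x} with hBad
  have hBm : Bad ∈ 𝓜.𝓑 := 𝓜.bad_mem hlab _
  have hCm := 𝓜.meas_𝓑 _ hC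
  have hSm : ∀ ω, Measurable fun x => S x ω := fun ω =>
    fib_meas 𝓜 (Fib.comp 𝓜.alg hS fun s => s ω)
  obtain ⟨m, hm1, hm2⟩ := exists_min (α := Option (Lab r ↪ Fin r))
  let O : X → (ι → Lab r) → Option (Lab r ↪ Fin r) := fun x ω =>
    m (cost z (J (fun y => S y ω) x))
  let pat : X → words G R → (ι → Lab r) → St r := fun x w => S (act 𝓜.φ w x)
  have hpat : Fib 𝓜.𝓑 pat := Fib.pi 𝓜.alg fun w => 𝓜.fib_act hS w
  have hJ : ∀ x ω ω', (∀ w, pat x w ω = pat x w ω') →
      J (fun y => S y ω) x = J (fun y => S y ω') x := by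
    intro x ω ω' h
    refine hP.loc _ _ x fun y hy => ?_
    obtain ⟨w, hw, rfl⟩ := mem_ball.1 hy
    exact h ⟨w, mem_words.2 hw⟩
  have hOm : ∀ b, MeasurableSet (O ⁻¹' {b}) := by
    intro b
    have e : O ⁻¹' {b} = ⋂ ω, (fun x => cost z (J (fun y => S y ω) x)) ⁻¹' (m ⁻¹' {b ω}) := by
      ext x
      simp [O, funext_iff]
    rw [e]
    refine MeasurableSet.iInter fun ω => (measurable_pi_lambda _ fun o => ?_) (hm2 _)
    have h1 := hP.meas_J _ (hSm ω)
    cases o with
    | none => exact (h1 _).add_const _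
    | some f =>
      simp only [cost, av, smul_eq_mul]
      exact (Finset.measurable_sum _ fun l _ => h1 _).const_mul _
  have hK : 0 < 2 * (|CJ| + z) + 1 := by positivity
  obtain ⟨O', hO1, hO2, hO3⟩ := 𝓜.approx hpat
    (fun a => {o : (ι → Lab r) → Option (Lab r ↪ Fin r) |
      ∀ ω ω', (∀ w, a w ω = a w ω') → o ω = o ω'}) hOm
    (fun x ω ω' h => by simp only [O, hJ x ω ω' h]) (div_pos hε hK)
  have hpd : ∀ x ω ω', (∀ y ∈ ball 𝓜.φ ((n + 1) * R) x, y ∈ P → ω (lab y) = ω' (lab y)) →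
      ∀ w, pat x w ω = pat x w ω' := by
    intro x ω ω' h w
    refine hdep _ _ _ fun y hy hyP => h y ?_ hyP
    have := ball_trans (mem_ball.2 ⟨w.1, mem_words.1 w.2, rfl⟩) hy
    rwa [show R + n * R = (n + 1) * R by ring] at this
  have hpu : ∀ x ∈ C, x ∉ Bad → ∀ ω l w,
      pat x w (Function.update ω (lab x) l) = pat x w ω := by
    intro x hx hb ω l
    refine hpd x _ _ fun y hy hyP => Function.update_of_ne (fun e => hb ⟨y, hy, ?_, e⟩) _ _
    rintro rfl
    exact Set.disjoint_left.1 hPC hyP hx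
  let S' : X → (ι → Lab r) → St r := fun x =>
    if x ∈ C then (if x ∈ Bad then fun _ => St.del else fun ω => nw (O' x ω) (ω (lab x))) else S x
  have hS' : Fib 𝓜.𝓑 S' :=
    Fib.piecewise 𝓜.alg (Fib.piecewise 𝓜.alg (fib_const 𝓜.alg _)
      (Fib.comp 𝓜.alg (Fib.prod 𝓜.alg hO1 hlab) fun p ω => nw (p.1 ω) (ω p.2)) hBm) hS hC
  have e1 : ∀ x ∉ C, S' x = S x := fun x hx => if_neg hx
  have e2 : ∀ x ∈ C, x ∈ Bad → ∀ ω, S' x ω = St.del := fun x hx hb ω => by
    simp only [S', if_pos hx, if_pos hb]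
  have e3 : ∀ x ∈ C, x ∉ Bad → ∀ ω, S' x ω = nw (O' x ω) (ω (lab x)) := fun x hx hb ω => by
    simp only [S', if_pos hx, if_neg hb]
  refine ⟨S', hS', fun x ω => ?_, fun x ω ω' h => ?_, fun x ω l l' i h h' => ?_, ?_⟩
  · by_cases hx : x ∈ C
    · by_cases hb : x ∈ Bad
      · simp [e2 x hx hb, hx]
      · simp [e3 x hx hb, hx, nw_ne]
    · simp [e1 x hx, hx, hunc]
  · by_cases hx : x ∈ C
    · by_cases hb : x ∈ Bad
      · rw [e2 x hx hb, e2 x hx hb]
      · rw [e3 x hx hb, e3 x hx hb, h x (self_mem_ball _ _ _) (Or.inr hx),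
          hO2 x ω ω' (hpd x _ _ fun y hy hyP => h y hy (Or.inl hyP))]
    · rw [e1 x hx]
      exact hdep x _ _ fun y hy hyP =>
        h y (ball_mono _ (Nat.mul_le_mul_right _ n.le_succ) _ hy) (Or.inl hyP)
  · by_cases hx : x ∈ C
    · by_cases hb : x ∈ Bad
      · simp [e2 x hx hb, St.toOpt] at h
      · simp only [e3 x hx hb, Function.update_self, hO2 x _ ω (hpu x hx hb ω _)] at h h'
        exact nw_own h h'
    · simp only [e1 x hx] at h h'
      exact hown x ω l l' i h h'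
  have hSm' : ∀ ω, Measurable fun x => S' x ω := fun ω =>
    fib_meas 𝓜 (Fib.comp 𝓜.alg hS' fun s => s ω)
  have hdm : ∀ ω, MeasurableSet {x | S' x ω = St.del} := fun ω =>
    hSm' ω (MeasurableSet.of_discrete (s := {St.del}))
  have hJi : ∀ ω, Integrable (fun x => J (fun y => S y ω) x (S' x ω)) (𝓜.μ.restrict C) := fun ω =>
    Integrable.of_bound (((measurable_from_prod_countable_left
      (f := fun p : X × St r => J (fun y => S y ω) p.1 p.2) (hP.meas_J _ (hSm ω))).comp
        (measurable_id.prodMk (hSm' ω))).aestronglyMeasurable) CJ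
      (ae_of_all _ fun x => hP.J_le _ _ _)
  have hind : ∀ {A : Set X}, MeasurableSet A →
      Integrable (A.indicator (1 : X → ℝ)) (𝓜.μ.restrict C) ∧
      ∫ x in C, A.indicator (1 : X → ℝ) x ∂𝓜.μ = 𝓜.μ.real (C ∩ A) := fun {A} hA =>
    ⟨(integrable_const (1 : ℝ)).indicator hA, by
      rw [integral_indicator_one hA, measureReal_restrict_apply hA, Set.inter_comm]⟩
  let gain : (ι → Lab r) → X → ℝ := fun ω x =>
    J (fun y => S y ω) x (S' x ω) + z * {x | S' x ω = St.del}.indicator 1 x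
  have hgi : ∀ ω, Integrable (gain ω) (𝓜.μ.restrict C) := fun ω =>
    (hJi ω).add ((hind (hdm ω)).1.const_mul z)
  have hei : ∀ ω, Integrable (err fun y => S y ω) (𝓜.μ.restrict C) := fun ω =>
    Integrable.of_bound (hP.meas_err _ (hSm ω)).aestronglyMeasurable CJ (ae_of_all _ fun x => by
      rw [Real.norm_eq_abs, abs_of_nonneg (hP.err_nonneg _ _)]; exact hP.err_le _ _)
  have k1 : ∀ ω, 𝓟 (fun x => S' x ω) + z * 𝓜.μ.real {x | S' x ω = St.del} ≤
      (𝓟 (fun x => S x ω) + z * 𝓜.μ.real {x | S x ω = St.del}) + ∫ x in C, gain ω x ∂𝓜.μ := by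
    intro ω
    have a := hP.change _ _ C (hSm ω) (hSm' ω) hCm hsep fun x hx => by rw [e1 x hx]
    have b : 𝓜.μ.real {x | S' x ω = St.del} ≤
        𝓜.μ.real {x | S x ω = St.del} + 𝓜.μ.real (C ∩ {x | S' x ω = St.del}) := by
      refine (measureReal_mono fun x hx => ?_).trans (measureReal_union_le _ _)
      by_cases h : x ∈ C
      · exact Or.inr ⟨h, hx⟩
      · exact Or.inl (by rw [Set.mem_ofPred_eq, ← e1 x h]; exact hx)
    rw [integral_add (hJi ω) ((hind (hdm ω)).1.const_mul z), integral_const_mul, (hind (hdm ω)).2]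
    nlinarith
  set E := {x | O' x ≠ O x} with hE
  have hEm : MeasurableSet E := by
    have : E = (⋃ b, O' ⁻¹' {b} ∩ O ⁻¹' {b})ᶜ := by
      ext x
      simp [hE, eq_comm]
    rw [this]
    exact (MeasurableSet.iUnion fun b => (𝓜.meas_𝓑 _ (hO1 b)).inter (hOm b)).compl
  have k2 : ∀ x ∈ C, av (fun ω => gain ω x) ≤ β + av (fun ω => err (fun y => S y ω) x) +
      2 * (|CJ| + z) * E.indicator 1 x + 2 * (CJ + z) * Bad.indicator 1 x := by
    intro x hx
    have hxP : x ∉ P := fun h => Set.disjoint_left.1 hPC h hx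
    have c1 : ∀ ω, cost z (J (fun y => S y ω) x) (O x ω) ≤ β + err (fun y => S y ω) x := by
      intro ω
      rcases hP.step _ x (hSm ω) ((hunc x ω).2 hxP) with h | ⟨f, h⟩
      · exact (hm1 _ none).trans h
      · exact (hm1 _ (some f)).trans h
    have c2 : ∀ ω o, -CJ ≤ cost z (J (fun y => S y ω) x) o := by
      intro ω o
      cases o with
      | none => exact le_add_of_le_of_nonneg (abs_le.1 (hP.J_le _ x St.del)).1 hz
      | some f =>
        rw [← R124.av_const (ι := Lab r) (-CJ)]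
        exact R124.av_mono fun l => (abs_le.1 (hP.J_le _ _ _)).1
    have c3 : av (fun ω => cost z (J (fun y => S y ω) x) (O x ω)) ≤
        β + av (fun ω => err (fun y => S y ω) x) := by
      refine (R124.av_mono c1).trans (le_of_eq ?_)
      rw [R124.av_add, R124.av_const]
    have c4 : -CJ ≤ β + av (fun ω => err (fun y => S y ω) x) := by
      refine le_trans ?_ c3
      rw [← R124.av_const (ι := ι → Lab r) (-CJ)]
      exact R124.av_mono fun ω => c2 ω _
    have c5 : 0 ≤ CJ := (abs_nonneg _).trans (hP.J_le (fun _ => St.del) x St.del)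
    have c6 : av (fun ω => gain ω x) ≤ CJ + z := by
      refine R124.av_le (by linarith) fun ω => add_le_add (abs_le.1 (hP.J_le _ _ _)).2 ?_
      exact mul_le_of_le_one_right hz (Set.indicator_le_self' (fun _ _ => zero_le_one) x)
    have i1 : 0 ≤ E.indicator (1 : X → ℝ) x := Set.indicator_nonneg (fun _ _ => zero_le_one) x
    have i2 : 0 ≤ Bad.indicator (1 : X → ℝ) x := Set.indicator_nonneg (fun _ _ => zero_le_one) x
    rw [abs_of_nonneg c5]
    by_cases hb : x ∈ Bad
    · rw [Set.indicator_of_mem hb, Pi.one_apply]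
      nlinarith
    by_cases he : x ∈ E
    · rw [Set.indicator_of_mem he, Pi.one_apply]
      nlinarith
    rw [Set.indicator_of_notMem hb, Set.indicator_of_notMem he, mul_zero, add_zero, add_zero,
      R124.av_update (lab x)]
    refine le_trans (le_of_eq ?_) c3
    have he' : O' x = O x := not_not.1 he
    congr 1
    funext ω
    rw [← av_nw]
    congr 1
    funext l
    simp only [gain, Set.indicator_apply, Set.mem_ofPred_eq, e3 x hx hb, Function.update_self,
      hO2 x _ ω (hpu x hx hb ω l), hJ x _ ω (hpu x hx hb ω l), Pi.one_apply]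
    rw [he']
  have j1 : Integrable (fun x => β + av (fun ω => err (fun y => S y ω) x)) (𝓜.μ.restrict C) :=
    (integrable_const β).add (av_int _ hei).1
  have j2 : Integrable (fun x => β + av (fun ω => err (fun y => S y ω) x) +
      2 * (|CJ| + z) * E.indicator 1 x) (𝓜.μ.restrict C) := j1.add ((hind hEm).1.const_mul _)
  have j3 : Integrable (fun x => β + av (fun ω => err (fun y => S y ω) x) +
      2 * (|CJ| + z) * E.indicator 1 x + 2 * (CJ + z) * Bad.indicator 1 x) (𝓜.μ.restrict C) :=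
    j2.add ((hind (𝓜.meas_𝓑 _ hBm)).1.const_mul _)
  have k3 := setIntegral_mono_on (av_int _ hgi).1 j3 hCm k2
  rw [integral_add j2 ((hind (𝓜.meas_𝓑 _ hBm)).1.const_mul _),
    integral_add j1 ((hind hEm).1.const_mul _),
    integral_add (integrable_const β) (av_int _ hei).1, integral_const_mul, integral_const_mul,
    (hind hEm).2, (hind (𝓜.meas_𝓑 _ hBm)).2, (av_int _ hgi).2, (av_int _ hei).2,
    setIntegral_const, smul_eq_mul] at k3
  have k4 := (R124.av_mono k1).trans_eq (R124.av_add _ _)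
  have k5 : 2 * (|CJ| + z) * 𝓜.μ.real (C ∩ E) ≤ ε := by
    have a : 𝓜.μ.real (C ∩ E) ≤ ε / (2 * (|CJ| + z) + 1) :=
      (measureReal_mono Set.inter_subset_right).trans hO3
    rw [le_div_iff₀ hK] at a
    nlinarith [measureReal_nonneg (μ := 𝓜.μ) (s := C ∩ E)]
  linarith

/-- Take `β` small, the data of `Poti`, and from `sep` (radius `R`) the classes
`C i = {lab₁ = i} \ Bad₁`, `i < N`, covering all but `δ'`. Put `D = #words (N R)`, take `lab₀` from
`sep` with radius `N R` and a tiny `ε`. Given `lab`, process the classes one by one (`round`); while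
the remaining classes have total mass `> δ'`, `err_int` gives a remaining class `C` with
`av ∫_C err ≤ (β / δ') μ C` (induction on the finite set of remaining classes). At the end delete
the uncoloured points (`del_unc`), use `init` and `final`:
`c * av μ(¬ Good) + z * av μ(del) ≤ O(β + β μ(X) / δ' + ε)`. -/
theorem Model.core [NeZero r] (𝓜 : Model G X) (ρ : ℕ) {z c : ℝ} (hz : 0 < z) (hc : 0 < c)
    (hP : ∀ β : ℝ, 0 < β → ∃ (R : ℕ) (CJ : ℝ) (𝓟 : (X → St r) → ℝ)
      (J : (X → St r) → X → St r → ℝ) (err : (X → St r) → X → ℝ),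
      Poti 𝓜 r ρ z c β R CJ 𝓟 J err) {δ : ℝ} (hδ : 0 < δ) :
    ∃ (D n : ℕ) (lab₀ : X → Fin n), Fib 𝓜.𝓑 lab₀ ∧
      ∀ (ι : Type*) [Fintype ι] [DecidableEq ι] (lab : X → ι), Fib 𝓜.𝓑 lab →
        (∀ x y, lab x = lab y → lab₀ x = lab₀ y) →
        ∃ col : X → (ι → Lab r) → Option (Fin r), Fib 𝓜.𝓑 col ∧ (∀ x, Junta D (col x)) ∧
          (∀ x, Own (lab x) (col x)) ∧ av (fun ω => 𝓜.μ.real {x | col x ω = none}) ≤ δ ∧
          av (fun ω => 𝓜.μ.real {x | ¬ Good 𝓜.toKern ρ (26 * z) (fun y => col y ω) x}) ≤ δ := by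
  classical
  have := 𝓜.fin
  have := lab_ne (r := r)
  set m := 𝓜.μ.real Set.univ with hm
  have hm0 : 0 ≤ m := measureReal_nonneg
  set η := min z c * δ / 6 with hη
  have hη0 : 0 < η := by have := lt_min hz hc; positivity
  set δ' := δ / 4 with hδ'
  have hδ0 : 0 < δ' := by positivity
  set β := η / (3 + (1 + 1 / δ') * m) with hβ
  have hβ0 : 0 < β := by positivity
  obtain ⟨R, CJ, 𝓟, J, err, hP⟩ := hP β hβ0
  obtain ⟨N, lab₁, hl1, hb1⟩ := 𝓜.sep R δ' hδ0
  have hK : 0 < 2 * (|CJ| + z) := by positivity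
  obtain ⟨n, lab₀, hl0, hb0⟩ := 𝓜.sep (N * R) (η / (2 * (|CJ| + z))) (div_pos hη0 hK)
  refine ⟨(words G (N * R)).card, n, lab₀, hl0, fun ι _ _ lab hlab hr => ?_⟩
  set Bad₁ := {x | ∃ y ∈ ball 𝓜.φ R x, y ≠ x ∧ lab₁ y = lab₁ x} with hBad₁
  set Bad₀ := {x | ∃ y ∈ ball 𝓜.φ (N * R) x, y ≠ x ∧ lab₀ y = lab₀ x} with hBad₀
  have hB0m : MeasurableSet Bad₀ := 𝓜.meas_𝓑 _ (𝓜.bad_mem hl0 _)
  let C : Fin N → Set X := fun i => lab₁ ⁻¹' {i} \ Bad₁
  have hC : ∀ i, C i ∈ 𝓜.𝓑 := fun i => 𝓜.alg.sdiff_mem (hl1 i) (𝓜.bad_mem hl1 R)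
  have hCm : ∀ i, MeasurableSet (C i) := fun i => 𝓜.meas_𝓑 _ (hC i)
  have hCd : ∀ i j, i ≠ j → Disjoint (C i) (C j) := fun i j h =>
    Set.disjoint_left.2 fun x hx hx' => h (hx.1.symm.trans hx'.1)
  have hCs : ∀ i, Sepd 𝓜.φ R (C i) := fun i x hx y hy hy' => by
    by_contra h
    exact hx.2 ⟨y, hy, h, hy'.1.trans hx.1.symm⟩
  let P : Finset (Fin N) → Set X := fun A => ⋃ i ∈ A, C i
  have hPm : ∀ A, P A ∈ 𝓜.𝓑 := fun A => 𝓜.alg.biUnion_mem A fun i _ => hC i
  have hPd : ∀ A i, i ∉ A → Disjoint (P A) (C i) := fun A i hi =>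
    Set.disjoint_iUnion₂_left.2 fun j hj => hCd j i (ne_of_mem_of_not_mem hj hi)
  let Inv : Finset (Fin N) → (X → (ι → Lab r) → St r) → Prop := fun A S =>
    Fib 𝓜.𝓑 S ∧ (∀ x ω, S x ω = St.unc ↔ x ∉ P A) ∧
      (∀ x ω ω', (∀ y ∈ ball 𝓜.φ (A.card * R) x, y ∈ P A → ω (lab y) = ω' (lab y)) →
        S x ω = S x ω') ∧ (∀ x, Own (lab x) fun ω => (S x ω).toOpt) ∧
      av (fun ω => 𝓟 (fun x => S x ω) + z * 𝓜.μ.real {x | S x ω = St.del}) ≤
        β + (β + β / δ') * 𝓜.μ.real (P A) + A.card * (η / (N + 1)) +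
          2 * (|CJ| + z) * 𝓜.μ.real (P A ∩ Bad₀)
  have h0 : Inv ∅ fun _ _ => St.unc := by
    refine ⟨fib_const 𝓜.alg _, by simp [P], fun _ _ _ _ => rfl, fun x ω l l' i h => ?_, ?_⟩
    · simp [St.toOpt] at h
    · simpa [P, R124.av_const] using hP.init
  obtain ⟨A, ⟨S, hS, hunc, hdep, hown, hval⟩, hmax⟩ := Set.exists_max_image
    {A : Finset (Fin N) | ∃ S, Inv A S} Finset.card (Set.toFinite _) ⟨∅, _, h0⟩
  have hSm : ∀ ω, Measurable fun x => S x ω := fun ω =>
    fib_meas 𝓜 (Fib.comp 𝓜.alg hS fun s => s ω)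
  have hAN : A.card ≤ N := by simpa using A.card_le_univ
  have hrest : 𝓜.μ.real (P Aᶜ) ≤ δ' := by
    by_contra hlt
    rw [not_le] at hlt
    have hne : (Aᶜ).Nonempty := by
      rw [Finset.nonempty_iff_ne_empty]
      intro e
      rw [e] at hlt
      simp only [P, Finset.notMem_empty, Set.iUnion_of_empty, Set.iUnion_empty,
        measureReal_empty] at hlt
      linarith
    have hei : ∀ ω, Integrable (err fun y => S y ω) 𝓜.μ := fun ω =>
      Integrable.of_bound (hP.meas_err _ (hSm ω)).aestronglyMeasurable CJ (ae_of_all _ fun x => by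
        rw [Real.norm_eq_abs, abs_of_nonneg (hP.err_nonneg _ _)]; exact hP.err_le _ _)
    have h1 : ∑ i ∈ Aᶜ, av (fun ω => ∫ x in C i, err (fun y => S y ω) x ∂𝓜.μ) ≤
        ∑ i ∈ Aᶜ, β / δ' * 𝓜.μ.real (C i) := by
      rw [← R124.av_sum, ← Finset.mul_sum,
        ← measureReal_biUnion_finset (fun i _ j _ h => hCd i j h) fun i _ => hCm i]
      refine (R124.av_le hβ0.le fun ω => ?_).trans ?_
      · rw [← integral_biUnion_finset _ (fun i _ => hCm i) (fun i _ j _ h => hCd i j h)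
          fun i _ => (hei ω).integrableOn]
        refine le_trans (setIntegral_mono_set (hei ω).integrableOn
          (ae_of_all _ fun x => hP.err_nonneg _ x) (LE.le.eventuallyLE fun x hx => ?_))
          (hP.err_int _ (hSm ω))
        obtain ⟨i, hi, hx⟩ := Set.mem_iUnion₂.1 hx
        exact (hunc x ω).2 fun h => Set.disjoint_left.1 (hPd A i (Finset.mem_compl.1 hi)) h hx
      · rw [div_mul_eq_mul_div, le_div_iff₀ hδ0]
        exact mul_le_mul_of_nonneg_left hlt.le hβ0.le
    obtain ⟨i, hi, hie⟩ := Finset.exists_le_of_sum_le hne h1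
    rw [Finset.mem_compl] at hi
    obtain ⟨S', a1, a2, a3, a4, a5⟩ := 𝓜.round hP hz.le hlab (hPm A) (hC i) (hPd A i hi) (hCs i) hS
      hunc hdep hown (ε := η / (N + 1)) (by positivity)
    have e : P (insert i A) = P A ∪ C i := by
      simp only [P, Finset.set_biUnion_insert, Set.union_comm]
    have hc1 : (insert i A).card = A.card + 1 := Finset.card_insert_of_notMem hi
    have hc2 : A.card + 1 ≤ N := by simpa [hc1] using (insert i A).card_le_univ
    have hI : Inv (insert i A) S' := by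
      refine ⟨a1, by rwa [e], by rwa [e, hc1], a4, ?_⟩
      rw [e, hc1, Set.union_inter_distrib_right,
        measureReal_union (hPd A i hi) (hCm i) (measure_ne_top _ _) (measure_ne_top _ _),
        measureReal_union ((hPd A i hi).mono Set.inter_subset_left Set.inter_subset_left)
          ((hCm i).inter hB0m) (measure_ne_top _ _) (measure_ne_top _ _)]
      have b1 : 𝓜.μ.real (C i ∩ {x | ∃ y ∈ ball 𝓜.φ ((A.card + 1) * R) x, y ≠ x ∧ lab y = lab x}) ≤
          𝓜.μ.real (C i ∩ Bad₀) := by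
        refine measureReal_mono (Set.inter_subset_inter_right _ ?_)
        rintro x ⟨y, hy, h1, h2⟩
        exact ⟨y, ball_mono _ (Nat.mul_le_mul_right _ hc2) _ hy, h1, hr _ _ h2⟩
      have b2 := mul_le_mul (mul_le_mul_of_nonneg_left (add_le_add_left (le_abs_self CJ) z)
        zero_le_two) b1 measureReal_nonneg hK.le
      push_cast
      linarith
    have := hmax _ ⟨S', hI⟩
    omega
  have hval' : av (fun ω => 𝓟 (fun x => S x ω) + z * 𝓜.μ.real {x | S x ω = St.del}) + 2 * β ≤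
      3 * η := by
    have b1 : (β + β / δ') * 𝓜.μ.real (P A) ≤ (β + β / δ') * m :=
      mul_le_mul_of_nonneg_left (measureReal_mono (Set.subset_univ _)) (by positivity)
    have b2 : A.card * (η / (N + 1)) ≤ η := by
      rw [← mul_div_assoc, div_le_iff₀ (by positivity)]
      have : (A.card : ℝ) ≤ N := by exact_mod_cast hAN
      nlinarith
    have b3 : 2 * (|CJ| + z) * 𝓜.μ.real (P A ∩ Bad₀) ≤ η := by
      rw [← le_div_iff₀' hK]
      exact (measureReal_mono Set.inter_subset_right).trans hb0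
    have b4 : 3 * β + (β + β / δ') * m = η := by
      rw [show 3 * β + (β + β / δ') * m = β * (3 + (1 + 1 / δ') * m) by ring, hβ]
      field_simp
    linarith
  have hfin : ∀ ω, c * 𝓜.μ.real {x | ¬ Good 𝓜.toKern ρ (26 * z) (fun y => (S y ω).toOpt) x} +
      z * 𝓜.μ.real {x | S x ω = St.del} ≤
      (𝓟 (fun x => S x ω) + z * 𝓜.μ.real {x | S x ω = St.del}) + 2 * β := by
    intro ω
    have a := hP.final (delS {x | S x ω = St.unc} fun x => S x ω)
      (measurable_delS (hSm ω (MeasurableSet.of_discrete (s := {St.unc}))) (hSm ω)) fun x => by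
        unfold delS
        split_ifs with h
        · simp
        · exact h
    have b := hP.del_unc _ (hSm ω)
    have e : (fun y => (delS {x | S x ω = St.unc} (fun x => S x ω) y).toOpt) =
        fun y => (S y ω).toOpt := by
      funext y
      unfold delS
      split_ifs with h
      · rw [show S y ω = St.unc from h]
        rfl
      · rfl
    rw [e] at a
    linarith
  have hav := R124.av_mono hfin
  rw [R124.av_add, R124.av_add _ fun _ => 2 * β, R124.av_const, ← R124.mul_av,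
    ← R124.mul_av] at hav
  have n1 := R124.av_nonneg fun ω => measureReal_nonneg (μ := 𝓜.μ)
    (s := {x | ¬ Good 𝓜.toKern ρ (26 * z) (fun y => (S y ω).toOpt) x})
  have n2 := R124.av_nonneg fun ω => measureReal_nonneg (μ := 𝓜.μ) (s := {x | S x ω = St.del})
  have m1 : 3 * η ≤ z * (δ / 2) := by nlinarith [min_le_left z c]
  have m2 : 3 * η ≤ c * (δ / 2) := by nlinarith [min_le_right z c]
  refine ⟨fun x ω => (S x ω).toOpt, Fib.comp 𝓜.alg hS fun s ω => (s ω).toOpt, fun x => ?_, hown,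
    ?_, ?_⟩
  · refine ⟨(ball 𝓜.φ (N * R) x).image lab, Finset.card_image_le.trans (card_ball_le _ _ _),
      fun ω ω' h => ?_⟩
    simp only
    rw [hdep x ω ω' fun y hy _ => h _ (Finset.mem_image_of_mem _
      (ball_mono _ (Nat.mul_le_mul_right _ hAN) _ hy))]
  · have b1 : ∀ ω, 𝓜.μ.real {x | (S x ω).toOpt = none} ≤
        𝓜.μ.real {x | S x ω = St.del} + 2 * δ' := by
      intro ω
      have : {x | (S x ω).toOpt = none} ⊆ {x | S x ω = St.del} ∪ (P Aᶜ ∪ Bad₁) := by
        intro x hx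
        cases h : S x ω with
        | del => exact Or.inl h
        | col i => simp [h, St.toOpt] at hx
        | unc =>
          by_cases hb : x ∈ Bad₁
          · exact Or.inr (Or.inr hb)
          · exact Or.inr (Or.inl (Set.mem_iUnion₂.2 ⟨lab₁ x, Finset.mem_compl.2 fun hA =>
              (hunc x ω).1 h (Set.mem_iUnion₂.2 ⟨lab₁ x, hA, rfl, hb⟩), rfl, hb⟩))
      linarith [measureReal_mono (μ := 𝓜.μ) this,
        measureReal_union_le (μ := 𝓜.μ) {x | S x ω = St.del} (P Aᶜ ∪ Bad₁),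
        measureReal_union_le (μ := 𝓜.μ) (P Aᶜ) Bad₁]
    have b2 := R124.av_mono b1
    rw [R124.av_add, R124.av_const] at b2
    have b3 : av (fun ω => 𝓜.μ.real {x | S x ω = St.del}) ≤ δ / 2 :=
      le_of_mul_le_mul_left (by nlinarith) hz
    linarith
  · have b3 : av (fun ω => 𝓜.μ.real
        {x | ¬ Good 𝓜.toKern ρ (26 * z) (fun y => (S y ω).toOpt) x}) ≤ δ / 2 :=
      le_of_mul_le_mul_left (by nlinarith) hc
    linarith

end Crest.Agent.R109
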