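import Crest.Agent.R109.TopA

/-! Task 109-TOP: local polynomial observables with a column-sum bound independent of the height
`L` of the slab. -/

set_option autoImplicit false
set_option linter.unusedSectionVars false

open Polynomial

namespace Crest.Agent.R109

namespace TopL

variable {V : Type*} [DecidableEq V] {r : ℕ}

theorem rr_unique {P : ℂ[X]} {l l' : Multiset ℝ} (h : RR P l) (h' : RR P l') : l = l' :=
  Multiset.map_injective Complex.ofReal_injective (h.roots.symm.trans h'.roots)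

theorem sumC_eq {P : ℂ[X]} {l : Multiset ℝ} (h : RR P l) (χ : ℂ[X]) :
    sumC χ P = (l.map fun x : ℝ => χ.eval (x : ℂ)).sum := by
  rw [sumC, h.roots, Multiset.map_map]; rfl

theorem root_bd [NeZero r] {K z lo hi : ℝ} (hz : 0 ≤ z) {M : V → V → ℂ} {w : V → ℝ}
    {s : V → St r} {U : Finset V} (h : Env K M w U) (hR : Rng lo hi w s U) {l : Multiset ℝ}
    (hl : RR (PP z M w s U) l) : ∀ x ∈ l, |x| ≤ hi * (25 * z + 1) := by
  intro x hx
  have := PP_root_le hz h hR (x := (x : ℂ)) (by rw [hl.roots]; exact Multiset.mem_map_of_mem _ hx)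
  rwa [Complex.norm_real, Real.norm_eq_abs] at this

theorem rng_update {lo hi : ℝ} {w : V → ℝ} {s : V → St r} {U : Finset V} (hR : Rng lo hi w s U)
    {v : V} (hv : s v ≠ St.del) (o : St r) : Rng lo hi w (Function.update s v o) U := by
  intro a ha hs
  by_cases h : a = v
  · subst h; exact hR a ha hv
  · rw [Function.update_of_ne h] at hs; exact hR a ha hs

theorem rng_del {lo hi : ℝ} {w : V → ℝ} {s : V → St r} {U : Finset V} (hR : Rng lo hi w s U)
    (u : V) : Rng lo hi w (Function.update s u St.del) U := by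
  intro a ha hs
  by_cases h : a = u
  · subst h; simp at hs
  · rw [Function.update_of_ne h] at hs; exact hR a ha hs

theorem argII {ϑ σ₁ σ₂ : ℝ} (h0 : 0 < ϑ) (h1 : ϑ < 1) (hσ : 0 < σ₁) (hσ' : σ₁ ≤ σ₂)
    (l : Multiset ℝ) : IntervalIntegrable
      (fun σ => (l.map fun x : ℝ => Complex.arg (rayPt ϑ σ - x)).sum) MeasureTheory.volume σ₁ σ₂ := by
  apply ContinuousOn.intervalIntegrable
  rw [Set.uIcc_of_le hσ']
  induction l using Multiset.induction_on with
  | empty => simpa using continuousOn_const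
  | cons x l ih =>
    simp only [Multiset.map_cons, Multiset.sum_cons]
    refine ContinuousOn.add (fun σ hσ1 => ?_) ih
    have hc : Continuous fun σ : ℝ => rayPt ϑ σ - x := by unfold rayPt; fun_prop
    have him : 0 < (rayPt ϑ σ - x).im := by
      simpa using Ray_im_pos h0 h1 (hσ.trans_le hσ1.1)
    exact (ContinuousAt.comp (f := fun σ : ℝ => rayPt ϑ σ - x)
      (Complex.continuousAt_arg (Or.inr him.ne')) hc.continuousAt).continuousWithinAt

theorem pair [NeZero r] {K z : ℝ} (hK : 0 < K) (hz : 0 ≤ z) {M : V → V → ℂ} {w : V → ℝ}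
    (s : V → St r) {U : Finset V} (h : Env K M w U) {v : V} (hv : v ∈ U) {o : St r}
    (ho : o ≠ St.del) {lp lq : Multiset ℝ} (hp : RR (PP z M w (Function.update s v o) U) lp)
    (hq : RR (PP z M w (Function.update s v St.del) U) lq) :
    Multiset.card lp = Multiset.card lq + 1 ∧ ∀ t : ℂ, 0 < t.im →
      (lp.map fun x : ℝ => Complex.arg (t - x)).sum -
        (lq.map fun x : ℝ => Complex.arg (t - x)).sum = Complex.arg (Aq z M w s U v o t) := by
  obtain ⟨lq', ν, c, hq', hν, -, -, hrel⟩ := nev' hK hz s h hv ho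
  obtain rfl := rr_unique hq hq'
  obtain ⟨lp', hp', hc, -⟩ := interlace hq subset_rfl hν hrel
  obtain rfl := rr_unique hp hp'
  refine ⟨hc, fun t ht => ?_⟩
  have hne := PP_eval_ne z (Function.update s v St.del) h ht.ne'
  rw [← hp.sumR, ← hq.sumR, arg_sum hq subset_rfl hν hrel ht, Aq, hrel t hne,
    mul_div_cancel_right₀ _ hne]

theorem norm_lt {x T H ρ : ℝ} (hx : |x| ≤ T) (hρ : 0 < ρ) (h : T ^ 2 + H ^ 2 < ρ ^ 2) :
    ‖(x : ℂ) + H * Complex.I‖ < ρ := by
  rw [Complex.norm_add_mul_I]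
  refine (Real.sqrt_lt' hρ).2 ?_
  have := sq_abs x
  nlinarith [abs_nonneg x]

/-- (T2) for one live state -/
theorem t2 [NeZero r] {K z : ℝ} (hK : 0 < K) (hz : 0 ≤ z) {M : V → V → ℂ} {w : V → ℝ}
    {s : V → St r} {U : Finset V} (h : Env K M w U) {lo hi : ℝ} (hhi : 0 ≤ hi)
    (hR : Rng lo hi w s U) {v : V}
    (hv : v ∈ U) (hsv : s v ≠ St.del) {o : St r} (ho : o ≠ St.del) {ϑ ε H σ₁ σ₂ ρ ρ₁ : ℝ}
    (h0 : 0 < ϑ) (h1 : ϑ < 1)
    (hray : ∀ (S : Finset ℝ) (ν : ℝ → ℝ) (c m σ₁ σ₂ : ℝ), (∀ p, 0 ≤ ν p) → 0 ≤ c →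
      ∑ p ∈ S, ν p ≤ m → 0 < σ₁ → σ₁ ≤ σ₂ → 8 * m ≤ σ₂ ^ 2 →
      |Real.pi⁻¹ * (∫ σ in σ₁..σ₂, Complex.arg (gC S ν c (rayPt ϑ σ))) - fpos (gR S ν c)| ≤
        ε * σ₂ + σ₁ + 4 * m / σ₂)
    (hH : 0 ≤ H) (hσ : 0 < σ₁) (hσ' : σ₁ ≤ σ₂) (h8 : 8 * (K * w v ^ 2) ≤ σ₂ ^ 2) (hρ : 1 ≤ ρ)
    (hρ₁ : ρ < ρ₁) (hρT : (hi * (25 * z + 1)) ^ 2 + H ^ 2 < ρ ^ 2)
    (hr : ∀ σ ∈ Set.Icc σ₁ σ₂, ρ₁ ≤ ‖rayPt ϑ σ + H * Complex.I‖) (N : ℕ) :
    |(sumC (chiT ϑ H σ₁ σ₂ N) (PP z M w (Function.update s v o) U) -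
        sumC (chiT ϑ H σ₁ σ₂ N) (PP z M w (Function.update s v St.del) U)).im +
        arg0 ϑ H σ₁ σ₂ - Dp z M w s U v o| ≤
      (2 + 4 * (hi * (25 * z + 1))) * (σ₂ - σ₁) * ((ρ / ρ₁) ^ N / (1 - ρ / ρ₁)) +
        (ε * σ₂ + σ₁ + 4 * (K * w v ^ 2) / σ₂) := by
  obtain ⟨lq, ν, c, hq, hν, hc, hm, hrel⟩ := nev' hK hz s h hv ho
  obtain ⟨lp, hp, hcard, -⟩ := interlace hq subset_rfl hν hrel
  have bp := root_bd hz h (rng_update hR hsv o) hp
  have bq := root_bd hz h (rng_update hR hsv St.del) hq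
  have e1 := expand (Finset.univ : Finset (Fin 2)) ![lp, lq] ![1, -1]
    (C := 2 + 4 * (hi * (25 * z + 1))) h0 h1 hH hσ hσ' (by linarith) hρ₁
    (by
      intro k _ x hx
      fin_cases k
      · exact (norm_lt (bp x hx) (by linarith) hρT).trans hρ₁
      · exact (norm_lt (bq x hx) (by linarith) hρT).trans hρ₁) hr
    (fun n => by
      have := psum_interlace hp hq subset_rfl hν hrel (H := H) (by positivity) hρ hρT.le bp bq n
      simpa [Fin.sum_univ_two, sub_eq_add_neg] using this) N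
  have e2 := hray _ ν c _ σ₁ σ₂ hν hc hm hσ hσ' h8
  have e3 : argI ϑ σ₁ σ₂ lp - argI ϑ σ₁ σ₂ lq =
      Real.pi⁻¹ * (∫ σ in σ₁..σ₂, Complex.arg (gC lq.toFinset ν c (rayPt ϑ σ))) := by
    rw [argI, argI, ← mul_sub, ← intervalIntegral.integral_sub (argII h0 h1 hσ hσ' lp)
      (argII h0 h1 hσ hσ' lq)]
    congr 1
    refine intervalIntegral.integral_congr (fun σ hσ1 => ?_)
    rw [Set.uIcc_of_le hσ'] at hσ1
    rw [← hp.sumR, ← hq.sumR, arg_sum hq subset_rfl hν hrel (Ray_im_pos h0 h1 (hσ.trans_le hσ1.1))]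
  have e4 : Dp z M w s U v o = fpos (gR lq.toFinset ν c) := sum_pos_eq hq subset_rfl hν hrel
  rw [sumC_eq hp, sumC_eq hq, e4, Complex.sub_im]
  simp only [Fin.sum_univ_two, Matrix.cons_val_zero, Matrix.cons_val_one, hcard] at e1
  push_cast at e1
  rw [← e3] at e2
  rw [abs_le] at e1 e2 ⊢
  constructor <;> linarith [e1.1, e1.2, e2.1, e2.2]

theorem logd {P : ℂ[X]} {l : Multiset ℝ} (h : RR P l) {t : ℂ} (ht : P.eval t ≠ 0) :
    HasDerivAt (fun t => P.eval t) (P.eval t * (l.map fun x : ℝ => (t - x)⁻¹).sum) t := by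
  simp only [h.eval] at ht ⊢
  clear h
  induction l using Multiset.induction_on with
  | empty => simpa using hasDerivAt_const t (1 : ℂ)
  | cons x l ih =>
    simp only [Multiset.map_cons, Multiset.prod_cons, Multiset.sum_cons] at ht ⊢
    have h1 := left_ne_zero_of_mul ht
    refine (((hasDerivAt_id t).sub_const (x : ℂ)).mul (ih (right_ne_zero_of_mul ht))).congr_deriv ?_
    simp only [id]
    field_simp

theorem mg0 {z : ℝ} {w : V → ℝ} {t ω : ℂ} {η : ℝ} (hη : 0 < η) {a : V} (h : Mg z w t ω η a) :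
    Mg0 z w t ω a := ⟨by linarith [h.1], by linarith [h.2]⟩

theorem mg_one {z : ℝ} {w : V → ℝ} {t : ℂ} {η : ℝ} (hη : 0 ≤ η) {a : V} (hw : 0 < w a)
    (h : η * w a ≤ t.im) : Mg z w t 1 η a := by
  have h1 : η ≤ t.im / w a := by rwa [le_div_iff₀ hw]
  constructor
  · simpa [Complex.div_ofReal_im] using h1
  · have : (25 * (z : ℂ) + 4 * t / (w a : ℂ)).im = 4 * (t.im / w a) := by
      simp [Complex.div_ofReal_im, mul_div_assoc]
    rw [one_mul, this]; simp only [Complex.one_im, abs_zero, zero_add]; linarith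

theorem mg_far {z : ℝ} (hz : 0 ≤ z) {t : ℂ} {E : ℝ} (hE : 0 < E) (ht : E * (25 * z + 2) ≤ ‖t‖) :
    ∃ ω : ℂ, ‖ω‖ = 1 ∧ ∀ (w : V → ℝ) (a : V), 0 < w a → w a ≤ E → Mg z w t ω 1 a := by
  have h0 : 0 < ‖t‖ := lt_of_lt_of_le (by positivity) ht
  have h0' : (‖t‖ : ℂ) ≠ 0 := by exact_mod_cast h0.ne'
  let ω : ℂ := Complex.I * (starRingEnd ℂ) t / ‖t‖
  have hω : ‖ω‖ = 1 := by
    simp only [ω, norm_div, norm_mul, Complex.norm_I, Complex.norm_conj, Complex.norm_real,
      norm_norm, one_mul]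
    exact div_self h0.ne'
  have hωt : ω * t = Complex.I * ‖t‖ := by
    simp only [ω]
    rw [div_mul_eq_mul_div, mul_assoc, Complex.conj_mul', div_eq_iff h0']; ring
  have him : |ω.im| ≤ 1 := (Complex.abs_im_le_norm ω).trans hω.le
  refine ⟨ω, hω, fun w a hw hwE => ?_⟩
  have h1 : 25 * z + 2 ≤ ‖t‖ / w a := by
    rw [le_div_iff₀ hw]; nlinarith
  have h2 := abs_le.1 him
  constructor
  · have : (ω * ((z : ℂ) + t / (w a : ℂ))).im = z * ω.im + ‖t‖ / w a := by
      rw [mul_add, ← mul_div_assoc, hωt]; simp [Complex.div_ofReal_im, mul_comm]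
    rw [this]; nlinarith [h2.1]
  · have : (ω * (25 * (z : ℂ) + 4 * t / (w a : ℂ))).im = 25 * z * ω.im + 4 * (‖t‖ / w a) := by
      rw [mul_add, ← mul_div_assoc, mul_left_comm ω 4 t, hωt]
      simp [Complex.div_ofReal_im, mul_comm, mul_div_assoc]
      ring
    rw [this]; nlinarith [h2.1]

theorem mg_mono {z : ℝ} {w : V → ℝ} {t ω : ℂ} {η η' : ℝ} (h' : η' ≤ η) {a : V}
    (h : Mg z w t ω η a) : Mg z w t ω η' a := ⟨by linarith [h.1], by linarith [h.2]⟩

theorem bB {z x B : ℝ} (hz : 0 ≤ z) {t : ℂ} (hx : 0 < x) (h : ‖t‖ ≤ B * x) :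
    ‖(z : ℂ) + t / x‖ ≤ 25 * z + 4 * B ∧ ‖25 * (z : ℂ) + 4 * t / x‖ ≤ 25 * z + 4 * B := by
  have h1 : ‖t / (x : ℂ)‖ ≤ B := by
    rw [norm_div, Complex.norm_real, Real.norm_of_nonneg hx.le, div_le_iff₀ hx]; exact h
  have h2 := norm_nonneg (t / (x : ℂ))
  constructor
  · refine (norm_add_le _ _).trans ?_
    rw [Complex.norm_real, Real.norm_of_nonneg hz]; linarith
  · refine (norm_add_le _ _).trans ?_
    rw [mul_div_assoc, norm_mul, norm_mul, Complex.norm_real, Real.norm_of_nonneg hz]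
    simp only [Complex.norm_ofNat]; linarith

/-- the four states attached to `v` -/
def st4 (s : V → St r) (u v : V) (o : St r) : Fin 4 → V → St r :=
  ![Function.update (Function.update s u St.del) v o,
    Function.update (Function.update s u St.del) v St.unc,
    Function.update s v o, Function.update s v St.unc]

def sg4 : Fin 4 → ℝ := ![1, -1, -1, 1]

/-- the tail: Cauchy estimate for the logarithmic derivatives -/
theorem tail (V : Type*) [DecidableEq V] (r : ℕ) [NeZero r] {η B δ : ℝ} (hη : 0 < η) (hB : 0 ≤ B)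
    (hδ : 0 < δ) : ∃ C : ℝ, 0 ≤ C ∧ ∀ (K z E : ℝ) (M : V → V → ℂ) (w : V → ℝ) (s : V → St r)
      (U V' : Finset V) (u : V) (o : St r) (ε : V → ℝ) (l : (V → St r) → Multiset ℝ) (t0 : ℂ),
      0 ≤ z → Env K M w U → Rng 1 E w s U → u ∈ U → V' ⊆ U → u ∉ V' →
      (∀ v ∈ V', s v = St.unc ∧ |ε v| ≤ 1) → (∀ s', RR (PP z M w s' U) (l s')) →
      (∀ t ∈ Metric.closedBall t0 δ, 25 * z + 4 * ‖t‖ ≤ B ∧ ∃ ω : ℂ, ‖ω‖ = 1 ∧
        ∀ (w : V → ℝ) (a : V), 0 < w a → w a ≤ E → Mg z w t ω η a) →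
      ‖∑ k ∈ V' ×ˢ (Finset.univ : Finset (Fin 4)), ((ε k.1 * sg4 k.2 : ℝ) : ℂ) *
        ((l (st4 s u k.1 o k.2)).map fun x : ℝ => (t0 - x)⁻¹).sum‖ ≤ C := by
  obtain ⟨C, hC, hcol⟩ := col V r (B := B) hη
  let D : ℝ := 4 * (B + 1 / η) / η
  have hD : 0 ≤ D := by positivity
  refine ⟨(D + 1) ^ 2 * C / δ, by positivity, ?_⟩
  intro K z E M w s U V' u o ε l t0 hz h hR hu hV hu' hv hl hω
  set s' := Function.update s u St.del with hs'
  have hs'v : ∀ v ∈ V', s' v = St.unc := fun v hv' => by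
    rw [hs', Function.update_of_ne (ne_of_mem_of_not_mem hv' hu'), (hv v hv').1]
  have hR' : Rng 1 E w s' U := rng_del hR u
  have hne : ∀ t ∈ Metric.closedBall t0 δ, ∀ s1 : V → St r, Rng 1 E w s1 U →
      (PP z M w s1 U).eval t ≠ 0 := by
    intro t ht s1 h1
    obtain ⟨-, ω, hω1, hω2⟩ := hω t ht
    exact PP_ne_of_mg h hω1 (fun a ha hs => mg0 hη (hω2 w a (h.pos a ha) (h1 a ha hs).2))
  have hne1 : ∀ t ∈ Metric.closedBall t0 δ, ∀ v ∈ V', ∀ o',
      (PP z M w (Function.update s v o') U).eval t ≠ 0 := fun t ht v hv' o' =>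
    hne t ht _ (rng_update hR (by rw [(hv v hv').1]; simp) o')
  have hne2 : ∀ t ∈ Metric.closedBall t0 δ, ∀ v ∈ V', ∀ o',
      (PP z M w (Function.update s' v o') U).eval t ≠ 0 := fun t ht v hv' o' =>
    hne t ht _ (rng_update hR' (by rw [hs'v v hv']; simp) o')
  let F : V → ℂ → ℂ := fun v t =>
    ((PP z M w (Function.update s v o) U).eval t * (PP z M w (Function.update s' v St.unc) U).eval t) /
      ((PP z M w (Function.update s v St.unc) U).eval t * (PP z M w (Function.update s' v o) U).eval t)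
  have hF : ∀ t ∈ Metric.closedBall t0 δ, ∀ v ∈ V', F v t =
      (Aq z M w s U v o t / Aq z M w s U v St.unc t) /
        (Aq z M w s' U v o t / Aq z M w s' U v St.unc t) := by
    intro t ht v hv'
    have := hne1 t ht v hv' St.del
    have := hne2 t ht v hv' St.del
    have := hne1 t ht v hv' St.unc
    have := hne2 t ht v hv' St.unc
    have := hne2 t ht v hv' o
    simp only [F, Aq]
    field_simp
  have hwB : ∀ t ∈ Metric.closedBall t0 δ, ∀ v ∈ V',
      ‖(z : ℂ) + t / w v‖ ≤ B ∧ ‖25 * (z : ℂ) + 4 * t / w v‖ ≤ B := by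
    intro t ht v hv'
    have h1 := (hR v (hV hv') (by rw [(hv v hv').1]; simp)).1
    have := bB hz (t := t) (B := ‖t‖) (x := w v) (by linarith)
      (le_mul_of_one_le_right (norm_nonneg _) h1)
    exact ⟨this.1.trans (hω t ht).1, this.2.trans (hω t ht).1⟩
  have hsum : ∀ t ∈ Metric.closedBall t0 δ, ∑ v ∈ V', ‖F v t - 1‖ ≤ C := by
    intro t ht
    obtain ⟨-, ω, hω1, hω2⟩ := hω t ht
    rw [Finset.sum_congr rfl (fun v hv' => by rw [hF t ht v hv'])]
    exact hcol K z M w s U V' u o t ω h hω1 hu hV hu' (fun v hv' => (hv v hv').1)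
      (fun a ha hs => mg0 hη (hω2 w a (h.pos a ha) (hR a ha hs).2))
      (fun v hv' => hω2 w v (h.pos v (hV hv')) (hR v (hV hv') (by rw [(hv v hv').1]; simp)).2)
      (fun v _ a ha hs _ => hω2 w a (h.pos a ha) (hR a ha hs).2) (hwB t ht)
  have ht0 : t0 ∈ Metric.closedBall t0 δ := Metric.mem_closedBall_self hδ.le
  have hinv : ∀ v ∈ V', ‖(F v t0)⁻¹‖ ≤ (D + 1) ^ 2 := by
    intro v hv'
    obtain ⟨-, ω, hω1, hω2⟩ := hω t0 ht0
    have hw := h.pos v (hV hv')
    have hbd : ∀ s1 : V → St r, Rng 1 E w s1 U → ∀ o', o' ≠ St.del →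
        η * w v / 4 ≤ ‖Aq z M w s1 U v o' t0‖ ∧ ‖Aq z M w s1 U v o' t0‖ ≤ w v * (B + 1 / η) := by
      intro s1 h1 o' ho'
      have := Aq_bd hη (s := s1) h hω1 (hV hv')
        (fun a ha hs => mg0 hη (hω2 w a (h.pos a ha) (h1 a ha hs).2))
        (hω2 w v hw (hR v (hV hv') (by rw [(hv v hv').1]; simp)).2)
        (fun a ha hs _ => hω2 w a (h.pos a ha) (h1 a ha hs).2) (hwB t0 ht0 v hv') ho'
      refine ⟨this.1.trans ((Complex.im_le_norm _).trans ?_), this.2⟩
      rw [norm_mul, hω1, one_mul]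
    have hq : ∀ a b : ℂ, ‖a‖ ≤ w v * (B + 1 / η) → η * w v / 4 ≤ ‖b‖ → ‖a / b‖ ≤ D := by
      intro a b ha hb
      rw [norm_div]
      calc ‖a‖ / ‖b‖ ≤ w v * (B + 1 / η) / (η * w v / 4) := by gcongr
        _ = D := by simp only [D]; field_simp
    rw [hF t0 ht0 v hv']
    have hbd1 := hq _ _ (hbd s hR St.unc (by simp)).2 (hbd s' hR' St.unc (by simp)).1
    by_cases ho : o = St.del
    · subst ho
      have a1 : Aq z M w s U v St.del t0 = 1 := div_self (hne1 t0 ht0 v hv' St.del)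
      have a2 : Aq z M w s' U v St.del t0 = 1 := div_self (hne2 t0 ht0 v hv' St.del)
      rw [a1, a2, show ((1 / Aq z M w s U v St.unc t0) / (1 / Aq z M w s' U v St.unc t0))⁻¹ =
        Aq z M w s U v St.unc t0 / Aq z M w s' U v St.unc t0 by
          simp [div_eq_mul_inv, mul_comm]]
      nlinarith
    · have hbd2 := hq _ _ (hbd s' hR' o ho).2 (hbd s hR o ho).1
      rw [show ((Aq z M w s U v o t0 / Aq z M w s U v St.unc t0) /
          (Aq z M w s' U v o t0 / Aq z M w s' U v St.unc t0))⁻¹ =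
          (Aq z M w s U v St.unc t0 / Aq z M w s' U v St.unc t0) *
            (Aq z M w s' U v o t0 / Aq z M w s U v o t0) by
          simp only [div_eq_mul_inv, mul_inv, inv_inv]; ring, norm_mul]
      nlinarith [mul_le_mul hbd1 hbd2 (norm_nonneg _) hD]
  let G : ℂ → ℂ := fun t => ∑ v ∈ V', (-(ε v : ℂ) * (F v t0)⁻¹) * (F v t - 1)
  have hGd : DifferentiableOn ℂ G (Metric.closedBall t0 δ) := by
    intro t ht
    refine DifferentiableAt.differentiableWithinAt ?_
    refine DifferentiableAt.fun_sum (fun v hv' => DifferentiableAt.const_mul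
      (DifferentiableAt.sub_const ?_ 1) _)
    exact ((Polynomial.differentiableAt _).mul (Polynomial.differentiableAt _)).div
      ((Polynomial.differentiableAt _).mul (Polynomial.differentiableAt _))
      (mul_ne_zero (hne1 t ht v hv' _) (hne2 t ht v hv' _))
  have hGb := Complex.norm_deriv_le_of_forall_mem_sphere_norm_le (f := G) (c := t0) hδ
    (DifferentiableOn.diffContOnCl (by rwa [closure_ball _ hδ.ne'])) (C := (D + 1) ^ 2 * C)
    (fun t ht => by
      have ht' := Metric.sphere_subset_closedBall ht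
      refine (norm_sum_le _ _).trans ?_
      refine le_trans ?_ (mul_le_mul_of_nonneg_left (hsum t ht') (sq_nonneg (D + 1)))
      rw [Finset.mul_sum]
      refine Finset.sum_le_sum (fun v hv' => ?_)
      rw [norm_mul, norm_mul, norm_neg, Complex.norm_real, Real.norm_eq_abs]
      refine mul_le_mul_of_nonneg_right ?_ (norm_nonneg _)
      exact (mul_le_of_le_one_left (norm_nonneg _) (hv v hv').2).trans (hinv v hv'))
  have hGd' : HasDerivAt G (∑ k ∈ V' ×ˢ (Finset.univ : Finset (Fin 4)),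
      ((ε k.1 * sg4 k.2 : ℝ) : ℂ) *
        ((l (st4 s u k.1 o k.2)).map fun x : ℝ => (t0 - x)⁻¹).sum) t0 := by
    rw [Finset.sum_product]
    refine HasDerivAt.fun_sum (fun v hv' => ?_)
    have n1 := hne1 t0 ht0 v hv' o
    have n2 := hne2 t0 ht0 v hv' St.unc
    have n3 := hne1 t0 ht0 v hv' St.unc
    have n4 := hne2 t0 ht0 v hv' o
    have d1 := ((logd (hl _) n1).mul (logd (hl _) n2)).div
      ((logd (hl _) n3).mul (logd (hl _) n4)) (mul_ne_zero n3 n4)
    refine ((d1.sub_const 1).const_mul (-(ε v : ℂ) * (F v t0)⁻¹)).congr_deriv ?_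
    simp only [Fin.sum_univ_four, st4, sg4, F, Matrix.cons_val_zero, Matrix.cons_val_one,
      Matrix.cons_val, Pi.mul_apply, ← hs']
    push_cast
    field_simp
    ring
  rwa [hGd'.deriv] at hGb

/-- the main part: bound for the alternating sums of arguments -/
theorem main (V : Type*) [DecidableEq V] (r : ℕ) [NeZero r] {η B : ℝ} (hη : 0 < η) :
    ∃ C : ℝ, 0 ≤ C ∧ ∀ (K z : ℝ) (M : V → V → ℂ) (w : V → ℝ) (s : V → St r)
      (U V' : Finset V) (u : V) (o : St r) (ε : V → ℝ) (l : (V → St r) → Multiset ℝ) (t : ℂ),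
      1 ≤ K → 0 ≤ z → Env K M w U → u ∈ U → V' ⊆ U → u ∉ V' →
      (∀ v ∈ V', s v = St.unc ∧ |ε v| ≤ 1) → (∀ s', RR (PP z M w s' U) (l s')) → 0 < t.im →
      (∀ v ∈ V', η * (K * w v) ≤ t.im ∧
        ‖(z : ℂ) + t / w v‖ ≤ B ∧ ‖25 * (z : ℂ) + 4 * t / w v‖ ≤ B) →
      ∑ k ∈ V' ×ˢ (Finset.univ : Finset (Fin 4)), (ε k.1 * sg4 k.2) *
        ((l (st4 s u k.1 o k.2)).map fun x : ℝ => Complex.arg (t - x)).sum ≤ C := by
  obtain ⟨C, hC, hcol⟩ := col V r (B := B) hη
  obtain ⟨C', hC', harg⟩ := arg_cross (η := η / 4) (B := B + 1 / η) (by positivity)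
  refine ⟨C' * C, by positivity, ?_⟩
  intro K z M w s U V' u o ε l t hK hz h hu hV hu' hv hl ht hb
  set s' := Function.update s u St.del with hs'
  have h0 : ∀ a ∈ U, Mg0 z w t 1 a := fun a ha =>
    mg0 (η := t.im / w a) (div_pos ht (h.pos a ha))
      (mg_one (div_pos ht (h.pos a ha)).le (h.pos a ha) (div_mul_cancel₀ _ (h.pos a ha).ne').le)
  have h1 : ∀ v ∈ V', Mg z w t 1 η v := fun v hv' =>
    mg_one hη.le (h.pos v (hV hv')) (le_trans (mul_le_mul_of_nonneg_left
      (le_mul_of_one_le_left (h.pos v (hV hv')).le hK) hη.le) (hb v hv').1)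
  have h2 : ∀ v ∈ V', ∀ a ∈ U, M v a ≠ 0 → Mg z w t 1 η a := fun v hv' a ha hM =>
    mg_one hη.le (h.pos a ha) (le_trans (mul_le_mul_of_nonneg_left
      (h.lip v (hV hv') a ha hM) hη.le) (hb v hv').1)
  have hc := hcol K z M w s U V' u o t 1 h norm_one hu hV hu' (fun v hv' => (hv v hv').1)
    (fun a ha _ => h0 a ha) h1 (fun v hv' a ha _ hM => h2 v hv' a ha hM)
    (fun v hv' => (hb v hv').2)
  refine le_trans ?_ (mul_le_mul_of_nonneg_left hc hC')
  rw [Finset.sum_product, Finset.mul_sum]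
  refine Finset.sum_le_sum (fun v hv' => ?_)
  have hw := h.pos v (hV hv')
  have hw' : (w v : ℂ) ≠ 0 := by exact_mod_cast hw.ne'
  have hbd : ∀ (s1 : V → St r) (o' : St r), o' ≠ St.del → η / 4 ≤ (Aq z M w s1 U v o' t / w v).im ∧
      ‖Aq z M w s1 U v o' t / w v‖ ≤ B + 1 / η := by
    intro s1 o' ho'
    have := Aq_bd hη (s := s1) h norm_one (hV hv') (fun a ha _ => h0 a ha) (h1 v hv')
      (fun a ha _ hM => h2 v hv' a ha hM) (hb v hv').2 ho'
    rw [one_mul] at this
    constructor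
    · rw [Complex.div_ofReal_im, le_div_iff₀ hw]; linarith [this.1]
    · rw [norm_div, Complex.norm_real, Real.norm_of_nonneg hw.le, div_le_iff₀ hw]
      linarith [this.2]
  have hargw : ∀ a : ℂ, Complex.arg (a / w v) = Complex.arg a := fun a => by
    rw [div_eq_mul_inv, ← Complex.ofReal_inv, Complex.arg_mul_real (inv_pos.2 hw)]
  have p2 := (pair (by linarith) hz s' h (hV hv') (o := St.unc) (by simp) (hl _) (hl _)).2 t ht
  have p4 := (pair (by linarith) hz s h (hV hv') (o := St.unc) (by simp) (hl _) (hl _)).2 t ht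
  have hε := (hv v hv').2
  have fin : ∀ X Y : ℝ, |X| ≤ Y → ε v * X ≤ Y := fun X Y hXY =>
    (le_abs_self _).trans (by
      rw [abs_mul]; exact (mul_le_of_le_one_left (abs_nonneg _) hε).trans hXY)
  simp only [Fin.sum_univ_four, st4, sg4, Matrix.cons_val_zero, Matrix.cons_val_one,
    Matrix.cons_val, ← hs']
  by_cases ho : o = St.del
  · subst ho
    have a1 : Aq z M w s U v St.del t = 1 := div_self (PP_eval_ne z _ h ht.ne')
    have a2 : Aq z M w s' U v St.del t = 1 := div_self (PP_eval_ne z _ h ht.ne')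
    have := (harg (Aq z M w s U v St.unc t / w v) (Aq z M w s U v St.unc t / w v)
      (Aq z M w s' U v St.unc t / w v) (Aq z M w s' U v St.unc t / w v) (by
        intro x hx
        simp only [Set.mem_insert_iff, Set.mem_singleton_iff] at hx
        rcases hx with rfl | rfl | rfl | rfl <;> exact hbd _ _ (by simp))).2
    rw [hargw, hargw, div_div_div_cancel_right₀ hw'] at this
    rw [a1, a2, show (1 / Aq z M w s U v St.unc t) / (1 / Aq z M w s' U v St.unc t) =
        Aq z M w s' U v St.unc t / Aq z M w s U v St.unc t by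
          simp [div_eq_mul_inv, mul_comm]]
    have := fin _ _ this
    rw [← p2, ← p4] at this
    linarith
  · have p1 := (pair (by linarith) hz s' h (hV hv') ho (hl _) (hl _)).2 t ht
    have p3 := (pair (by linarith) hz s h (hV hv') ho (hl _) (hl _)).2 t ht
    have := (harg (Aq z M w s U v o t / w v) (Aq z M w s U v St.unc t / w v)
      (Aq z M w s' U v o t / w v) (Aq z M w s' U v St.unc t / w v) (by
        intro x hx
        simp only [Set.mem_insert_iff, Set.mem_singleton_iff] at hx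
        rcases hx with rfl | rfl | rfl | rfl
        · exact hbd _ _ ho
        · exact hbd _ _ (by simp)
        · exact hbd _ _ ho
        · exact hbd _ _ (by simp))).1
    rw [hargw, hargw, hargw, hargw, div_div_div_cancel_right₀ hw', div_div_div_cancel_right₀ hw',
      abs_sub_comm] at this
    have := fin _ _ this
    rw [← p1, ← p2, ← p3, ← p4] at this
    linarith

theorem card0 [NeZero r] {K z : ℝ} (hK : 0 < K) (hz : 0 ≤ z) {M : V → V → ℂ} {w : V → ℝ}
    (s : V → St r) {U V' : Finset V} (h : Env K M w U) (hV : V' ⊆ U) (u : V) (o : St r)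
    (ε : V → ℝ) {l : (V → St r) → Multiset ℝ} (hl : ∀ s', RR (PP z M w s' U) (l s')) :
    ∑ k ∈ V' ×ˢ (Finset.univ : Finset (Fin 4)), (ε k.1 * sg4 k.2) *
      (Multiset.card (l (st4 s u k.1 o k.2)) : ℝ) = 0 := by
  rw [Finset.sum_product]
  refine Finset.sum_eq_zero (fun v hv' => ?_)
  have p2 := (pair hK hz (Function.update s u St.del) h (hV hv') (o := St.unc) (by simp)
    (hl _) (hl _)).1
  have p4 := (pair hK hz s h (hV hv') (o := St.unc) (by simp) (hl _) (hl _)).1
  simp only [Fin.sum_univ_four, st4, sg4, Matrix.cons_val_zero, Matrix.cons_val_one,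
    Matrix.cons_val, p2, p4]
  by_cases ho : o = St.del
  · subst ho; push_cast; ring
  · rw [(pair hK hz (Function.update s u St.del) h (hV hv') ho (hl _) (hl _)).1,
      (pair hK hz s h (hV hv') ho (hl _) (hl _)).1]
    push_cast; ring

/-- geometry of the circle `‖s + H I‖ = H + b / 2` -/
theorem circ {b T H : ℝ} (hb : 0 < b) (hT : 0 ≤ T) (hH : T ≤ H) (hH' : 2 * T ^ 2 ≤ H * b) {s : ℂ}
    (hs : ‖s + H * Complex.I‖ = H + b / 2) : T ≤ ‖s‖ ∨ b / 4 ≤ s.im := by
  by_contra hc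
  push Not at hc
  obtain ⟨h1, h2⟩ := hc
  have h3 := abs_lt.1 ((Complex.abs_re_le_norm s).trans_lt h1)
  have h4 := abs_lt.1 ((Complex.abs_im_le_norm s).trans_lt h1)
  have h5 : s.re ^ 2 + (s.im + H) ^ 2 = (H + b / 2) ^ 2 := by
    rw [← hs, Complex.sq_norm, Complex.normSq_apply]; simp; ring
  have h6 : s.re ^ 2 < T ^ 2 := by nlinarith
  have h7 : (s.im + H) ^ 2 ≤ (H + b / 4) ^ 2 := by nlinarith
  nlinarith

end TopL

set_option maxHeartbeats 4000000 in
open TopL in
/-- Fix `ϑ` (`ray`), `σ₁ j = β' e^j`, `σ₂ j = Λ e^j`. Given `L` put `T = e^L (25 z + 1)` (all roots,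
`PP_root_le`), `T' = 4 e^L (25 z + 3)`, `H` so large that `ρ' = √(H² + T'²) < ρ₁ = H + β' sin ϑ`;
`χt j = chiT ϑ H (σ₁ j) (σ₂ j) N`, `ct j o = 0` if `o ≠ del`, `- arg0` if `o = del`; only
`j ≤ L` matter, `N` large.
(T2) `expand` with `psum_interlace` for the pairs (`update o`, `update del`), (`s`, `update del`);
`argI lp - argI lq = π⁻¹ ∫ arg g` (`arg_sum`, `nev'`), `ray`, `sum_pos_eq`.
(T3) `expand` for the `4 #V'` multisets of roots with signs. Main part: `arg_sum` turns the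
alternating sums into arguments of `Aq`; `Aq_bd`, `arg_cross` (divide by `w v`), `col` with `ω = 1`,
`η = β' sin ϑ / (K e)`, `B = 25 z + 4 Λ`: constants independent of `L`. Tail: `psum_cauchy` on
`‖s + H I‖ = ρ'`. There `∑ ± (s - x)⁻¹ = ∑ ε_v ratio_v' / ratio_v` (`ratio_v` the quotient in `col`).
On a `δ`-neighbourhood of the circle either `Im s ≥ η₁ > 0` (`ω = 1`) or `‖s‖ ≥ e^L (25 z + 2)`
(`ω = I conj s / ‖s‖`), so `col`, `Aq_bd` give `∑ ‖ratio_v - 1‖ ≤ C(L)`, `‖ratio_v‖⁻¹ ≤ C(L)`, and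
`∑ ‖ratio_v'‖ ≤ C(L) / δ` (Cauchy estimate for `∑ ε'_v (ratio_v - 1)` with unimodular `ε'_v`). -/
theorem top (V : Type*) [DecidableEq V] (r : ℕ) [NeZero r] {K z β : ℝ} (hK : 1 ≤ K) (hz : 0 ≤ z)
    (hβ : 0 < β) : ∃ CT : ℝ, 0 ≤ CT ∧ ∀ L : ℝ, 0 ≤ L →
    ∃ (R : ℕ) (χt : ℕ → ℂ[X]) (ct : ℕ → St r → ℝ), (∀ j, (χt j).natDegree ≤ R) ∧
      (∀ (j : ℕ) (M : V → V → ℂ) (w : V → ℝ) (s : V → St r) (U : Finset V) (v : V) (o : St r),
        Env K M w U → Rng 1 (Real.exp L) w s U → v ∈ U → s v = St.unc →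
        Real.exp j ≤ w v → w v ≤ Real.exp (j + 1) →
        |(Ic (χt j) z M w s U v o).im + ct j o -
          (Dp z M w s U v o - Dp z M w s U v St.unc)| ≤ β * w v) ∧
      ∀ (j : ℕ) (M : V → V → ℂ) (w : V → ℝ) (s : V → St r) (U V' : Finset V) (u : V) (o : St r)
        (ε : V → ℝ), Env K M w U → Rng 1 (Real.exp L) w s U → u ∈ U → V' ⊆ U → u ∉ V' →
        (∀ v ∈ V', s v = St.unc ∧ Real.exp j ≤ w v ∧ w v ≤ Real.exp (j + 1) ∧ |ε v| ≤ 1) →
        ∑ v ∈ V', ε v * ((Ic (χt j) z M w (Function.update s u St.del) U v o).im -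
          (Ic (χt j) z M w s U v o).im) ≤ CT * Real.exp (j + 1) := by
  have hK0 : 0 < K := by linarith
  have he1 : 1 ≤ Real.exp 1 := Real.one_le_exp zero_le_one
  obtain ⟨Λ, hΛ1, hΛ2, hΛ3, hΛ4⟩ : ∃ Λ : ℝ, 1 ≤ Λ ∧ β / 10 ≤ Λ ∧ 8 * (K * Real.exp 1 ^ 2) ≤ Λ ∧
      40 * (K * Real.exp 1 ^ 2) / β ≤ Λ := by
    have h1 : 0 ≤ 8 * (K * Real.exp 1 ^ 2) := by positivity
    have h2 : 0 ≤ 40 * (K * Real.exp 1 ^ 2) / β := by positivity
    exact ⟨1 + β / 10 + 8 * (K * Real.exp 1 ^ 2) + 40 * (K * Real.exp 1 ^ 2) / β,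
      by linarith, by linarith, by linarith, by linarith⟩
  have hΛ0 : 0 < Λ := by linarith
  obtain ⟨ϑ, h0, h1, hray⟩ := ray (ε := β / (10 * Λ)) (by positivity)
  have hsin : 0 < Real.sin ϑ := Real.sin_pos_of_pos_of_lt_pi h0 (by linarith [Real.pi_gt_three])
  set b : ℝ := β / 10 * Real.sin ϑ with hb
  have hb0 : 0 < b := by positivity
  obtain ⟨C1, hC1, hmain⟩ := main V r (η := b / (K * Real.exp 1)) (B := 25 * z + 4 * Λ)
    (by positivity)
  refine ⟨Λ * C1 + 1, by positivity, fun L hL => ?_⟩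
  set E := Real.exp L with hE
  have hE1 : 1 ≤ E := Real.one_le_exp hL
  set T : ℝ := E * (25 * z + 2) + 1 with hT
  have hT1 : 1 ≤ T := by have : 0 ≤ E * (25 * z + 2) := by positivity
                         linarith
  set H : ℝ := 2 * T ^ 2 / b + T with hH
  have hHT : T ≤ H := by have : 0 ≤ 2 * T ^ 2 / b := by positivity
                         linarith
  have hHb : 2 * T ^ 2 ≤ H * b := by
    have : H * b = 2 * T ^ 2 + T * b := by rw [hH]; field_simp
    nlinarith
  have hH0 : 0 ≤ H := by linarith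
  set ρ : ℝ := H + b / 2 with hρ
  set ρ₁ : ℝ := H + b with hρ₁
  have hρ1 : 1 ≤ ρ := by linarith
  have hρρ : ρ < ρ₁ := by linarith
  have hρT : (E * (25 * z + 1)) ^ 2 + H ^ 2 < ρ ^ 2 := by
    have a1 : 0 ≤ E * (25 * z + 1) := by positivity
    have a2 : E * (25 * z + 1) ≤ T := by nlinarith
    have a3 : (E * (25 * z + 1)) ^ 2 ≤ T ^ 2 := by gcongr
    nlinarith
  obtain ⟨C2, hC2, htail⟩ := tail V r (η := min 1 (b / 8 / E)) (B := 25 * z + 4 * (ρ + H + 1))
    (δ := min 1 (b / 8)) (by positivity) (by positivity) (by positivity)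
  have hq0 : 0 ≤ ρ / ρ₁ := by positivity
  have hq1 : ρ / ρ₁ < 1 := (div_lt_one (by linarith)).2 hρρ
  obtain ⟨N, hN1, hN2⟩ : ∃ N : ℕ,
      (2 + 4 * (E * (25 * z + 1))) * (Λ * E) * ((ρ / ρ₁) ^ N / (1 - ρ / ρ₁)) ≤ β / 5 ∧
      C2 * ρ * (Λ * E) * ((ρ / ρ₁) ^ N / (1 - ρ / ρ₁)) ≤ 1 := by
    have t1 := (tendsto_pow_atTop_nhds_zero_of_lt_one hq0 hq1).div_const (1 - ρ / ρ₁)
    have t2 := t1.const_mul ((2 + 4 * (E * (25 * z + 1))) * (Λ * E))
    have t3 := t1.const_mul (C2 * ρ * (Λ * E))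
    rw [zero_div, mul_zero] at t2 t3
    exact ((t2.eventually (ge_mem_nhds (by positivity : (0 : ℝ) < β / 5))).and
      (t3.eventually (ge_mem_nhds zero_lt_one))).exists
  have hQ : 0 ≤ (ρ / ρ₁) ^ N / (1 - ρ / ρ₁) := div_nonneg (pow_nonneg hq0 N) (by linarith)
  have hj1 : ∀ j : ℕ, 1 ≤ Real.exp j := fun j => Real.one_le_exp (Nat.cast_nonneg j)
  have hσ : ∀ j : ℕ, 0 < β / 10 * Real.exp j := fun j => by positivity
  have hσ' : ∀ j : ℕ, β / 10 * Real.exp j ≤ Λ * Real.exp j := fun j => by gcongr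
  have hr : ∀ j : ℕ, ∀ σ ∈ Set.Icc (β / 10 * Real.exp j) (Λ * Real.exp j),
      ρ₁ ≤ ‖rayPt ϑ σ + H * Complex.I‖ := by
    intro j σ hσ1
    refine le_trans ?_ (Complex.im_le_norm _)
    have a1 : β / 10 ≤ σ := le_trans (le_mul_of_one_le_right (by positivity) (hj1 j)) hσ1.1
    have a2 : b ≤ σ * Real.sin ϑ := by rw [hb]; gcongr
    simp only [Complex.add_im, Ray_im, Complex.mul_im, Complex.ofReal_re, Complex.I_im, mul_one,
      Complex.ofReal_im, Complex.I_re, mul_zero, add_zero]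
    linarith
  refine ⟨N, fun j => chiT ϑ H (β / 10 * Real.exp j) (Λ * Real.exp j) N,
    fun j o => if o = St.del then -arg0 ϑ H (β / 10 * Real.exp j) (Λ * Real.exp j) else 0,
    fun j => chiT_natDegree _ _ _ _ _, ?_, ?_⟩
  · intro j M w s U v o h hR hv hsv hw1 hw2
    have hsv' : s v ≠ St.del := by rw [hsv]; simp
    have hwE := (hR v hv hsv').2
    have hej := Real.exp_pos (j : ℝ)
    rw [Real.exp_add] at hw2
    have hm : K * w v ^ 2 ≤ K * Real.exp 1 ^ 2 * Real.exp j ^ 2 := by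
      have : w v ^ 2 ≤ (Real.exp j * Real.exp 1) ^ 2 := by gcongr; linarith
      nlinarith
    have key : ∀ o', o' ≠ St.del →
        |(sumC (chiT ϑ H (β / 10 * Real.exp j) (Λ * Real.exp j) N)
            (PP z M w (Function.update s v o') U) -
          sumC (chiT ϑ H (β / 10 * Real.exp j) (Λ * Real.exp j) N)
            (PP z M w (Function.update s v St.del) U)).im +
          arg0 ϑ H (β / 10 * Real.exp j) (Λ * Real.exp j) - Dp z M w s U v o'| ≤ β * w v / 2 := by
      intro o' ho'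
      refine (t2 hK0 hz h (by linarith) hR hv hsv' ho' h0 h1 hray hH0 (hσ j) (hσ' j) ?_ hρ1 hρρ hρT
        (hr j) N).trans ?_
      · have a1 : 8 * (K * Real.exp 1 ^ 2) * Real.exp j ^ 2 ≤ Λ ^ 2 * Real.exp j ^ 2 := by
          gcongr; nlinarith
        nlinarith
      · have a1 : (2 + 4 * (E * (25 * z + 1))) * (Λ * Real.exp j - β / 10 * Real.exp j) *
            ((ρ / ρ₁) ^ N / (1 - ρ / ρ₁)) ≤
            (2 + 4 * (E * (25 * z + 1))) * (Λ * E) * ((ρ / ρ₁) ^ N / (1 - ρ / ρ₁)) := by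
          gcongr
          have : Λ * Real.exp j ≤ Λ * E := by gcongr; linarith
          linarith [hσ j]
        have a2 : β / (10 * Λ) * (Λ * Real.exp j) = β / 10 * Real.exp j := by field_simp
        have a3 : 4 * (K * w v ^ 2) / (Λ * Real.exp j) ≤ β / 10 * Real.exp j := by
          rw [div_le_iff₀ (by positivity)]
          rw [div_le_iff₀ hβ] at hΛ4
          have : 40 * (K * Real.exp 1 ^ 2) * Real.exp j ^ 2 ≤ Λ * β * Real.exp j ^ 2 := by gcongr
          nlinarith
        have a4 : β * Real.exp j ≤ β * w v := by gcongr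
        have a5 : β ≤ β * w v := le_mul_of_one_le_right hβ.le ((hj1 j).trans hw1)
        linarith
    have k1 := key St.unc (by simp)
    have hs : Function.update s v St.unc = s := by rw [← hsv, Function.update_eq_self]
    rw [hs] at k1
    have hβw : 0 ≤ β * w v := by have := h.pos v hv; positivity
    beta_reduce
    split_ifs with ho
    · subst ho
      rw [Dp_del, Ic]
      rw [Complex.sub_im] at k1 ⊢
      rw [abs_le] at k1 ⊢
      constructor <;> linarith [k1.1, k1.2]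
    · have k2 := key o ho
      rw [Ic]
      rw [Complex.sub_im] at k1 k2 ⊢
      rw [abs_le] at k1 k2 ⊢
      constructor <;> linarith [k1.1, k1.2, k2.1, k2.2]
  · intro j M w s U V' u o ε h hR hu hV hu' hv
    have hej := Real.exp_pos (j : ℝ)
    have hej1 : Real.exp j ≤ Real.exp (j + 1) := Real.exp_le_exp.2 (by linarith)
    rcases V'.eq_empty_or_nonempty with rfl | ⟨v0, hv0⟩
    · rw [Finset.sum_empty]; positivity
    have hjE : Real.exp j ≤ E :=
      (hv v0 hv0).2.1.trans (hR v0 (hV hv0) (by rw [(hv v0 hv0).1]; simp)).2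
    choose l hl using fun s' : V → St r => PP_rr z s' h
    have hv' : ∀ v ∈ V', s v = St.unc ∧ |ε v| ≤ 1 := fun v h => ⟨(hv v h).1, (hv v h).2.2.2⟩
    have hlb : ∀ k ∈ V' ×ˢ (Finset.univ : Finset (Fin 4)), ∀ x ∈ l (st4 s u k.1 o k.2),
        ‖(x : ℂ) + H * Complex.I‖ < ρ := by
      rintro ⟨v, i⟩ hk x hx
      have hvV := (Finset.mem_product.1 hk).1
      have a1 : s v ≠ St.del := by rw [(hv v hvV).1]; simp
      have a2 : Function.update s u St.del v ≠ St.del := by
        rwa [Function.update_of_ne (ne_of_mem_of_not_mem hvV hu')]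
      refine norm_lt (root_bd (lo := 1) hz h ?_ (hl _) x hx) (by linarith) hρT
      fin_cases i
      · exact rng_update (rng_del hR u) a2 _
      · exact rng_update (rng_del hR u) a2 _
      · exact rng_update hR a1 _
      · exact rng_update hR a1 _
    have hc0 := card0 hK0 hz s h hV u o ε hl
    have e1 := expand (V' ×ˢ (Finset.univ : Finset (Fin 4))) (fun k => l (st4 s u k.1 o k.2))
      (fun k => ε k.1 * sg4 k.2) (C := C2 * ρ) h0 h1 hH0 (hσ j) (hσ' j) (by linarith) hρρ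
      (fun k hk x hx => (hlb k hk x hx).trans hρρ) (hr j)
      (fun n => by
        refine (psum_cauchy _ _ _ (C := C2) (by linarith) hlb hc0 (fun t0 ht0 => ?_) n).trans ?_
        · refine htail K z E M w s U V' u o ε l t0 hz h hR hu hV hu' hv' hl (fun t ht => ?_)
          rw [mem_closedBall_iff_norm] at ht
          have b1 := ht.trans (min_le_left _ _)
          have b2 := ht.trans (min_le_right _ _)
          have b3 : ‖t0‖ ≤ ρ + H := by
            have := norm_sub_le (t0 + H * Complex.I) (H * Complex.I)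
            rw [add_sub_cancel_right, ht0, norm_mul, Complex.norm_I, mul_one, Complex.norm_real,
              Real.norm_of_nonneg hH0] at this
            exact this
          have b4 := abs_le.1 (abs_norm_sub_norm_le t t0)
          refine ⟨by linarith [b4.2], ?_⟩
          rcases circ hb0 (by linarith) hHT hHb ht0 with b5 | b5
          · obtain ⟨ω, c1, c2⟩ := mg_far (V := V) hz (t := t) (E := E) (by linarith)
              (by linarith [b4.1])
            exact ⟨ω, c1, fun w a d1 d2 => mg_mono (min_le_left _ _) (c2 w a d1 d2)⟩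
          · refine ⟨1, norm_one, fun w a d1 d2 => mg_mono (min_le_right _ _)
              (mg_one (by positivity) d1 ?_)⟩
            have c1 := abs_le.1 ((Complex.abs_im_le_norm (t - t0)).trans b2)
            rw [Complex.sub_im] at c1
            have c2 : b / 8 / E * w a ≤ b / 8 / E * E := by gcongr
            rw [div_mul_cancel₀ _ (by linarith)] at c2
            linarith [c1.1]
        · have : (1 : ℝ) ≤ n + 1 := by linarith [(Nat.cast_nonneg n : (0 : ℝ) ≤ n)]
          have a1 : C2 * ρ ≤ C2 * ρ * (n + 1) := le_mul_of_one_le_right (by positivity) this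
          gcongr) N
    have e2 : ∑ k ∈ V' ×ˢ (Finset.univ : Finset (Fin 4)), (ε k.1 * sg4 k.2) *
        argI ϑ (β / 10 * Real.exp j) (Λ * Real.exp j) (l (st4 s u k.1 o k.2)) ≤
        Λ * C1 * Real.exp (j + 1) := by
      have hI := fun k : V × Fin 4 => (argII h0 h1 (hσ j) (hσ' j) (l (st4 s u k.1 o k.2))).const_mul
        (ε k.1 * sg4 k.2)
      have a1 : ∑ k ∈ V' ×ˢ (Finset.univ : Finset (Fin 4)), (ε k.1 * sg4 k.2) *
          argI ϑ (β / 10 * Real.exp j) (Λ * Real.exp j) (l (st4 s u k.1 o k.2)) =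
          Real.pi⁻¹ * ∫ σ in (β / 10 * Real.exp j)..(Λ * Real.exp j),
            ∑ k ∈ V' ×ˢ (Finset.univ : Finset (Fin 4)), (ε k.1 * sg4 k.2) *
              ((l (st4 s u k.1 o k.2)).map fun x : ℝ => Complex.arg (rayPt ϑ σ - x)).sum := by
        rw [intervalIntegral.integral_finsetSum (fun k _ => hI k), Finset.mul_sum]
        refine Finset.sum_congr rfl (fun k _ => ?_)
        rw [intervalIntegral.integral_const_mul, argI]; ring
      have a2 := intervalIntegral.integral_mono_on (hσ' j)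
        (IntervalIntegrable.sum (V' ×ˢ (Finset.univ : Finset (Fin 4))) (fun k _ => hI k))
        (intervalIntegrable_const (c := C1)) (fun σ hσ1 => by
          rw [Finset.sum_apply]
          have hσ0 : 0 < σ := (hσ j).trans_le hσ1.1
          refine hmain K z M w s U V' u o ε l _ hK hz h hu hV hu' hv' hl (Ray_im_pos h0 h1 hσ0)
            (fun v hvV => ⟨?_, bB hz (h.pos v (hV hvV)) ?_⟩)
          · have c1 := (hv v hvV).2.2.1
            rw [Real.exp_add] at c1
            rw [Ray_im]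
            calc b / (K * Real.exp 1) * (K * w v)
                ≤ b / (K * Real.exp 1) * (K * (Real.exp j * Real.exp 1)) := by gcongr
              _ = β / 10 * Real.exp j * Real.sin ϑ := by rw [hb]; field_simp
              _ ≤ σ * Real.sin ϑ := by gcongr; exact hσ1.1
          · rw [rayPt, norm_mul, Complex.norm_exp_ofReal_mul_I, mul_one, Complex.norm_real,
              Real.norm_of_nonneg hσ0.le]
            exact hσ1.2.trans (by gcongr; exact (hv v hvV).2.1))
      simp only [Finset.sum_apply, intervalIntegral.integral_const, smul_eq_mul] at a2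
      have a3 : Real.pi⁻¹ ≤ 1 := inv_le_one_of_one_le₀ (by linarith [Real.pi_gt_three])
      have a4 : (Λ * Real.exp j - β / 10 * Real.exp j) * C1 ≤ Λ * C1 * Real.exp (j + 1) := by
        have c1 : Λ * Real.exp j ≤ Λ * Real.exp (j + 1) := by gcongr
        have c2 : (Λ * Real.exp j - β / 10 * Real.exp j) * C1 ≤ Λ * Real.exp (j + 1) * C1 := by
          gcongr; linarith [hσ j]
        linarith
      rw [a1]
      exact (mul_le_mul_of_nonneg_left (a2.trans a4) (inv_pos.2 Real.pi_pos).le).trans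
        (mul_le_of_le_one_left (by positivity) a3)
    have e3 : C2 * ρ * (Λ * Real.exp j - β / 10 * Real.exp j) * ((ρ / ρ₁) ^ N / (1 - ρ / ρ₁)) ≤
        C2 * ρ * (Λ * E) * ((ρ / ρ₁) ^ N / (1 - ρ / ρ₁)) := by
      gcongr
      have : Λ * Real.exp j ≤ Λ * E := by gcongr
      linarith [hσ j]
    have e4 : ∑ v ∈ V', ε v *
        ((Ic (chiT ϑ H (β / 10 * Real.exp j) (Λ * Real.exp j) N) z M w
          (Function.update s u St.del) U v o).im -
        (Ic (chiT ϑ H (β / 10 * Real.exp j) (Λ * Real.exp j) N) z M w s U v o).im) =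
        ∑ k ∈ V' ×ˢ (Finset.univ : Finset (Fin 4)), (ε k.1 * sg4 k.2) *
          (((l (st4 s u k.1 o k.2)).map fun x : ℝ =>
            (chiT ϑ H (β / 10 * Real.exp j) (Λ * Real.exp j) N).eval (x : ℂ)).sum).im := by
      rw [Finset.sum_product]
      refine Finset.sum_congr rfl (fun v hvV => ?_)
      have a1 : Function.update s v St.unc = s := by rw [← (hv v hvV).1, Function.update_eq_self]
      have a2 : Function.update (Function.update s u St.del) v St.unc =
          Function.update s u St.del := by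
        rw [← (hv v hvV).1, ← Function.update_of_ne (ne_of_mem_of_not_mem hvV hu') St.del s,
          Function.update_eq_self]
      simp only [Fin.sum_univ_four, st4, sg4, Matrix.cons_val_zero, Matrix.cons_val_one,
        Matrix.cons_val, a1, a2, Ic, sumC_eq (hl _), Complex.sub_im]
      ring
    simp only [mul_sub, Finset.sum_sub_distrib, ← mul_assoc _ _ (arg0 _ _ _ _),
      ← Finset.sum_mul] at e1
    rw [hc0, zero_mul, sub_zero] at e1
    beta_reduce
    rw [e4]
    have e5 := (abs_le.1 e1).1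
    have e6 := (hj1 j).trans hej1
    simp only [mul_sub] at e3
    linarith

end Crest.Agent.R109
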