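import Crest.Agent.R109.PotE
import Crest.Agent.R109.Bot
import Crest.Agent.R109.Top

/-! Task 109-POTI: the potential of a model. -/

set_option autoImplicit false

open Polynomial MeasureTheory

namespace Crest.Agent.R109

namespace PotiAux

theorem meas_sel {Y : Type*} [MeasurableSpace Y] {r : ℕ} {F : Y → St r → ℝ}
    (hF : ∀ o, Measurable fun y => F y o) {g : Y → St r} (hg : Measurable g) :
    Measurable fun y => F y (g y) := by
  have : MeasurableSingletonClass (St r) := ⟨fun _ => trivial⟩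
  have h : Measurable fun q : Y × St r => F q.1 q.2 := measurable_from_prod_countable_left hF
  exact h.comp (measurable_id.prodMk hg)

theorem meas_int {A : Type*} [MeasurableSpace A] {F : A × ℝ → ℝ} (hF : Measurable F) {L : ℝ}
    (hL : 0 ≤ L) : Measurable fun a => ∫ τ in (0 : ℝ)..L, F (a, τ) := by
  simp only [intervalIntegral.integral_of_le hL]
  exact (hF.stronglyMeasurable.integral_prod_right'
    (ν := volume.restrict (Set.Ioc 0 L))).measurable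

theorem abs_int_le {f : ℝ → ℝ} {L B : ℝ} (hL : 0 ≤ L) (h : ∀ τ, 0 ≤ τ → τ ≤ L → |f τ| ≤ B) :
    |∫ τ in (0 : ℝ)..L, f τ| ≤ B * L := by
  have := intervalIntegral.norm_integral_le_of_norm_le_const (a := 0) (b := L) (C := B) (f := f)
    fun τ hτ => by
      rw [Set.uIoc_of_le hL] at hτ
      exact h τ hτ.1.le hτ.2
  rwa [sub_zero, abs_of_nonneg hL] at this

theorem ii_of_bd {f : ℝ → ℝ} (hf : Measurable f) {L B : ℝ} (hL : 0 ≤ L)
    (h : ∀ τ, 0 ≤ τ → τ ≤ L → |f τ| ≤ B) : IntervalIntegrable f volume 0 L := by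
  rw [intervalIntegrable_iff_integrableOn_Ioc_of_le hL]
  refine Measure.integrableOn_of_bounded (M := B) (by simp) hf.aestronglyMeasurable ?_
  filter_upwards [ae_restrict_mem measurableSet_Ioc] with τ hτ
  exact h τ hτ.1.le hτ.2

theorem exists_le_avg {f : ℝ → ℝ} {L : ℝ} (hL : 0 < L) (hf : IntervalIntegrable f volume 0 L) :
    ∃ τ, 0 ≤ τ ∧ τ ≤ L ∧ f τ ≤ L⁻¹ * ∫ τ in (0 : ℝ)..L, f τ := by
  obtain ⟨τ, hτ, h⟩ := exists_le_setAverage (μ := volume) (s := Set.Ioc 0 L) (f := f)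
    (by simpa using hL) (by simp) ((intervalIntegrable_iff_integrableOn_Ioc_of_le hL.le).1 hf)
  refine ⟨τ, hτ.1.le, hτ.2, ?_⟩
  rw [setAverage_eq, Real.volume_real_Ioc_of_le hL.le, sub_zero, smul_eq_mul] at h
  rwa [intervalIntegral.integral_of_le hL.le]

end PotiAux

open PotiAux

/-- `bot` (with `exp (-s₀) ≤ b`), `top`, `exists_chi`; `R` is the maximum of the degrees. -/
theorem exists_par (V : Type*) [DecidableEq V] (r : ℕ) [NeZero r] {K z β : ℝ} (hK : 1 ≤ K)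
    (hz : 0 ≤ z) (hβ : 0 < β) : ∃ s₀ CT : ℝ, 0 ≤ s₀ ∧ 0 ≤ CT ∧ ∀ L : ℝ, 0 ≤ L →
      ∃ (R : ℕ) (χ : ℝ[X]) (χt : ℕ → ℂ[X]) (ct : ℕ → St r → ℝ),
        Par V r K z β L s₀ CT R χ χt ct := by
  obtain ⟨b, hb, hbot⟩ := bot V r hK hz hβ
  obtain ⟨CT, hCT, htop⟩ := top V r hK hz hβ
  refine ⟨max 0 (-Real.log b), CT, le_max_left _ _, hCT, fun L hL => ?_⟩
  obtain ⟨R, χt, ct, h1, h2, h3⟩ := htop L hL
  obtain ⟨χ, hχ⟩ := exists_chi (T := Real.exp L * (25 * z + 1)) (by positivity) hβ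
  refine ⟨max R χ.natDegree, χ, χt, ct, hχ, le_max_right _ _,
    fun j => (h1 j).trans (le_max_left _ _), ?_, h2, h3⟩
  intro M w s U B v o hE hv hvB hw
  refine hbot M w s U B v o hE hv hvB fun u hu => (hw u hu).trans ?_
  refine mul_le_mul_of_nonneg_right ?_ (hE.pos v hv).le
  calc Real.exp (-max 0 (-Real.log b)) ≤ Real.exp (Real.log b) :=
        Real.exp_le_exp.2 (by linarith [le_max_right 0 (-Real.log b)])
    _ = b := Real.exp_log hb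

variable {G X : Type*} [Fintype G] [DecidableEq G] [DecidableEq X] [MeasurableSpace X] {r : ℕ}

/-- Sum of the normalised increments for `M` and `-M`. -/
noncomputable def Model.jb (𝓜 : Model G X) (χ : ℝ[X]) (z : ℝ) (R : ℕ) (L : ℝ) (σ : X → St r)
    (x : X) (τ : ℝ) (o : St r) : ℝ := 𝓜.jj χ z R L σ x τ o + 𝓜.neg.jj χ z R L σ x τ o

/-- `step` in the frame `(x, τ)` with `η = β * exp τ`, `jj_Dp` for `𝓜` and `𝓜.neg`,
`Dp_nonneg`, `Dp_del`. -/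
theorem Model.jb_step [NeZero r] (𝓜 : Model G X) {χ : ℝ[X]} {z β L : ℝ} (hz : 0 < z) (hβ : 0 < β)
    (hc : Chi (Real.exp L * (25 * z + 1)) β χ) (R : ℕ) {σ : X → St r} {x : X}
    (hx : σ x = St.unc) {τ : ℝ} (h0 : 0 ≤ τ) (hL : τ ≤ L) :
    𝓜.jb χ z R L σ x τ St.del + z ≤ 9 * β ∨
      ∃ f : Lab r ↪ Fin r, R124.av (fun l => 𝓜.jb χ z R L σ x τ (St.col (f l))) ≤ 9 * β := by
  have hp := fun o => 𝓜.jj_Dp hz.le hβ.le hc R σ x h0 hL o
  have hn := fun o => 𝓜.neg.jj_Dp hz.le hβ.le hc R σ x h0 hL o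
  have hEn := 𝓜.neg.net.env (ball 𝓜.net.φ R (x, τ))
  rw [𝓜.neg_net_M, 𝓜.neg_net_w] at hEn
  simp only [𝓜.neg_net_M, 𝓜.neg_net_w, 𝓜.neg_net_φ] at hn
  rw [hx] at hp hn
  have hE := 𝓜.net.env (ball 𝓜.net.φ R (x, τ))
  have hv := self_mem_ball 𝓜.net.φ R (x, τ)
  have he : Real.exp (-τ) * Real.exp τ = 1 := by rw [← Real.exp_add]; simp
  have he0 := Real.exp_pos (-τ)
  have hw : 𝓜.net.w (x, τ) = Real.exp τ := rfl
  have n1 := Dp_nonneg (Real.exp_pos _) hz.le (sl 0 L σ) hE hv St.unc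
  have n2 := Dp_nonneg (Real.exp_pos _) hz.le (sl 0 L σ) hEn hv St.unc
  rcases step (η := β * Real.exp τ) (Real.exp_pos _) hz (by positivity) (sl 0 L σ) hE hv with
    h | ⟨f, h⟩
  · left
    have a1 := (abs_le.1 (hp St.del)).2
    have a2 := (abs_le.1 (hn St.del)).2
    rw [Dp_del] at a1 a2
    rw [hw] at h
    set D1 := Dp z 𝓜.net.M 𝓜.net.w (sl 0 L σ) (ball 𝓜.net.φ R (x, τ)) (x, τ) St.unc
    set D2 := Dp z (fun a b => -𝓜.net.M a b) 𝓜.net.w (sl 0 L σ) (ball 𝓜.net.φ R (x, τ)) (x, τ)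
      St.unc
    have h3 : z * Real.exp τ ≤ D1 + D2 := by rcases h with h | h <;> linarith
    have h4 := mul_le_mul_of_nonneg_left h3 he0.le
    have h5 : Real.exp (-τ) * (z * Real.exp τ) = z := by linear_combination z * he
    unfold Model.jb
    nlinarith
  · right
    refine ⟨f, ?_⟩
    set D1 := fun o => Dp z 𝓜.net.M 𝓜.net.w (sl 0 L σ) (ball 𝓜.net.φ R (x, τ)) (x, τ) o
    set D2 := fun o => Dp z (fun a b => -𝓜.net.M a b) 𝓜.net.w (sl 0 L σ)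
      (ball 𝓜.net.φ R (x, τ)) (x, τ) o
    have hcard : (0 : ℝ) < Fintype.card (Lab r) := by
      have := NeZero.pos r
      have h2 : 0 < (r + 1) / 2 := by omega
      simpa using h2
    have h1 : ∀ l, 𝓜.jb χ z R L σ x τ (St.col (f l)) ≤ 8 * β - Real.exp (-τ) * (D1 St.unc + D2 St.unc)
        + Real.exp (-τ) * (D1 (St.col (f l)) + D2 (St.col (f l))) := by
      intro l
      have a1 := (abs_le.1 (hp (St.col (f l)))).2
      have a2 := (abs_le.1 (hn (St.col (f l)))).2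
      unfold Model.jb
      simp only [D1, D2]
      linarith
    have h2 := Finset.sum_le_sum fun l (_ : l ∈ Finset.univ) => h1 l
    rw [Finset.sum_add_distrib, ← Finset.mul_sum, Finset.sum_const, Finset.card_univ,
      nsmul_eq_mul] at h2
    have h3 := mul_le_mul_of_nonneg_left h he0.le
    simp only [R124.av, smul_eq_mul]
    rw [inv_mul_le_iff₀ hcard]
    have h5 : Real.exp (-τ) * (β * Real.exp τ) = β := by linear_combination β * he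
    refine h2.trans ?_
    simp only [D1, D2] at h3 ⊢
    nlinarith

/-- Change of the potential of one sign: `pot_change`, `sepd_net`, `net_integral` (split `V`
according to the value of `σ'` for measurability; outside the slab the increment vanishes). -/
theorem Model.pot_change [NeZero r] (𝓜 : Model G X) {χ : ℝ[X]} {R : ℕ} (hχ : χ.natDegree ≤ R)
    {z L : ℝ} (hz : 0 ≤ z) (hL : 0 ≤ L) {σ σ' : X → St r} (hσ : Measurable σ)
    (hσ' : Measurable σ') {V : Set X} (hV : MeasurableSet V) (hsep : Sepd 𝓜.φ (4 * R) V)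
    (h : ∀ x ∉ V, σ' x = σ x) :
    𝓜.net.pot χ z R (sl 0 L σ') - 𝓜.net.pot χ z R (sl 0 L σ) =
      ∫ x in V, (∫ τ in (0 : ℝ)..L, 𝓜.jj χ z R L σ x τ (σ' x)) ∂𝓜.μ := by
  set V' : Set (X × ℝ) := {y | y.1 ∈ V ∧ 0 ≤ y.2 ∧ y.2 ≤ L} with hV'
  have hV'm : MeasurableSet V' :=
    (measurable_fst hV).inter ((measurableSet_le measurable_const measurable_snd).inter
      (measurableSet_le measurable_snd measurable_const))
  have ha := 𝓜.adm_sl (L := L) le_rfl le_rfl hσ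
  have ha' := 𝓜.adm_sl (L := L) le_rfl le_rfl hσ'
  rw [𝓜.net.pot_change hχ hz ha ha' hV'm ((𝓜.sepd_net hsep).mono le_rfl fun y hy => hy.1) (by
    intro y hy
    unfold sl
    split_ifs with h1
    · exact h _ fun h2 => hy ⟨h2, h1⟩
    · rfl)]
  obtain ⟨C, hC⟩ := 𝓜.net.inc_bdd (r := r) (cx χ) hz R L
  have hw : Measurable 𝓜.net.w := Real.measurable_exp.comp 𝓜.net.meas_τ
  have hm : Measurable fun y : X × ℝ => (𝓜.net.inc (cx χ) z R (sl 0 L σ) y (σ' y.1)).re :=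
    meas_sel (F := fun y o => (𝓜.net.inc (cx χ) z R (sl 0 L σ) y o).re)
      (fun o => Complex.measurable_re.comp (𝓜.net.toKern.measurable_Ic (cx χ) z R hw ha.1 o))
      (hσ'.comp measurable_fst)
  rw [setIntegral_congr_fun hV'm
    (g := fun y : X × ℝ => (𝓜.net.inc (cx χ) z R (sl 0 L σ) y (σ' y.1)).re) (by
      intro y hy
      simp only [sl, if_pos hy.2])]
  exact 𝓜.net_integral hV hL hm (C := C) fun y _ h1 h2 =>
    (Complex.abs_re_le_norm _).trans (hC _ ha.2 y ⟨h1, h2⟩ _)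

/-- `pot_final` with `A = Bad × [ρ k, L - ρ k]`, `bad_net`, `net_integral`. -/
theorem Model.pot_final [NeZero r] (𝓜 : Model G X) {χ : ℝ[X]} {R : ℕ} (hχ : χ.natDegree ≤ R)
    {z L β : ℝ} (hz : 0 ≤ z) (hβ : 0 ≤ β) (hc : Chi (Real.exp L * (25 * z + 1)) β χ)
    {σ : X → St r} (hσ : Measurable σ) (h : ∀ x, σ x ≠ St.unc) (ρ : ℕ) (hL : 4 * (ρ * 𝓜.k) ≤ L)
    {A : Set X} (hA : MeasurableSet A)
    (hbad : ∀ x ∈ A, ∃ η, 26 * z * nsq (ball 𝓜.φ ρ x) η <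
      (form (Mc 𝓜.M fun y => (σ y).toOpt) (ball 𝓜.φ ρ x) η).re) :
    z * Real.exp (-(ρ * 𝓜.k)) / 8 * L * 𝓜.μ.real A ≤
      (words G ρ).card * (𝓜.net.pot χ z R (sl 0 L σ) + 2 * β * 𝓜.μ.real Set.univ) := by
  have hk : 0 ≤ ρ * 𝓜.k := mul_nonneg (Nat.cast_nonneg _) 𝓜.k_nonneg
  set A' : Set (X × ℝ) := {y | y.1 ∈ A ∧ ρ * 𝓜.k ≤ y.2 ∧ y.2 ≤ L - ρ * 𝓜.k} with hA'
  have hA'm : MeasurableSet A' :=
    (measurable_fst hA).inter ((measurableSet_le measurable_const measurable_snd).inter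
      (measurableSet_le measurable_snd measurable_const))
  have h1 := 𝓜.net.pot_final hχ hz hβ hc (𝓜.adm_sl (L := L) le_rfl le_rfl hσ) (by
      intro y
      unfold sl
      split_ifs
      · exact h _
      · simp) ρ hA'm (fun y hy => ⟨hk.trans hy.2.1, hy.2.2.trans (by linarith)⟩) (by
      intro y hy
      obtain ⟨η, hη⟩ := hbad y.1 hy.1
      exact 𝓜.bad_net hy.2.1 hy.2.2 hη)
  have hw : Measurable 𝓜.net.w := Real.measurable_exp.comp 𝓜.net.meas_τ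
  have h2 := 𝓜.net_integral hA (a := ρ * 𝓜.k) (b := L - ρ * 𝓜.k) (by linarith) hw
    (C := Real.exp L) fun y _ _ h4 => by
      have : 𝓜.net.w y = Real.exp y.2 := rfl
      rw [this, abs_of_pos (Real.exp_pos _)]
      exact Real.exp_le_exp.2 (by linarith)
  have h3 : ∀ (x : X) (τ : ℝ), Real.exp (-τ) * 𝓜.net.w (x, τ) = 1 := by
    intro x τ
    have : 𝓜.net.w (x, τ) = Real.exp τ := rfl
    rw [this, ← Real.exp_add]; simp
  simp only [h3, intervalIntegral.integral_const, smul_eq_mul, mul_one, setIntegral_const] at h2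
  rw [h2] at h1
  have h4 : 𝓜.net.ν.real (𝓜.net.slab L) ≤ 𝓜.μ.real Set.univ := by
    have := 𝓜.net_real_le 0 L
    rw [neg_zero, Real.exp_zero, one_mul] at this
    exact this
  have hk' : 𝓜.net.k = 𝓜.k := rfl
  rw [hk'] at h1
  refine le_trans ?_ (h1.trans (mul_le_mul_of_nonneg_left ?_ (Nat.cast_nonneg _)))
  · have h5 : 0 ≤ z * Real.exp (-(ρ * 𝓜.k)) * 𝓜.μ.real A := by positivity
    nlinarith
  · have := mul_le_mul_of_nonneg_left h4 (by positivity : 0 ≤ 2 * β)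
    linarith

namespace PotiAux

/-- integral of the increments over the heights -/
noncomputable def aa (𝓜 : Model G X) (χ : ℝ[X]) (z : ℝ) (R : ℕ) (L : ℝ) (σ : X → St r)
    (x : X) (o : St r) : ℝ := ∫ τ in (0 : ℝ)..L, 𝓜.jj χ z R L σ x τ o

/-- oscillation seen from one height -/
noncomputable def e1 (𝓜 : Model G X) (χ : ℝ[X]) (z : ℝ) (R : ℕ) (L : ℝ) (σ : X → St r)
    (x : X) (o : St r) (τ : ℝ) : ℝ :=
  ∫ τ' in (0 : ℝ)..L, |𝓜.jj χ z R L σ x τ o - 𝓜.jj χ z R L σ x τ' o|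

/-- total oscillation -/
noncomputable def e2 (𝓜 : Model G X) (χ : ℝ[X]) (z : ℝ) (R : ℕ) (L : ℝ) (σ : X → St r)
    (x : X) (o : St r) : ℝ := ∫ τ in (0 : ℝ)..L, e1 𝓜 χ z R L σ x o τ

variable [NeZero r] (𝓜 : Model G X) {χ : ℝ[X]} {z β L : ℝ}

theorem aa_le (hz : 0 ≤ z) (hβ : 0 ≤ β) (hc : Chi (Real.exp L * (25 * z + 1)) β χ) (hL : 0 ≤ L)
    (R : ℕ) (σ : X → St r) (x : X) (o : St r) :
    |aa 𝓜 χ z R L σ x o| ≤ (5 * Real.exp 𝓜.k + 4 * β) * L :=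
  abs_int_le hL fun _ h0 h1 => 𝓜.jj_le hz hβ hc R σ x h0 h1 o

theorem e1_le (hz : 0 ≤ z) (hβ : 0 ≤ β) (hc : Chi (Real.exp L * (25 * z + 1)) β χ) (hL : 0 ≤ L)
    (R : ℕ) (σ : X → St r) (x : X) (o : St r) {τ : ℝ} (h0 : 0 ≤ τ) (h1 : τ ≤ L) :
    |e1 𝓜 χ z R L σ x o τ| ≤ 2 * (5 * Real.exp 𝓜.k + 4 * β) * L :=
  abs_int_le hL fun τ' h0' h1' => by
    rw [abs_abs]
    have a1 := 𝓜.jj_le hz hβ hc R σ x h0 h1 o
    have a2 := 𝓜.jj_le hz hβ hc R σ x h0' h1' o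
    refine (abs_sub _ _).trans ?_
    linarith

omit [NeZero r] in
theorem e1_nonneg (hL : 0 ≤ L) (R : ℕ) (σ : X → St r) (x : X) (o : St r) (τ : ℝ) :
    0 ≤ e1 𝓜 χ z R L σ x o τ :=
  intervalIntegral.integral_nonneg hL fun _ _ => abs_nonneg _

omit [NeZero r] in
theorem e2_nonneg (hL : 0 ≤ L) (R : ℕ) (σ : X → St r) (x : X) (o : St r) :
    0 ≤ e2 𝓜 χ z R L σ x o :=
  intervalIntegral.integral_nonneg hL fun _ _ => e1_nonneg 𝓜 hL R σ x o _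

theorem e2_le (hz : 0 ≤ z) (hβ : 0 ≤ β) (hc : Chi (Real.exp L * (25 * z + 1)) β χ) (hL : 0 ≤ L)
    (R : ℕ) (σ : X → St r) (x : X) (o : St r) :
    |e2 𝓜 χ z R L σ x o| ≤ 2 * (5 * Real.exp 𝓜.k + 4 * β) * L * L :=
  abs_int_le hL fun _ h0 h1 => e1_le 𝓜 hz hβ hc hL R σ x o h0 h1

theorem meas_aa (hL : 0 ≤ L) (R : ℕ) {σ : X → St r} (hσ : Measurable σ) (o : St r) :
    Measurable fun x => aa 𝓜 χ z R L σ x o :=
  meas_int (𝓜.measurable_jj χ z R L hσ o) hL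

theorem meas_e1 (hL : 0 ≤ L) (R : ℕ) {σ : X → St r} (hσ : Measurable σ) (o : St r) :
    Measurable fun y : X × ℝ => e1 𝓜 χ z R L σ y.1 o y.2 := by
  have h := 𝓜.measurable_jj χ z R L hσ o
  have h2 : Measurable fun q : (X × ℝ) × ℝ =>
      |𝓜.jj χ z R L σ q.1.1 q.1.2 o - 𝓜.jj χ z R L σ q.1.1 q.2 o| :=
    ((h.comp measurable_fst).sub (h.comp (measurable_fst.fst.prodMk measurable_snd))).abs
  exact meas_int h2 hL

theorem meas_e2 (hL : 0 ≤ L) (R : ℕ) {σ : X → St r} (hσ : Measurable σ) (o : St r) :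
    Measurable fun x => e2 𝓜 χ z R L σ x o :=
  meas_int (meas_e1 𝓜 hL R hσ o) hL

theorem ii_e1 (hz : 0 ≤ z) (hβ : 0 ≤ β) (hc : Chi (Real.exp L * (25 * z + 1)) β χ) (hL : 0 ≤ L)
    (R : ℕ) {σ : X → St r} (hσ : Measurable σ) (x : X) (o : St r) :
    IntervalIntegrable (e1 𝓜 χ z R L σ x o) volume 0 L :=
  ii_of_bd ((meas_e1 𝓜 hL R hσ o).comp (measurable_const.prodMk measurable_id)) hL
    fun _ h0 h1 => e1_le 𝓜 hz hβ hc hL R σ x o h0 h1

theorem aa_sub (hz : 0 ≤ z) (hβ : 0 ≤ β) (hc : Chi (Real.exp L * (25 * z + 1)) β χ) (hL : 0 ≤ L)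
    (R : ℕ) {σ : X → St r} (hσ : Measurable σ) (x : X) (o : St r) (τ : ℝ) :
    aa 𝓜 χ z R L σ x o ≤ L * 𝓜.jj χ z R L σ x τ o + e1 𝓜 χ z R L σ x o τ := by
  have i1 : IntervalIntegrable (fun τ' => 𝓜.jj χ z R L σ x τ' o) volume 0 L :=
    ii_of_bd ((𝓜.measurable_jj χ z R L hσ o).comp (measurable_const.prodMk measurable_id)) hL
      fun _ h0 h1 => 𝓜.jj_le hz hβ hc R σ x h0 h1 o
  have i2 : IntervalIntegrable (fun _ : ℝ => 𝓜.jj χ z R L σ x τ o) volume 0 L :=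
    intervalIntegrable_const
  have h := intervalIntegral.integral_mono_on hL i1 (i2.add (i2.sub i1).abs) fun τ' _ => by
    have := neg_abs_le (𝓜.jj χ z R L σ x τ o - 𝓜.jj χ z R L σ x τ' o)
    linarith
  rw [intervalIntegral.integral_add i2 (i2.sub i1).abs, intervalIntegral.integral_const,
    sub_zero, smul_eq_mul] at h
  exact h

omit [NeZero r] in
theorem slab_le (L : ℝ) : 𝓜.net.ν.real (𝓜.net.slab L) ≤ 𝓜.μ.real Set.univ := by
  have := 𝓜.net_real_le 0 L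
  rw [neg_zero, Real.exp_zero, one_mul] at this
  exact this

theorem pot_init' {R : ℕ} (hχ : χ.natDegree ≤ R) (hz : 3 / Real.sqrt r ≤ z) (hβ : 0 ≤ β)
    (hc : Chi (Real.exp L * (25 * z + 1)) β χ) :
    𝓜.net.pot χ z R (sl 0 L fun _ => (St.unc : St r)) ≤ 4 * β * 𝓜.μ.real Set.univ := by
  refine (𝓜.net.pot_init hχ hz hβ hc (𝓜.adm_sl le_rfl le_rfl measurable_const) fun y => ?_).trans
    (mul_le_mul_of_nonneg_left (slab_le 𝓜 L) (by positivity))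
  unfold sl
  split_ifs <;> simp

theorem pot_del' {R : ℕ} (hχ : χ.natDegree ≤ R) (hz : 0 ≤ z) (hβ : 0 ≤ β)
    (hc : Chi (Real.exp L * (25 * z + 1)) β χ) {σ : X → St r} (hσ : Measurable σ) :
    𝓜.net.pot χ z R (sl 0 L (delS {x | σ x = St.unc} σ)) ≤
      𝓜.net.pot χ z R (sl 0 L σ) + 4 * β * 𝓜.μ.real Set.univ := by
  have e : sl 0 L (delS {x | σ x = St.unc} σ) =
      delS {y | sl 0 L σ y = St.unc} (sl 0 L σ) := by
    funext y
    unfold sl delS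
    by_cases h : 0 ≤ y.2 ∧ y.2 ≤ L <;> simp [h]
  rw [e]
  refine (𝓜.net.pot_del_unc hχ hz hβ hc (𝓜.adm_sl le_rfl le_rfl hσ)).trans ?_
  have := mul_le_mul_of_nonneg_left (slab_le 𝓜 L) (by positivity : 0 ≤ 4 * β)
  linarith

theorem pot_fin' {R : ℕ} (hχ : χ.natDegree ≤ R) (hz : 0 ≤ z) (hβ : 0 ≤ β)
    (hc : Chi (Real.exp L * (25 * z + 1)) β χ) {σ : X → St r} (hσ : Measurable σ)
    (h : ∀ x, σ x ≠ St.unc) (ρ : ℕ) (hL : 4 * (ρ * 𝓜.k) ≤ L) :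
    z * Real.exp (-(ρ * 𝓜.k)) / 8 * L * 𝓜.μ.real {x | ∃ η, 26 * z * nsq (ball 𝓜.φ ρ x) η <
      (form (Mc 𝓜.M fun y => (σ y).toOpt) (ball 𝓜.φ ρ x) η).re} ≤
      (words G ρ).card * (𝓜.net.pot χ z R (sl 0 L σ) + 2 * β * 𝓜.μ.real Set.univ) := by
  refine 𝓜.pot_final hχ hz hβ hc hσ h ρ hL ?_ fun x hx => hx
  have hm := (𝓜.toKern.measurableSet_good' ρ (26 * z) (c := fun y => (σ y).toOpt)
    fun o => hσ (t := {a | St.toOpt a = o}) trivial).compl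
  convert hm using 1
  ext x
  simp

theorem ion_aa (hz : 0 ≤ z) (hβ : 0 ≤ β) (hc : Chi (Real.exp L * (25 * z + 1)) β χ) (hL : 0 ≤ L)
    (R : ℕ) {σ σ' : X → St r} (hσ : Measurable σ) (hσ' : Measurable σ') (V : Set X) :
    IntegrableOn (fun x => aa 𝓜 χ z R L σ x (σ' x)) V 𝓜.μ := by
  have := 𝓜.fin
  exact Measure.integrableOn_of_bounded (measure_ne_top _ _)
    (meas_sel (meas_aa 𝓜 hL R hσ) hσ').aestronglyMeasurable
    (Filter.Eventually.of_forall fun x => aa_le 𝓜 hz hβ hc hL R σ x _)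

theorem ion_e2 (hz : 0 ≤ z) (hβ : 0 ≤ β) (hc : Chi (Real.exp L * (25 * z + 1)) β χ) (hL : 0 ≤ L)
    (R : ℕ) {σ : X → St r} (hσ : Measurable σ) (o : St r) (V : Set X) :
    IntegrableOn (fun x => e2 𝓜 χ z R L σ x o) V 𝓜.μ := by
  have := 𝓜.fin
  exact Measure.integrableOn_of_bounded (measure_ne_top _ _)
    (meas_e2 𝓜 hL R hσ o).aestronglyMeasurable
    (Filter.Eventually.of_forall fun x => e2_le 𝓜 hz hβ hc hL R σ x _)

end PotiAux

set_option maxHeartbeats 1000000 in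
/-- `c = z exp (-ρ k) / (8 #words)`. Given `β` choose `β'` small, then `s₀, CT` (`exists_par`),
then `L ≥ 1` large, and put `𝓟 σ = L⁻¹ (pot + pot of neg)` at `sl 0 L σ`,
`J σ x o = L⁻¹ ∫₀^L jb`, `err σ x = ∑ o, L⁻¹ L⁻¹ ∫₀^L ∫₀^L |jb τ o - jb τ' o|`, radius `4 R`.
`step`: there is `τ₀ ∈ [0, L]` with `∑ o, L⁻¹ ∫ |jb τ o - jb τ₀ o| dτ ≤ err`; apply `jb_step` at
`τ₀`. `final`: `{¬ Good}` is covered by `A₊ = {x | ¬ ∀ η, Re form ≤ 26 z nsq}` and the same set for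
`𝓜.neg` (`Kern.not_good`, `Kern.measurableSet_good'`); `Model.pot_final` twice. -/
theorem Model.poti [NeZero r] (𝓜 : Model G X) (ρ : ℕ) {z : ℝ} (hz : 3 / Real.sqrt r ≤ z) :
    ∃ c : ℝ, 0 < c ∧ ∀ β : ℝ, 0 < β → ∃ (R : ℕ) (CJ : ℝ) (𝓟 : (X → St r) → ℝ)
      (J : (X → St r) → X → St r → ℝ) (err : (X → St r) → X → ℝ),
      Poti 𝓜 r ρ z c β R CJ 𝓟 J err := by
  have := 𝓜.fin
  have hr : (0 : ℝ) < r := by exact_mod_cast NeZero.pos r
  have hz0 : 0 < z := lt_of_lt_of_le (by positivity) hz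
  have hW : (0 : ℝ) < (words G ρ).card := by
    have : (words G ρ).Nonempty := ⟨[], mem_words.2 (Nat.zero_le _)⟩
    exact_mod_cast this.card_pos
  refine ⟨z * Real.exp (-(ρ * 𝓜.k)) / (8 * (words G ρ).card), by positivity, fun β hβ => ?_⟩
  set m := 𝓜.μ.real Set.univ with hm
  have hm0 : 0 ≤ m := measureReal_nonneg
  set n : ℝ := (Fintype.card (St r) : ℝ) with hn
  have hn0 : 0 ≤ n := Nat.cast_nonneg _
  obtain ⟨β', hβ', hb1, hb2, hb3⟩ : ∃ β' : ℝ, 0 < β' ∧ 9 * β' ≤ β ∧ 8 * β' * m ≤ β ∧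
      96 * n * m * β' ≤ β := by
    have hd : 0 < 100 * (n + 1) * (m + 1) := by positivity
    have e : β / (100 * (n + 1) * (m + 1)) * (100 * (n + 1) * (m + 1)) = β := by field_simp
    have hq : 0 < β / (100 * (n + 1) * (m + 1)) := by positivity
    refine ⟨β / (100 * (n + 1) * (m + 1)), hq, ?_, ?_, ?_⟩
    all_goals
      set q := β / (100 * (n + 1) * (m + 1))
      nlinarith [mul_nonneg hn0 hm0, mul_nonneg hq.le hn0, mul_nonneg hq.le hm0,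
        mul_nonneg hq.le (mul_nonneg hn0 hm0)]
  obtain ⟨s₀, CT, hs₀, hCT, hpar⟩ := exists_par (X × ℝ) r (K := Real.exp 𝓜.k)
    (Real.one_le_exp 𝓜.k_nonneg) hz0.le hβ'
  set B := 5 * Real.exp 𝓜.k + 4 * β' with hB
  have hB0 : 0 ≤ B := by positivity
  have hk : 0 ≤ ρ * 𝓜.k := mul_nonneg (Nat.cast_nonneg _) 𝓜.k_nonneg
  obtain ⟨L, hL1, hL2, hL3, hL4⟩ : ∃ L : ℝ, 1 ≤ L ∧ s₀ ≤ L ∧ 4 * (ρ * 𝓜.k) ≤ L ∧
      2 * n * m * (20 * CT + 8 * s₀ * B) ≤ β * L := by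
    have hq : 0 ≤ 2 * n * m * (20 * CT + 8 * s₀ * B) / β := by positivity
    refine ⟨1 + s₀ + 4 * (ρ * 𝓜.k) + 2 * n * m * (20 * CT + 8 * s₀ * B) / β, by linarith,
      by linarith, by linarith, ?_⟩
    have e : β * (2 * n * m * (20 * CT + 8 * s₀ * B) / β) = 2 * n * m * (20 * CT + 8 * s₀ * B) := by
      field_simp
    nlinarith
  have hL0 : 0 < L := by linarith
  have hLi : 0 < L⁻¹ := inv_pos.2 hL0
  have hLi1 : L⁻¹ ≤ 1 := inv_le_one_of_one_le₀ hL1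
  have hLL : L⁻¹ * L = 1 := inv_mul_cancel₀ hL0.ne'
  obtain ⟨R, χ, χt, ct, hP⟩ := hpar L hL0.le
  have hc := hP.chi
  refine ⟨4 * R, 2 * B + 4 * n * B,
    fun σ => L⁻¹ * (𝓜.net.pot χ z R (sl 0 L σ) + 𝓜.neg.net.pot χ z R (sl 0 L σ)),
    fun σ x o => L⁻¹ * (aa 𝓜 χ z R L σ x o + aa 𝓜.neg χ z R L σ x o),
    fun σ x => L⁻¹ * (L⁻¹ * ∑ o, (e2 𝓜 χ z R L σ x o + e2 𝓜.neg χ z R L σ x o)),
    ?_, ?_, ?_, ?_, ?_, ?_, ?_, ?_, ?_, ?_, ?_, ?_⟩
  · intro σ σ' x h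
    have h' : ∀ y ∈ ball 𝓜.φ R x, σ y = σ' y := fun y hy => h y (ball_mono _ (by omega) x hy)
    funext o
    unfold aa
    rw [𝓜.jj_loc χ z R L h', 𝓜.neg.jj_loc χ z R L h']
  · intro σ hσ o
    exact ((meas_aa 𝓜 hL0.le R hσ o).add (meas_aa 𝓜.neg hL0.le R hσ o)).const_mul _
  · intro σ x o
    have a1 := aa_le 𝓜 hz0.le hβ'.le hc hL0.le R σ x o
    have a2 : _ ≤ B * L := aa_le 𝓜.neg hz0.le hβ'.le hc hL0.le R σ x o
    rw [abs_mul, abs_of_pos hLi, inv_mul_le_iff₀ hL0]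
    refine (abs_add_le _ _).trans ?_
    have : 0 ≤ L * (4 * n * B) := by positivity
    nlinarith
  · intro σ hσ
    exact ((Finset.measurable_fun_sum _ fun o _ =>
      (meas_e2 𝓜 hL0.le R hσ o).add (meas_e2 𝓜.neg hL0.le R hσ o)).const_mul _).const_mul _
  · intro σ x
    exact mul_nonneg hLi.le (mul_nonneg hLi.le (Finset.sum_nonneg fun o _ =>
      add_nonneg (e2_nonneg 𝓜 hL0.le R σ x o) (e2_nonneg 𝓜.neg hL0.le R σ x o)))
  · intro σ x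
    have h1 : ∑ o, (e2 𝓜 χ z R L σ x o + e2 𝓜.neg χ z R L σ x o) ≤ ∑ _o : St r, 4 * B * L * L := by
      refine Finset.sum_le_sum fun o _ => ?_
      have a1 := (abs_le.1 (e2_le 𝓜 hz0.le hβ'.le hc hL0.le R σ x o)).2
      have a2 : _ ≤ 2 * B * L * L := (abs_le.1 (e2_le 𝓜.neg hz0.le hβ'.le hc hL0.le R σ x o)).2
      linarith
    rw [Finset.sum_const, Finset.card_univ, nsmul_eq_mul] at h1
    show L⁻¹ * (L⁻¹ * _) ≤ _
    rw [inv_mul_le_iff₀ hL0, inv_mul_le_iff₀ hL0]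
    have : 0 ≤ L * (L * (2 * B)) := by positivity
    nlinarith
  · intro σ σ' V hσ hσ' hV hsep h
    have h1 := 𝓜.pot_change hP.deg hz0.le hL0.le hσ hσ' hV hsep h
    have h2 := 𝓜.neg.pot_change hP.deg hz0.le hL0.le hσ hσ' hV hsep h
    have i2 : IntegrableOn _ V 𝓜.μ := ion_aa 𝓜.neg hz0.le hβ'.le hc hL0.le R hσ hσ' V
    rw [integral_const_mul, integral_add (ion_aa 𝓜 hz0.le hβ'.le hc hL0.le R hσ hσ' V) i2]
    have h1' : _ = ∫ x in V, aa 𝓜 χ z R L σ x (σ' x) ∂𝓜.μ := h1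
    have h2' : _ = ∫ x in V, aa 𝓜.neg χ z R L σ x (σ' x) ∂𝓜.μ := h2
    rw [← h1', ← h2']
    ring
  · intro σ x hσ hx
    have i1 := fun o => (ii_e1 𝓜 hz0.le hβ'.le hc hL0.le R hσ x o).add
      (ii_e1 𝓜.neg hz0.le hβ'.le hc hL0.le R hσ x o)
    obtain ⟨τ, t0, t1, hτ⟩ := exists_le_avg hL0 (f := fun τ => ∑ o,
      (e1 𝓜 χ z R L σ x o τ + e1 𝓜.neg χ z R L σ x o τ)) (by
        have := IntervalIntegrable.sum Finset.univ fun o _ => i1 o
        have e : (fun τ => ∑ o, (e1 𝓜 χ z R L σ x o τ + e1 𝓜.neg χ z R L σ x o τ)) =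
            ∑ o, fun τ => (e1 𝓜 χ z R L σ x o τ + e1 𝓜.neg χ z R L σ x o τ) := by
          funext τ
          rw [Finset.sum_apply]
        rw [e]
        exact this)
    rw [intervalIntegral.integral_finsetSum fun o _ => i1 o] at hτ
    have e : ∀ o, ∫ τ in (0 : ℝ)..L, (e1 𝓜 χ z R L σ x o τ + e1 𝓜.neg χ z R L σ x o τ) =
        e2 𝓜 χ z R L σ x o + e2 𝓜.neg χ z R L σ x o := fun o =>
      intervalIntegral.integral_add (ii_e1 𝓜 hz0.le hβ'.le hc hL0.le R hσ x o)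
        (ii_e1 𝓜.neg hz0.le hβ'.le hc hL0.le R hσ x o)
    simp only [e] at hτ
    set E := L⁻¹ * (L⁻¹ * ∑ o, (e2 𝓜 χ z R L σ x o + e2 𝓜.neg χ z R L σ x o)) with hE
    have key : ∀ o, L⁻¹ * (aa 𝓜 χ z R L σ x o + aa 𝓜.neg χ z R L σ x o) ≤
        𝓜.jb χ z R L σ x τ o + E := by
      intro o
      have a1 := aa_sub 𝓜 hz0.le hβ'.le hc hL0.le R hσ x o τ
      have a2 := aa_sub 𝓜.neg hz0.le hβ'.le hc hL0.le R hσ x o τ
      have a3 := Finset.single_le_sum (f := fun o => e1 𝓜 χ z R L σ x o τ + e1 𝓜.neg χ z R L σ x o τ)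
        (fun o _ => add_nonneg (e1_nonneg 𝓜 hL0.le R σ x o τ) (e1_nonneg 𝓜.neg hL0.le R σ x o τ))
        (Finset.mem_univ o)
      have a4 : L * E = L⁻¹ * ∑ o, (e2 𝓜 χ z R L σ x o + e2 𝓜.neg χ z R L σ x o) := by
        rw [hE, ← mul_assoc, mul_inv_cancel₀ hL0.ne', one_mul]
      rw [inv_mul_le_iff₀ hL0, mul_add, a4, Model.jb]
      linarith
    rcases 𝓜.jb_step hz0 hβ' hc R hx t0 t1 with h | ⟨f, h⟩
    · left
      have := key St.del
      linarith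
    · right
      refine ⟨f, (R124.av_mono fun l => key (St.col (f l))).trans ?_⟩
      have : Nonempty (Lab r) := ⟨⟨0, by have := NeZero.pos r; omega⟩⟩
      rw [R124.av_add, R124.av_const]
      linarith
  · intro σ hσ
    have i2 : ∀ o, IntegrableOn _ {x | σ x = St.unc} 𝓜.μ := fun o =>
      ion_e2 𝓜.neg hz0.le hβ'.le hc hL0.le R hσ o _
    have i1 := fun o => ion_e2 𝓜 hz0.le hβ'.le hc hL0.le R hσ o {x | σ x = St.unc}
    rw [integral_const_mul, integral_const_mul,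
      integral_finsetSum (f := fun o x => e2 𝓜 χ z R L σ x o + e2 𝓜.neg χ z R L σ x o) _
        fun o _ => (i1 o).add (i2 o)]
    have h1 : ∑ o, ∫ x in {x | σ x = St.unc}, (e2 𝓜 χ z R L σ x o + e2 𝓜.neg χ z R L σ x o) ∂𝓜.μ ≤
        ∑ _o : St r, 2 * ((2 * L * (12 * β' * L + 5 * CT) + 4 * s₀ * L * B) * m) := by
      refine Finset.sum_le_sum fun o _ => ?_
      rw [integral_add (i1 o) (i2 o)]
      have a1 : ∫ x in {x | σ x = St.unc}, e2 𝓜 χ z R L σ x o ∂𝓜.μ ≤ _ :=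
        𝓜.int_pair hz0.le hβ'.le hs₀ hCT hL2 hP hσ o
      have a2 : ∫ x in {x | σ x = St.unc}, e2 𝓜.neg χ z R L σ x o ∂𝓜.μ ≤
          (2 * L * (12 * β' * L + 5 * CT) + 4 * s₀ * L * B) * m :=
        𝓜.neg.int_pair hz0.le hβ'.le hs₀ hCT hL2 hP hσ o
      linarith
    rw [Finset.sum_const, Finset.card_univ, nsmul_eq_mul] at h1
    rw [inv_mul_le_iff₀ hL0, inv_mul_le_iff₀ hL0]
    refine h1.trans ?_
    have a3 := mul_le_mul_of_nonneg_left hb3 (mul_pos hL0 hL0).le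
    have a4 := mul_le_mul_of_nonneg_left hL4 hL0.le
    nlinarith
  · have a1 := pot_init' (r := r) 𝓜 hP.deg hz hβ'.le hc
    have a2 : _ ≤ 4 * β' * m := pot_init' (r := r) 𝓜.neg hP.deg hz hβ'.le hc
    show L⁻¹ * _ ≤ β
    rw [inv_mul_le_iff₀ hL0]
    nlinarith
  · intro σ hσ h
    have a1 := pot_fin' 𝓜 hP.deg hz0.le hβ'.le hc hσ h ρ hL3
    have a2 := pot_fin' 𝓜.neg hP.deg hz0.le hβ'.le hc hσ h ρ hL3
    set A1 := {x | ∃ η, 26 * z * nsq (ball 𝓜.φ ρ x) η <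
      (form (Mc 𝓜.M fun y => (σ y).toOpt) (ball 𝓜.φ ρ x) η).re}
    set A2 := {x | ∃ η, 26 * z * nsq (ball 𝓜.neg.φ ρ x) η <
      (form (Mc 𝓜.neg.M fun y => (σ y).toOpt) (ball 𝓜.neg.φ ρ x) η).re}
    have a2' : z * Real.exp (-(ρ * 𝓜.k)) / 8 * L * 𝓜.μ.real A2 ≤
      (words G ρ).card * (𝓜.neg.net.pot χ z R (sl 0 L σ) + 2 * β' * m) := a2
    have h3 : 𝓜.μ.real {x | ¬ Good 𝓜.toKern ρ (26 * z) (fun y => (σ y).toOpt) x} ≤
        𝓜.μ.real A1 + 𝓜.μ.real A2 :=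
      (measureReal_mono (fun x hx => 𝓜.toKern.not_good hx)).trans (measureReal_union_le _ _)
    show _ ≤ L⁻¹ * _
    rw [le_inv_mul_iff₀ hL0]
    set W : ℝ := ((words G ρ).card : ℝ)
    set c := z * Real.exp (-(ρ * 𝓜.k)) / (8 * W) with hc'
    have hc0 : 0 < c := by positivity
    have e : z * Real.exp (-(ρ * 𝓜.k)) / 8 = W * c := by rw [hc']; field_simp
    rw [e, mul_assoc, mul_assoc] at a1 a2'
    have b1 := le_of_mul_le_mul_left a1 hW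
    have b2 := le_of_mul_le_mul_left a2' hW
    have b3 := mul_le_mul_of_nonneg_left h3 (mul_pos hL0 hc0).le
    have b4 : 0 ≤ β' * m := by positivity
    nlinarith
  · intro σ hσ
    have a1 := pot_del' 𝓜 hP.deg hz0.le hβ'.le hc hσ
    have a2 : _ ≤ _ + 4 * β' * m := pot_del' 𝓜.neg hP.deg hz0.le hβ'.le hc hσ
    show L⁻¹ * _ ≤ L⁻¹ * _ + β
    have b1 := mul_le_mul_of_nonneg_left (add_le_add a1 a2) hLi.le
    have b2 : L⁻¹ * (8 * β' * m) ≤ 8 * β' * m := mul_le_of_le_one_left (by positivity) hLi1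
    nlinarith

end Crest.Agent.R109
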