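import Crest.Agent.R109.Frac

/-! Task 109-INT: interlacing, layer-cake formula, Boole's identity. -/

set_option autoImplicit false

open Polynomial

namespace Crest.Agent.R109

/-- `P = g Q` with `g = t + c - ∑ ν p / (t - p)`. -/
def Rel (P Q : ℂ[X]) (S : Finset ℝ) (ν : ℝ → ℝ) (c : ℝ) : Prop :=
  ∀ t : ℂ, Q.eval t ≠ 0 → P.eval t = gC S ν c t * Q.eval t

/-- The numerator of `g`. -/
noncomputable def IntAux.NN (S : Finset ℝ) (ν : ℝ → ℝ) (c : ℝ) : ℂ[X] :=
  (X + C (c : ℂ)) * ∏ p ∈ S, (X - C (p : ℂ)) -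
    ∑ p ∈ S, C (ν p : ℂ) * ∏ q ∈ S.erase p, (X - C (q : ℂ))

open IntAux

theorem IntAux.NN_eval' (S : Finset ℝ) (ν : ℝ → ℝ) (c : ℝ) (t : ℂ) :
    (NN S ν c).eval t = (t + c) * ∏ p ∈ S, (t - p) -
      ∑ p ∈ S, (ν p : ℂ) * ∏ q ∈ S.erase p, (t - q) := by
  simp [NN, eval_prod, eval_finsetSum]

theorem IntAux.NN_eval (S : Finset ℝ) (ν : ℝ → ℝ) (c : ℝ) {t : ℂ} (ht : ∀ p ∈ S, t - p ≠ 0) :
    (NN S ν c).eval t = gC S ν c t * ∏ p ∈ S, (t - p) := by
  rw [NN_eval', gC, sub_mul, Finset.sum_mul]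
  congr 1
  refine Finset.sum_congr rfl fun p hp => ?_
  rw [← Finset.mul_prod_erase S (fun q : ℝ => t - (q : ℂ)) hp]
  have := ht p hp
  field_simp

theorem IntAux.rr_prod (S : Finset ℝ) : RR (∏ p ∈ S, (X - C (p : ℂ))) S.val := rfl

/-- `Q = ∏ (X - p)`, `P = (X + c) Q - ∑ ν p ∏_{p' ≠ p} (X - p')`. -/
theorem exists_rel (S : Finset ℝ) (ν : ℝ → ℝ) (c : ℝ) :
    ∃ P Q : ℂ[X], RR Q S.val ∧ Rel P Q S ν c := by
  refine ⟨NN S ν c, _, rr_prod S, fun t ht => ?_⟩
  rw [eval_prod] at ht ⊢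
  simp only [eval_sub, eval_X, eval_C] at ht ⊢
  exact NN_eval S ν c fun p hp => Finset.prod_ne_zero_iff.1 ht p hp

theorem RR.coeff_pred {P : ℂ[X]} {l : Multiset ℝ} (h : RR P l) {n : ℕ}
    (hn : Multiset.card l = n + 1) : P.coeff n = -((l.sum : ℝ) : ℂ) := by
  have h1 := multiset_prod_X_sub_C_coeff_card_pred (l.map fun x : ℝ => (x : ℂ)) (by simp [hn])
  rw [Multiset.map_map, Multiset.card_map, hn] at h1
  rw [h]
  simp only [Nat.add_sub_cancel, Function.comp_def] at h1
  rw [h1]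
  congr 1
  exact (map_multiset_sum Complex.ofRealHom l).symm

theorem IntAux.NN_facts (S : Finset ℝ) (ν : ℝ → ℝ) (c : ℝ) :
    (NN S ν c).Monic ∧ (NN S ν c).natDegree = S.card + 1 ∧
      (NN S ν c).coeff S.card = -((S.val.sum - c : ℝ) : ℂ) := by
  have hA : RR ((X + C (c : ℂ)) * ∏ p ∈ S, (X - C (p : ℂ))) ((-c) ::ₘ S.val) := by
    unfold RR
    rw [Multiset.map_cons, Multiset.prod_cons]
    simp only [Complex.ofReal_neg, map_neg, sub_neg_eq_add]
    rfl
  have hB : (∑ p ∈ S, C (ν p : ℂ) * ∏ q ∈ S.erase p, (X - C (q : ℂ))).degree < S.card := by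
    refine (degree_sum_le _ _).trans_lt ?_
    rw [Finset.sup_lt_iff (by exact WithBot.bot_lt_coe _)]
    intro p hp
    refine (degree_mul_le _ _).trans_lt ?_
    have h1 := (rr_prod (S.erase p)).monic
    rw [degree_eq_natDegree h1.1.ne_zero, h1.2]
    have h2 : (C (ν p : ℂ)).degree ≤ 0 := degree_C_le
    have h3 : (S.erase p).card < S.card := Finset.card_erase_lt_of_mem hp
    calc (C (ν p : ℂ)).degree + ((Multiset.card (S.erase p).val : ℕ) : WithBot ℕ)
        ≤ 0 + ((Multiset.card (S.erase p).val : ℕ) : WithBot ℕ) := by gcongr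
      _ < S.card := by
        rw [zero_add]
        exact_mod_cast h3
  have hA1 := hA.monic
  have hdeg : ((X + C (c : ℂ)) * ∏ p ∈ S, (X - C (p : ℂ))).degree =
      ((S.card + 1 : ℕ) : WithBot ℕ) := by
    rw [degree_eq_natDegree hA1.1.ne_zero, hA1.2]
    simp
  have hlt : (∑ p ∈ S, C (ν p : ℂ) * ∏ q ∈ S.erase p, (X - C (q : ℂ))).degree <
      ((X + C (c : ℂ)) * ∏ p ∈ S, (X - C (p : ℂ))).degree := by
    rw [hdeg]
    exact hB.trans (by exact_mod_cast Nat.lt_succ_self _)
  refine ⟨hA1.1.sub_of_left hlt, ?_, ?_⟩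
  · apply natDegree_eq_of_degree_eq_some
    rw [NN, degree_sub_eq_left_of_degree_lt hlt, hdeg]
  · rw [NN, coeff_sub, coeff_eq_zero_of_degree_lt hB, sub_zero, hA.coeff_pred (n := S.card) (by simp)]
    simp only [Multiset.sum_cons]
    push_cast
    ring

theorem IntAux.gC_im (S : Finset ℝ) (ν : ℝ → ℝ) (c : ℝ) (t : ℂ) :
    (gC S ν c t).im = t.im * (1 + ∑ p ∈ S, ν p / Complex.normSq (t - p)) := by
  simp only [gC, Complex.sub_im, Complex.add_im, Complex.ofReal_im, add_zero, Complex.im_sum,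
    mul_add, mul_one, Finset.mul_sum]
  rw [sub_eq_add_neg, ← Finset.sum_neg_distrib]
  congr 1
  refine Finset.sum_congr rfl fun p _ => ?_
  rw [Complex.div_im]
  simp
  ring

theorem IntAux.NN_rr (S : Finset ℝ) {ν : ℝ → ℝ} (hν : ∀ p, 0 ≤ ν p) (c : ℝ) :
    ∃ l : Multiset ℝ, RR (NN S ν c) l := by
  refine rr_of_ne (NN_facts S ν c).1 fun t ht => ?_
  have h1 : ∀ p ∈ S, t - p ≠ 0 := fun p _ h => ht (by simpa using congrArg Complex.im h)
  rw [NN_eval S ν c h1]
  refine mul_ne_zero (fun h => ?_) (Finset.prod_ne_zero_iff.2 h1)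
  have h2 := gC_im S ν c t
  rw [h] at h2
  have h3 : 0 ≤ ∑ p ∈ S, ν p / Complex.normSq (t - p) :=
    Finset.sum_nonneg fun p _ => div_nonneg (hν p) (Complex.normSq_nonneg _)
  exact mul_ne_zero ht (by linarith) h2.symm

theorem IntAux.cnt_add (l m : Multiset ℝ) (t : ℝ) : cnt (l + m) t = cnt l t + cnt m t := by
  simp [cnt]

theorem IntAux.cnt_cons (a : ℝ) (l : Multiset ℝ) (t : ℝ) :
    cnt (a ::ₘ l) t = cnt l t + if t < a then 1 else 0 := by
  unfold cnt
  rw [Multiset.filter_cons]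
  split_ifs <;> simp [add_comm]

theorem IntAux.cnt_val (S : Finset ℝ) (t : ℝ) : cnt S.val t = (S.filter fun x => t < x).card := rfl

theorem IntAux.cnt_anti (l : Multiset ℝ) : Antitone (cnt l) := fun _ _ hab =>
  Multiset.card_le_card (Multiset.monotone_filter_right l fun _ hx => hab.trans_lt hx)

theorem IntAux.cnt_le (l : Multiset ℝ) (t : ℝ) : cnt l t ≤ Multiset.card l :=
  Multiset.card_le_card (Multiset.filter_le _ _)

theorem IntAux.sign_prod (l : Multiset ℝ) {x : ℝ} (hx : x ∉ l) :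
    0 < (-1) ^ cnt l x * (l.map fun a => x - a).prod := by
  induction l using Multiset.induction_on with
  | empty => simp [cnt]
  | cons a l ih =>
    rw [Multiset.mem_cons, not_or] at hx
    have ih := ih hx.2
    rw [cnt_cons, Multiset.map_cons, Multiset.prod_cons, pow_add]
    split_ifs with h
    · have : 0 < a - x := by linarith
      have := mul_pos this ih
      linarith [this, show (-1) ^ cnt l x * (-1 : ℝ) ^ 1 * ((x - a) * (l.map fun a => x - a).prod) =
        (a - x) * ((-1) ^ cnt l x * (l.map fun a => x - a).prod) by ring]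
    · have : 0 < x - a := by
        rcases lt_or_gt_of_ne hx.1 with h' | h'
        · exact absurd h' h
        · linarith
      have := mul_pos this ih
      linarith [this, show (-1) ^ cnt l x * (-1 : ℝ) ^ 0 * ((x - a) * (l.map fun a => x - a).prod) =
        (x - a) * ((-1) ^ cnt l x * (l.map fun a => x - a).prod) by ring]

theorem IntAux.comb (S : Finset ℝ) {f : ℝ → ℕ} (hf : Antitone f) (hle : ∀ x, f x ≤ S.card + 1)
    (hpar : ∀ p ∈ S, Odd (f p + cnt S.val p)) (t : ℝ) :
    cnt S.val t ≤ f t ∧ (t ∉ S → f t ≤ cnt S.val t + 1) := by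
  classical
  have hlow : ∀ k, ∀ t, cnt S.val t = k → k ≤ f t := by
    intro k
    induction k with
    | zero => intro t _; exact Nat.zero_le _
    | succ k ih =>
      intro t ht
      rw [cnt_val] at ht
      have hne : (S.filter fun x => t < x).Nonempty := Finset.card_pos.1 (by omega)
      set p := (S.filter fun x => t < x).min' hne with hp
      have hpm := Finset.min'_mem _ hne
      rw [← hp] at hpm
      have hpm' := Finset.mem_filter.1 hpm
      have he : (S.filter fun x => p < x) = (S.filter fun x => t < x).erase p := by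
        ext x
        simp only [Finset.mem_filter, Finset.mem_erase]
        constructor
        · rintro ⟨h1, h2⟩
          exact ⟨h2.ne', h1, hpm'.2.trans h2⟩
        · rintro ⟨h1, h2, h3⟩
          exact ⟨h2, lt_of_le_of_ne (Finset.min'_le _ x (Finset.mem_filter.2 ⟨h2, h3⟩)) (Ne.symm h1)⟩
      have hk : cnt S.val p = k := by
        rw [cnt_val, he, Finset.card_erase_of_mem hpm, ht]
        rfl
      have h1 := ih p hk
      have h2 := hpar p hpm'.1
      have h3 := hf hpm'.2.le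
      rw [hk, Nat.odd_iff] at h2
      omega
  have hsplit : ∀ x, cnt S.val x + (S.filter fun y => y < x).card + (if x ∈ S then 1 else 0) =
      S.card := by
    intro x
    rw [cnt_val]
    have h1 := Finset.card_filter_add_card_filter_not (s := S) (fun y => x < y)
    have h2 := Finset.card_filter_add_card_filter_not (s := S.filter fun y => ¬ x < y)
      (fun y => y < x)
    have h3 : ((S.filter fun y => ¬ x < y).filter fun y => y < x) = S.filter fun y => y < x := by
      ext y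
      simp only [Finset.mem_filter]
      constructor
      · rintro ⟨⟨h1, _⟩, h2⟩
        exact ⟨h1, h2⟩
      · rintro ⟨h1, h2⟩
        exact ⟨⟨h1, not_lt.2 h2.le⟩, h2⟩
    have h4 : ((S.filter fun y => ¬ x < y).filter fun y => ¬ y < x) = S.filter fun y => y = x := by
      ext y
      simp only [Finset.mem_filter, not_lt]
      constructor
      · rintro ⟨⟨h1, h2⟩, h3⟩
        exact ⟨h1, le_antisymm h2 h3⟩
      · rintro ⟨h1, h2⟩
        exact ⟨⟨h1, h2.le⟩, h2.ge⟩
    rw [h3, h4, Finset.filter_eq'] at h2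
    split_ifs at h2 ⊢ with h
    · simp only [Finset.card_singleton] at h2
      omega
    · simp only [Finset.card_empty] at h2
      omega
  have hup : ∀ k, ∀ t, (S.filter fun y => y < t).card = k → f t + k ≤ S.card + 1 := by
    intro k
    induction k with
    | zero => intro t _; exact hle t
    | succ k ih =>
      intro t ht
      have hne : (S.filter fun x => x < t).Nonempty := Finset.card_pos.1 (by omega)
      set p := (S.filter fun x => x < t).max' hne with hp
      have hpm := Finset.max'_mem _ hne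
      rw [← hp] at hpm
      have hpm' := Finset.mem_filter.1 hpm
      have he : (S.filter fun x => x < p) = (S.filter fun x => x < t).erase p := by
        ext x
        simp only [Finset.mem_filter, Finset.mem_erase]
        constructor
        · rintro ⟨h1, h2⟩
          exact ⟨h2.ne, h1, h2.trans hpm'.2⟩
        · rintro ⟨h1, h2, h3⟩
          exact ⟨h2, lt_of_le_of_ne (Finset.le_max' _ x (Finset.mem_filter.2 ⟨h2, h3⟩)) h1⟩
      have hk : (S.filter fun x => x < p).card = k := by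
        rw [he, Finset.card_erase_of_mem hpm, ht]
        rfl
      have h1 := ih p hk
      have h2 := hpar p hpm'.1
      have h3 := hf hpm'.2.le
      have h4 := hsplit p
      rw [if_pos hpm'.1, hk] at h4
      rw [Nat.odd_iff] at h2
      omega
  refine ⟨hlow _ t rfl, fun ht => ?_⟩
  have h1 := hup _ t rfl
  have h2 := hsplit t
  rw [if_neg ht] at h2
  omega

theorem IntAux.NN_real {S : Finset ℝ} {ν : ℝ → ℝ} {c : ℝ} {l : Multiset ℝ} (h : RR (NN S ν c) l) (x : ℝ) :
    (l.map fun a => x - a).prod =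
      (x + c) * ∏ p ∈ S, (x - p) - ∑ p ∈ S, ν p * ∏ q ∈ S.erase p, (x - q) := by
  have h1 := h.eval x
  rw [NN_eval'] at h1
  apply Complex.ofReal_injective
  push_cast
  rw [h1]
  have := map_multiset_prod Complex.ofRealHom (l.map fun a => x - a)
  simp only [Complex.ofRealHom_eq_coe, Multiset.map_map, Function.comp_def, Complex.ofReal_sub] at this
  exact this

theorem IntAux.odd_of_neg {a : ℕ} {x : ℝ} (h : 0 < (-1) ^ a * x) (hx : x < 0) : Odd a := by
  rcases Nat.even_or_odd a with h' | h'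
  · rw [h'.neg_one_pow] at h
    linarith
  · exact h'

theorem IntAux.even_of_pos {a : ℕ} {x : ℝ} (h : 0 < (-1) ^ a * x) (hx : 0 < x) : Even a := by
  rcases Nat.even_or_odd a with h' | h'
  · exact h'
  · rw [h'.neg_one_pow] at h
    linarith

theorem IntAux.NN_cnt {S : Finset ℝ} {ν : ℝ → ℝ} (hν : ∀ p ∈ S, 0 < ν p) {c : ℝ} {l : Multiset ℝ}
    (h : RR (NN S ν c) l) {t : ℝ} (ht : t ∉ S) (ht' : t ∉ l) :
    (cnt l t : ℝ) = cnt S.val t + xi (gR S ν c) t := by
  classical
  have hcard : Multiset.card l = S.card + 1 := h.monic.2.symm.trans (NN_facts S ν c).2.1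
  have hpar : ∀ p ∈ S, Odd (cnt l p + cnt S.val p) := by
    intro p hp
    have h1 := NN_real h p
    have h2 : ∏ q ∈ S, (p - q) = 0 := Finset.prod_eq_zero hp (sub_self p)
    have h3 : ∑ p' ∈ S, ν p' * ∏ q ∈ S.erase p', (p - q) = ν p * ∏ q ∈ S.erase p, (p - q) := by
      refine Finset.sum_eq_single p (fun p' _ hne => ?_) (fun h => absurd hp h)
      rw [Finset.prod_eq_zero (Finset.mem_erase.2 ⟨hne.symm, hp⟩) (sub_self p), mul_zero]
    rw [h2, h3] at h1
    have h4 := sign_prod (S.erase p).val (x := p) (Finset.notMem_erase p S)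
    have h5 : cnt (S.erase p).val p = cnt S.val p := by
      rw [cnt_val, cnt_val]
      congr 1
      ext x
      simp only [Finset.mem_filter, Finset.mem_erase]
      exact ⟨fun h => ⟨h.1.2, h.2⟩, fun h => ⟨⟨h.2.ne', h.1⟩, h.2⟩⟩
    rw [h5] at h4
    change 0 < (-1) ^ cnt S.val p * ∏ q ∈ S.erase p, (p - q) at h4
    have hne : ∏ q ∈ S.erase p, (p - q) ≠ 0 := fun h => by simp [h] at h4
    have hpl : p ∉ l := by
      intro hpl
      have : (l.map fun a => p - a).prod = 0 :=
        Multiset.prod_eq_zero (Multiset.mem_map.2 ⟨p, hpl, sub_self p⟩)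
      rw [this] at h1
      have := mul_ne_zero (hν p hp).ne' hne
      apply this
      linarith
    have h6 := sign_prod l hpl
    rw [h1] at h6
    have h7 := mul_pos h6 h4
    refine odd_of_neg (x := -(ν p * (∏ q ∈ S.erase p, (p - q)) ^ 2)) ?_ ?_
    · rw [pow_add]
      linarith [h7, show (-1) ^ cnt l p * ((p + c) * 0 - ν p * ∏ q ∈ S.erase p, (p - q)) *
        ((-1) ^ cnt S.val p * ∏ q ∈ S.erase p, (p - q)) =
        (-1) ^ cnt l p * (-1) ^ cnt S.val p * -(ν p * (∏ q ∈ S.erase p, (p - q)) ^ 2) by ring]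
    · have := mul_pos (hν p hp) (pow_pos (abs_pos.2 hne) 2)
      rw [sq_abs] at this
      linarith
  obtain ⟨h1, h2⟩ := comb S (cnt_anti l) (fun x => hcard ▸ cnt_le l x) hpar t
  have h2 := h2 ht
  have h3 : (l.map fun a => t - a).prod = gR S ν c t * ∏ p ∈ S, (t - p) := by
    rw [NN_real h t, gR, sub_mul, Finset.sum_mul]
    congr 1
    refine Finset.sum_congr rfl fun p hp => ?_
    rw [← Finset.mul_prod_erase S (fun q : ℝ => t - q) hp]
    have : t - p ≠ 0 := sub_ne_zero.2 fun h => ht (h ▸ hp)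
    field_simp
  have h4 := sign_prod l ht'
  have h5 := sign_prod S.val (x := t) ht
  change 0 < (-1) ^ cnt S.val t * ∏ q ∈ S, (t - q) at h5
  have hne : ∏ q ∈ S, (t - q) ≠ 0 := fun h => by simp [h] at h5
  have hsq : 0 < (∏ q ∈ S, (t - q)) ^ 2 := by positivity
  rw [h3] at h4
  have h7 : 0 < (-1) ^ (cnt l t + cnt S.val t) * (gR S ν c t * (∏ q ∈ S, (t - q)) ^ 2) := by
    rw [pow_add]
    linarith [mul_pos h4 h5, show (-1) ^ cnt l t * (gR S ν c t * ∏ q ∈ S, (t - q)) *
        ((-1) ^ cnt S.val t * ∏ q ∈ S, (t - q)) =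
        (-1) ^ cnt l t * (-1) ^ cnt S.val t * (gR S ν c t * (∏ q ∈ S, (t - q)) ^ 2) by ring]
  unfold xi
  split_ifs with hg
  · have := odd_of_neg h7 (mul_neg_of_neg_of_pos hg hsq)
    rw [Nat.odd_iff] at this
    have : cnt l t = cnt S.val t + 1 := by omega
    exact_mod_cast this
  · have hg0 : gR S ν c t ≠ 0 := fun h => by simp [h] at h7
    have := even_of_pos h7 (mul_pos (lt_of_le_of_ne (not_lt.1 hg) hg0.symm) hsq)
    rw [Nat.even_iff] at this
    have : cnt l t = cnt S.val t := by omega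
    simp [this]

/-- The numerator `N` of `g` over the poles of positive mass is real rooted; the signs of `N` at
the poles and at `t` give the parities, and monotonicity of `cnt` gives the counts (`comb`). -/
theorem interlace {P Q : ℂ[X]} {lq : Multiset ℝ} (hQ : RR Q lq) {S : Finset ℝ}
    (hS : S ⊆ lq.toFinset) {ν : ℝ → ℝ} (hν : ∀ p, 0 ≤ ν p) {c : ℝ} (hP : Rel P Q S ν c) :
    ∃ lp : Multiset ℝ, RR P lp ∧ Multiset.card lp = Multiset.card lq + 1 ∧
      lp.sum = lq.sum - c ∧
      ∃ Z : Finset ℝ, ∀ t ∉ Z, (cnt lp t : ℝ) = cnt lq t + xi (gR S ν c) t := by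
  classical
  set S' := S.filter fun p => 0 < ν p with hS'
  have hz : ∀ p ∈ S, ¬ 0 < ν p → ν p = 0 := fun p _ h => le_antisymm (not_lt.1 h) (hν p)
  have hgR : gR S ν c = gR S' ν c := by
    funext t
    unfold gR
    rw [hS', Finset.sum_filter]
    congr 1
    refine Finset.sum_congr rfl fun p hp => ?_
    split_ifs with h
    · rfl
    · simp [hz p hp h]
  have hgC : gC S ν c = gC S' ν c := by
    funext t
    unfold gC
    rw [hS', Finset.sum_filter]
    congr 1
    refine Finset.sum_congr rfl fun p hp => ?_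
    split_ifs with h
    · rfl
    · simp [hz p hp h]
  have hle : S'.val ≤ lq := by
    rw [Multiset.le_iff_subset S'.nodup]
    intro p hp
    exact Multiset.mem_toFinset.1 (hS (Finset.mem_filter.1 hp).1)
  obtain ⟨m, hm⟩ := Multiset.le_iff_exists_add.1 hle
  obtain ⟨l, hl⟩ := NN_rr S' hν c
  have hcard : Multiset.card l = S'.card + 1 := hl.monic.2.symm.trans (NN_facts S' ν c).2.1
  have hsum : l.sum = S'.val.sum - c := by
    have h1 := hl.coeff_pred hcard
    rw [(NN_facts S' ν c).2.2] at h1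
    exact_mod_cast (neg_injective h1).symm
  refine ⟨l + m, ?_, ?_, ?_, S' ∪ l.toFinset, fun t ht => ?_⟩
  · unfold RR
    rw [Multiset.map_add, Multiset.prod_add, ← hl]
    apply Polynomial.eq_of_infinite_eval_eq
    have hfin : Set.Finite {t : ℂ | Q.IsRoot t} := Q.finite_setOfPred_isRoot hQ.monic.1.ne_zero
    refine hfin.infinite_compl.mono fun t ht => ?_
    have ht : Q.eval t ≠ 0 := ht
    have h1 := hP t ht
    have h2 := hQ.eval t
    rw [hm, Multiset.map_add, Multiset.prod_add] at h2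
    have h3 : ∀ p ∈ S', t - p ≠ 0 := by
      intro p hp h
      apply ht
      rw [h2, Multiset.prod_eq_zero (Multiset.mem_map.2 ⟨p, hp, h⟩), zero_mul]
    have h4 : RR (m.map fun x : ℝ => X - C (x : ℂ)).prod m := rfl
    change P.eval t = _
    rw [eval_mul, NN_eval S' ν c h3, h4.eval, h1, h2, hgC, mul_assoc]
    rfl
  · rw [hm, Multiset.card_add, Multiset.card_add, hcard]
    change _ = S'.card + _ + 1
    ring
  · rw [hm, Multiset.sum_add, Multiset.sum_add, hsum]
    ring
  · rw [Finset.mem_union, not_or, Multiset.mem_toFinset] at ht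
    rw [hm, cnt_add, cnt_add, hgR]
    push_cast
    rw [NN_cnt (fun p hp => (Finset.mem_filter.1 hp).2) hl ht.1 ht.2]
    ring


theorem IntAux.measurable_gR (S : Finset ℝ) (ν : ℝ → ℝ) (c : ℝ) : Measurable (gR S ν c) := by
  unfold gR
  refine (measurable_id.add_const c).sub (Finset.measurable_sum _ fun p _ => ?_)
  exact measurable_const.div (measurable_id.sub_const p)

theorem measurable_xi (S : Finset ℝ) (ν : ℝ → ℝ) (c : ℝ) : Measurable (xi (gR S ν c)) := by
  unfold xi
  exact Measurable.ite (measurableSet_lt (measurable_gR S ν c) measurable_const)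
    measurable_const measurable_const

open MeasureTheory in
theorem IntAux.ae_notMem (Z : Finset ℝ) : ∀ᵐ t : ℝ, t ∉ Z :=
  Z.finite_toSet.countable.ae_notMem volume

open MeasureTheory in
theorem IntAux.sum_layer (l : Multiset ℝ) {T : ℝ} (hl : ∀ x ∈ l, |x| ≤ T) {φ k : ℝ → ℝ}
    (hk : IntervalIntegrable k MeasureTheory.volume (-T) T)
    (hφ : ∀ x ∈ Set.Icc (-T) T, φ x = φ (-T) + ∫ t in (-T)..x, k t) :
    IntervalIntegrable (fun t => k t * cnt l t) MeasureTheory.volume (-T) T ∧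
      (l.map φ).sum = Multiset.card l * φ (-T) + ∫ t in (-T)..T, k t * cnt l t := by
  induction l using Multiset.induction_on with
  | empty => simp [cnt]
  | cons a l ih =>
    obtain ⟨ih1, ih2⟩ := ih fun x hx => hl x (Multiset.mem_cons_of_mem hx)
    have ha : a ∈ Set.Icc (-T) T := abs_le.1 (hl a (Multiset.mem_cons_self a l))
    have he : (fun t => k t * (cnt (a ::ₘ l) t : ℝ)) =
        fun t => k t * cnt l t + (Set.Iio a).indicator k t := by
      funext t
      rw [cnt_cons]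
      by_cases h : t < a
      · simp [h, mul_add]
      · simp [h]
    have hi : IntervalIntegrable ((Set.Iio a).indicator k) volume (-T) T :=
      ⟨hk.1.indicator measurableSet_Iio, hk.2.indicator measurableSet_Iio⟩
    have h2 : ∫ t in (-T)..T, (Set.Iio a).indicator k t = ∫ t in (-T)..a, k t := by
      rw [← intervalIntegral.integral_indicator ha]
      refine intervalIntegral.integral_congr_ae ?_
      filter_upwards [ae_notMem {a}] with t ht _
      rw [Finset.mem_singleton] at ht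
      by_cases h : t < a
      · simp [h, h.le]
      · have : ¬ t ≤ a := fun h' => h (lt_of_le_of_ne h' ht)
        simp [h, this]
    rw [he]
    refine ⟨ih1.add hi, ?_⟩
    rw [intervalIntegral.integral_add ih1 hi, h2, Multiset.map_cons, Multiset.sum_cons, ih2,
      Multiset.card_cons, hφ a ha]
    push_cast
    ring

/-- `φ x = φ (-T) + ∫ k t * 1[t < x]`, summed over the two multisets. -/
theorem layer {lp lq : Multiset ℝ} (hc : Multiset.card lp = Multiset.card lq + 1) {ξ : ℝ → ℝ}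
    {Z : Finset ℝ} (hZ : ∀ t ∉ Z, (cnt lp t : ℝ) = cnt lq t + ξ t) {T : ℝ} (hT : 0 ≤ T)
    (hp : ∀ x ∈ lp, |x| ≤ T) (hq : ∀ x ∈ lq, |x| ≤ T) {φ k : ℝ → ℝ}
    (hk : IntervalIntegrable k MeasureTheory.volume (-T) T)
    (hφ : ∀ x ∈ Set.Icc (-T) T, φ x = φ (-T) + ∫ t in (-T)..x, k t) :
    (lp.map φ).sum - (lq.map φ).sum = φ (-T) + ∫ t in (-T)..T, k t * ξ t := by
  have _ := hT
  obtain ⟨h1, h2⟩ := sum_layer lp hp hk hφ
  obtain ⟨h3, h4⟩ := sum_layer lq hq hk hφ
  have h5 : ∫ t in (-T)..T, k t * ξ t =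
      (∫ t in (-T)..T, k t * cnt lp t) - ∫ t in (-T)..T, k t * cnt lq t := by
    rw [← intervalIntegral.integral_sub h1 h3]
    refine intervalIntegral.integral_congr_ae ?_
    filter_upwards [ae_notMem Z] with t ht _
    rw [hZ t ht]
    ring
  rw [h2, h4, h5, hc]
  push_cast
  ring

/-- `g < 0` far on the left and `g > 0` far on the right. -/
theorem gR_bdd (S : Finset ℝ) (ν : ℝ → ℝ) (c : ℝ) :
    ∃ T : ℝ, 0 < T ∧ (∀ t, T ≤ t → 0 < gR S ν c t) ∧ ∀ t, t ≤ -T → gR S ν c t < 0 := by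
  set A := ∑ p ∈ S, |p| with hA
  set B := ∑ p ∈ S, |ν p| with hB
  have hA0 : 0 ≤ A := Finset.sum_nonneg fun _ _ => abs_nonneg _
  have hB0 : 0 ≤ B := Finset.sum_nonneg fun _ _ => abs_nonneg _
  have key : ∀ t, A + 1 ≤ |t| → |∑ p ∈ S, ν p / (t - p)| ≤ B := by
    intro t ht
    refine (Finset.abs_sum_le_sum_abs _ _).trans (Finset.sum_le_sum fun p hp => ?_)
    have h1 : |p| ≤ A := Finset.single_le_sum (f := fun p : ℝ => |p|) (fun _ _ => abs_nonneg _) hp
    have h2 : 1 ≤ |t - p| := by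
      have := abs_sub_abs_le_abs_sub t p
      linarith
    rw [abs_div]
    exact div_le_self (abs_nonneg _) h2
  refine ⟨A + B + |c| + 1, by positivity, fun t ht => ?_, fun t ht => ?_⟩
  · have h1 := abs_le.1 (key t (by linarith [le_abs_self t, abs_nonneg c]))
    unfold gR
    linarith [h1.2, neg_abs_le c]
  · have h1 := abs_le.1 (key t (by linarith [neg_abs_le t, abs_nonneg c]))
    unfold gR
    linarith [h1.1, le_abs_self c]

open MeasureTheory in
theorem IntAux.int_ind {A : Set ℝ} (hA : MeasurableSet A) {a b : ℝ} (hab : a ≤ b) :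
    ∫ t in a..b, A.indicator (1 : ℝ → ℝ) t = (volume (A ∩ Set.Ioc a b)).toReal := by
  rw [intervalIntegral.integral_of_le hab, integral_indicator_one hA, Measure.real,
    Measure.restrict_apply hA]

open MeasureTheory in
theorem IntAux.ii_ind {A : Set ℝ} (hA : MeasurableSet A) (a b : ℝ) :
    IntervalIntegrable (A.indicator (1 : ℝ → ℝ)) volume a b :=
  have h : IntervalIntegrable (1 : ℝ → ℝ) volume a b := intervalIntegrable_const (c := (1 : ℝ))
  ⟨h.1.indicator hA, h.2.indicator hA⟩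

theorem IntAux.step_eq : (fun t : ℝ => if 0 < t then (1 : ℝ) else 0) = (Set.Ioi 0).indicator 1 := by
  funext t
  by_cases h : 0 < t <;> simp [h]

theorem IntAux.ii_step (a b : ℝ) :
    IntervalIntegrable (fun t : ℝ => if 0 < t then (1 : ℝ) else 0) MeasureTheory.volume a b :=
  step_eq ▸ ii_ind measurableSet_Ioi a b

theorem IntAux.int_step {T x : ℝ} (hT : 0 ≤ T) (hx : -T ≤ x) :
    ∫ t in (-T)..x, (if 0 < t then (1 : ℝ) else 0) = max x 0 := by
  rw [step_eq, int_ind measurableSet_Ioi hx]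
  have : Set.Ioi 0 ∩ Set.Ioc (-T) x = Set.Ioc 0 x := by
    ext t
    simp only [Set.mem_inter_iff, Set.mem_Ioi, Set.mem_Ioc]
    exact ⟨fun h => ⟨h.1, h.2.2⟩, fun h => ⟨h.1, by linarith [h.1], h.2⟩⟩
  rw [this, Real.volume_Ioc, ENNReal.toReal_ofReal', sub_zero]

theorem IntAux.layer_pos {lp lq : Multiset ℝ} (hc : Multiset.card lp = Multiset.card lq + 1) {ξ : ℝ → ℝ}
    {Z : Finset ℝ} (hZ : ∀ t ∉ Z, (cnt lp t : ℝ) = cnt lq t + ξ t) {T : ℝ} (hT : 0 ≤ T)
    (hp : ∀ x ∈ lp, |x| ≤ T) (hq : ∀ x ∈ lq, |x| ≤ T) :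
    (lp.map fun x => max x 0).sum - (lq.map fun x => max x 0).sum =
      ∫ t in (-T)..T, (if 0 < t then (1 : ℝ) else 0) * ξ t := by
  have h0 : max (-T) 0 = 0 := max_eq_right (by linarith)
  have := layer hc hZ hT hp hq (φ := fun x => max x 0) (ii_step _ _) fun x hx => by
    rw [int_step hT hx.1, h0, zero_add]
  rw [this, h0, zero_add]

theorem IntAux.exists_bound (l : Multiset ℝ) : ∃ T : ℝ, ∀ x ∈ l, |x| ≤ T :=
  ⟨∑ x ∈ l.toFinset, |x|, fun _ hx => Finset.single_le_sum (f := fun p : ℝ => |p|)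
    (fun _ _ => abs_nonneg _) (Multiset.mem_toFinset.2 hx)⟩

theorem IntAux.ms_pos (S : Finset ℝ) (ν : ℝ → ℝ) (c : ℝ) :
    MeasurableSet {t : ℝ | 0 < t ∧ gR S ν c t < 0} :=
  measurableSet_Ioi.inter (measurableSet_lt (measurable_gR S ν c) measurable_const)

theorem IntAux.ms_neg (S : Finset ℝ) (ν : ℝ → ℝ) (c : ℝ) :
    MeasurableSet {t : ℝ | t < 0 ∧ 0 < gR S ν c t} :=
  measurableSet_Iio.inter (measurableSet_lt measurable_const (measurable_gR S ν c))

theorem IntAux.int_pos (S : Finset ℝ) (ν : ℝ → ℝ) (c : ℝ) {T : ℝ} (hT : 0 ≤ T)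
    (h : ∀ t, T ≤ t → 0 < gR S ν c t) :
    ∫ t in (-T)..T, {t : ℝ | 0 < t ∧ gR S ν c t < 0}.indicator (1 : ℝ → ℝ) t = fpos (gR S ν c) := by
  rw [int_ind (ms_pos S ν c) (by linarith), fpos, Set.inter_eq_left.2]
  rintro t ⟨h1, h2⟩
  refine ⟨by linarith, ?_⟩
  by_contra h3
  linarith [h t (not_le.1 h3).le]

theorem IntAux.int_neg (S : Finset ℝ) (ν : ℝ → ℝ) (c : ℝ) {T : ℝ} (hT : 0 ≤ T)
    (h : ∀ t, t ≤ -T → gR S ν c t < 0) :
    ∫ t in (-T)..T, {t : ℝ | t < 0 ∧ 0 < gR S ν c t}.indicator (1 : ℝ → ℝ) t = fneg (gR S ν c) := by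
  rw [int_ind (ms_neg S ν c) (by linarith), fneg, Set.inter_eq_left.2]
  rintro t ⟨h1, h2⟩
  refine ⟨?_, by linarith⟩
  by_contra h3
  linarith [h t (not_lt.1 h3)]

theorem sum_pos_eq {P Q : ℂ[X]} {lq : Multiset ℝ} (hQ : RR Q lq) {S : Finset ℝ}
    (hS : S ⊆ lq.toFinset) {ν : ℝ → ℝ} (hν : ∀ p, 0 ≤ ν p) {c : ℝ} (hP : Rel P Q S ν c) :
    sumR (fun x => max x 0) P - sumR (fun x => max x 0) Q = fpos (gR S ν c) := by
  obtain ⟨lp, hlp, hc, -, Z, hZ⟩ := interlace hQ hS hν hP
  obtain ⟨T₀, hT₀, h1, -⟩ := gR_bdd S ν c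
  obtain ⟨T₁, hT₁⟩ := exists_bound (lp + lq)
  have hT : 0 ≤ max T₀ T₁ := hT₀.le.trans (le_max_left _ _)
  rw [hlp.sumR, hQ.sumR, layer_pos hc hZ hT
    (fun x hx => (hT₁ x (Multiset.mem_add.2 (Or.inl hx))).trans (le_max_right _ _))
    (fun x hx => (hT₁ x (Multiset.mem_add.2 (Or.inr hx))).trans (le_max_right _ _)),
    ← int_pos S ν c hT fun t ht => h1 t ((le_max_left _ _).trans ht)]
  congr 1
  funext t
  by_cases h : 0 < t <;> by_cases h' : gR S ν c t < 0 <;> simp [xi, h, h']

theorem IntAux.gR_ne (S : Finset ℝ) (ν : ℝ → ℝ) (c : ℝ) : ∃ Z : Finset ℝ, ∀ t ∉ Z, gR S ν c t ≠ 0 := by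
  classical
  refine ⟨S ∪ (NN S ν c).roots.toFinset.image Complex.re, fun t ht h => ?_⟩
  rw [Finset.mem_union, not_or] at ht
  apply ht.2
  refine Finset.mem_image.2 ⟨(t : ℂ), ?_, rfl⟩
  rw [Multiset.mem_toFinset, mem_roots (NN_facts S ν c).1.ne_zero, IsRoot.def, NN_eval]
  · have : gC S ν c t = (gR S ν c t : ℝ) := by
      simp [gC, gR]
    rw [this, h]
    simp
  · intro p hp h
    have : t = p := by exact_mod_cast sub_eq_zero.1 h
    exact ht.1 (this ▸ hp)

/-- Boole's identity: `layer` for `max x 0` and `min x 0`, and the sum of the roots. -/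
theorem boole (S : Finset ℝ) {ν : ℝ → ℝ} (hν : ∀ p, 0 ≤ ν p) (c : ℝ) :
    fpos (gR S ν c) = fneg (gR S ν c) - c := by
  classical
  obtain ⟨P, Q, hQ, hP⟩ := exists_rel S ν c
  obtain ⟨lp, hlp, hc, hsum, Z, hZ⟩ := interlace hQ (by simp) hν hP
  obtain ⟨T₀, hT₀, h1, h2⟩ := gR_bdd S ν c
  obtain ⟨T₁, hT₁⟩ := exists_bound (lp + S.val)
  obtain ⟨Z', hZ'⟩ := gR_ne S ν c
  have hT : 0 ≤ max T₀ T₁ := hT₀.le.trans (le_max_left _ _)
  have h3 := layer hc hZ hT
    (fun x hx => (hT₁ x (Multiset.mem_add.2 (Or.inl hx))).trans (le_max_right _ _))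
    (fun x hx => (hT₁ x (Multiset.mem_add.2 (Or.inr hx))).trans (le_max_right _ _))
    (φ := fun x => x) (k := fun _ => 1) intervalIntegrable_const (fun x _ => by simp)
  have h4 := int_pos S ν c hT fun t ht => h1 t ((le_max_left _ _).trans ht)
  have h5 := int_neg S ν c hT fun t ht => h2 t (ht.trans (neg_le_neg (le_max_left _ _)))
  set T := max T₀ T₁
  have h6 := int_step hT (x := T) (by linarith)
  rw [max_eq_left hT] at h6
  have h7 : ∫ t in (-T)..T, (1 : ℝ) * xi (gR S ν c) t =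
      ∫ t in (-T)..T, ({t : ℝ | 0 < t ∧ gR S ν c t < 0}.indicator (1 : ℝ → ℝ) t -
        {t : ℝ | t < 0 ∧ 0 < gR S ν c t}.indicator (1 : ℝ → ℝ) t +
        (1 - if 0 < t then (1 : ℝ) else 0)) := by
    refine intervalIntegral.integral_congr_ae ?_
    filter_upwards [ae_notMem (insert 0 Z')] with t ht _
    rw [Finset.mem_insert, not_or] at ht
    rcases lt_or_gt_of_ne ht.1 with h | h <;> rcases lt_or_gt_of_ne (hZ' t ht.2) with h' | h' <;>
      simp [xi, h, h', not_lt.2 h.le, not_lt.2 h'.le]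
  rw [intervalIntegral.integral_add ((ii_ind (ms_pos S ν c) _ _).sub (ii_ind (ms_neg S ν c) _ _))
    (intervalIntegrable_const.sub (ii_step _ _)),
    intervalIntegral.integral_sub (ii_ind (ms_pos S ν c) _ _) (ii_ind (ms_neg S ν c) _ _),
    intervalIntegral.integral_sub intervalIntegrable_const (ii_step _ _), h4, h5, h6] at h7
  simp only [Multiset.map_id', hsum] at h3
  rw [h7] at h3
  simp only [intervalIntegral.integral_const, smul_eq_mul] at h3
  linarith

theorem IntAux.poly_ftc (χ : ℝ[X]) (a b : ℝ) :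
    χ.eval b = χ.eval a + ∫ t in a..b, χ.derivative.eval t := by
  rw [intervalIntegral.integral_eq_sub_of_hasDerivAt (f := fun t => χ.eval t)
    (fun x _ => χ.hasDerivAt x) (χ.derivative.continuous.intervalIntegrable _ _)]
  ring

theorem IntAux.ii_mul_xi (S : Finset ℝ) (ν : ℝ → ℝ) (c : ℝ) {k : ℝ → ℝ} {a b : ℝ}
    (hk : IntervalIntegrable k MeasureTheory.volume a b) :
    IntervalIntegrable (fun t => k t * xi (gR S ν c) t) MeasureTheory.volume a b := by
  have : (fun t => k t * xi (gR S ν c) t) = {t | gR S ν c t < 0}.indicator k := by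
    funext t
    by_cases h : gR S ν c t < 0 <;> simp [xi, h]
  rw [this]
  have hm : MeasurableSet {t | gR S ν c t < 0} :=
    measurableSet_lt (measurable_gR S ν c) measurable_const
  exact ⟨hk.1.indicator hm, hk.2.indicator hm⟩

/-- Approximation of the positive part by a polynomial. -/
theorem chi_approx {P Q : ℂ[X]} {lq : Multiset ℝ} (hQ : RR Q lq) {S : Finset ℝ}
    (hS : S ⊆ lq.toFinset) {ν : ℝ → ℝ} (hν : ∀ p, 0 ≤ ν p) {c : ℝ} (hP : Rel P Q S ν c)
    {T β : ℝ} (hT : 0 ≤ T) {χ : ℝ[X]} (hχ : Chi T β χ) (hp : ∀ x ∈ P.roots, ‖x‖ ≤ T)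
    (hq : ∀ x ∈ Q.roots, ‖x‖ ≤ T) :
    |(sumC (cx χ) P - sumC (cx χ) Q).re - fpos (gR S ν c)| ≤ 2 * β := by
  rw [← sum_pos_eq hQ hS hν hP]
  obtain ⟨lp, hlp, hc, -, Z, hZ⟩ := interlace hQ hS hν hP
  have hp' : ∀ x ∈ lp, |x| ≤ T := fun x hx => by
    simpa using hp x (hlp.roots ▸ Multiset.mem_map_of_mem _ hx)
  have hq' : ∀ x ∈ lq, |x| ≤ T := fun x hx => by
    simpa using hq x (hQ.roots ▸ Multiset.mem_map_of_mem _ hx)
  have hd : IntervalIntegrable (fun t => χ.derivative.eval t) MeasureTheory.volume (-T) T :=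
    χ.derivative.continuous.intervalIntegrable _ _
  rw [hlp.sumR, hQ.sumR, hlp.sumC, hQ.sumC, layer_pos hc hZ hT hp' hq', ← Complex.ofReal_sub,
    Complex.ofReal_re, layer hc hZ hT hp' hq' hd fun x _ => poly_ftc χ _ _, add_sub_assoc,
    ← intervalIntegral.integral_sub (ii_mul_xi S ν c hd) (ii_mul_xi S ν c (ii_step _ _))]
  refine (abs_add_le _ _).trans ?_
  have h1 := intervalIntegral.abs_integral_le_integral_abs (μ := MeasureTheory.volume)
    (f := fun t => χ.derivative.eval t * xi (gR S ν c) t -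
      (if 0 < t then (1 : ℝ) else 0) * xi (gR S ν c) t) (show -T ≤ T by linarith)
  have h2 : ∫ t in (-T)..T, |χ.derivative.eval t * xi (gR S ν c) t -
      (if 0 < t then (1 : ℝ) else 0) * xi (gR S ν c) t| ≤
      ∫ t in (-T)..T, |χ.derivative.eval t - if 0 < t then 1 else 0| := by
    refine intervalIntegral.integral_mono_on (by linarith)
      ((ii_mul_xi S ν c hd).sub (ii_mul_xi S ν c (ii_step _ _))).abs
      (hd.sub (ii_step _ _)).abs fun t _ => ?_
    rw [← sub_mul, abs_mul]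
    refine mul_le_of_le_one_right (abs_nonneg _) ?_
    unfold xi
    split_ifs <;> simp
  linarith [hχ.left, hχ.der]

theorem Chi.sup {T β : ℝ} {χ : ℝ[X]} (hχ : Chi T β χ) {x : ℝ} (hx : |x| ≤ T) :
    |χ.eval x - max x 0| ≤ 2 * β := by
  have hT : 0 ≤ T := (abs_nonneg x).trans hx
  have hx' := abs_le.1 hx
  have hd : ∀ a b, IntervalIntegrable (fun t => χ.derivative.eval t) MeasureTheory.volume a b :=
    fun a b => χ.derivative.continuous.intervalIntegrable _ _
  rw [poly_ftc χ (-T) x, ← int_step hT hx'.1, add_sub_assoc,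
    ← intervalIntegral.integral_sub (hd _ _) (ii_step _ _)]
  refine (abs_add_le _ _).trans ?_
  have h1 := intervalIntegral.abs_integral_le_integral_abs (μ := MeasureTheory.volume)
    (f := fun t => χ.derivative.eval t - (if 0 < t then (1 : ℝ) else 0)) hx'.1
  have h2 : ∫ t in (-T)..x, |χ.derivative.eval t - (if 0 < t then (1 : ℝ) else 0)| ≤
      ∫ t in (-T)..T, |χ.derivative.eval t - if 0 < t then 1 else 0| :=
    intervalIntegral.integral_mono_interval le_rfl hx'.1 hx'.2
      (Filter.Eventually.of_forall fun t => abs_nonneg _) ((hd _ _).sub (ii_step _ _)).abs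
  linarith [hχ.left, hχ.der]

theorem IntAux.exists_antider (q : ℝ[X]) (a : ℝ) : ∃ χ : ℝ[X], χ.derivative = q ∧ χ.eval a = 0 := by
  have h : ∃ χ : ℝ[X], χ.derivative = q := by
    induction q using Polynomial.induction_on' with
    | add p q hp hq =>
      obtain ⟨p', hp'⟩ := hp
      obtain ⟨q', hq'⟩ := hq
      exact ⟨p' + q', by rw [derivative_add, hp', hq']⟩
    | monomial n b =>
      refine ⟨monomial (n + 1) (b / (n + 1)), ?_⟩
      rw [derivative_monomial_succ]
      congr 1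
      field_simp
  obtain ⟨χ, hχ⟩ := h
  exact ⟨χ - C (χ.eval a), by simp [hχ], by simp⟩

/-- Weierstrass for a continuous ramp, then an antiderivative vanishing at `-T`. -/
theorem exists_chi {T β : ℝ} (hT : 0 ≤ T) (hβ : 0 < β) : ∃ χ : ℝ[X], Chi T β χ := by
  set δ := β / 2 with hδ
  have hδ0 : 0 < δ := by positivity
  set ε := β / (2 * (2 * T + 1)) with hε
  have hε0 : 0 < ε := by positivity
  obtain ⟨q, hq⟩ := exists_polynomial_near_of_continuousOn (-T) T
    (fun t => max 0 (min 1 (t / δ))) (by fun_prop) ε hε0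
  obtain ⟨χ, hχ, h0⟩ := exists_antider q (-T)
  refine ⟨χ, by rw [h0, abs_zero]; exact hβ.le, ?_⟩
  rw [hχ]
  have hd : IntervalIntegrable (fun t => q.eval t) MeasureTheory.volume (-T) T :=
    q.continuous.intervalIntegrable _ _
  have h1 : ∫ t in (-T)..T, |q.eval t - if 0 < t then 1 else 0| ≤
      ∫ t in (-T)..T, (ε + (Set.Ioc 0 δ).indicator (1 : ℝ → ℝ) t) := by
    refine intervalIntegral.integral_mono_on (by linarith) (hd.sub (ii_step _ _)).abs
      (intervalIntegrable_const.add (ii_ind measurableSet_Ioc _ _)) fun t ht => ?_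
    have h2 := abs_lt.1 (hq t ht)
    by_cases h : 0 < t
    · by_cases h' : t ≤ δ
      · rw [if_pos h, Set.indicator_of_mem (show t ∈ Set.Ioc 0 δ from ⟨h, h'⟩), abs_le]
        have h3 : 0 ≤ max 0 (min 1 (t / δ)) := le_max_left _ _
        have h4 : max 0 (min 1 (t / δ)) ≤ 1 := max_le zero_le_one (min_le_left _ _)
        simp only [Pi.one_apply]
        constructor <;> linarith [h2.1, h2.2]
      · rw [if_pos h, Set.indicator_of_notMem (show t ∉ Set.Ioc 0 δ from fun h => h' h.2), abs_le]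
        have h3 : 1 ≤ t / δ := (one_le_div hδ0).2 (not_le.1 h').le
        rw [min_eq_left h3, max_eq_right zero_le_one] at h2
        constructor <;> linarith [h2.1, h2.2]
    · rw [if_neg h, Set.indicator_of_notMem (show t ∉ Set.Ioc 0 δ from fun h' => h h'.1), abs_le]
      have h3 : t / δ ≤ 0 := div_nonpos_of_nonpos_of_nonneg (not_lt.1 h) hδ0.le
      rw [max_eq_left ((min_le_right _ _).trans h3)] at h2
      constructor <;> linarith [h2.1, h2.2]
  rw [intervalIntegral.integral_add intervalIntegrable_const (ii_ind measurableSet_Ioc _ _),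
    int_ind measurableSet_Ioc (by linarith), intervalIntegral.integral_const, smul_eq_mul] at h1
  have h2 : (MeasureTheory.volume (Set.Ioc 0 δ ∩ Set.Ioc (-T) T)).toReal ≤ δ := by
    refine ENNReal.toReal_le_of_le_ofReal hδ0.le ?_
    refine (MeasureTheory.measure_mono Set.inter_subset_left).trans ?_
    rw [Real.volume_Ioc, sub_zero]
  have h3 : (T - -T) * ε ≤ β / 2 := by
    rw [hε, mul_div_assoc', div_le_div_iff₀ (by positivity) (by positivity)]
    nlinarith
  linarith

end Crest.Agent.R109
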