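import Crest.Agent.R109.Reg
import Crest.Agent.R109.Int

/-! Task 109-DIAG: diagonal entries of `χ(Y)` when every vertex is coloured or deleted. -/

set_option autoImplicit false

open Polynomial

namespace Crest.Agent.R109

variable {V V' : Type*} [DecidableEq V] [DecidableEq V'] {r : ℕ}

/-- Walks of length `k ≤ R` from `x` stay in `{ℓ ≤ R}` (prove: `pw U Y k x y` is unchanged for all
`x` with `ℓ x + k ≤ R`). -/
theorem pw_loc {k R : ℕ} (hk : k ≤ R) {Y : V → V → ℂ} {U : Finset V} (ℓ : V → ℕ) {x : V}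
    (hx : ℓ x = 0) (hxU : x ∈ U) (hℓ : ∀ u ∈ U, ∀ u' ∈ U, Y u u' ≠ 0 → ℓ u' ≤ ℓ u + 1) :
    pw U Y k x x = pw (U.filter fun u => ℓ u ≤ R) Y k x x := by
  have key : ∀ (k : ℕ) (x y : V), x ∈ U → ℓ x + k ≤ R →
      pw U Y k x y = pw (U.filter fun u => ℓ u ≤ R) Y k x y := by
    intro k
    induction k with
    | zero => intro x y _ _; rfl
    | succ k ih =>
      intro x y hxU hxk
      simp only [pw]
      rw [Finset.sum_filter]
      refine Finset.sum_congr rfl fun u hu => ?_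
      by_cases h0 : Y x u = 0
      · simp [h0]
      · have := hℓ x hxU u hu h0
        rw [if_pos (by omega), ih u y hu (by omega)]
  exact key k x x hxU (by omega)

theorem dg_loc {χ : ℂ[X]} {R : ℕ} (hχ : χ.natDegree ≤ R) {Y : V → V → ℂ} {U : Finset V}
    (ℓ : V → ℕ) {x : V} (hx : ℓ x = 0) (hxU : x ∈ U)
    (hℓ : ∀ u ∈ U, ∀ u' ∈ U, Y u u' ≠ 0 → ℓ u' ≤ ℓ u + 1) :
    dg χ U Y x = dg χ (U.filter fun u => ℓ u ≤ R) Y x := by
  unfold dg Polynomial.sum
  refine Finset.sum_congr rfl fun k hk => ?_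
  beta_reduce
  rw [pw_loc ((le_natDegree_of_mem_supp k hk).trans hχ) ℓ hx hxU hℓ]

theorem pw_congr {Y Y' : V → V → ℂ} {U : Finset V} (h : ∀ u ∈ U, ∀ u' ∈ U, Y u u' = Y' u u')
    (k : ℕ) {x y : V} (hx : x ∈ U) : pw U Y k x y = pw U Y' k x y := by
  induction k generalizing x with
  | zero => rfl
  | succ k ih =>
    simp only [pw]
    exact Finset.sum_congr rfl fun u hu => by rw [h x hx u hu, ih hu]

theorem dg_congr (χ : ℂ[X]) {Y Y' : V → V → ℂ} {U : Finset V}
    (h : ∀ u ∈ U, ∀ u' ∈ U, Y u u' = Y' u u') {x : V} (hx : x ∈ U) :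
    dg χ U Y x = dg χ U Y' x := by
  unfold dg Polynomial.sum
  exact Finset.sum_congr rfl fun k _ => by beta_reduce; rw [pw_congr h k hx]

theorem pw_iso {Y : V → V → ℂ} {y : V' → V' → ℂ} (e : V' → V) {U : Finset V'}
    (he : Set.InjOn e U) (γ : V' → ℂ) (hγ : ∀ a ∈ U, ‖γ a‖ = 1)
    (hY : ∀ a ∈ U, ∀ b ∈ U, Y (e a) (e b) = (starRingEnd ℂ) (γ a) * y a b * γ b) (k : ℕ)
    {a b : V'} (ha : a ∈ U) (hb : b ∈ U) :
    pw (U.image e) Y k (e a) (e b) = (starRingEnd ℂ) (γ a) * pw U y k a b * γ b := by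
  have hg : ∀ a ∈ U, γ a * (starRingEnd ℂ) (γ a) = 1 := by
    intro a ha
    rw [Complex.mul_conj', hγ a ha]
    simp
  induction k generalizing a with
  | zero =>
    simp only [pw]
    by_cases hab : a = b
    · subst hab
      rw [if_pos rfl, if_pos rfl, mul_one, mul_comm, hg a ha]
    · rw [if_neg hab, if_neg (fun h => hab (he ha hb h))]
      simp
  | succ k ih =>
    simp only [pw]
    rw [Finset.sum_image he, Finset.mul_sum, Finset.sum_mul]
    refine Finset.sum_congr rfl fun u hu => ?_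
    rw [hY a ha u hu, ih hu]
    linear_combination ((starRingEnd ℂ) (γ a) * y a u * pw U y k u b * γ b) * hg u hu

theorem dg_iso (χ : ℂ[X]) {Y : V → V → ℂ} {y : V' → V' → ℂ} (e : V' → V) {U : Finset V'}
    (he : Set.InjOn e U) (γ : V' → ℂ) (hγ : ∀ a ∈ U, ‖γ a‖ = 1)
    (hY : ∀ a ∈ U, ∀ b ∈ U, Y (e a) (e b) = (starRingEnd ℂ) (γ a) * y a b * γ b) {a : V'}
    (ha : a ∈ U) : dg χ (U.image e) Y (e a) = dg χ U y a := by
  unfold dg Polynomial.sum
  refine Finset.sum_congr rfl fun k _ => ?_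
  have hg : γ a * (starRingEnd ℂ) (γ a) = 1 := by
    rw [Complex.mul_conj', hγ a ha]
    simp
  beta_reduce
  rw [pw_iso e he γ hγ hY k ha ha]
  linear_combination (χ.coeff k * pw U y k a a) * hg

theorem measurable_pw {Z : Type*} [MeasurableSpace Z] {y : Z → V → V → ℂ}
    (hy : ∀ a b, Measurable fun t => y t a b) (U : Finset V) (k : ℕ) (a b : V) :
    Measurable fun t => pw U (y t) k a b := by
  induction k generalizing a with
  | zero => exact measurable_const
  | succ k ih =>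
    simp only [pw]
    exact Finset.measurable_sum _ fun u _ => (hy a u).mul (ih u)

theorem measurable_dg {Z : Type*} [MeasurableSpace Z] (χ : ℂ[X]) {y : Z → V → V → ℂ}
    (hy : ∀ a b, Measurable fun t => y t a b) (U : Finset V) (a : V) :
    Measurable fun t => dg χ U (y t) a := by
  unfold dg Polynomial.sum
  exact Finset.measurable_sum _ fun k _ => (measurable_pw hy U k a a).const_mul _

/-- Spectral data of a Hermitian kernel on `U`. -/
structure Diag_Sp (Y : V → V → ℂ) (U : Finset V) (ev : U → ℝ) (Q : V → U → ℂ) : Prop where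
  o1 : ∀ x ∈ U, ∀ y ∈ U, ∑ i, Q x i * (starRingEnd ℂ) (Q y i) = if x = y then 1 else 0
  o2 : ∀ i j, ∑ x ∈ U, (starRingEnd ℂ) (Q x i) * Q x j = if i = j then 1 else 0
  eq : ∀ x ∈ U, ∀ y ∈ U, Y x y = ∑ i, Q x i * (ev i : ℂ) * (starRingEnd ℂ) (Q y i)

theorem Diag_spec {Y : V → V → ℂ} {U : Finset V}
    (hY : ∀ u ∈ U, ∀ u' ∈ U, Y u' u = (starRingEnd ℂ) (Y u u')) :
    ∃ (ev : U → ℝ) (Q : V → U → ℂ), Diag_Sp Y U ev Q ∧
      (Matrix.of fun a b : U => Y a b).charpoly = ∏ i, (X - C (ev i : ℂ)) := by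
  set A : Matrix U U ℂ := Matrix.of fun a b : U => Y a b with hA
  have hH : A.IsHermitian := by
    ext a b
    rw [Matrix.conjTranspose_apply]
    exact (hY b b.2 a a.2).symm
  set W : Matrix U U ℂ := (hH.eigenvectorUnitary : Matrix U U ℂ) with hW
  have w1 : W * star W = 1 := hH.eigenvectorUnitary.2.2
  have w2 : star W * W = 1 := hH.eigenvectorUnitary.2.1
  have w3 : A = W * Matrix.diagonal (fun i => (hH.eigenvalues i : ℂ)) * star W :=
    hH.spectral_theorem
  refine ⟨hH.eigenvalues, fun x i => if h : x ∈ U then W ⟨x, h⟩ i else 0, ⟨?_, ?_, ?_⟩,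
    hH.charpoly_eq⟩
  · intro x hx y hy
    have := congrFun (congrFun w1 ⟨x, hx⟩) ⟨y, hy⟩
    simpa [Matrix.mul_apply, Matrix.one_apply, hx, hy] using this
  · intro i j
    have := congrFun (congrFun w2 i) j
    rw [← Finset.sum_coe_sort U]
    simpa [Matrix.mul_apply, Matrix.one_apply] using this
  · intro x hx y hy
    have := congrFun (congrFun w3 ⟨x, hx⟩) ⟨y, hy⟩
    rw [Matrix.mul_apply] at this
    simpa [Matrix.mul_diagonal, hx, hy, hA] using this

section Sp
variable {Y : V → V → ℂ} {U : Finset V} {ev : U → ℝ} {Q : V → U → ℂ}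

theorem Diag_Sp.row (h : Diag_Sp Y U ev Q) (x : V) (hx : x ∈ U) : ∑ i, ‖Q x i‖ ^ 2 = 1 := by
  have := h.o1 x hx x hx
  rw [if_pos rfl] at this
  simp only [Complex.mul_conj'] at this
  exact_mod_cast this

theorem Diag_Sp.col (h : Diag_Sp Y U ev Q) (i : U) : ∑ x ∈ U, ‖Q x i‖ ^ 2 = 1 := by
  have := h.o2 i i
  rw [if_pos rfl] at this
  simp only [Complex.conj_mul'] at this
  exact_mod_cast this

theorem Diag_Sp.pw_eq (h : Diag_Sp Y U ev Q) (k : ℕ) {x y : V} (hx : x ∈ U) (hy : y ∈ U) :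
    pw U Y k x y = ∑ i, Q x i * (ev i : ℂ) ^ k * (starRingEnd ℂ) (Q y i) := by
  induction k generalizing x with
  | zero => simp only [pw, pow_zero, mul_one]; exact (h.o1 x hx y hy).symm
  | succ k ih =>
    simp only [pw]
    rw [Finset.sum_congr rfl fun u hu => by
      rw [h.eq x hx u hu, ih hu, Finset.sum_mul_sum], Finset.sum_comm]
    refine Finset.sum_congr rfl fun i _ => ?_
    rw [Finset.sum_comm]
    have : ∀ j, ∑ u ∈ U, Q x i * (ev i : ℂ) * (starRingEnd ℂ) (Q u i) *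
        (Q u j * (ev j : ℂ) ^ k * (starRingEnd ℂ) (Q y j)) =
        (if i = j then 1 else 0) * (Q x i * (ev i : ℂ) * (ev j : ℂ) ^ k * (starRingEnd ℂ) (Q y j)) := by
      intro j
      rw [← h.o2 i j, Finset.sum_mul]
      exact Finset.sum_congr rfl fun u _ => by ring
    simp only [this, ite_mul, one_mul, zero_mul, Finset.sum_ite_eq, Finset.mem_univ, if_true]
    ring

theorem Diag_Sp.dg_eq (h : Diag_Sp Y U ev Q) (χ : ℂ[X]) {x : V} (hx : x ∈ U) :
    dg χ U Y x = ∑ i, ((‖Q x i‖ ^ 2 : ℝ) : ℂ) * χ.eval (ev i : ℂ) := by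
  unfold dg
  simp only [h.pw_eq _ hx hx, eval_eq_sum, Polynomial.sum, Finset.mul_sum]
  rw [Finset.sum_comm]
  refine Finset.sum_congr rfl fun i _ => Finset.sum_congr rfl fun k _ => ?_
  push_cast
  rw [← Complex.mul_conj']
  ring

theorem Diag_Sp.form_eq (h : Diag_Sp Y U ev Q) {B : Finset V} (hB : B ⊆ U) (ζ : V → ℂ) :
    form Y B ζ = ∑ i, ((ev i * ‖∑ x ∈ B, (starRingEnd ℂ) (Q x i) * ζ x‖ ^ 2 : ℝ) : ℂ) := by
  unfold form
  rw [Finset.sum_congr rfl fun a ha => Finset.sum_congr rfl fun b hb => by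
    rw [h.eq a (hB ha) b (hB hb), Finset.mul_sum, Finset.sum_mul]]
  rw [Finset.sum_congr rfl fun a _ => Finset.sum_comm, Finset.sum_comm]
  refine Finset.sum_congr rfl fun i _ => ?_
  push_cast
  rw [← Complex.conj_mul', map_sum, Finset.sum_mul_sum, Finset.mul_sum]
  refine Finset.sum_congr rfl fun a _ => ?_
  rw [Finset.mul_sum]
  refine Finset.sum_congr rfl fun b _ => ?_
  simp only [map_mul, Complex.conj_conj]
  ring

theorem Diag_Sp.form_ev (h : Diag_Sp Y U ev Q) (i : U) :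
    form Y U (fun u => Q u i) = (ev i : ℂ) := by
  rw [h.form_eq (Finset.Subset.refl _)]
  simp only [h.o2]
  rw [Finset.sum_eq_single i (fun j _ hj => by simp [hj]) (by simp)]
  simp

theorem Diag_Sp.form_le (h : Diag_Sp Y U ev Q) {B : Finset V} (hB : B ⊆ U) (ζ : V → ℂ)
    {μ : U → ℝ} (h1 : ∀ i, ev i ≤ μ i) (h0 : ∀ i, 0 ≤ μ i) :
    (form Y B ζ).re ≤ (∑ i, μ i * ∑ x ∈ B, ‖Q x i‖ ^ 2) * nsq B ζ := by
  rw [h.form_eq hB, ← Complex.ofReal_sum, Complex.ofReal_re, Finset.sum_mul]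
  refine Finset.sum_le_sum fun i _ => ?_
  refine (mul_le_mul_of_nonneg_right (h1 i) (sq_nonneg _)).trans ?_
  rw [mul_assoc]
  refine mul_le_mul_of_nonneg_left ?_ (h0 i)
  have a1 : ‖∑ x ∈ B, (starRingEnd ℂ) (Q x i) * ζ x‖ ≤ ∑ x ∈ B, ‖Q x i‖ * ‖ζ x‖ :=
    (norm_sum_le _ _).trans (le_of_eq (Finset.sum_congr rfl fun x _ => by
      rw [norm_mul, Complex.norm_conj]))
  exact (pow_le_pow_left₀ (norm_nonneg _) a1 2).trans (Finset.sum_mul_sq_le_sq_mul_sq _ _ _)

end Sp

theorem Diag_re {ι : Type*} [Fintype ι] (a e : ι → ℝ) (χ : ℝ[X]) :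
    (∑ i, ((a i : ℝ) : ℂ) * (cx χ).eval (e i : ℂ)).re = ∑ i, a i * χ.eval (e i) := by
  simp only [Frac_cx_eval, ← Complex.ofReal_mul, ← Complex.ofReal_sum, Complex.ofReal_re]

/-- `D^{1/2}` -/
noncomputable def Diag_d (w : V → ℝ) (u : V) : ℝ := Real.sqrt (w u / 4)

omit [DecidableEq V] in
theorem Diag_d_pos {w : V → ℝ} {u : V} (h : 0 < w u) : 0 < Diag_d w u :=
  Real.sqrt_pos.2 (by linarith)

omit [DecidableEq V] in
theorem Diag_d_sq {w : V → ℝ} {u : V} (h : 0 < w u) : Diag_d w u ^ 2 = w u / 4 :=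
  Real.sq_sqrt (by linarith)

/-- the Hermitian conjugate of `Yc` -/
noncomputable def Diag_S (z : ℝ) (M : V → V → ℂ) (w : V → ℝ) (s : V → St r) : V → V → ℂ :=
  fun u u' => (Diag_d w u : ℂ) *
    (Mc M (fun x => (s x).toOpt) u u' - if u = u' then ((25 * z : ℝ) : ℂ) else 0) * (Diag_d w u' : ℂ)

theorem Diag_pw_conj {Y y : V → V → ℂ} {U : Finset V} (γ : V → ℂ) (hγ : ∀ a ∈ U, γ a ≠ 0)
    (hY : ∀ a ∈ U, ∀ b ∈ U, Y a b = γ a * y a b * (γ b)⁻¹) (k : ℕ)
    {a b : V} (ha : a ∈ U) (hb : b ∈ U) : pw U Y k a b = γ a * pw U y k a b * (γ b)⁻¹ := by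
  induction k generalizing a with
  | zero =>
    simp only [pw]
    by_cases hab : a = b
    · subst hab
      rw [if_pos rfl, mul_one, mul_inv_cancel₀ (hγ a ha)]
    · rw [if_neg hab]
      simp
  | succ k ih =>
    simp only [pw]
    rw [Finset.mul_sum, Finset.sum_mul]
    refine Finset.sum_congr rfl fun u hu => ?_
    rw [hY a ha u hu, ih hu]
    have := hγ u hu
    field_simp

theorem Diag_Mc_herm {M : V → V → ℂ} {U : Finset V} (h : HC M U) (c : V → Option (Fin r)) :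
    ∀ u ∈ U, ∀ u' ∈ U, Mc M c u' u = (starRingEnd ℂ) (Mc M c u u') := by
  intro u hu u' hu'
  unfold Mc
  by_cases h1 : c u = c u' ∧ c u ≠ none
  · rw [if_pos h1, if_pos ⟨h1.1.symm, h1.1 ▸ h1.2⟩, h.herm u hu u' hu']
  · rw [if_neg h1, if_neg (fun h2 : c u' = c u ∧ c u' ≠ none => h1 ⟨h2.1.symm, h2.1 ▸ h2.2⟩),
      map_zero]

theorem Diag_PP [NeZero r] {K : ℝ} (z : ℝ) {M : V → V → ℂ} {w : V → ℝ} {s : V → St r}
    {U : Finset V} (h : Env K M w U) (hs : ∀ u ∈ U, s u ≠ St.unc) :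
    PP z M w s U = (Matrix.of fun a b : live s U => Yc z M w s a b).charpoly := by
  let col : V → Fin r := fun u => ((s u).toOpt).getD 0
  have hcol : ∀ u ∈ live s U, s u = St.col (col u) := by
    intro u hu
    obtain ⟨h1, h2⟩ := PfB_mem_live.1 hu
    have h3 := hs u h1
    simp only [col]
    cases hsu : s u with
    | unc => exact absurd hsu h3
    | del => exact absurd hsu h2
    | col i => rfl
  have e1 : Uu s U = ∅ := by
    ext u
    simp only [PfB_mem_Uu, Finset.notMem_empty, iff_false, not_and]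
    exact hs u
  have e2 : Tc s U = (live s U).image fun u => (u, col u) := by
    ext a
    simp only [PfB_mem_Tc, Finset.mem_image]
    constructor
    · rintro ⟨h1, h2⟩
      have h3 : a.1 ∈ live s U := PfB_mem_live.2 ⟨h1, by rw [h2]; simp⟩
      refine ⟨a.1, h3, Prod.ext rfl ?_⟩
      have := (hcol _ h3).symm.trans h2
      simpa using this
    · rintro ⟨u, hu, rfl⟩
      exact ⟨(PfB_mem_live.1 hu).1, hcol u hu⟩
  unfold PP
  rw [e1, e2, Pf_empty, minor_image _ _ _ (fun a _ b _ hab => congrArg Prod.fst hab)]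
  unfold minor Matrix.charpoly
  congr 1
  ext1 a b
  have ha := hcol a a.2
  have hb := hcol b b.2
  by_cases hab : a = b
  · subst hab
    have h0 : Mc M (fun x => (s x).toOpt) a a = 0 := by
      unfold Mc
      rw [h.diag a (PfB_mem_live.1 a.2).1, ite_self]
    rw [Matrix.charmatrix_apply_eq]
    simp only [Matrix.of_apply, Bp, Yc, if_true, h0, ws, zs, ha, reduceCtorEq, if_false]
    rw [sub_eq_add_neg, ← map_neg]
    congr 2
    push_cast; ring
  · have hab' : (a : V) ≠ b := fun h => hab (Subtype.ext h)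
    rw [Matrix.charmatrix_apply_ne _ _ _ hab]
    have hne : ((a : V), col a) ≠ ((b : V), col b) := fun h => hab' (congrArg Prod.fst h)
    have ta : (s a).toOpt = some (col a) := by rw [ha]; rfl
    have tb : (s b).toOpt = some (col b) := by rw [hb]; rfl
    have hwa : ws w s a = w a / 4 := by unfold ws; rw [if_neg (by rw [ha]; simp)]
    simp only [Matrix.of_apply, Bp, Yc, hne, hab', if_false, Mc, ta, tb, hwa, sub_zero]
    by_cases hc : col a = col b
    · simp [hc]
    · simp [hc]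

theorem Diag_main [NeZero r] {K : ℝ} (z : ℝ) {M : V → V → ℂ} {w : V → ℝ} {s : V → St r}
    {U : Finset V} (h : Env K M w U) (hs : ∀ u ∈ U, s u ≠ St.unc) :
    ∃ (ev : live s U → ℝ) (Q : V → live s U → ℂ), Diag_Sp (Diag_S z M w s) (live s U) ev Q ∧
      (PP z M w s U).roots = Finset.univ.val.map (fun i => (ev i : ℂ)) ∧
      ∀ (χ : ℂ[X]), ∀ x ∈ live s U, dg χ (live s U) (Yc z M w s) x =
        ∑ i, ((‖Q x i‖ ^ 2 : ℝ) : ℂ) * χ.eval (ev i : ℂ) := by
  have hU : ∀ u ∈ live s U, u ∈ U := fun u hu => (PfB_mem_live.1 hu).1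
  have hd0 : ∀ u ∈ live s U, (Diag_d w u : ℂ) ≠ 0 := fun u hu =>
    Complex.ofReal_ne_zero.2 (Diag_d_pos (h.pos u (hU u hu))).ne'
  have hconj : ∀ a ∈ live s U, ∀ b ∈ live s U, Yc z M w s a b =
      (Diag_d w a : ℂ) * Diag_S z M w s a b * (Diag_d w b : ℂ)⁻¹ := by
    intro a ha b hb
    have := hd0 b hb
    unfold Yc Diag_S
    rw [← Diag_d_sq (h.pos a (hU a ha))]
    push_cast
    field_simp
  obtain ⟨ev, Q, hQ, hc⟩ := Diag_spec (Y := Diag_S z M w s) (U := live s U) (by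
    intro u hu u' hu'
    unfold Diag_S
    rw [Diag_Mc_herm h.toHC _ u (hU u hu) u' (hU u' hu')]
    simp only [map_mul, map_sub, Complex.conj_ofReal, eq_comm (a := u') (b := u)]
    split_ifs
    · rw [Complex.conj_ofReal]; ring
    · rw [map_zero]; ring)
  refine ⟨ev, Q, hQ, ?_, fun χ x hx => ?_⟩
  · have e1 : (Matrix.of fun a b : live s U => Yc z M w s a b) =
        Matrix.diagonal (fun a : live s U => (Diag_d w a : ℂ)) *
          ((Matrix.of fun a b : live s U => Diag_S z M w s a b) *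
            Matrix.diagonal (fun a : live s U => (Diag_d w a : ℂ)⁻¹)) := by
      ext a b
      rw [Matrix.diagonal_mul, Matrix.mul_diagonal, Matrix.of_apply, Matrix.of_apply,
        hconj a a.2 b b.2, mul_assoc]
    have e2 : Matrix.diagonal (fun a : live s U => (Diag_d w a : ℂ)⁻¹) *
        Matrix.diagonal (fun a : live s U => (Diag_d w a : ℂ)) = 1 := by
      rw [Matrix.diagonal_mul_diagonal, ← Matrix.diagonal_one]
      congr 1
      funext a
      exact inv_mul_cancel₀ (hd0 a a.2)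
    rw [Diag_PP z h hs, e1, Matrix.charpoly_mul_comm, mul_assoc, e2, mul_one, hc,
      Finset.prod_eq_multiset_prod, ← roots_multiset_prod_X_sub_C
        (Finset.univ.val.map fun i => (ev i : ℂ)), Multiset.map_map]
    rfl
  · rw [← hQ.dg_eq χ hx]
    unfold dg Polynomial.sum
    refine Finset.sum_congr rfl fun k _ => ?_
    beta_reduce
    rw [Diag_pw_conj _ hd0 hconj k hx hx]
    have := hd0 x hx
    field_simp

theorem Diag_ev [NeZero r] {K z lo hi T β : ℝ} (hz : 0 ≤ z) {M : V → V → ℂ} {w : V → ℝ}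
    {s : V → St r} {U : Finset V} (h : Env K M w U)
    (hR : Rng lo hi w s U) (hT : hi * (25 * z + 1) ≤ T) {χ : ℝ[X]} (hχ : Chi T β χ)
    {ev : live s U → ℝ} (hr : (PP z M w s U).roots = Finset.univ.val.map (fun i => (ev i : ℂ)))
    (i : live s U) : max (ev i) 0 - 2 * β ≤ χ.eval (ev i) ∧ χ.eval (ev i) ≤ T + 2 * β := by
  have h1 : ‖(ev i : ℂ)‖ ≤ hi * (25 * z + 1) := PP_root_le hz h hR (by
    rw [hr]; exact Multiset.mem_map_of_mem _ (Finset.mem_univ i))
  rw [Complex.norm_real, Real.norm_eq_abs] at h1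
  have h2 : |ev i| ≤ T := h1.trans hT
  have h3 := abs_le.1 (hχ.sup h2)
  have h4 : max (ev i) 0 ≤ T := max_le ((le_abs_self _).trans h2) ((abs_nonneg _).trans h2)
  constructor <;> linarith [h3.1, h3.2]

/-- `PP = minor (Bp) (Tc s U)` is the characteristic polynomial of `Yc` on `live s U`
(`minor_image` along `u ↦ (u, colour u)`); `pw` are the entries of the matrix powers. With
`D = diag (w / 4)`, `Yc = D^{1/2} S D^{-1/2}` for the Hermitian `S = D^{1/2} (Mc - 25 z) D^{1/2}`;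
spectral theorem (`Matrix.IsHermitian.spectral_theorem`, `charpoly` of a Hermitian matrix). -/
theorem sum_dg [NeZero r] {K : ℝ} (χ : ℂ[X]) (z : ℝ) {M : V → V → ℂ} {w : V → ℝ} {s : V → St r}
    {U : Finset V} (h : Env K M w U) (hs : ∀ u ∈ U, s u ≠ St.unc) :
    ∑ x ∈ live s U, dg χ (live s U) (Yc z M w s) x = sumC χ (PP z M w s U) := by
  obtain ⟨ev, Q, hQ, hr, hd⟩ := Diag_main z h hs
  rw [Finset.sum_congr rfl fun x hx => hd χ x hx, Finset.sum_comm]
  unfold sumC
  rw [hr, Multiset.map_map, Finset.sum_map_val]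
  refine Finset.sum_congr rfl fun i _ => ?_
  rw [← Finset.sum_mul, ← Complex.ofReal_sum, hQ.col i]
  simp

/-- `χ(S) + 2 β ≥ S₊ ≥ 0` (`Chi.sup`, `PP_root_le`), and `dg` is the diagonal of `χ(S)`. -/
theorem dg_bd [NeZero r] {K z lo hi T β : ℝ} (hz : 0 ≤ z) {M : V → V → ℂ} {w : V → ℝ}
    {s : V → St r} {U : Finset V} (h : Env K M w U) (hs : ∀ u ∈ U, s u ≠ St.unc)
    (hR : Rng lo hi w s U) (hT : hi * (25 * z + 1) ≤ T) {χ : ℝ[X]} (hχ : Chi T β χ) {x : V}
    (hx : x ∈ live s U) :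
    -(2 * β) ≤ (dg (cx χ) (live s U) (Yc z M w s) x).re ∧
      (dg (cx χ) (live s U) (Yc z M w s) x).re ≤ T + 2 * β := by
  obtain ⟨ev, Q, hQ, hr, hd⟩ := Diag_main z h hs
  have hev := Diag_ev hz h hR hT hχ hr
  rw [hd _ x hx, Diag_re]
  have h1 := hQ.row x hx
  constructor
  · calc -(2 * β) = ∑ i, ‖Q x i‖ ^ 2 * (-(2 * β)) := by rw [← Finset.sum_mul, h1, one_mul]
      _ ≤ _ := Finset.sum_le_sum fun i _ => mul_le_mul_of_nonneg_left
          (by linarith [(hev i).1, le_max_right (ev i) 0]) (sq_nonneg _)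
  · calc _ ≤ ∑ i, ‖Q x i‖ ^ 2 * (T + 2 * β) :=
          Finset.sum_le_sum fun i _ => mul_le_mul_of_nonneg_left (hev i).2 (sq_nonneg _)
      _ = _ := by rw [← Finset.sum_mul, h1, one_mul]

/-- Let `η'` be `η` restricted to the live vertices of `B`, `ζ = D^{-1/2} η'`. The partial trace
over `live s B` of the positive matrix `χ(S) + 2 β` is at least
`⟨(χ(S) + 2β) ζ, ζ⟩ / ‖ζ‖² ≥ ⟨S ζ, ζ⟩ / ‖ζ‖² ≥ z ‖η'‖² / ((4 / lo') ‖η'‖²)`. -/
theorem dg_bad [NeZero r] {K z lo hi lo' T β : ℝ} (hz : 0 ≤ z) {M : V → V → ℂ} {w : V → ℝ}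
    {s : V → St r} {U B : Finset V} (h : Env K M w U) (hs : ∀ u ∈ U, s u ≠ St.unc)
    (hR : Rng lo hi w s U) (hT : hi * (25 * z + 1) ≤ T) {χ : ℝ[X]} (hχ : Chi T β χ) (hB : B ⊆ U)
    (hlo : 0 < lo') (hw : ∀ u ∈ B, lo' ≤ w u) {η : V → ℂ}
    (hη : 26 * z * nsq B η < (form (Mc M fun x => (s x).toOpt) B η).re) :
    z * lo' / 4 ≤ ∑ x ∈ live s B, ((dg (cx χ) (live s U) (Yc z M w s) x).re + 2 * β) := by
  obtain ⟨ev, Q, hQ, hr, hd⟩ := Diag_main z h hs
  have hev := Diag_ev hz h hR hT hχ hr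
  set B' := live s B with hB'
  have hsub : B' ⊆ live s U := fun u hu =>
    PfB_mem_live.2 ⟨hB (PfB_mem_live.1 hu).1, (PfB_mem_live.1 hu).2⟩
  have hB'B : B' ⊆ B := fun u hu => (PfB_mem_live.1 hu).1
  have hwp : ∀ u ∈ B', 0 < w u := fun u hu => h.pos u (hB (hB'B hu))
  set μ : live s U → ℝ := fun i => χ.eval (ev i) + 2 * β with hμ
  have hμ1 : ∀ i, ev i ≤ μ i := fun i => by
    simp only [hμ]; linarith [(hev i).1, le_max_left (ev i) 0]
  have hμ0 : ∀ i, 0 ≤ μ i := fun i => by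
    simp only [hμ]; linarith [(hev i).1, le_max_right (ev i) 0]
  set PT := ∑ x ∈ B', ((dg (cx χ) (live s U) (Yc z M w s) x).re + 2 * β) with hPT
  have e1 : PT = ∑ i, μ i * ∑ x ∈ B', ‖Q x i‖ ^ 2 := by
    rw [hPT]
    simp only [Finset.mul_sum]
    rw [Finset.sum_comm]
    refine Finset.sum_congr rfl fun x hx => ?_
    rw [hd _ x (hsub hx), Diag_re]
    have h1 := hQ.row x (hsub hx)
    simp only [hμ, add_mul, Finset.sum_add_distrib, ← Finset.mul_sum, h1, mul_one]
    simp only [mul_comm]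
  have hPT0 : 0 ≤ PT := by
    rw [e1]
    exact Finset.sum_nonneg fun i _ => mul_nonneg (hμ0 i) (Finset.sum_nonneg fun _ _ => sq_nonneg _)
  set ζ : V → ℂ := fun u => η u / (Diag_d w u : ℂ) with hζ
  have hd0 : ∀ u ∈ B', (Diag_d w u : ℂ) ≠ 0 := fun u hu =>
    Complex.ofReal_ne_zero.2 (Diag_d_pos (hwp u hu)).ne'
  have e2 : form (Diag_S z M w s) B' ζ =
      form (Mc M fun x => (s x).toOpt) B η - ((25 * z * nsq B' η : ℝ) : ℂ) := by
    have a1 : form (Mc M fun x => (s x).toOpt) B η = form (Mc M fun x => (s x).toOpt) B' η := by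
      unfold form
      symm
      have hdel : ∀ u ∈ B, u ∉ B' → (s u).toOpt = none := by
        intro u hu hu'
        have : s u = St.del := by
          by_contra hne
          exact hu' (PfB_mem_live.2 ⟨hu, hne⟩)
        rw [this]; rfl
      refine (Finset.sum_congr rfl fun a _ => Finset.sum_subset hB'B fun b hb hb' => ?_).trans
        (Finset.sum_subset hB'B fun a ha ha' => Finset.sum_eq_zero fun b _ => ?_)
      · have : Mc M (fun x => (s x).toOpt) a b = 0 := by
          unfold Mc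
          rw [if_neg]
          rintro ⟨h1, h2⟩
          exact h2 (h1.trans (hdel b hb hb'))
        rw [this]; simp
      · have : Mc M (fun x => (s x).toOpt) a b = 0 := by
          unfold Mc
          rw [if_neg]
          rintro ⟨_, h2⟩
          exact h2 (hdel a ha ha')
        rw [this]; simp
    rw [a1]
    unfold form nsq
    push_cast
    rw [Finset.mul_sum, ← Finset.sum_sub_distrib]
    refine Finset.sum_congr rfl fun a ha => ?_
    have a2 : (25 * (z : ℂ)) * ((‖η a‖ : ℝ) : ℂ) ^ 2 = ∑ b ∈ B', (starRingEnd ℂ) (η a) *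
        (if a = b then ((25 * z : ℝ) : ℂ) else 0) * η b := by
      rw [Finset.sum_eq_single_of_mem a ha (fun b _ hb => by simp [hb.symm]), if_pos rfl,
        ← Complex.conj_mul']
      push_cast; ring
    rw [a2, ← Finset.sum_sub_distrib]
    refine Finset.sum_congr rfl fun b hb => ?_
    have := hd0 a ha
    have := hd0 b hb
    simp only [hζ, Diag_S, map_div₀, Complex.conj_ofReal]
    field_simp
  have e3 := hQ.form_le hsub ζ hμ1 hμ0
  rw [← e1, e2, Complex.sub_re, Complex.ofReal_re] at e3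
  have e4 : nsq B' ζ * (lo' / 4) ≤ nsq B' η := by
    unfold nsq
    rw [Finset.sum_mul]
    refine Finset.sum_le_sum fun u hu => ?_
    have h1 := Diag_d_pos (hwp u hu)
    have h2 := Diag_d_sq (hwp u hu)
    have h3 := hw u (hB'B hu)
    simp only [hζ, norm_div, Complex.norm_real, Real.norm_eq_abs, div_pow, sq_abs, h2]
    rw [div_mul_eq_mul_div, div_le_iff₀ (by linarith [hwp u hu])]
    exact mul_le_mul_of_nonneg_left (by linarith) (sq_nonneg _)
  have e5 : nsq B' η ≤ nsq B η :=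
    Finset.sum_le_sum_of_subset_of_nonneg hB'B fun _ _ _ => sq_nonneg _
  have e6 : 0 ≤ nsq B' ζ := Finset.sum_nonneg fun _ _ => sq_nonneg _
  have e7 : z * nsq B' η < PT * nsq B' ζ := by nlinarith
  by_contra hlt
  push Not at hlt
  have e8 : z * (nsq B' ζ * (lo' / 4)) ≤ z * nsq B' η := mul_le_mul_of_nonneg_left e4 hz
  nlinarith

/-- A Hermitian form bounded by `c` gives `|(Y ^ k)_{xx}| ≤ c ^ k` (polarisation as in
`HC.bilin`). -/
theorem pw_le {Y : V → V → ℂ} {U : Finset V} {c : ℝ} (hc : 0 ≤ c)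
    (hY : ∀ u ∈ U, ∀ u' ∈ U, Y u' u = (starRingEnd ℂ) (Y u u'))
    (hb : ∀ η : V → ℂ, ‖form Y U η‖ ≤ c * nsq U η) (k : ℕ) {x : V} (hx : x ∈ U) :
    ‖pw U Y k x x‖ ≤ c ^ k := by
  have _ := hc
  obtain ⟨ev, Q, hQ, -⟩ := Diag_spec hY
  have hev : ∀ i, |ev i| ≤ c := by
    intro i
    have h1 := hb fun u => Q u i
    rw [hQ.form_ev i, show nsq U (fun u => Q u i) = 1 from hQ.col i, mul_one] at h1
    simpa using h1
  rw [hQ.pw_eq k hx hx]
  refine (norm_sum_le _ _).trans ?_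
  calc ∑ i, ‖Q x i * (ev i : ℂ) ^ k * (starRingEnd ℂ) (Q x i)‖ ≤ ∑ i, ‖Q x i‖ ^ 2 * c ^ k := by
        refine Finset.sum_le_sum fun i _ => ?_
        rw [norm_mul, norm_mul, norm_pow, Complex.norm_conj, Complex.norm_real, Real.norm_eq_abs]
        have := pow_le_pow_left₀ (abs_nonneg _) (hev i) k
        nlinarith [sq_nonneg ‖Q x i‖]
    _ = _ := by rw [← Finset.sum_mul, hQ.row x hx, one_mul]

/-- The coloured part of a contraction is a contraction (sum over the colours). -/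
theorem HC.mc {M : V → V → ℂ} {U : Finset V} (h : HC M U) (c : V → Option (Fin r)) :
    HC (Mc M c) U := by
  refine ⟨fun u hu u' hu' => ?_, fun u hu => ?_, fun η => ?_⟩
  · unfold Mc
    by_cases h1 : c u = c u' ∧ c u ≠ none
    · rw [if_pos h1, if_pos ⟨h1.1.symm, h1.1 ▸ h1.2⟩, h.herm u hu u' hu']
    · rw [if_neg h1, if_neg (fun h2 : c u' = c u ∧ c u' ≠ none => h1 ⟨h2.1.symm, h2.1 ▸ h2.2⟩),
      map_zero]
  · unfold Mc
    rw [h.diag u hu, ite_self]
  · have e1 : form (Mc M c) U η =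
        ∑ i : Fin r, form M U (fun u => if c u = some i then η u else 0) := by
      unfold form
      conv_rhs => rw [Finset.sum_comm]
      refine Finset.sum_congr rfl fun a _ => ?_
      conv_rhs => rw [Finset.sum_comm]
      refine Finset.sum_congr rfl fun b _ => ?_
      unfold Mc
      beta_reduce
      cases ha : c a with
      | none => simp
      | some i =>
        rw [Finset.sum_eq_single i (fun j _ hj => by simp [hj.symm]) (by simp)]
        by_cases hb : c b = some i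
        · simp [hb]
        · have : ¬ some i = c b := fun h => hb h.symm
          simp [hb, this]
    rw [e1]
    refine (norm_sum_le _ _).trans ((Finset.sum_le_sum fun i _ => h.bd _).trans ?_)
    unfold nsq
    rw [Finset.sum_comm]
    refine Finset.sum_le_sum fun a _ => ?_
    beta_reduce
    cases ha : c a with
    | none => simp
    | some i =>
      rw [Finset.sum_eq_single i (fun j _ hj => by simp [hj.symm]) (by simp)]
      simp

/-- The set of kernels whose form is bounded by `c` is closed, hence measurable. -/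
theorem measurableSet_form_le {Z : Type*} [MeasurableSpace Z] {y : Z → V → V → ℂ}
    (hy : ∀ a b, Measurable fun t => y t a b) (U : Finset V) (c : ℝ) :
    MeasurableSet {t | ∀ η : V → ℂ, ‖form (y t) U η‖ ≤ c * nsq U η} := by
  have hm : Measurable fun t => (fun a b : U => y t a b) :=
    measurable_pi_lambda _ fun a => measurable_pi_lambda _ fun b => hy a b
  have hc : IsClosed {m : U → U → ℂ | ∀ η : V → ℂ,
      ‖∑ a : U, ∑ b : U, (starRingEnd ℂ) (η a) * m a b * η b‖ ≤ c * nsq U η} := by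
    rw [Set.ofPred_forall]
    exact isClosed_iInter fun η => isClosed_le (by fun_prop) continuous_const
  have := hm hc.measurableSet
  convert this using 1
  ext t
  simp only [Set.mem_preimage, Set.mem_ofPred_eq]
  refine forall_congr' fun η => ?_
  unfold form
  rw [← Finset.sum_coe_sort U]
  simp only [← Finset.sum_coe_sort U (fun b => (starRingEnd ℂ) (η _) * y t _ b * η b)]

theorem form_le_iso {Y : V → V → ℂ} {y : V' → V' → ℂ} (e : V' → V) {U : Finset V'}
    (he : Set.InjOn e U) (γ : V' → ℂ) (hγ : ∀ a ∈ U, ‖γ a‖ = 1)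
    (hY : ∀ a ∈ U, ∀ b ∈ U, Y (e a) (e b) = (starRingEnd ℂ) (γ a) * y a b * γ b) (c : ℝ) :
    (∀ η : V → ℂ, ‖form Y (U.image e) η‖ ≤ c * nsq (U.image e) η) ↔
      ∀ η : V' → ℂ, ‖form y U η‖ ≤ c * nsq U η := by
  have k1 : ∀ η : V → ℂ, form Y (U.image e) η = form y U (fun a => γ a * η (e a)) := by
    intro η
    unfold form
    rw [Finset.sum_image he]
    refine Finset.sum_congr rfl fun a ha => ?_
    rw [Finset.sum_image he]
    refine Finset.sum_congr rfl fun b hb => ?_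
    rw [hY a ha b hb, map_mul]
    ring
  have k2 : ∀ η : V → ℂ, nsq (U.image e) η = nsq U (fun a => γ a * η (e a)) := by
    intro η
    unfold nsq
    rw [Finset.sum_image he]
    refine Finset.sum_congr rfl fun a ha => ?_
    rw [norm_mul, hγ a ha, one_mul]
  refine ⟨fun H η' => ?_, fun H η => by rw [k1, k2]; exact H _⟩
  have := H fun v => ∑ a ∈ U, if e a = v then (starRingEnd ℂ) (γ a) * η' a else 0
  rw [k1, k2] at this
  have k3 : ∀ a ∈ U, γ a * (∑ b ∈ U, if e b = e a then (starRingEnd ℂ) (γ b) * η' b else 0) =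
      η' a := by
    intro a ha
    rw [Finset.sum_eq_single_of_mem a ha (fun b hb hne => if_neg fun h => hne (he hb ha h)),
      if_pos rfl, ← mul_assoc, Complex.mul_conj', hγ a ha]
    simp
  have k4 : form y U (fun a => γ a * ∑ b ∈ U,
      if e b = e a then (starRingEnd ℂ) (γ b) * η' b else 0) = form y U η' := by
    unfold form
    exact Finset.sum_congr rfl fun a ha => Finset.sum_congr rfl fun b hb => by
      beta_reduce
      rw [k3 a ha, k3 b hb]
  have k5 : nsq U (fun a => γ a * ∑ b ∈ U,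
      if e b = e a then (starRingEnd ℂ) (γ b) * η' b else 0) = nsq U η' := by
    unfold nsq
    exact Finset.sum_congr rfl fun a ha => by beta_reduce; rw [k3 a ha]
  rwa [k4, k5] at this

end Crest.Agent.R109
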