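import Crest.Agent.R109.PfB

/-! Task 109-LOC: power sums of the roots; locality and measurability. -/

set_option autoImplicit false

open Polynomial

namespace Crest.Agent.R109

variable {V V' : Type*} [DecidableEq V] [DecidableEq V'] {r : ℕ}

namespace LocAux

/-- power sums of the roots -/
noncomputable def ps (P : ℂ[X]) (k : ℕ) : ℂ := (P.roots.map fun x => x ^ k).sum

theorem ps_zero (P : ℂ[X]) : ps P 0 = P.natDegree := by
  simp [ps, (IsAlgClosed.splits P).natDegree_eq_card_roots]

theorem sumC_eq (χ P : ℂ[X]) :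
    sumC χ P = ∑ k ∈ Finset.range (χ.natDegree + 1), χ.coeff k * ps P k := by
  unfold sumC ps
  simp only [eval_eq_sum_range]
  rw [Multiset.sum_map_sum]
  exact Finset.sum_congr rfl fun k _ => Multiset.sum_map_mul_left

theorem rev_coeff {P : ℂ[X]} (hP : P.Monic) (i : ℕ) :
    (-1) ^ i * P.roots.esymm i = P.reverse.coeff i := by
  rw [coeff_reverse]
  rcases le_or_gt i P.natDegree with h | h
  · rw [revAt_le h, coeff_eq_esymm_roots_of_splits (IsAlgClosed.splits P) (Nat.sub_le _ _),
      hP.leadingCoeff, one_mul, Nat.sub_sub_self h]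
  · rw [revAt_eq_self_of_lt h, coeff_eq_zero_of_natDegree_lt h, Multiset.esymm,
      Multiset.powersetCard_eq_empty _ ((card_roots' P).trans_lt h)]
    simp

/-- Newton's identities -/
theorem newton {P : ℂ[X]} (hP : P.Monic) {k : ℕ} (hk : 0 < k) :
    ps P k = -(k * P.reverse.coeff k) -
      ∑ a ∈ (Finset.HasAntidiagonal.antidiagonal k).filter (fun a => a.1 ∈ Set.Ioo 0 k),
        P.reverse.coeff a.1 * ps P a.2 := by
  classical
  have h := congrArg (MvPolynomial.aeval (fun x : P.roots => (x : ℂ)))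
    (MvPolynomial.psum_eq_mul_esymm_sub_sum P.roots ℂ k hk)
  have hp : ∀ j, MvPolynomial.aeval (fun x : P.roots => (x : ℂ))
      (MvPolynomial.psum P.roots ℂ j) = ps P j := by
    intro j
    simp only [MvPolynomial.psum, map_sum, map_pow, MvPolynomial.aeval_X, ps]
    conv_rhs => rw [← Multiset.map_univ_coe P.roots, Multiset.map_map]
    rfl
  simp only [map_sub, map_mul, map_sum, map_pow, map_neg, map_one, map_natCast, hp,
    MvPolynomial.aeval_esymm_eq_multiset_esymm, Multiset.map_univ_coe, rev_coeff hP] at h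
  rw [h, ← rev_coeff hP k]
  congr 1
  ring

theorem ps_congr {P Q : ℂ[X]} (hP : P.Monic) (hQ : Q.Monic) (hd : P.natDegree = Q.natDegree)
    {R : ℕ} (h : X ^ (R + 1) ∣ P.reverse - Q.reverse) (k : ℕ) (hk : k ≤ R) : ps P k = ps Q k := by
  have hc : ∀ i ≤ R, P.reverse.coeff i = Q.reverse.coeff i := fun i hi => by
    have := X_pow_dvd_iff.1 h i (by omega)
    rwa [coeff_sub, sub_eq_zero] at this
  induction k using Nat.strong_induction_on with
  | _ k ih =>
    rcases k.eq_zero_or_pos with rfl | h0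
    · rw [ps_zero, ps_zero, hd]
    rw [newton hP h0, newton hQ h0, hc k hk]
    congr 1
    refine Finset.sum_congr rfl fun a ha => ?_
    obtain ⟨h1, h2, h3⟩ := Finset.mem_filter.1 ha
    rw [Finset.HasAntidiagonal.mem_antidiagonal] at h1
    rw [hc a.1 (by omega), ih a.2 (by omega) (by omega)]

theorem ps_meas {Y : Type*} [MeasurableSpace Y] {P : Y → ℂ[X]} {n : ℕ} (hP : ∀ y, (P y).Monic)
    (hn : ∀ y, (P y).natDegree = n) (hc : ∀ i, Measurable fun y => (P y).coeff i) (k : ℕ) :
    Measurable fun y => ps (P y) k := by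
  have hr : ∀ i, Measurable fun y => (P y).reverse.coeff i := fun i => by
    simp only [coeff_reverse, hn]
    exact hc _
  induction k using Nat.strong_induction_on with
  | _ k ih =>
    rcases k.eq_zero_or_pos with rfl | h0
    · simp only [ps_zero, hn]
      exact measurable_const
    simp only [fun y => newton (hP y) h0]
    refine ((hr k).const_mul _).neg.sub (Finset.measurable_sum _ fun a ha => (hr _).mul (ih _ ?_))
    obtain ⟨h1, h2, h3⟩ := Finset.mem_filter.1 ha
    rw [Finset.HasAntidiagonal.mem_antidiagonal] at h1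
    omega

theorem Pf_mem {A : Type*} [CommRing A] (S : Subring A) {B : V × Fin r → V × Fin r → A}
    {π : V × Fin r → A} (hB : ∀ a b, B a b ∈ S) (hπ : ∀ a, π a ∈ S) (U : Finset V)
    (T : Finset (V × Fin r)) : Pf B π U T ∈ S := by
  unfold Pf minor
  refine sum_mem fun c _ => mul_mem (prod_mem fun u _ => hπ _) ?_
  rw [Matrix.det_apply']
  exact sum_mem fun σ _ => mul_mem (intCast_mem S _) (prod_mem fun i _ => hB _ _)

/-- families of polynomials with measurable coefficients -/
noncomputable def MS (Y : Type*) [MeasurableSpace Y] : Subring (Y → ℂ[X]) where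
  carrier := {P | ∀ i, Measurable fun y => (P y).coeff i}
  mul_mem' := by
    intro P Q hP hQ i
    simp only [Pi.mul_apply, coeff_mul]
    exact Finset.measurable_sum _ fun a _ => (hP _).mul (hQ _)
  one_mem' := fun _ => measurable_const
  add_mem' := by
    intro P Q hP hQ i
    simp only [Pi.add_apply, coeff_add]
    exact (hP _).add (hQ _)
  zero_mem' := fun _ => measurable_const
  neg_mem' := by
    intro P hP i
    simp only [Pi.neg_apply, coeff_neg]
    exact (hP _).neg

theorem MS_C {Y : Type*} [MeasurableSpace Y] {f : Y → ℂ} (hf : Measurable f) :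
    (fun y => C (f y)) ∈ MS Y := by
  intro i
  simp only [coeff_C]
  split_ifs
  · exact hf
  · exact measurable_const

/-- the reversed expected characteristic polynomial, with the off-diagonal entries rescaled -/
noncomputable def FR {S : Type*} [CommRing S] (f : ℂ →+* S) (t : S) (τ : V → V → S) (z : ℝ)
    (M : V → V → ℂ) (w : V → ℝ) (s : V → St r) (U : Finset V) : S :=
  Pf (fun a b => if a = b then 1 + t * f ((ws w s a.1 * zs z s a.1 : ℝ) : ℂ)
    else if a.2 = b.2 then -(τ a.1 b.1 * f ((ws w s a.1 : ℂ) * M a.1 b.1)) else 0)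
    (fun _ => f ((r : ℂ)⁻¹)) (Uu s U) (Tc s U)

theorem FR_map {S S' : Type*} [CommRing S] [CommRing S'] (g : S →+* S') (f : ℂ →+* S) (t : S)
    (τ : V → V → S) (z : ℝ) (M : V → V → ℂ) (w : V → ℝ) (s : V → St r) (U : Finset V) :
    g (FR f t τ z M w s U) = FR (g.comp f) (g t) (fun a b => g (τ a b)) z M w s U := by
  unfold FR
  rw [Pf_map]
  congr 1
  funext a b
  split_ifs <;> simp

theorem FR_congr {S : Type*} [CommRing S] (f : ℂ →+* S) (t : S) (τ : V → V → S) (z : ℝ)
    (M : V → V → ℂ) (w : V → ℝ) {s s' : V → St r} {U : Finset V} (hs : ∀ u ∈ U, s u = s' u) :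
    FR f t τ z M w s U = FR f t τ z M w s' U := by
  have e1 : Uu s' U = Uu s U := Finset.filter_congr fun u hu => by rw [hs u hu]
  have e2 : Tc s' U = Tc s U :=
    Finset.filter_congr fun a ha => by rw [hs a.1 (Finset.mem_product.1 ha).1]
  unfold FR
  rw [e1, e2]
  refine Pf_congr (fun a ha b hb => ?_) fun _ _ _ => rfl
  simp only [ws, zs, ← hs a.1 (PfB_supp_live ha).1]

theorem FR_block {S : Type*} [CommRing S] (f : ℂ →+* S) (t : S) (τ : V → V → S) (z : ℝ)
    (M : V → V → ℂ) (w : V → ℝ) (s : V → St r) (U : Finset V) (p : V → Prop) [DecidablePred p]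
    (h : ∀ u ∈ U, ∀ u' ∈ U, p u → ¬ p u' → M u u' ≠ 0 → τ u u' = 0) :
    FR f t τ z M w s U = FR f t τ z M w s (U.filter p) *
      FR f t τ z M w s (U.filter fun u => ¬ p u) := by
  have e1 : ∀ (q : V → Prop) [DecidablePred q], Uu s (U.filter q) = (Uu s U).filter q := by
    intro q _
    ext u
    simp only [PfB_mem_Uu, Finset.mem_filter]
    tauto
  have e2 : ∀ (q : V → Prop) [DecidablePred q],
      Tc s (U.filter q) = (Tc s U).filter fun a => q a.1 := by
    intro q _
    ext u
    simp only [PfB_mem_Tc, Finset.mem_filter]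
    tauto
  unfold FR
  rw [e1, e1, e2, e2]
  refine Pf_block _ _ _ _ p fun a ha b hb h1 h2 => ?_
  have hab : a ≠ b := fun h => h2 (h ▸ h1)
  by_cases h0 : M a.1 b.1 = 0
  · simp [hab, h0]
  · simp [hab, h _ (PfB_supp_live ha).1 _ (PfB_supp_live hb).1 h1 h2 h0]

theorem rev_PP [NeZero r] (z : ℝ) (M : V → V → ℂ) (w : V → ℝ) (s : V → St r) (U : Finset V) :
    (PP z M w s U).reverse = FR C X (fun _ _ => X) z M w s U := by
  refine eq_of_infinite_eval_eq _ _
    (((Set.finite_singleton (0 : ℂ)).infinite_compl).mono fun t ht => ?_)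
  have ht0 : t ≠ 0 := ht
  let : Invertible t⁻¹ := invertibleOfNonzero (inv_ne_zero ht0)
  have h1 := eval₂_reverse_mul_pow (RingHom.id ℂ) t⁻¹ (PP z M w s U)
  rw [invOf_eq_inv, inv_inv, eval₂_id, eval₂_id, (PP_monic z M w s U).2] at h1
  have h2 : (PP z M w s U).reverse.eval t =
      t ^ (live s U).card * (PP z M w s U).eval t⁻¹ := by
    rw [← h1, inv_pow]
    field_simp
  have h3 := FR_map (evalRingHom t) C X (fun _ _ => X) z M w s U
  have h4 := Pf_map (evalRingHom t⁻¹) (Bp z M w s) (fun _ => C ((r : ℂ)⁻¹)) (Uu s U) (Tc s U)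
  simp only [coe_evalRingHom, eval_X, eval_C] at h3 h4
  rw [Set.mem_ofPred_eq, h2, h3, PP, h4, ← Finset.prod_const, ← PfB_prod_live, mul_assoc,
    ← Pf_weight (fun _ => t), ← Pf_row (fun _ => t) _ _ (dis_state s U), FR]
  congr 1
  · funext a b
    simp only [Bp]
    split_ifs
    · simp [mul_add, ht0]
    · simp
    · simp
  · funext a
    simp

theorem X_dvd {A : Type*} [CommRing A] (j : ℕ) (p : MvPolynomial ℕ A) :
    MvPolynomial.X j ∣ p - MvPolynomial.aeval
      (fun i => if i = j then (0 : MvPolynomial ℕ A) else MvPolynomial.X i) p := by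
  induction p using MvPolynomial.induction_on with
  | C a => simp
  | add p q hp hq =>
    rw [map_add, add_sub_add_comm]
    exact dvd_add hp hq
  | mul_X p i hp =>
    rw [map_mul, MvPolynomial.aeval_X]
    split_ifs with h
    · subst h
      simp
    · rw [← sub_mul]
      exact hp.mul_right _

theorem pow_dvd {A : Type*} [CommRing A] (R : ℕ) (p : MvPolynomial ℕ A) (x : A)
    (h : ∀ j ≤ R, MvPolynomial.X j ∣ p) : x ^ (R + 1) ∣ MvPolynomial.eval (fun _ => x) p := by
  rw [MvPolynomial.eval_eq]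
  refine Finset.dvd_sum fun m hm => Dvd.dvd.mul_left ?_ _
  have h1 : Finset.range (R + 1) ⊆ m.support := by
    intro j hj
    obtain ⟨q, rfl⟩ := h j (by simpa [Nat.lt_succ_iff] using hj)
    by_contra hc
    rw [MvPolynomial.mem_support_iff, MvPolynomial.coeff_X_mul', if_neg hc] at hm
    exact hm rfl
  calc x ^ (R + 1) = ∏ _j ∈ Finset.range (R + 1), x := by simp
    _ ∣ ∏ j ∈ Finset.range (R + 1), x ^ m j :=
        Finset.prod_dvd_prod_of_dvd _ _ fun j hj =>
          dvd_pow_self x (Finsupp.mem_support_iff.1 (h1 hj))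
    _ ∣ _ := Finset.prod_dvd_prod_of_subset _ _ _ h1

omit [DecidableEq V] in
theorem card_live (s : V → St r) (U : Finset V) (p : V → Prop) [DecidablePred p] :
    (live s U).card = (live s (U.filter p)).card + (live s (U.filter fun u => ¬ p u)).card := by
  unfold live
  rw [Finset.filter_comm, Finset.filter_comm (fun u => ¬ p u),
    Finset.card_filter_add_card_filter_not]

end LocAux

open LocAux

theorem sumC_mul (χ : ℂ[X]) {P Q : ℂ[X]} (hP : P ≠ 0) (hQ : Q ≠ 0) :
    sumC χ (P * Q) = sumC χ P + sumC χ Q := by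
  unfold sumC
  rw [roots_mul (mul_ne_zero hP hQ), Multiset.map_add, Multiset.sum_add]

theorem sumC_one (χ : ℂ[X]) : sumC χ 1 = 0 := by
  simp [sumC]

/-- Newton's identities: the power sums of the roots of a monic polynomial of degree `n` are
polynomials in the coefficients; the coefficients of `PP` are polynomials in the entries. -/
theorem measurable_sumC_PP [NeZero r] {Y : Type*} [MeasurableSpace Y] (χ : ℂ[X]) (z : ℝ)
    {m : Y → V → V → ℂ} {w : Y → V → ℝ} (hm : ∀ a b, Measurable fun y => m y a b)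
    (hw : ∀ a, Measurable fun y => w y a) (s : V → St r) (U : Finset V) :
    Measurable fun y => sumC χ (PP z (m y) (w y) s U) := by
  have hws : ∀ a, Measurable fun y => ws (w y) s a := fun a => by
    unfold ws
    split_ifs
    · exact hw a
    · exact (hw a).div_const _
  have h1 : (fun y => PP z (m y) (w y) s U) ∈ MS Y := by
    have h2 : (fun y => PP z (m y) (w y) s U) = Pf (fun a b y => Bp z (m y) (w y) s a b)
        (fun _ _ => C ((r : ℂ)⁻¹)) (Uu s U) (Tc s U) :=
      funext fun y => (Pf_map (Pi.evalRingHom (fun _ : Y => ℂ[X]) y)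
        (fun a b y => Bp z (m y) (w y) s a b) (fun _ _ => C ((r : ℂ)⁻¹)) (Uu s U) (Tc s U)).symm
    rw [h2]
    refine Pf_mem (MS Y) (fun a b => ?_) (fun _ => MS_C measurable_const) _ _
    unfold Bp
    split_ifs
    · exact add_mem (S := Subring _) (a := fun _ => X) (fun _ => measurable_const)
        (MS_C (Complex.measurable_ofReal.comp ((hws _).mul_const _)))
    · exact neg_mem (S := Subring _)
        (MS_C ((Complex.measurable_ofReal.comp (hws _)).mul (hm _ _)))
    · exact fun _ => measurable_const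
  simp only [sumC_eq]
  exact Finset.measurable_sum _ fun k _ => (ps_meas (fun y => (PP_monic z _ _ s U).1)
    (fun y => (PP_monic z _ _ s U).2) h1 k).const_mul _

/-- In the reversed polynomials replace `X * M u u'` by `θ (ℓ u) * M u u'` when `ℓ u' = ℓ u + 1`.
The cross difference vanishes when `θ j = 0` (`j ≤ R`), so it is divisible by `X ^ (R + 1)` after
the substitution `θ j = X`; Newton's identities conclude. -/
theorem loc [NeZero r] {χ : ℂ[X]} {R : ℕ} (hχ : χ.natDegree ≤ R) (z : ℝ) {M : V → V → ℂ}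
    (w : V → ℝ) (s : V → St r) {U : Finset V} (ℓ : V → ℕ) {v : V} (hv : ℓ v = 0)
    (hℓ : ∀ u ∈ U, ∀ u' ∈ U, M u u' ≠ 0 → ℓ u' ≤ ℓ u + 1) (o : St r) :
    Ic χ z M w s U v o = Ic χ z M w s (U.filter fun u => ℓ u ≤ R) v o := by
  set s' := Function.update s v o with hs'
  set U' := U.filter fun u => ℓ u ≤ R with hU'
  have hss : ∀ (j : ℕ) (W : Finset V), ∀ u ∈ W.filter (fun u => ¬ ℓ u ≤ j), s' u = s u := by
    intro j W u hu
    refine Function.update_of_ne ?_ _ _
    rintro rfl
    exact (Finset.mem_filter.1 hu).2 (by omega)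
  let τ : V → V → MvPolynomial ℕ ℂ[X] := fun u u' =>
    if ℓ u' = ℓ u + 1 then MvPolynomial.X (ℓ u) else MvPolynomial.C X
  let F : (V → St r) → Finset V → MvPolynomial ℕ ℂ[X] := fun s U =>
    FR (MvPolynomial.C.comp C) (MvPolynomial.C X) τ z M w s U
  have h1 : ∀ j ≤ R, MvPolynomial.X j ∣ F s' U * F s U' - F s U * F s' U' := by
    intro j hj
    have h2 := X_dvd j (F s' U * F s U' - F s U * F s' U')
    set g := MvPolynomial.aeval (R := ℂ[X])
      (fun i => if i = j then (0 : MvPolynomial ℕ ℂ[X]) else MvPolynomial.X i) with hg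
    have h3 : ∀ (s : V → St r) (W : Finset V), W ⊆ U → g (F s W) =
        g (F s (W.filter fun u => ℓ u ≤ j)) * g (F s (W.filter fun u => ¬ ℓ u ≤ j)) := by
      intro s W hW
      have e : ∀ W, g (F s W) = _ := fun W => FR_map g.toRingHom _ _ _ z M w s W
      rw [e, e, e]
      refine FR_block _ _ _ _ _ _ _ _ _ fun u hu u' hu' a b c => ?_
      have := hℓ u (hW hu) u' (hW hu') c
      have h4 : ℓ u' = ℓ u + 1 := by omega
      have h5 : ℓ u = j := by omega
      simp [τ, h4, h5, hg]
    have h4 : U'.filter (fun u => ℓ u ≤ j) = U.filter fun u => ℓ u ≤ j := by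
      rw [hU', Finset.filter_filter]
      exact Finset.filter_congr fun u _ => ⟨fun h => h.2, fun h => ⟨by omega, h⟩⟩
    have h5 : ∀ W : Finset V, F s' (W.filter fun u => ¬ ℓ u ≤ j) =
        F s (W.filter fun u => ¬ ℓ u ≤ j) := fun W => FR_congr _ _ _ _ _ _ (hss j W)
    have h6 : g (F s' U * F s U' - F s U * F s' U') = 0 := by
      rw [map_sub, map_mul, map_mul, h3 s' U le_rfl, h3 s U le_rfl,
        h3 s' U' (Finset.filter_subset _ _), h3 s U' (Finset.filter_subset _ _), h4, h5, h5]
      ring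
    rwa [h6, sub_zero] at h2
  have h2 := pow_dvd R _ X h1
  have h3 : ∀ (s : V → St r) (W : Finset V),
      MvPolynomial.eval (fun _ => (X : ℂ[X])) (F s W) = (PP z M w s W).reverse := by
    intro s W
    rw [rev_PP, FR_map]
    congr 1
    · ext1 a
      simp
    · simp
    · funext a b
      simp only [τ]
      split_ifs <;> simp
  rw [map_sub, map_mul, map_mul, h3, h3, h3, h3, ← reverse_mul_of_domain,
    ← reverse_mul_of_domain] at h2
  have hm := fun (s : V → St r) (W : Finset V) => PP_monic z M w s W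
  have hd : (PP z M w s' U * PP z M w s U').natDegree =
      (PP z M w s U * PP z M w s' U').natDegree := by
    rw [(hm _ _).1.natDegree_mul (hm _ _).1, (hm _ _).1.natDegree_mul (hm _ _).1, (hm _ _).2,
      (hm _ _).2, (hm _ _).2, (hm _ _).2, card_live s' U (fun u => ℓ u ≤ R),
      card_live s U (fun u => ℓ u ≤ R)]
    have : live s' (U.filter fun u => ¬ ℓ u ≤ R) = live s (U.filter fun u => ¬ ℓ u ≤ R) :=
      Finset.filter_congr fun u hu => by rw [hss R U u hu]
    rw [this, ← hU']
    ring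
  have h4 : sumC χ (PP z M w s' U * PP z M w s U') = sumC χ (PP z M w s U * PP z M w s' U') := by
    rw [sumC_eq, sumC_eq]
    refine Finset.sum_congr rfl fun k hk => ?_
    rw [ps_congr ((hm _ _).1.mul (hm _ _).1) ((hm _ _).1.mul (hm _ _).1) hd h2 k
      (by have := Finset.mem_range.1 hk; omega)]
  rw [sumC_mul _ (hm _ _).1.ne_zero (hm _ _).1.ne_zero,
    sumC_mul _ (hm _ _).1.ne_zero (hm _ _).1.ne_zero] at h4
  unfold Ic
  linear_combination h4

theorem Loc_upd (z : ℝ) (M : V → V → ℂ) (w : V → ℝ) {s s' : V → St r} {U : Finset V}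
    (h : ∀ u ∈ U, s u = s' u) (v : V) (o : St r) :
    PP z M w (Function.update s v o) U = PP z M w (Function.update s' v o) U := by
  refine PP_congr z (fun u hu => ?_) (fun _ _ _ => rfl) fun _ _ _ _ _ _ _ => rfl
  by_cases e : u = v
  · subst e; simp
  · simp [e, h u hu]

theorem Loc_iso (z : ℝ) {M : V → V → ℂ} {m : V' → V' → ℂ} (w : V → ℝ) (s : V → St r)
    (e : V' → V) {U : Finset V'} (he : Set.InjOn e U) (γ : V' → ℂ) (hγ : ∀ a ∈ U, ‖γ a‖ = 1)
    (hM : ∀ a ∈ U, ∀ b ∈ U, M (e a) (e b) = (starRingEnd ℂ) (γ a) * m a b * γ b) {v : V'}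
    (hv : v ∈ U) (o : St r) : PP z M w (Function.update s (e v) o) (U.image e) =
      PP z m (w ∘ e) (Function.update (s ∘ e) v o) U := by
  rw [PP_iso z w _ e he γ hγ hM]
  refine PP_congr z (fun u hu => ?_) (fun _ _ _ => rfl) fun _ _ _ _ _ _ _ => rfl
  by_cases h : u = v
  · subst h; simp
  · have : e u ≠ e v := fun h' => h (he hu hv h')
    simp [h, this]

theorem Ic_congr (χ : ℂ[X]) (z : ℝ) (M : V → V → ℂ) (w : V → ℝ) {s s' : V → St r} {U : Finset V}
    (h : ∀ u ∈ U, s u = s' u) (v : V) (o : St r) : Ic χ z M w s U v o = Ic χ z M w s' U v o := by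
  unfold Ic
  rw [Loc_upd z M w h, PP_congr z h (fun _ _ _ => rfl) fun _ _ _ _ _ _ _ => rfl]

theorem Ic_iso (χ : ℂ[X]) (z : ℝ) {M : V → V → ℂ} {m : V' → V' → ℂ} (w : V → ℝ) (s : V → St r)
    (e : V' → V) {U : Finset V'} (he : Set.InjOn e U) (γ : V' → ℂ) (hγ : ∀ a ∈ U, ‖γ a‖ = 1)
    (hM : ∀ a ∈ U, ∀ b ∈ U, M (e a) (e b) = (starRingEnd ℂ) (γ a) * m a b * γ b) {v : V'}
    (hv : v ∈ U) (o : St r) :
    Ic χ z M w s (U.image e) (e v) o = Ic χ z m (w ∘ e) (s ∘ e) U v o := by
  unfold Ic
  rw [Loc_iso z w s e he γ hγ hM hv, PP_iso z w _ e he γ hγ hM]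

theorem Dp_iso (z : ℝ) {M : V → V → ℂ} {m : V' → V' → ℂ} (w : V → ℝ) (s : V → St r)
    (e : V' → V) {U : Finset V'} (he : Set.InjOn e U) (γ : V' → ℂ) (hγ : ∀ a ∈ U, ‖γ a‖ = 1)
    (hM : ∀ a ∈ U, ∀ b ∈ U, M (e a) (e b) = (starRingEnd ℂ) (γ a) * m a b * γ b) {v : V'}
    (hv : v ∈ U) (o : St r) :
    Dp z M w s (U.image e) (e v) o = Dp z m (w ∘ e) (s ∘ e) U v o := by
  unfold Dp
  rw [Loc_iso z w s e he γ hγ hM hv, Loc_iso z w s e he γ hγ hM hv]

theorem Dp_congr (z : ℝ) (M : V → V → ℂ) (w : V → ℝ) {s s' : V → St r} {U : Finset V}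
    (h : ∀ u ∈ U, s u = s' u) (v : V) (o : St r) : Dp z M w s U v o = Dp z M w s' U v o := by
  unfold Dp
  rw [Loc_upd z M w h, Loc_upd z M w h]

/-- A crude bound, uniform over polynomials with at most `n` roots in the disc of radius `T`. -/
theorem sumC_bdd (χ : ℂ[X]) (n : ℕ) (T : ℝ) : ∃ C : ℝ, 0 ≤ C ∧ ∀ P : ℂ[X], P.natDegree ≤ n →
    (∀ x ∈ P.roots, ‖x‖ ≤ T) → ‖sumC χ P‖ ≤ C := by
  obtain ⟨B, hB⟩ := (isCompact_closedBall (0 : ℂ) T).exists_bound_of_continuousOn
    χ.continuous.continuousOn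
  refine ⟨n * |B|, by positivity, fun P hP hT => ?_⟩
  refine (norm_multiset_sum_le _).trans ((Multiset.sum_le_card_nsmul _ |B| ?_).trans ?_)
  · intro y hy
    simp only [Multiset.map_map, Multiset.mem_map, Function.comp_apply] at hy
    obtain ⟨x, hx, rfl⟩ := hy
    exact (hB x (mem_closedBall_zero_iff.2 (hT x hx))).trans (le_abs_self B)
  · rw [Multiset.card_map, Multiset.card_map, nsmul_eq_mul]
    gcongr
    exact_mod_cast (card_roots' P).trans hP

end Crest.Agent.R109
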