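import Crest.Agent.R109.Gr0
import Crest.Agent.R109.Loc
import Crest.Agent.R109.Diag

/-! Task 109-GR: words, balls, locality on graphs. -/

set_option autoImplicit false

open Polynomial MeasureTheory

namespace Crest.Agent.R109

variable {G X : Type*}

theorem act_append (φ : G → X → X) (w w' : List G) (x : X) :
    act φ (w ++ w') x = act φ w (act φ w' x) := by
  induction w with
  | nil => rfl
  | cons g w ih => simp only [List.cons_append, act, ih]

theorem act_reverse_act {φ : G → X → X} (h : ∀ g y, φ g (φ g y) = y) (w : List G) (x : X) :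
    act φ w.reverse (act φ w x) = x := by
  induction w with
  | nil => rfl
  | cons g w ih => rw [List.reverse_cons, act_append]; simp only [act, h, ih]

theorem act_act_reverse {φ : G → X → X} (h : ∀ g y, φ g (φ g y) = y) (w : List G) (x : X) :
    act φ w (act φ w.reverse x) = x := by
  have := act_reverse_act h w.reverse x
  rwa [List.reverse_reverse] at this

theorem measurable_act [MeasurableSpace X] {φ : G → X → X} (h : ∀ g, Measurable (φ g))
    (w : List G) : Measurable (act φ w) := by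
  induction w with
  | nil => exact measurable_id
  | cons g w ih => exact (h g).comp ih

variable [Fintype G] [DecidableEq G]

theorem mem_words {R : ℕ} {w : List G} : w ∈ words G R ↔ w.length ≤ R := by
  induction R generalizing w with
  | zero => simp [words]
  | succ R ih =>
    cases w with
    | nil => simp [words]
    | cons g w =>
      simp only [words, Finset.mem_insert, reduceCtorEq, Finset.mem_image, Finset.mem_product,
        Finset.mem_univ, true_and, false_or, List.length_cons, Nat.add_le_add_iff_right, ih]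
      constructor
      · rintro ⟨p, hp, h⟩
        rw [List.cons.injEq] at h
        rw [← h.2]; exact hp
      · intro h; exact ⟨(g, w), h, rfl⟩

variable [DecidableEq X]

theorem mem_ball {φ : G → X → X} {R : ℕ} {x y : X} :
    y ∈ ball φ R x ↔ ∃ w : List G, w.length ≤ R ∧ act φ w x = y := by
  simp only [ball, Finset.mem_image, mem_words]

theorem self_mem_ball (φ : G → X → X) (R : ℕ) (x : X) : x ∈ ball φ R x := by
  exact mem_ball.2 ⟨[], Nat.zero_le _, rfl⟩

theorem ball_mono (φ : G → X → X) {R R' : ℕ} (h : R ≤ R') (x : X) : ball φ R x ⊆ ball φ R' x := by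
  intro y hy
  obtain ⟨w, hw, rfl⟩ := mem_ball.1 hy
  exact mem_ball.2 ⟨w, hw.trans h, rfl⟩

theorem ball_symm {φ : G → X → X} (h : ∀ g y, φ g (φ g y) = y) {R : ℕ} {x y : X}
    (hy : y ∈ ball φ R x) : x ∈ ball φ R y := by
  obtain ⟨w, hw, rfl⟩ := mem_ball.1 hy
  exact mem_ball.2 ⟨w.reverse, by simpa using hw, act_reverse_act h w x⟩

theorem ball_trans {φ : G → X → X} {R R' : ℕ} {x y u : X} (hy : y ∈ ball φ R x)
    (hu : u ∈ ball φ R' y) : u ∈ ball φ (R + R') x := by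
  obtain ⟨w, hw, rfl⟩ := mem_ball.1 hy
  obtain ⟨w', hw', rfl⟩ := mem_ball.1 hu
  exact mem_ball.2 ⟨w' ++ w, by rw [List.length_append]; omega, act_append φ w' w x⟩

theorem card_ball_le (φ : G → X → X) (R : ℕ) (x : X) : (ball φ R x).card ≤ (words G R).card := by
  exact Finset.card_image_le

theorem Sepd.mono {φ : G → X → X} {R R' : ℕ} {V V' : Set X} (h : Sepd φ R V) (hR : R' ≤ R)
    (hV : V' ⊆ V) : Sepd φ R' V' := by
  exact fun x hx y hy hyV => h x (hV hx) y (ball_mono φ hR x hy) (hV hyV)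

/-- `ℓ u` is the least `n ≤ R` with `u ∈ ball φ n x`, and `R + 1` if there is none. -/
theorem exists_level (φ : G → X → X) (R : ℕ) (x : X) : ∃ ℓ : X → ℕ, ℓ x = 0 ∧
    (∀ g y, ℓ (φ g y) ≤ ℓ y + 1) ∧ ∀ u, ℓ u ≤ R ↔ u ∈ ball φ R x := by
  classical
  have hex : ∀ u : X, ∃ n, u ∈ ball φ n x ∨ R + 1 ≤ n := fun u => ⟨R + 1, Or.inr le_rfl⟩
  refine ⟨fun u => Nat.find (hex u), ?_, fun g y => ?_, fun u => ?_⟩
  · exact (Nat.find_eq_zero _).2 (Or.inl (self_mem_ball φ 0 x))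
  · refine Nat.find_min' _ ?_
    rcases Nat.find_spec (hex y) with h | h
    · exact Or.inl (ball_trans h (mem_ball.2 ⟨[g], le_rfl, rfl⟩))
    · exact Or.inr (h.trans (Nat.le_succ _))
  · rw [Nat.find_le_iff]
    constructor
    · rintro ⟨m, hm, h | h⟩
      · exact ball_mono φ hm x h
      · omega
    · intro h; exact ⟨R, le_rfl, Or.inl h⟩

variable [MeasurableSpace X] {r : ℕ}

theorem Kern.Ic_inter [NeZero r] (N : Kern G X) {χ : ℂ[X]} {R : ℕ} (hχ : χ.natDegree ≤ R) (z : ℝ)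
    (w : X → ℝ) (s : X → St r) (S : Finset X) (v : X) (o : St r) :
    Ic χ z N.M w s S v o = Ic χ z N.M w s (S ∩ ball N.φ R v) v o := by
  obtain ⟨ℓ, h0, h1, h2⟩ := exists_level N.φ R v
  rw [loc hχ z w s ℓ h0 (fun u _ u' _ h => by
    obtain ⟨g, rfl⟩ := N.edge u u' h
    exact h1 g u) o]
  congr 1
  ext u
  simp only [Finset.mem_filter, Finset.mem_inter, h2]

theorem Kern.Ic_ball [NeZero r] (N : Kern G X) {χ : ℂ[X]} {R : ℕ} (hχ : χ.natDegree ≤ R) (z : ℝ)
    (w : X → ℝ) (s : X → St r) {U : Finset X} {v : X} (hU : ball N.φ R v ⊆ U) (o : St r) :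
    Ic χ z N.M w s U v o = Ic χ z N.M w s (ball N.φ R v) v o := by
  rw [N.Ic_inter hχ z w s U v o, Finset.inter_eq_right.2 hU]

theorem Kern.dg_inter (N : Kern G X) {χ : ℂ[X]} {R : ℕ} (hχ : χ.natDegree ≤ R) (z : ℝ)
    (w : X → ℝ) (s : X → St r) {S : Finset X} {x : X} (hx : x ∈ S) :
    dg χ S (Yc z N.M w s) x = dg χ (S ∩ ball N.φ R x) (Yc z N.M w s) x := by
  obtain ⟨ℓ, h0, h1, h2⟩ := exists_level N.φ R x
  rw [dg_loc hχ ℓ h0 hx (fun u _ u' _ h => by
    by_cases huu : u = u'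
    · rw [huu]; exact Nat.le_succ _
    · have hM : N.M u u' ≠ 0 := by
        intro hM
        apply h
        simp [Yc, Mc, huu, hM]
      obtain ⟨g, rfl⟩ := N.edge u u' hM
      exact h1 g u)]
  congr 1
  ext u
  simp only [Finset.mem_filter, Finset.mem_inter, h2]

theorem Kern.pw_ball (N : Kern G X) {k R : ℕ} (hk : k ≤ R) (c : X → Option (Fin r)) (x : X) :
    pw (ball N.φ R x) (Mc N.M c) k x x = pw (ball N.φ k x) (Mc N.M c) k x x := by
  obtain ⟨ℓ, h0, h1, h2⟩ := exists_level N.φ k x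
  rw [pw_loc le_rfl ℓ h0 (self_mem_ball N.φ R x) (fun u _ u' _ h => by
    have hM : N.M u u' ≠ 0 := by
      intro hM
      apply h
      simp [Mc, hM]
    obtain ⟨g, rfl⟩ := N.edge u u' hM
    exact h1 g u)]
  congr 1
  ext u
  simp only [Finset.mem_filter, h2]
  exact ⟨fun h => h.2, fun h => ⟨ball_mono N.φ hk x h, h⟩⟩

/-- The form of `Mc` is real; if it is large in absolute value it is large for `M` or `-M`. -/
theorem Kern.not_good (N : Kern G X) {ρ : ℕ} {a : ℝ} {c : X → Option (Fin r)} {x : X}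
    (h : ¬ Good N ρ a c x) :
    (∃ η, a * nsq (ball N.φ ρ x) η < (form (Mc N.M c) (ball N.φ ρ x) η).re) ∨
      ∃ η, a * nsq (ball N.φ ρ x) η < (form (Mc N.neg.M c) (ball N.φ ρ x) η).re := by
  unfold Good at h
  push Not at h
  obtain ⟨η, hη⟩ := h
  have hh := Diag_Mc_herm (N.hc (ball N.φ ρ x)) c
  have hre : (starRingEnd ℂ) (form (Mc N.M c) (ball N.φ ρ x) η) =
      form (Mc N.M c) (ball N.φ ρ x) η := by
    unfold form
    rw [map_sum]
    simp only [map_sum, map_mul, Complex.conj_conj]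
    rw [Finset.sum_comm]
    refine Finset.sum_congr rfl fun u hu => Finset.sum_congr rfl fun u' hu' => ?_
    rw [← hh u' hu' u hu]
    ring
  have hneg : form (Mc N.neg.M c) (ball N.φ ρ x) η = -form (Mc N.M c) (ball N.φ ρ x) η := by
    unfold form
    rw [← Finset.sum_neg_distrib]
    refine Finset.sum_congr rfl fun u _ => ?_
    rw [← Finset.sum_neg_distrib]
    refine Finset.sum_congr rfl fun u' _ => ?_
    simp only [Mc, Kern.neg]
    split_ifs <;> ring
  obtain ⟨t, ht⟩ := Complex.conj_eq_iff_real.1 hre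
  rw [ht, Complex.norm_real, Real.norm_eq_abs] at hη
  rcases lt_abs.1 hη with h1 | h1
  · exact Or.inl ⟨η, by rw [ht]; simpa using h1⟩
  · exact Or.inr ⟨η, by rw [hneg, ht]; simpa using h1⟩

theorem Net.env (N : Net G X) (U : Finset X) : Env (Real.exp N.k) N.M N.w U := by
  refine ⟨N.hc U, fun u _ => Real.exp_pos _, fun u _ u' _ h => ?_⟩
  obtain ⟨g, rfl⟩ := N.edge u u' h
  simp only [Net.w, ← Real.exp_add, Real.exp_le_exp]
  have := (abs_le.1 (N.lip g u)).2
  linarith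

theorem Net.tau_ball (N : Net G X) {R : ℕ} {x y : X} (hy : y ∈ ball N.φ R x) :
    |N.τ y - N.τ x| ≤ R * N.k := by
  obtain ⟨w, hw, rfl⟩ := mem_ball.1 hy
  have key : ∀ w : List G, |N.τ (act N.φ w x) - N.τ x| ≤ w.length * N.k := by
    intro w
    induction w with
    | nil => simp [act]
    | cons g w ih =>
      have h1 := N.lip g (act N.φ w x)
      have h2 := abs_sub_le (N.τ (N.φ g (act N.φ w x))) (N.τ (act N.φ w x)) (N.τ x)
      simp only [act, List.length_cons, Nat.cast_add, Nat.cast_one]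
      linarith
  exact (key w).trans (mul_le_mul_of_nonneg_right (by exact_mod_cast hw) N.k_nonneg)

theorem Net.rng (N : Net G X) {L : ℝ} {s : X → St r} (hs : ∀ y, s y ≠ St.del → y ∈ N.slab L)
    (U : Finset X) : Rng 1 (Real.exp L) N.w s U := by
  intro u _ hu
  obtain ⟨h1, h2⟩ := hs u hu
  exact ⟨Real.one_le_exp h1, Real.exp_le_exp.2 h2⟩

theorem Net.measurableSet_slab (N : Net G X) (L : ℝ) : MeasurableSet (N.slab L) := by
  exact (measurableSet_le measurable_const N.meas_τ).inter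
    (measurableSet_le N.meas_τ measurable_const)

theorem measurable_delS {B : Set X} (hB : MeasurableSet B) {s : X → St r} (hs : Measurable s) :
    Measurable (delS B s) := by
  classical
  exact Measurable.ite hB measurable_const hs

theorem Net.Adm.delS {N : Net G X} {L : ℝ} {s : X → St r} (hs : N.Adm L s) {B : Set X}
    (hB : MeasurableSet B) : N.Adm L (delS B s) := by
  refine ⟨measurable_delS hB hs.1, fun y hy => hs.2 y fun h => hy ?_⟩
  simp [Crest.Agent.R109.delS, h]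

/-! ### Functions with fibres in an algebra of sets -/

theorem GrA_biUnion {Y ι : Type*} {𝓑 : Set (Set Y)} (h𝓑 : IsSetAlgebra 𝓑) {I : Set ι}
    (hI : I.Finite) {B : ι → Set Y} (hB : ∀ i ∈ I, B i ∈ 𝓑) : ⋃ i ∈ I, B i ∈ 𝓑 := by
  have := h𝓑.biUnion_mem (s := B) hI.toFinset fun i hi => hB i (hI.mem_toFinset.1 hi)
  simpa using this

theorem Fib.comp {α β : Type*} [Finite α] {𝓑 : Set (Set X)} (h𝓑 : IsSetAlgebra 𝓑) {c : X → α}
    (hc : Fib 𝓑 c) (f : α → β) : Fib 𝓑 fun x => f (c x) := by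
  intro b
  have : (fun x => f (c x)) ⁻¹' {b} = ⋃ a ∈ {a | f a = b}, c ⁻¹' {a} := by
    ext x; simp
  rw [this]
  exact GrA_biUnion h𝓑 (Set.toFinite _) fun a _ => hc a

theorem Fib.setOf {α : Type*} [Finite α] {𝓑 : Set (Set X)} (h𝓑 : IsSetAlgebra 𝓑) {c : X → α}
    (hc : Fib 𝓑 c) (p : α → Prop) : {x | p (c x)} ∈ 𝓑 := by
  have : {x | p (c x)} = ⋃ a ∈ {a | p a}, c ⁻¹' {a} := by
    ext x; simp
  rw [this]
  exact GrA_biUnion h𝓑 (Set.toFinite _) fun a _ => hc a

theorem Fib.prod {α β : Type*} {𝓑 : Set (Set X)} (h𝓑 : IsSetAlgebra 𝓑) {c : X → α} {d : X → β}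
    (hc : Fib 𝓑 c) (hd : Fib 𝓑 d) : Fib 𝓑 fun x => (c x, d x) := by
  intro p
  have : (fun x => (c x, d x)) ⁻¹' {p} = c ⁻¹' {p.1} ∩ d ⁻¹' {p.2} := by
    ext x; simp [Prod.ext_iff]
  rw [this]
  exact h𝓑.inter_mem (hc _) (hd _)

theorem Fib.pi {ι : Type*} [Finite ι] {α : ι → Type*} {𝓑 : Set (Set X)} (h𝓑 : IsSetAlgebra 𝓑)
    {c : ∀ i, X → α i} (hc : ∀ i, Fib 𝓑 (c i)) : Fib 𝓑 fun x i => c i x := by
  intro p
  have : (fun x i => c i x) ⁻¹' {p} = (⋃ i ∈ (Set.univ : Set ι), (c i ⁻¹' {p i})ᶜ)ᶜ := by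
    ext x; simp [funext_iff]
  rw [this]
  exact h𝓑.compl_mem (GrA_biUnion h𝓑 (Set.toFinite _) fun i _ => h𝓑.compl_mem (hc i _))

theorem Fib.piecewise {α : Type*} {𝓑 : Set (Set X)} (h𝓑 : IsSetAlgebra 𝓑) {c d : X → α}
    (hc : Fib 𝓑 c) (hd : Fib 𝓑 d) {B : Set X} (hB : B ∈ 𝓑) [DecidablePred (· ∈ B)] :
    Fib 𝓑 fun x => if x ∈ B then c x else d x := by
  intro a
  have : (fun x => if x ∈ B then c x else d x) ⁻¹' {a} =
      (B ∩ c ⁻¹' {a}) ∪ (Bᶜ ∩ d ⁻¹' {a}) := by
    ext x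
    by_cases hx : x ∈ B <;> simp [hx]
  rw [this]
  exact h𝓑.union_mem (h𝓑.inter_mem hB (hc a)) (h𝓑.inter_mem (h𝓑.compl_mem hB) (hd a))

theorem Model.fib_act (𝓜 : Model G X) {α : Type*} {c : X → α} (hc : Fib 𝓜.𝓑 c) (w : List G) :
    Fib 𝓜.𝓑 fun x => c (act 𝓜.φ w x) := by
  intro a
  have key : ∀ (w : List G), ∀ B ∈ 𝓜.𝓑, act 𝓜.φ w ⁻¹' B ∈ 𝓜.𝓑 := by
    intro w
    induction w with
    | nil => exact fun B hB => hB
    | cons g w ih => exact fun B hB => ih _ (𝓜.pre g B hB)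
  exact key w _ (hc a)

theorem Model.bad_mem (𝓜 : Model G X) {α : Type*} [Finite α] {c : X → α} (hc : Fib 𝓜.𝓑 c)
    (R : ℕ) : {x | ∃ y ∈ ball 𝓜.φ R x, y ≠ x ∧ c y = c x} ∈ 𝓜.𝓑 := by
  have : {x | ∃ y ∈ ball 𝓜.φ R x, y ≠ x ∧ c y = c x} =
      ⋃ w ∈ (words G R : Set (List G)), ({x | act 𝓜.φ w x = act 𝓜.φ [] x}ᶜ ∩
        {x | (fun p : α × α => p.1 = p.2) (c (act 𝓜.φ w x), c x)}) := by
    ext x
    simp only [Set.mem_ofPred_eq, mem_ball, Set.mem_iUnion, Finset.mem_coe, mem_words,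
      Set.mem_inter_iff, Set.mem_compl_iff, act, exists_prop]
    constructor
    · rintro ⟨_, ⟨w, hw, rfl⟩, h1, h2⟩
      exact ⟨w, hw, h1, h2⟩
    · rintro ⟨w, hw, h1, h2⟩
      exact ⟨_, ⟨w, hw, rfl⟩, h1, h2⟩
  rw [this]
  refine GrA_biUnion 𝓜.alg (Finset.finite_toSet _) fun w _ => 𝓜.alg.inter_mem
    (𝓜.alg.compl_mem (𝓜.eq_mem w [])) ?_
  exact Fib.setOf 𝓜.alg (Fib.prod 𝓜.alg (𝓜.fib_act hc w) hc) fun p : α × α => p.1 = p.2

/-- Approximation of a measurable finite-valued function, with values in a prescribed nonempty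
set `T (c x)`. On each fibre of `c` approximate the fibres of `f` (`dense`), disjointify, and use a
default value of `T a` on the rest. -/
theorem Model.approx (𝓜 : Model G X) {α β : Type*} [Finite α] [Finite β] {c : X → α}
    (hc : Fib 𝓜.𝓑 c) (T : α → Set β) {f : X → β} (hf : ∀ b, MeasurableSet (f ⁻¹' {b}))
    (hT : ∀ x, f x ∈ T (c x)) {ε : ℝ} (hε : 0 < ε) :
    ∃ f' : X → β, Fib 𝓜.𝓑 f' ∧ (∀ x, f' x ∈ T (c x)) ∧ 𝓜.μ.real {x | f' x ≠ f x} ≤ ε := by
  classical
  haveI := 𝓜.fin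
  haveI := Fintype.ofFinite β
  rcases isEmpty_or_nonempty X with hX | ⟨⟨x₀⟩⟩
  · refine ⟨f, fun b => ?_, hT, by simpa using hε.le⟩
    rw [Set.eq_empty_of_isEmpty (f ⁻¹' {b})]
    exact 𝓜.alg.empty_mem
  have hδ : 0 < ε / (Fintype.card β + 1) := by positivity
  choose B hB hBε using fun b => 𝓜.dense _ (hf b) _ hδ
  have hF : ∀ p : α × (β → Bool), ∃ b : β, ((T p.1).Nonempty → b ∈ T p.1) ∧
      ∀ b₀ ∈ T p.1, (∀ b', p.2 b' = true ↔ b' = b₀) → b = b₀ := by
    intro p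
    by_cases h : ∃ b₀ ∈ T p.1, ∀ b', p.2 b' = true ↔ b' = b₀
    · obtain ⟨b, hb, hb'⟩ := h
      exact ⟨b, fun _ => hb, fun b₀ _ h0 => (h0 b).1 ((hb' b).2 rfl)⟩
    · by_cases h' : (T p.1).Nonempty
      · obtain ⟨b, hb⟩ := h'
        exact ⟨b, fun _ => hb, fun b₀ h0 h1 => absurd ⟨b₀, h0, h1⟩ h⟩
      · exact ⟨f x₀, fun h'' => absurd h'' h', fun b₀ h0 h1 => absurd ⟨b₀, h0, h1⟩ h⟩
  choose F hF1 hF2 using hF
  have hconst : ∀ t : Bool, Fib 𝓜.𝓑 fun _ : X => t := by
    intro t a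
    by_cases h : t = a
    · have : (fun _ : X => t) ⁻¹' {a} = Set.univ := by ext x; simp [h]
      rw [this]; exact 𝓜.alg.univ_mem
    · have : (fun _ : X => t) ⁻¹' {a} = ∅ := by ext x; simp [h]
      rw [this]; exact 𝓜.alg.empty_mem
  have hσ : Fib 𝓜.𝓑 fun x (b : β) => if x ∈ B b then true else false :=
    Fib.pi (c := fun (b : β) x => if x ∈ B b then true else false) 𝓜.alg fun b =>
      Fib.piecewise 𝓜.alg (hconst true) (hconst false) (hB b)
  refine ⟨fun x => F (c x, fun b => if x ∈ B b then true else false),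
    Fib.comp 𝓜.alg (Fib.prod 𝓜.alg hc hσ) F, fun x => hF1 (c x, _) ⟨f x, hT x⟩, ?_⟩
  have hsub : {x | F (c x, fun b => if x ∈ B b then true else false) ≠ f x} ⊆
      ⋃ b, symmDiff (f ⁻¹' {b}) (B b) := by
    intro x hx
    by_contra hn
    apply hx
    refine hF2 (c x, _) (f x) (hT x) fun b' => ?_
    simp only [Set.mem_iUnion, not_exists, Set.mem_symmDiff, Set.mem_preimage,
      Set.mem_singleton_iff] at hn
    have := hn b'
    show ((if x ∈ B b' then true else false) = true) ↔ b' = f x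
    by_cases h1 : x ∈ B b'
    · rw [if_pos h1]
      exact ⟨fun _ => by by_contra h2; exact this (Or.inr ⟨h1, fun h => h2 h.symm⟩), fun _ => rfl⟩
    · rw [if_neg h1]
      exact ⟨fun h => absurd h (by decide), fun h => absurd (Or.inl ⟨h.symm, h1⟩) this⟩
  refine (measureReal_mono hsub).trans ((measureReal_iUnion_fintype_le _).trans ?_)
  refine (Finset.sum_le_sum fun b _ => hBε b).trans ?_
  rw [Finset.sum_const, Finset.card_univ, nsmul_eq_mul, mul_div_assoc', div_le_iff₀ (by positivity)]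
  nlinarith

end Crest.Agent.R109
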