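import Crest.Agent.R109.VN0
import Crest.Agent.R109.Gr

/-! Task 109-RESTR: removing null sets (pure measure theory). -/

set_option autoImplicit false

open MeasureTheory

namespace Crest.Agent.R109

variable {G X : Type*} [Fintype G] [DecidableEq G] [MeasurableSpace X] (P : PreModel G X)

namespace RestrA

omit [Fintype G] [DecidableEq G] [MeasurableSpace X] in
/-- Base points and words. -/
theorem exists_base {φ : G → X → X} (hφ : ∀ g y, φ g (φ g y) = y) :
    ∃ (o : X → X) (wd : X → List G), (∀ x, act φ (wd x) (o x) = x) ∧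
      ∀ w x, o (act φ w x) = o x := by
  let s : Setoid X := ⟨fun x y => ∃ w, act φ w x = y, fun x => ⟨[], rfl⟩,
    fun ⟨w, h⟩ => ⟨w.reverse, by rw [← h, act_reverse_act hφ]⟩,
    fun ⟨w, h⟩ ⟨w', h'⟩ => ⟨w' ++ w, by rw [act_append, h, h']⟩⟩
  have h1 : ∀ x, ∃ w, act φ w (Quotient.mk s x).out = x := fun x => Quotient.mk_out (s := s) x
  choose wd hwd using h1
  refine ⟨fun x => (Quotient.mk s x).out, wd, hwd, fun w x => ?_⟩
  have : Quotient.mk s x = Quotient.mk s (act φ w x) := Quotient.sound ⟨w, rfl⟩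
  simp only [this]

omit [Fintype G] [DecidableEq G] [MeasurableSpace X] in
theorem act_mem {φ : G → X → X} {X₁ : Set X} (hinv : ∀ g, ∀ x ∈ X₁, φ g x ∈ X₁) (w : List G)
    {x : X} (hx : x ∈ X₁) : act φ w x ∈ X₁ := by
  induction w with
  | nil => exact hx
  | cons g w ih => exact hinv g _ ih

/-- The cocycle of a word. -/
def coc (φ : G → X → X) (h : G → X → ℝ) : List G → X → ℝ
  | [], _ => 0
  | g :: w, x => coc φ h w x + h g (act φ w x)

omit [Fintype G] [DecidableEq G] [MeasurableSpace X] in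
theorem coc_append (φ : G → X → X) (h : G → X → ℝ) (w w' : List G) (x : X) :
    coc φ h (w ++ w') x = coc φ h w' x + coc φ h w (act φ w' x) := by
  induction w with
  | nil => simp [coc]
  | cons g w ih =>
    rw [List.cons_append, coc, coc, ih, act_append]
    ring

omit [Fintype G] [DecidableEq G] in
theorem measurable_coc {φ : G → X → X} (hφ : ∀ g, Measurable (φ g)) {h : G → X → ℝ}
    (hh : ∀ g, Measurable (h g)) (w : List G) : Measurable (coc φ h w) := by
  induction w with
  | nil => exact measurable_const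
  | cons g w ih => exact ih.add ((hh g).comp (measurable_act hφ w))

omit [Fintype G] [DecidableEq G] in
theorem quasi' (g : G) {S : Set X} (hS : MeasurableSet S) :
    P.μ (P.φ g ⁻¹' S) ≤ ENNReal.ofReal P.K * P.μ S := by
  have := P.fin
  have h := ENNReal.ofReal_le_ofReal (P.quasi g S hS)
  rwa [ENNReal.ofReal_mul (by linarith [P.one_le]), ofReal_measureReal, ofReal_measureReal] at h

omit [Fintype G] [DecidableEq G] in
theorem null_act (w : List G) {S : Set X} (hS : MeasurableSet S) (h0 : P.μ S = 0) :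
    P.μ (act P.φ w ⁻¹' S) = 0 := by
  induction w generalizing S with
  | nil => exact h0
  | cons g w ih =>
    refine ih (P.meas g hS) (le_antisymm ?_ bot_le)
    simpa [h0] using quasi' P g hS

omit [Fintype G] [DecidableEq G] in
theorem exists_h (g : G) : ∃ h : X → ℝ, Measurable h ∧ (∀ x, |h x| ≤ Real.log P.K) ∧
    ∀ f : X → ENNReal, Measurable f →
      ∫⁻ x, f x ∂P.μ = ∫⁻ x, f (P.φ g x) * ENNReal.ofReal (Real.exp (h x)) ∂P.μ := by
  have := P.fin
  have hK : 0 < P.K := by linarith [P.one_le]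
  have hL : 0 ≤ Real.log P.K := Real.log_nonneg P.one_le
  set ν := P.μ.map (P.φ g) with hν
  have hν1 : ∀ S, MeasurableSet S → ν S ≤ ENNReal.ofReal P.K * P.μ S := fun S hS => by
    rw [hν, Measure.map_apply (P.meas g) hS]
    exact quasi' P g hS
  have hν2 : ∀ S, MeasurableSet S → P.μ S ≤ ENNReal.ofReal P.K * ν S := fun S hS => by
    rw [hν, Measure.map_apply (P.meas g) hS]
    have h1 := quasi' P g (P.meas g hS)
    have h2 : P.φ g ⁻¹' (P.φ g ⁻¹' S) = S := by
      ext x
      simp [P.invol]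
    rwa [h2] at h1
  have hac : ν ≪ P.μ := Measure.AbsolutelyContinuous.mk fun S hS h0 =>
    le_antisymm (by simpa [h0] using hν1 S hS) bot_le
  set ρ := ν.rnDeriv P.μ with hρ
  have hρm : Measurable ρ := Measure.measurable_rnDeriv _ _
  have h1 : ρ ≤ᵐ[P.μ] fun _ => ENNReal.ofReal P.K := by
    refine ae_le_of_forall_setLIntegral_le_of_sigmaFinite hρm fun S hS _ => ?_
    rw [Measure.setLIntegral_rnDeriv hac, setLIntegral_const]
    exact hν1 S hS
  have h2 : (fun _ => 1) ≤ᵐ[P.μ] fun x => ENNReal.ofReal P.K * ρ x := by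
    refine ae_le_of_forall_setLIntegral_le_of_sigmaFinite measurable_const fun S hS _ => ?_
    rw [lintegral_const_mul _ hρm, Measure.setLIntegral_rnDeriv hac, setLIntegral_const, one_mul]
    exact hν2 S hS
  refine ⟨fun x => max (-Real.log P.K) (min (Real.log P.K) (Real.log (ρ x).toReal)), ?_, ?_, ?_⟩
  · exact measurable_const.max (measurable_const.min hρm.ennreal_toReal.log)
  · intro x
    rw [abs_le]
    exact ⟨le_max_left _ _, max_le (by linarith) (min_le_left _ _)⟩
  · intro f hf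
    have e1 : ∫⁻ x, f x ∂P.μ = ∫⁻ x, f (P.φ g x) ∂ν := by
      rw [hν, lintegral_map (f := fun x => f (P.φ g x)) (hf.comp (P.meas g)) (P.meas g)]
      simp only [P.invol]
    rw [e1, ← lintegral_rnDeriv_mul hac (f := fun x => f (P.φ g x))
      (hf.comp (P.meas g)).aemeasurable]
    refine lintegral_congr_ae ?_
    filter_upwards [h1, h2] with x a1 a2
    have b0 : ρ x ≠ ⊤ := ne_top_of_le_ne_top ENNReal.ofReal_ne_top a1
    have b1 : (ρ x).toReal ≤ P.K := ENNReal.toReal_le_of_le_ofReal hK.le a1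
    have b2 : 1 ≤ P.K * (ρ x).toReal := by
      have := ENNReal.toReal_mono (ENNReal.mul_ne_top ENNReal.ofReal_ne_top b0) a2
      rwa [ENNReal.toReal_mul, ENNReal.toReal_ofReal hK.le, ENNReal.toReal_one] at this
    have b3 : 0 < (ρ x).toReal := by
      by_contra h
      have := mul_nonpos_of_nonneg_of_nonpos hK.le (not_lt.1 h)
      linarith
    have b4 : -Real.log P.K ≤ Real.log (ρ x).toReal := by
      have := Real.log_nonneg b2
      rw [Real.log_mul hK.ne' b3.ne'] at this
      linarith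
    rw [min_eq_right (Real.log_le_log b3 b1), max_eq_right b4, Real.exp_log b3,
      ENNReal.ofReal_toReal b0, mul_comm]

omit [Fintype G] [DecidableEq G] in
theorem rn_word {h : G → X → ℝ} (hh : ∀ g, Measurable (h g))
    (hrn : ∀ (g : G) (f : X → ENNReal), Measurable f →
      ∫⁻ x, f x ∂P.μ = ∫⁻ x, f (P.φ g x) * ENNReal.ofReal (Real.exp (h g x)) ∂P.μ)
    (w : List G) (f : X → ENNReal) (hf : Measurable f) :
    ∫⁻ x, f x ∂P.μ = ∫⁻ x, f (act P.φ w x) * ENNReal.ofReal (Real.exp (coc P.φ h w x)) ∂P.μ := by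
  induction w generalizing f with
  | nil => simp [coc, act]
  | cons g w ih =>
    rw [hrn g f hf, ih (fun x => f (P.φ g x) * ENNReal.ofReal (Real.exp (h g x)))
      ((hf.comp (P.meas g)).mul (hh g).exp.ennreal_ofReal)]
    refine lintegral_congr fun x => ?_
    rw [coc, act, Real.exp_add, ENNReal.ofReal_mul (Real.exp_pos _).le]
    ring

omit [Fintype G] [DecidableEq G] in
theorem coc_null {h : G → X → ℝ} (hh : ∀ g, Measurable (h g))
    (hrn : ∀ (g : G) (f : X → ENNReal), Measurable f →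
      ∫⁻ x, f x ∂P.μ = ∫⁻ x, f (P.φ g x) * ENNReal.ofReal (Real.exp (h g x)) ∂P.μ)
    (w : List G) : P.μ {x | x ∈ P.F w ∧ coc P.φ h w x ≠ 0} = 0 := by
  have := P.fin
  have hF := P.meas_𝓑 _ (P.F_mem w)
  have hm : Measurable fun x => ENNReal.ofReal (Real.exp (coc P.φ h w x)) :=
    (measurable_coc P.meas hh w).exp.ennreal_ofReal
  have h1 : (P.F w).indicator (fun x => ENNReal.ofReal (Real.exp (coc P.φ h w x))) =ᵐ[P.μ]
      (P.F w).indicator fun _ => 1 := by
    refine ae_eq_of_forall_setLIntegral_eq_of_sigmaFinite (hm.indicator hF)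
      (measurable_const.indicator hF) fun S hS _ => ?_
    rw [setLIntegral_indicator hF, setLIntegral_indicator hF, ← lintegral_indicator (hF.inter hS),
      ← lintegral_indicator (hF.inter hS),
      rn_word P hh hrn w _ (measurable_const.indicator (hF.inter hS))]
    refine lintegral_congr fun x => ?_
    by_cases hx : x ∈ P.F w ∩ S
    · rw [P.F_fix w x hx.1, Set.indicator_of_mem hx, Set.indicator_of_mem hx, one_mul]
    · have : act P.φ w x ∉ P.F w ∩ S := fun h' => by
        have h2 := congrArg (act P.φ w.reverse) (P.F_fix w _ h'.1)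
        rw [act_reverse_act P.invol, act_reverse_act P.invol] at h2
        exact hx (h2 ▸ h')
      rw [Set.indicator_of_notMem hx, Set.indicator_of_notMem this, zero_mul]
  refine measure_mono_null (fun x hx => ?_) h1
  intro h2
  simp only [Set.mem_ofPred_eq] at h2
  rw [Set.indicator_of_mem hx.1, Set.indicator_of_mem hx.1, ENNReal.ofReal_eq_one,
    Real.exp_eq_one_iff] at h2
  exact hx.2 h2

omit [Fintype G] [DecidableEq G] in
theorem fix_null (w : List G) : P.μ {x | x ∉ P.F w ∧ act P.φ w x = x} = 0 := by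
  have := P.fin
  rw [← measureReal_eq_zero_iff]
  refine le_antisymm (le_of_forall_pos_le_add fun ε hε => ?_) measureReal_nonneg
  obtain ⟨n, lab, -, h⟩ := P.sep w ε hε
  rw [zero_add]
  refine le_trans (measureReal_mono fun x hx => ?_) h
  exact ⟨hx.1, by rw [hx.2]⟩

end RestrA

open RestrA

/-- `N w = ⋂_k {x ∉ F w, lab_k (act w x) = lab_k x}` is a measurable null set containing the fixed
points of `w` outside `F w`. Let `exp (h g) = d (map (φ g) μ) / dμ ∈ [K⁻¹, K]` a.e. (`rnDeriv`, cut off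
to make the bound hold everywhere); by induction `∫⁻ f = ∫⁻ f (act w x) exp (H w x)` for the
cocycle `H`, hence `H w = 0` a.e. on `F w`. Remove all preimages under words of these countably many
null sets. `W` is defined by choosing a base point in each orbit. -/
theorem PreModel.exists_core : ∃ (X₁ : Set X) (h : G → X → ℝ) (W : X → ℝ), MeasurableSet X₁ ∧
    P.μ X₁ᶜ = 0 ∧ (∀ g, ∀ x ∈ X₁, P.φ g x ∈ X₁) ∧
    (∀ w, ∀ x ∈ X₁, act P.φ w x = x → x ∈ P.F w) ∧ (∀ g, Measurable (h g)) ∧
    (∀ g x, |h g x| ≤ Real.log P.K) ∧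
    (∀ (g : G) (f : X → ENNReal), Measurable f →
      ∫⁻ x, f x ∂P.μ = ∫⁻ x, f (P.φ g x) * ENNReal.ofReal (Real.exp (h g x)) ∂P.μ) ∧
    ∀ g, ∀ x ∈ X₁, W (P.φ g x) = W x + h g x := by
  choose h hh hle hrn using exists_h P
  have h0 : P.μ (⋃ w, ({x | x ∉ P.F w ∧ act P.φ w x = x} ∪
      {x | x ∈ P.F w ∧ coc P.φ h w x ≠ 0})) = 0 :=
    measure_iUnion_null fun w => measure_union_null (fix_null P w) (coc_null P hh hrn w)
  obtain ⟨B, hB, hBm, hB0⟩ := exists_measurable_superset_of_null h0
  obtain ⟨o, wd, hwd, ho⟩ := exists_base P.invol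
  set X₁ := (⋃ v, act P.φ v ⁻¹' B)ᶜ with hX₁
  have hinv : ∀ g, ∀ x ∈ X₁, P.φ g x ∈ X₁ := by
    intro g x hx h'
    obtain ⟨v, hv⟩ := Set.mem_iUnion.1 h'
    refine hx (Set.mem_iUnion.2 ⟨v ++ [g], ?_⟩)
    rw [Set.mem_preimage, act_append]
    exact hv
  have hnB : ∀ x ∈ X₁, x ∉ B := fun x hx h' => hx (Set.mem_iUnion.2 ⟨[], h'⟩)
  have hfix : ∀ w, ∀ x ∈ X₁, act P.φ w x = x → x ∈ P.F w := by
    intro w x hx h'
    by_contra h''
    exact hnB x hx (hB (Set.mem_iUnion.2 ⟨w, Or.inl ⟨h'', h'⟩⟩))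
  have hc0 : ∀ w, ∀ x ∈ X₁, act P.φ w x = x → coc P.φ h w x = 0 := by
    intro w x hx h'
    by_contra h''
    exact hnB x hx (hB (Set.mem_iUnion.2 ⟨w, Or.inr ⟨hfix w x hx h', h''⟩⟩))
  have hc1 : ∀ w w', ∀ x ∈ X₁, act P.φ w x = act P.φ w' x → coc P.φ h w x = coc P.φ h w' x := by
    intro w w' x hx h'
    have a1 := hc0 (w'.reverse ++ w) x hx (by rw [act_append, h', act_reverse_act P.invol])
    have a2 := hc0 (w'.reverse ++ w') x hx (by rw [act_append, act_reverse_act P.invol])
    rw [coc_append] at a1 a2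
    rw [h'] at a1
    linarith
  refine ⟨X₁, h, fun x => coc P.φ h (wd x) (o x),
    (MeasurableSet.iUnion fun v => measurable_act P.meas v hBm).compl, ?_, hinv, hfix, hh, hle,
    hrn, fun g x hx => ?_⟩
  · rw [hX₁, compl_compl]
    exact measure_iUnion_null fun v => null_act P v hBm hB0
  · have e1 : o (P.φ g x) = o x := ho [g] x
    have e2 : o x ∈ X₁ := by
      have := act_mem hinv (wd x).reverse hx
      have e := act_reverse_act P.invol (wd x) (o x)
      rw [hwd] at e
      rwa [e] at this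
    have e3 := hc1 (wd (P.φ g x)) (g :: wd x) (o x) e2 (by rw [← e1, hwd, e1, act, hwd])
    simp only
    rw [e1, e3, coc, hwd]

/-- Choose a base point `o x` in each orbit and a word `wd x` with `act (wd x) (o x) = x`;
`M x y = m (wd x) (wd y) (o x)` if `o x = o y`, else `0`. -/
theorem PreModel.exists_kernel [DecidableEq X] {X₁ : Set X} (hinv : ∀ g, ∀ x ∈ X₁, P.φ g x ∈ X₁)
    (hF : ∀ w, ∀ x ∈ X₁, act P.φ w x = x → x ∈ P.F w) : ∃ M : X → X → ℂ,
    (∀ U : Finset X, (∀ u ∈ U, u ∈ X₁) → HC M U) ∧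
    (∀ y ∈ X₁, ∀ y' ∈ X₁, M y y' ≠ 0 → ∃ g, y' = P.φ g y) ∧
    ∀ y ∈ X₁, ∃ γ : List G → ℂ, (∀ w, ‖γ w‖ = 1) ∧ ∀ w w',
      M (act P.φ w y) (act P.φ w' y) = (starRingEnd ℂ) (γ w) * P.m w w' y * γ w' := by
  obtain ⟨o, wd, hwd, ho⟩ := exists_base P.invol
  refine ⟨fun x y => if o x = o y then P.m (wd x) (wd y) (o x) else 0,
    fun U _ => ⟨fun u _ u' _ => ?_, fun u _ => ?_, fun η => ?_⟩, fun y _ y' _ h => ?_,
    fun y hy => ?_⟩
  · by_cases h : o u = o u'
    · rw [if_pos h, if_pos h.symm, P.herm, h]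
    · rw [if_neg h, if_neg (Ne.symm h), map_zero]
  · simp [P.diag]
  · have e1 : form (fun x y => if o x = o y then P.m (wd x) (wd y) (o x) else 0) U η =
        ∑ c ∈ U.image o, form (fun w w' => P.m w w' c) ((U.filter fun u => o u = c).image wd)
          fun w => η (act P.φ w c) := by
      unfold form
      rw [← Finset.sum_fiberwise_of_maps_to (g := o) (t := U.image o)
        fun u hu => Finset.mem_image_of_mem o hu]
      refine Finset.sum_congr rfl fun c _ => ?_
      have hinj : Set.InjOn wd (U.filter fun u => o u = c) := by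
        intro a ha b hb hab
        rw [← hwd a, ← hwd b, hab, (Finset.mem_filter.1 ha).2, (Finset.mem_filter.1 hb).2]
      rw [Finset.sum_image hinj]
      refine Finset.sum_congr rfl fun a ha => ?_
      have ha' := (Finset.mem_filter.1 ha).2
      rw [Finset.sum_image hinj, Finset.sum_filter]
      refine Finset.sum_congr rfl fun b _ => ?_
      have ea : act P.φ (wd a) c = a := by rw [← ha', hwd]
      by_cases hb : o b = c
      · have eb : act P.φ (wd b) c = b := by rw [← hb, hwd]
        simp [hb, ha', ea, eb]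
      · simp [hb, ha', Ne.symm hb]
    have e2 : nsq U η = ∑ c ∈ U.image o, nsq ((U.filter fun u => o u = c).image wd)
        fun w => η (act P.φ w c) := by
      unfold nsq
      rw [← Finset.sum_fiberwise_of_maps_to (g := o) (t := U.image o)
        fun u hu => Finset.mem_image_of_mem o hu]
      refine Finset.sum_congr rfl fun c _ => ?_
      have hinj : Set.InjOn wd (U.filter fun u => o u = c) := by
        intro a ha b hb hab
        rw [← hwd a, ← hwd b, hab, (Finset.mem_filter.1 ha).2, (Finset.mem_filter.1 hb).2]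
      rw [Finset.sum_image hinj]
      refine Finset.sum_congr rfl fun a ha => ?_
      simp only [← (Finset.mem_filter.1 ha).2, hwd]
    rw [e1, e2]
    refine (norm_sum_le _ _).trans (Finset.sum_le_sum fun c _ => P.bd c _ ?_ _)
    intro w hw w' hw' hww
    obtain ⟨a, ha, rfl⟩ := Finset.mem_image.1 hw
    obtain ⟨b, hb, rfl⟩ := Finset.mem_image.1 hw'
    have ha' := (Finset.mem_filter.1 ha).2
    have hb' := (Finset.mem_filter.1 hb).2
    simp only at hww
    rw [← ha', hwd, ha', ← hb', hwd] at hww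
    rw [hww]
  · by_cases h' : o y = o y'
    · simp only [if_pos h'] at h
      obtain ⟨g, hg⟩ := P.edge _ _ _ h
      rw [hwd, h', hwd] at hg
      exact ⟨g, hg⟩
    · simp [h'] at h
  · have e2 : o y ∈ X₁ := by
      have := act_mem hinv (wd y).reverse hy
      have e := act_reverse_act P.invol (wd y) (o y)
      rw [hwd] at e
      rwa [e] at this
    have hg : ∀ w, ∃ c : ℂ, ‖c‖ = 1 ∧
        ∀ v, P.m v (wd (act P.φ w y)) (o y) = P.m v (w ++ wd y) (o y) * c := by
      intro w
      refine P.gauge _ _ _ (hF _ _ e2 ?_)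
      have e := act_reverse_act P.invol (w ++ wd y) (o y)
      rw [act_append, hwd] at e
      rw [act_append, ← ho w y, hwd, ho, e]
    choose γ h1 h2 using hg
    refine ⟨γ, h1, fun w w' => ?_⟩
    simp only [ho, if_true]
    rw [h2, P.herm, h2, map_mul, ← P.herm, ← P.shift, hwd]
    ring

/-- The model on the subtype `X₁`: `μ = comap val`, `𝓑` the traces of `P.𝓑`. For `sep` take the
product of the labellings given by `P.sep` for all the words of length at most `R`. -/
theorem PreModel.model : ∃ (X₁ : Set X) (_ : DecidableEq X₁) (𝓜 : Model G X₁), MeasurableSet X₁ ∧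
    MeasurePreserving ((↑) : X₁ → X) 𝓜.μ P.μ ∧ (∀ g (x : X₁), (𝓜.φ g x : X) = P.φ g x) ∧
    (∀ w w' (x : X₁), 𝓜.m w w' x = P.m w w' x) ∧
    (∀ w (x : X₁), act P.φ w x = x → (x : X) ∈ P.F w) ∧
    𝓜.𝓑 = {B | ∃ B' ∈ P.𝓑, B = ((↑) : X₁ → X) ⁻¹' B'} := by
  classical
  obtain ⟨X₁, h, W, hm, h0, hinv, hF, hh, hle, hrn, hW⟩ := P.exists_core
  obtain ⟨M, hM1, hM2, hM3⟩ := P.exists_kernel hinv hF
  have := P.fin
  let φ : G → X₁ → X₁ := fun g x => ⟨P.φ g x, hinv g x x.2⟩
  have hact : ∀ w (x : X₁), ((act φ w x : X₁) : X) = act P.φ w x := by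
    intro w x
    induction w with
    | nil => rfl
    | cons g w ih => simp only [act, φ, ih]
  have hmp : MeasurePreserving ((↑) : X₁ → X) (P.μ.comap (↑)) P.μ := by
    have := measurePreserving_subtype_coe (μa := P.μ) hm
    rwa [Measure.restrict_eq_self_of_ae_mem h0] at this
  have hfin : IsFiniteMeasure (P.μ.comap ((↑) : X₁ → X)) := inferInstance
  have heq : ∀ w w', {y : X₁ | act φ w y = act φ w' y} = (↑) ⁻¹' P.F (w'.reverse ++ w) := by
    intro w w'
    ext y
    rw [Set.mem_ofPred_eq, Subtype.ext_iff, hact, hact, Set.mem_preimage]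
    constructor
    · intro h'
      exact hF _ _ y.2 (by rw [act_append, h', act_reverse_act P.invol])
    · intro h'
      have := congrArg (act P.φ w') (P.F_fix _ _ h')
      rwa [act_append, act_act_reverse P.invol] at this
  have hle' : ∀ S : Set X, (P.μ.comap ((↑) : X₁ → X)).real ((↑) ⁻¹' S) ≤ P.μ.real S := by
    intro S
    refine ENNReal.toReal_mono (measure_ne_top _ _) ?_
    have := Measure.le_map_apply (μ := P.μ.comap ((↑) : X₁ → X)) hmp.measurable.aemeasurable S
    rwa [hmp.map_eq] at this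
  refine ⟨X₁, inferInstance,
    { φ := φ
      invol := fun g y => Subtype.ext (P.invol g y)
      meas := fun g => ((P.meas g).comp measurable_subtype_coe).subtype_mk
      eqm := fun w w' => heq w w' ▸ measurable_subtype_coe (P.meas_𝓑 _ (P.F_mem _))
      M := fun x y => M x y
      hc := fun U => ?_
      edge := fun y y' h' => ?_
      m := fun w w' x => P.m w w' x
      meas_m := fun w w' => (P.meas_m w w').comp measurable_subtype_coe
      gauge := fun y => ?_
      μ := P.μ.comap (↑)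
      fin := hfin
      h := fun g x => h g x
      meas_h := fun g => (hh g).comp measurable_subtype_coe
      k := Real.log P.K
      k_nonneg := Real.log_nonneg P.one_le
      h_le := fun g x => hle g x
      rn := fun g f hf => ?_
      W := fun x => W x
      W_φ := fun g x => hW g x x.2
      𝓑 := {B | ∃ B' ∈ P.𝓑, B = ((↑) : X₁ → X) ⁻¹' B'}
      alg := ⟨⟨∅, P.alg.empty_mem, rfl⟩, ?_, ?_⟩
      meas_𝓑 := ?_
      dense := fun S hS ε hε => ?_
      pre := ?_
      eq_mem := fun w w' => ⟨_, P.F_mem _, heq w w'⟩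
      sep := fun R ε hε => ?_ },
    hm, hmp, fun _ _ => rfl, fun _ _ _ => rfl, fun w x => hF w x x.2, rfl⟩
  · have h1 := hM1 (U.map (Function.Embedding.subtype _)) fun u hu => by
      obtain ⟨a, -, rfl⟩ := Finset.mem_map.1 hu
      exact a.2
    refine ⟨fun u hu u' hu' => h1.herm _ (Finset.mem_map_of_mem _ hu) _
      (Finset.mem_map_of_mem _ hu'), fun u hu => h1.diag _ (Finset.mem_map_of_mem _ hu),
      fun η => ?_⟩
    have h2 := h1.bd fun x => if hx : x ∈ X₁ then η ⟨x, hx⟩ else 0
    simpa [form, nsq, Finset.sum_map] using h2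
  · obtain ⟨g, hg⟩ := hM2 y y.2 y' y'.2 h'
    exact ⟨g, Subtype.ext hg⟩
  · obtain ⟨γ, h1, h2⟩ := hM3 y y.2
    exact ⟨γ, h1, fun w w' => by rw [hact, hact, h2]⟩
  · have he := MeasurableEmbedding.subtype_coe hm
    have hf' : Measurable (Function.extend ((↑) : X₁ → X) f 0) :=
      he.measurable_extend hf measurable_const
    have e1 : ∀ x : X₁, f x = Function.extend ((↑) : X₁ → X) f 0 x := fun x =>
      (Subtype.val_injective.extend_apply f 0 x).symm
    simp only [e1]
    rw [hmp.lintegral_comp hf', hrn g _ hf']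
    exact (hmp.lintegral_comp ((hf'.comp (P.meas g)).fun_mul (hh g).exp.ennreal_ofReal)).symm
  · rintro _ ⟨B, hB, rfl⟩
    exact ⟨Bᶜ, P.alg.compl_mem hB, rfl⟩
  · rintro _ _ ⟨B, hB, rfl⟩ ⟨B', hB', rfl⟩
    exact ⟨B ∪ B', P.alg.union_mem hB hB', rfl⟩
  · rintro _ ⟨B, hB, rfl⟩
    exact measurable_subtype_coe (P.meas_𝓑 B hB)
  · obtain ⟨B, hB, h1⟩ := P.dense _ ((MeasurableEmbedding.subtype_coe hm).measurableSet_image.2 hS)
      ε hε
    refine ⟨_, ⟨B, hB, rfl⟩, le_trans (le_of_eq ?_) ((hle' _).trans h1)⟩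
    rw [Set.preimage_symmDiff, Set.preimage_image_eq _ Subtype.val_injective]
  · rintro g _ ⟨B, hB, rfl⟩
    exact ⟨P.φ g ⁻¹' B, P.pre g B hB, rfl⟩
  · have hc : (0 : ℝ) < (words G R).card + 1 := by positivity
    choose n lab hlab hε' using fun w => P.sep w (ε / ((words G R).card + 1)) (by positivity)
    let e := Fintype.equivFin (∀ w : words G R, Fin (n w))
    have h1 : Fib P.𝓑 fun x => e fun w => lab w x :=
      Fib.comp P.alg (Fib.pi P.alg (c := fun (w : words G R) x => lab w x) fun w => hlab w) e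
    refine ⟨_, fun x => e fun w => lab w x, fun a => ⟨_, h1 a, rfl⟩, ?_⟩
    have h2 : {x : X₁ | ∃ y ∈ ball φ R x, y ≠ x ∧ (e fun w => lab w y) = e fun w => lab w x} ⊆
        ⋃ w ∈ words G R, (↑) ⁻¹' {x | x ∉ P.F w ∧ lab w (act P.φ w x) = lab w x} := by
      rintro x ⟨y, hy, hyx, hl⟩
      obtain ⟨w, hw, rfl⟩ := Finset.mem_image.1 hy
      refine Set.mem_biUnion hw ⟨fun h' => hyx (Subtype.ext ?_), ?_⟩
      · rw [hact]
        exact P.F_fix w x h'
      · have := congrFun (e.injective hl) ⟨w, hw⟩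
        rwa [hact] at this
    refine (measureReal_mono h2 (measure_ne_top _ _)).trans ((measureReal_biUnion_finset_le _ _).trans ?_)
    refine (Finset.sum_le_card_nsmul _ _ _ fun w _ => (hle' _).trans (hε' w)).trans ?_
    rw [nsmul_eq_mul, mul_div_assoc', div_le_iff₀ hc]
    nlinarith

end Crest.Agent.R109
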