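import Crest.Agent.R109.Pre
import Crest.Agent.R109.Restr
import Crest.Agent.R109.Core
import Crest.Agent.R109.Poti

/-! Task 109-CART: colouring the Cartan part. -/

set_option autoImplicit false

open scoped InnerProductSpace ComplexOrder
open MeasureTheory

namespace Crest.Agent.R109

open R124 (av)

variable {H : Type*} [NormedAddCommGroup H] [InnerProductSpace ℂ H] [CompleteSpace H]
variable {M A : VonNeumannAlgebra H} (𝓔 : Nce M A)

section Aux
variable {𝓔} {X : Type*} [MeasurableSpace X] (S : Spec 𝓔 X) {X₁ : Set X} {μ₁ : Measure X₁}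

theorem cart_ae (hm : MeasurableSet X₁) (hmp : MeasurePreserving ((↑) : X₁ → X) μ₁ S.μ) :
    ∀ᵐ x ∂S.μ, x ∈ X₁ := by
  rw [ae_iff]
  have := hmp.measure_preimage hm.compl.nullMeasurableSet
  rw [show ((↑) : X₁ → X) ⁻¹' X₁ᶜ = ∅ from Set.eq_empty_of_forall_notMem fun x hx => hx x.2,
    measure_empty] at this
  exact this.symm

theorem cart_real (hmp : MeasurePreserving ((↑) : X₁ → X) μ₁ S.μ) {p : Op H}
    (hp : IsStarProjection p) (hA : p ∈ A) :
    μ₁.real {x : X₁ | (x : X) ∈ S.β p} = (𝓔.ψ p).re := by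
  rw [← S.real_β hp hA]
  exact hmp.measureReal_preimage (S.measurableSet_β hA).nullMeasurableSet

theorem cart_part (hm : MeasurableSet X₁) (hmp : MeasurePreserving ((↑) : X₁ → X) μ₁ S.μ)
    {α : Type*} [Fintype α] {c : X₁ → α}
    (hc : Fib {B | ∃ B' ∈ {B | ∃ p ∈ A, IsStarProjection p ∧ B = S.β p},
      B = ((↑) : X₁ → X) ⁻¹' B'} c) :
    ∃ q : α → Op H, Part A q ∧ ∀ a (x : X₁), (x : X) ∈ S.β (q a) ↔ c x = a := by
  have h : ∀ a, ∃ p ∈ A, IsStarProjection p ∧ ∀ x : X₁, (x : X) ∈ S.β p ↔ c x = a := fun a => by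
    obtain ⟨_, ⟨p, hpA, hp, rfl⟩, h⟩ := hc a
    exact ⟨p, hpA, hp, fun x => (Set.ext_iff.1 h x).symm⟩
  choose q hqA hq h using h
  refine ⟨q, S.exists_part (fun i => ⟨hqA i, hq i⟩) ?_, h⟩
  filter_upwards [cart_ae S hm hmp] with x hx
  exact ⟨c ⟨x, hx⟩, (h _ ⟨x, hx⟩).2 rfl, fun a ha => ((h a ⟨x, hx⟩).1 ha).symm⟩

theorem cart_fiber {α κ : Type*} [Fintype α] [DecidableEq κ] {q : α → Op H} (hq : Part A q)
    {x : X} {a₀ : α} (h : ∀ a, x ∈ S.β (q a) ↔ a₀ = a) (f : α → κ) (k : κ) :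
    x ∈ S.β (∑ a ∈ Finset.univ.filter (fun a => f a = k), q a) ↔ f a₀ = k := by
  classical
  have h1 : ∀ a, S.ev (q a) x = if a₀ = a then 1 else 0 := fun a => by
    split_ifs with ha
    · exact (h a).2 ha
    · exact (S.ev_proj (hq.proj a) (hq.mem a) x).resolve_right fun h' => ha ((h a).1 h')
  change S.ev _ x = 1 ↔ _
  rw [S.ev_sum _ fun a _ => hq.mem a]
  simp [h1]

end Aux

/-- `spec`, `exists_pre`, `PreModel.model`, `Model.poti` and `Model.core` with `z = 3 / √r`,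
`ρ = 2 m`. A function on `X₁` with fibres in `𝓜.𝓑` gives a partition of `A` (`Spec.exists_part`);
a partition `e` gives `lab` (`Spec.exists_lab`), `qq (a, f)` is the projection of
`{lab = a, col = f}`; if it is nonzero the set is nonempty (`real_β`, faithfulness).
Moments: `ψ (Z ^ (2m)) = ∫ ev (E (Z ^ (2m)))`; at `y ∈ X₁` use `IsPre.moment` with the
representatives of `Kern.exists_rep`, `pw_iso` with the gauge, and `pw_le` (constant `26 z` if
`Good`, `1` otherwise by `HC.mc`). -/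
theorem Nce.cart {n₁ : ℕ} {K : ℝ} (hK : 1 ≤ K) {u a : Fin n₁ → Op H} (hu : ∀ g, 𝓔.Inv K (u g))
    (ha : ∀ g, a g ∈ A) {x : Op H} (hx : x = ∑ g, a g * u g) (hsa : IsSelfAdjoint x)
    (h1 : ‖x‖ ≤ 1) (h0 : 𝓔.E x = 0) (r : ℕ) [NeZero r] (m : ℕ) {δ : ℝ} (hδ : 0 < δ) :
    ∃ (D n₀ : ℕ) (p₀ : Fin n₀ → Op H), Part A p₀ ∧ ∀ (n : ℕ) (e : Fin n → Op H), Part A e →
      Ref p₀ e → ∃ qq : Fin n × ((Fin n → Lab r) → Option (Fin r)) → Op H, IsRC e D qq ∧
        (∀ af, qq af ∈ A) ∧ av (fun ω => (𝓔.ψ (pc qq ω none)).re) ≤ δ ∧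
        av (fun ω => (𝓔.ψ (Zc qq ω x ^ (2 * m))).re) ≤
          (78 / Real.sqrt r) ^ (2 * m) * (𝓔.ψ 1).re + δ := by
  classical
  obtain ⟨X, _, ⟨S⟩⟩ := 𝓔.spec
  obtain ⟨P, hP⟩ := exists_pre S hK hu ha hx hsa h1 h0
  obtain ⟨X₁, _, 𝓜, hm, hmp, hφ, hmm, hF, h𝓑⟩ := P.model
  rw [hP.μ] at hmp
  rw [hP.𝓑] at h𝓑
  haveI := 𝓜.fin
  have hr : (0 : ℝ) < r := Nat.cast_pos.2 (NeZero.pos r)
  have hz : 0 < 3 / Real.sqrt r := by positivity
  obtain ⟨c, hc, hpoti⟩ := 𝓜.poti (r := r) (2 * m) (le_refl (3 / Real.sqrt r))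
  obtain ⟨D, n₀, lab₀, hlab₀, hcore⟩ := 𝓜.core (2 * m) hz hc hpoti hδ
  obtain ⟨p₀, hp₀, hp₀'⟩ := cart_part S hm hmp (h𝓑 ▸ hlab₀)
  refine ⟨D, n₀, p₀, hp₀, fun n e he hr => ?_⟩
  obtain ⟨lab, hlab⟩ := S.exists_lab he
  have hlabF : Fib 𝓜.𝓑 fun x : X₁ => lab x := fun i => by
    rw [h𝓑]
    exact ⟨_, ⟨e i, he.mem i, he.proj i, rfl⟩, Set.ext fun x => hlab x i⟩
  obtain ⟨col, hcolF, hJ, hO, hnone, hgood⟩ := hcore (Fin n) (fun x => lab x) hlabF
    fun x y hxy => by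
      obtain ⟨j, hj⟩ := hr (lab x)
      have key : ∀ z : X₁, lab z = lab x → lab₀ z = j := fun z hz => by
        have h1 := (hlab z _).1 hz
        rw [← hj, S.β_mul (he.proj _) (he.mem _) (hp₀.proj _) (hp₀.mem _)] at h1
        exact (hp₀' j z).1 h1.2
      rw [key x rfl, key y hxy.symm]
  obtain ⟨qq, hqq, hqq'⟩ := cart_part S hm hmp (h𝓑 ▸ Fib.prod 𝓜.alg hlabF hcolF)
  have hne : ∀ af, qq af ≠ 0 → ∃ x : X₁, (lab x, col x) = af := fun af h => by
    by_contra hx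
    push Not at hx
    refine h (𝓔.eq_zero_of_nonneg (𝓔.masa.le _ (hqq.mem af)) (hqq.proj af).nonneg ?_)
    rw [← cart_real S hmp (hqq.proj af) (hqq.mem af),
      show {x : X₁ | (x : X) ∈ S.β (qq af)} = ∅ from
        Set.eq_empty_of_forall_notMem fun x hx' => hx x ((hqq' af x).1 hx')]
    simp
  have hpc : ∀ ω, Part A (pc qq ω) := fun ω => hqq.fiber fun af => af.2 ω
  have hpc' : ∀ ω o (x : X₁), (x : X) ∈ S.β (pc qq ω o) ↔ col x ω = o := fun ω o x =>
    cart_fiber S hqq (fun af => hqq' af x) (fun af => af.2 ω) o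
  refine ⟨qq, ⟨hqq.toPart0, fun a f => ?_, fun a f h => ?_, fun a f h => ?_⟩, hqq.mem, ?_, ?_⟩
  · refine S.le_of_ae (hqq.proj _) (hqq.mem _) (he.proj a) (he.mem a) ?_
    filter_upwards [cart_ae S hm hmp] with x hx h
    exact (hlab x a).1 (congrArg Prod.fst ((hqq' _ ⟨x, hx⟩).1 h))
  · obtain ⟨x, hx⟩ := hne _ h
    obtain ⟨-, rfl⟩ := Prod.mk.inj hx
    exact hJ x
  · obtain ⟨x, hx⟩ := hne _ h
    obtain ⟨rfl, rfl⟩ := Prod.mk.inj hx
    exact hO x
  · refine le_trans (le_of_eq ?_) hnone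
    congr 1
    funext ω
    rw [← cart_real S hmp ((hpc ω).proj none) ((hpc ω).mem none)]
    congr 1
    exact Set.ext fun x => hpc' ω none x
  have hact : ∀ (w : List (Fin n₁)) (y : X₁), ((act 𝓜.φ w y : X₁) : X) = act P.φ w y := fun w y => by
    induction w with
    | nil => rfl
    | cons g w ih => rw [act, act, hφ, ih]
  have hxM : x ∈ M := by
    rw [hx]
    exact sum_mem fun g _ => mul_mem (𝓔.masa.le _ (ha g)) (hu g).mem
  have hψ1 : 𝓜.μ.real Set.univ = (𝓔.ψ 1).re := by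
    rw [← cart_real S hmp (IsStarProjection.one _) (one_mem A), S.β_one]
    rfl
  obtain ⟨rep, -, hrep⟩ := 𝓜.toKern.exists_rep (2 * m)
  have key : ∀ ω, (𝓔.ψ (Zc qq ω x ^ (2 * m))).re ≤ (78 / Real.sqrt r) ^ (2 * m) * (𝓔.ψ 1).re +
      𝓜.μ.real {y | ¬ Good 𝓜.toKern (2 * m) (26 * (3 / Real.sqrt r)) (fun y => col y ω) y} := by
    intro ω
    have hZM : Zc qq ω x ^ (2 * m) ∈ M := pow_mem (sum_mem fun i _ => mul_mem (mul_mem
      (𝓔.masa.le _ ((hpc ω).mem _)) hxM) (𝓔.masa.le _ ((hpc ω).mem _))) _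
    have hEA := 𝓔.ce.mem _ hZM
    have hmeas : MeasurableSet
        {y | ¬ Good 𝓜.toKern (2 * m) (26 * (3 / Real.sqrt r)) (fun y => col y ω) y} :=
      (𝓜.toKern.measurableSet_good _ _ fun o =>
        𝓜.meas_𝓑 _ (Fib.comp 𝓜.alg hcolF (fun f => f ω) o)).compl
    have hpt : ∀ y : X₁, ‖S.ev (𝓔.E (Zc qq ω x ^ (2 * m))) y‖ ≤ (78 / Real.sqrt r) ^ (2 * m) +
        Set.indicator {y | ¬ Good 𝓜.toKern (2 * m) (26 * (3 / Real.sqrt r))
          (fun y => col y ω) y} 1 y := by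
      intro y
      obtain ⟨hsub, h0', hinj, him⟩ := hrep y
      have hmom := hP.moment hu ha hx (hpc ω) (y := y) (fun w => hF w y)
        (c := fun w => col (act 𝓜.φ w y) ω) (fun w => by rw [← hact]; exact (hpc' ω _ _).2 rfl)
        (R := 2 * m) h0' (fun w hw w' hw' h => hinj hw hw' (Subtype.ext (by
          simpa only [hact] using h))) (fun w hw => by
          have : act 𝓜.φ w y ∈ ball 𝓜.φ (2 * m) y := mem_ball.2 ⟨w, hw, rfl⟩
          rw [← him] at this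
          obtain ⟨w', hw', h⟩ := Finset.mem_image.1 this
          exact ⟨w', hw', by rw [← hact, ← hact, h]⟩) le_rfl
      obtain ⟨γ, hγ, hg⟩ := 𝓜.gauge y
      have hiso := pw_iso (Y := Mc 𝓜.M fun y => col y ω)
        (y := Mc (fun w w' => P.m w w' y) fun w => col (act 𝓜.φ w y) ω)
        (fun w => act 𝓜.φ w y) hinj γ (fun w _ => hγ w) (fun w _ w' _ => by
          simp only [Mc]
          split_ifs
          · rw [hg, hmm]
          · simp) (2 * m) h0' h0'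
      rw [him] at hiso
      have hn : ‖S.ev (𝓔.E (Zc qq ω x ^ (2 * m))) y‖ =
          ‖pw (ball 𝓜.φ (2 * m) y) (Mc 𝓜.M fun y => col y ω) (2 * m) y y‖ := by
        rw [Zc, hmom]
        refine Eq.trans ?_ (congrArg norm hiso).symm
        rw [norm_mul, norm_mul, Complex.norm_conj, hγ, one_mul, mul_one]
      have hHC := (𝓜.hc (ball 𝓜.φ (2 * m) y)).mc fun y => col y ω
      rw [hn]
      by_cases hG : Good 𝓜.toKern (2 * m) (26 * (3 / Real.sqrt r)) (fun y => col y ω) y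
      · have := pw_le (by positivity) hHC.herm hG (2 * m) (self_mem_ball _ _ y)
        rw [show 26 * (3 / Real.sqrt r) = 78 / Real.sqrt r by ring] at this
        exact this.trans (le_add_of_nonneg_right (Set.indicator_nonneg (fun _ _ => zero_le_one) _))
      · have := pw_le zero_le_one hHC.herm (fun η => by rw [one_mul]; exact hHC.bd η) (2 * m)
          (self_mem_ball _ _ y)
        rw [one_pow] at this
        rw [Set.indicator_of_mem (by exact hG)]
        exact this.trans (le_add_of_nonneg_left (by positivity))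
    have hint : ∫ y : X₁, S.ev (𝓔.E (Zc qq ω x ^ (2 * m))) y ∂𝓜.μ = 𝓔.ψ (Zc qq ω x ^ (2 * m)) := by
      rw [← 𝓔.ψ_E _ hZM, ← S.integral _ hEA, ← hmp.map_eq,
        integral_map hmp.measurable.aemeasurable (S.meas _ hEA).aestronglyMeasurable]
    rw [← hint]
    refine (Complex.re_le_norm _).trans ((norm_integral_le_of_norm_le
      ((integrable_const _).add ((integrable_const (1 : ℝ)).indicator hmeas))
      (Filter.Eventually.of_forall hpt)).trans (le_of_eq ?_))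
    simp only [Pi.add_apply]
    rw [integral_add (integrable_const _) ((integrable_const (1 : ℝ)).indicator hmeas),
      integral_const, integral_indicator_const _ hmeas, hψ1]
    simp [mul_comm]
  haveI : Nonempty (Lab r) := ⟨⟨0, by have := NeZero.pos r; omega⟩⟩
  refine (R124.av_mono key).trans ?_
  rw [R124.av_add, R124.av_const]
  linarith

end Crest.Agent.R109
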