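import Crest.Agent.R109.Reg

/-! Task 109-COL: the column-sum estimate. The total influence of one vertex `u` on the ratios
of all the vertices of comparable weight is bounded. -/

set_option autoImplicit false

open Polynomial

namespace Crest.Agent.R109

variable {V : Type*} [DecidableEq V] {r : ℕ}

/-- Ratio of `PP` with `v` in state `o` and with `v` deleted. -/
noncomputable def Aq (z : ℝ) (M : V → V → ℂ) (w : V → ℝ) (s : V → St r) (U : Finset V) (v : V)
    (o : St r) (t : ℂ) : ℂ :=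
  (PP z M w (Function.update s v o) U).eval t / (PP z M w (Function.update s v St.del) U).eval t

/-- Margin `η` at the vertex `a`, in the direction `ω`, for both live diagonals. -/
def Mg (z : ℝ) (w : V → ℝ) (t ω : ℂ) (η : ℝ) (a : V) : Prop :=
  |ω.im| + η ≤ (ω * (z + t / w a)).im ∧ |ω.im| + η ≤ (ω * (25 * z + 4 * t / w a)).im

/-- Strict margin. -/
def Mg0 (z : ℝ) (w : V → ℝ) (t ω : ℂ) (a : V) : Prop :=
  |ω.im| < (ω * (z + t / w a)).im ∧ |ω.im| < (ω * (25 * z + 4 * t / w a)).im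

namespace ColA

section Pos
variable {ι : Type*} [DecidableEq ι]

/-- the sesquilinear form -/
noncomputable def hf (N : ι → ι → ℂ) (S : Finset ι) (ξ ζ : ι → ℂ) : ℂ :=
  ∑ a ∈ S, ∑ b ∈ S, (starRingEnd ℂ) (ξ a) * N a b * ζ b

omit [DecidableEq ι] in
lemma nsq_nonneg (S : Finset ι) (ξ : ι → ℂ) : 0 ≤ nsq S ξ :=
  Finset.sum_nonneg fun _ _ => sq_nonneg _

omit [DecidableEq ι] in
lemma hf_im {N : ι → ι → ℂ} {S : Finset ι} (h : HC N S) (ξ : ι → ℂ) : (hf N S ξ ξ).im = 0 := by
  rw [← Complex.conj_eq_iff_im]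
  unfold hf
  rw [map_sum, Finset.sum_comm]
  refine Finset.sum_congr rfl fun a ha => ?_
  rw [map_sum]
  refine Finset.sum_congr rfl fun b hb => ?_
  rw [h.herm a ha b hb, map_mul, map_mul, Complex.conj_conj]
  ring

omit [DecidableEq ι] in
lemma hf_rot {N : ι → ι → ℂ} {S : Finset ι} (h : HC N S) (ξ : ι → ℂ) (ω : ℂ) :
    -(|ω.im| * nsq S ξ) ≤ (ω * hf N S ξ ξ).im := by
  rw [Complex.mul_im, hf_im h, mul_zero, zero_add]
  have h1 : |(hf N S ξ ξ).re| ≤ nsq S ξ := (Complex.abs_re_le_norm _).trans (h.bd ξ)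
  have h2 : |ω.im * (hf N S ξ ξ).re| ≤ |ω.im| * nsq S ξ := by
    rw [abs_mul]; exact mul_le_mul_of_nonneg_left h1 (abs_nonneg _)
  exact (abs_le.1 h2).1

lemma form_split (N : ι → ι → ℂ) (S : Finset ι) (τ d ξ : ι → ℂ) :
    form (fun a b => (if a = b then τ a else 0) + d a * N a b) S ξ =
      ∑ a ∈ S, τ a * ((‖ξ a‖ ^ 2 : ℝ) : ℂ) +
        ∑ a ∈ S, ∑ b ∈ S, (starRingEnd ℂ) (ξ a) * (d a * N a b) * ξ b := by
  unfold form
  rw [← Finset.sum_add_distrib]
  refine Finset.sum_congr rfl fun a ha => ?_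
  simp only [mul_add, add_mul, Finset.sum_add_distrib, mul_ite, ite_mul, mul_zero, zero_mul,
    Finset.sum_ite_eq, ha, if_true]
  congr 1
  rw [mul_comm _ (τ a), mul_assoc, Complex.conj_mul']
  push_cast; rfl

omit [DecidableEq ι] in
lemma im_sum_mul (S : Finset ι) (τ : ι → ℂ) (x : ι → ℝ) :
    (∑ a ∈ S, τ a * ((x a : ℝ) : ℂ)).im = ∑ a ∈ S, (τ a).im * x a := by
  rw [Complex.im_sum]
  exact Finset.sum_congr rfl fun a _ => by simp

/-- small perturbation of the rows -/
lemma posA {N : ι → ι → ℂ} {S : Finset ι} (h : HC N S) (τ d : ι → ℂ) (ω : ℂ) {δ : ℝ}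
    (hδ : 0 ≤ δ) (p : ι → Prop) (h0 : ∀ a ∈ S, |ω.im| < (τ a).im)
    (hp : ∀ a ∈ S, p a → |ω.im| + δ < (τ a).im) (hd : ∀ a ∈ S, ‖d a - ω‖ ≤ δ)
    (hN : ∀ a ∈ S, d a ≠ ω → p a ∧ ∀ b ∈ S, N a b ≠ 0 → p b) :
    PosIm (fun a b => (if a = b then τ a else 0) + d a * N a b) S := by
  classical
  rintro ξ ⟨a0, ha0, hξ⟩
  set ζ : ι → ℂ := fun a => if p a then ξ a else 0 with hζ
  set χ : ι → ℂ := fun a => (starRingEnd ℂ) (d a - ω) * ξ a with hχ
  have e1 : ∑ a ∈ S, ∑ b ∈ S, (starRingEnd ℂ) (ξ a) * (d a * N a b) * ξ b =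
      ω * hf N S ξ ξ + hf N S χ ζ := by
    unfold hf
    rw [Finset.mul_sum, ← Finset.sum_add_distrib]
    refine Finset.sum_congr rfl fun a ha => ?_
    rw [Finset.mul_sum, ← Finset.sum_add_distrib]
    refine Finset.sum_congr rfl fun b hb => ?_
    simp only [hχ, hζ, map_mul, Complex.conj_conj]
    by_cases h1 : d a = ω
    · rw [h1]; ring
    · by_cases h2 : N a b = 0
      · rw [h2]; ring
      · rw [if_pos ((hN a ha h1).2 b hb h2)]; ring
  have e2 : nsq S χ ≤ δ ^ 2 * nsq S ζ := by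
    unfold nsq
    rw [Finset.mul_sum]
    refine Finset.sum_le_sum fun a ha => ?_
    simp only [hχ, hζ]
    by_cases h1 : d a = ω
    · rw [h1, sub_self, map_zero, zero_mul, norm_zero, zero_pow two_ne_zero]; positivity
    · rw [if_pos (hN a ha h1).1, norm_mul, mul_pow, Complex.norm_conj]
      exact mul_le_mul_of_nonneg_right (pow_le_pow_left₀ (norm_nonneg _) (hd a ha) 2)
        (sq_nonneg _)
  have e3 : ‖hf N S χ ζ‖ ≤ δ * nsq S ζ := by
    refine (h.bilin χ ζ).trans ?_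
    have : √(nsq S χ) ≤ δ * √(nsq S ζ) := by
      rw [← Real.sqrt_sq hδ, ← Real.sqrt_mul (sq_nonneg _)]
      exact Real.sqrt_le_sqrt e2
    calc √(nsq S χ) * √(nsq S ζ) ≤ δ * √(nsq S ζ) * √(nsq S ζ) :=
          mul_le_mul_of_nonneg_right this (Real.sqrt_nonneg _)
      _ = δ * nsq S ζ := by rw [mul_assoc, Real.mul_self_sqrt (nsq_nonneg _ _)]
  have e4 := (abs_le.1 ((Complex.abs_im_le_norm _).trans e3)).1
  have e5 := hf_rot h ξ ω
  rw [form_split, e1, Complex.add_im, Complex.add_im, im_sum_mul]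
  have e6 : |ω.im| * nsq S ξ + δ * nsq S ζ < ∑ a ∈ S, (τ a).im * ‖ξ a‖ ^ 2 := by
    unfold nsq
    rw [Finset.mul_sum, Finset.mul_sum, ← Finset.sum_add_distrib]
    have k : ∀ a ∈ S, ∃ m : ℝ, m < (τ a).im ∧
        |ω.im| * ‖ξ a‖ ^ 2 + δ * ‖ζ a‖ ^ 2 = m * ‖ξ a‖ ^ 2 := by
      intro a ha
      by_cases h1 : p a
      · exact ⟨_, hp a ha h1, by simp only [hζ, if_pos h1]; ring⟩
      · exact ⟨_, h0 a ha, by simp only [hζ, if_neg h1, norm_zero]; ring⟩
    refine Finset.sum_lt_sum (fun a ha => ?_) ⟨a0, ha0, ?_⟩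
    · obtain ⟨m, h1, h2⟩ := k a ha
      rw [h2]; exact mul_le_mul_of_nonneg_right h1.le (sq_nonneg _)
    · obtain ⟨m, h1, h2⟩ := k a0 ha0
      rw [h2]; exact mul_lt_mul_of_pos_right h1 (by positivity)
  linarith

/-- arbitrary phase in one row -/
lemma posB {N : ι → ι → ℂ} {S : Finset ι} (h : HC N S) (τ d : ι → ℂ) {ω : ℂ} (hω : ‖ω‖ ≤ 1)
    {η : ℝ} (hη : 0 < η) {a0 : ι} (ha0 : a0 ∈ S) (hd0 : ‖d a0‖ ≤ 1)
    (hd : ∀ a ∈ S, a ≠ a0 → d a = ω) (h0 : ∀ a ∈ S, a ≠ a0 → |ω.im| < (τ a).im)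
    (hN : ∀ b ∈ S, b ≠ a0 → N a0 b ≠ 0 → |ω.im| + η ≤ (τ b).im) (hτ : 1 / η < (τ a0).im) :
    PosIm (fun a b => (if a = b then τ a else 0) + d a * N a b) S := by
  classical
  rintro ξ ⟨a1, ha1, hξ⟩
  set ξ0 : ι → ℂ := fun a => if a = a0 then 0 else ξ a with hξ0
  set ξ1 : ι → ℂ := fun a => if a = a0 then ξ a else 0 with hξ1
  set ζ : ι → ℂ := fun a => if a ≠ a0 ∧ N a0 a ≠ 0 then ξ a else 0 with hζ
  have e1 : ∑ a ∈ S, ∑ b ∈ S, (starRingEnd ℂ) (ξ a) * (d a * N a b) * ξ b =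
      ω * hf N S ξ0 ξ0 + ω * hf N S ζ ξ1 + d a0 * hf N S ξ1 ζ := by
    unfold hf
    simp only [Finset.mul_sum, ← Finset.sum_add_distrib]
    refine Finset.sum_congr rfl fun a ha => Finset.sum_congr rfl fun b hb => ?_
    simp only [hξ0, hξ1, hζ]
    by_cases h1 : a = a0
    · subst h1
      by_cases h2 : b = a
      · subst h2; simp [h.diag b hb]
      · by_cases h3 : N a b = 0
        · simp [h3]
        · simp [h2, h3]; ring
    · rw [hd a ha h1]
      by_cases h2 : b = a0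
      · subst h2
        by_cases h3 : N b a = 0
        · have : N a b = 0 := by rw [h.herm b hb a ha, h3, map_zero]
          simp [this]
        · simp [h1, h3]; ring
      · simp [h1, h2]; ring
  set x := ‖ξ a0‖ with hx
  have n1 : nsq S ξ1 = x ^ 2 := by
    unfold nsq
    rw [Finset.sum_eq_single_of_mem a0 ha0 fun b _ hb => by simp [hξ1, hb]]
    simp [hξ1, hx]
  set y := √(nsq S ζ) with hy
  have hy2 : nsq S ζ = y ^ 2 := (Real.sq_sqrt (nsq_nonneg _ _)).symm
  have hx0 : 0 ≤ x := norm_nonneg _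
  have hy0 : 0 ≤ y := Real.sqrt_nonneg _
  have b1 : ‖ω * hf N S ζ ξ1‖ ≤ x * y := by
    have := h.bilin ζ ξ1
    rw [n1, Real.sqrt_sq hx0] at this
    rw [norm_mul, mul_comm x y, ← one_mul (y * x)]
    exact mul_le_mul hω this (norm_nonneg _) zero_le_one
  have b2 : ‖d a0 * hf N S ξ1 ζ‖ ≤ x * y := by
    have := h.bilin ξ1 ζ
    rw [n1, Real.sqrt_sq hx0] at this
    rw [norm_mul, ← one_mul (x * y)]
    exact mul_le_mul hd0 this (norm_nonneg _) zero_le_one
  have c1 := (abs_le.1 ((Complex.abs_im_le_norm _).trans b1)).1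
  have c2 := (abs_le.1 ((Complex.abs_im_le_norm _).trans b2)).1
  have c3 := hf_rot h ξ0 ω
  rw [form_split, e1, Complex.add_im, Complex.add_im, Complex.add_im, im_sum_mul]
  have k0 : ∀ a ∈ S, |ω.im| * ‖ξ0 a‖ ^ 2 + η * ‖ζ a‖ ^ 2 + 1 / η * ‖ξ1 a‖ ^ 2 ≤
      (τ a).im * ‖ξ a‖ ^ 2 := by
    intro a ha
    by_cases h1 : a = a0
    · subst h1
      simp only [hξ0, hξ1, hζ, if_true, ne_eq, not_true_eq_false, false_and, if_false, norm_zero]
      nlinarith [sq_nonneg ‖ξ a‖]
    · by_cases h2 : N a0 a = 0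
      · simp only [hξ0, hξ1, hζ, h1, h2, ne_eq, not_true_eq_false, and_false, if_false, norm_zero]
        nlinarith [sq_nonneg ‖ξ a‖, h0 a ha h1]
      · simp only [hξ0, hξ1, hζ, h1, h2, ne_eq, not_false_eq_true, and_self, if_true, if_false,
          norm_zero]
        nlinarith [sq_nonneg ‖ξ a‖, hN a ha h1 h2]
  rcases hx0.lt_or_eq with hx1 | hx1
  · have e6 : |ω.im| * nsq S ξ0 + η * nsq S ζ + 1 / η * nsq S ξ1 <
        ∑ a ∈ S, (τ a).im * ‖ξ a‖ ^ 2 := by
      unfold nsq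
      simp only [Finset.mul_sum, ← Finset.sum_add_distrib]
      refine Finset.sum_lt_sum k0 ⟨a0, ha0, ?_⟩
      simp only [hξ0, hξ1, hζ, if_true, ne_eq, not_true_eq_false, false_and, if_false, norm_zero]
      have : 0 < x ^ 2 := by positivity
      nlinarith
    rw [n1, hy2] at e6
    have e7 : 2 * (x * y) ≤ η * y ^ 2 + 1 / η * x ^ 2 := by
      have : η * y ^ 2 + 1 / η * x ^ 2 - 2 * (x * y) = (η * y - x) ^ 2 / η := by
        field_simp; ring
      have : 0 ≤ (η * y - x) ^ 2 / η := by positivity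
      linarith
    linarith
  · have h1 : a1 ≠ a0 := by
      rintro rfl
      exact hξ (norm_eq_zero.1 hx1.symm)
    have e6 : |ω.im| * nsq S ξ0 < ∑ a ∈ S, (τ a).im * ‖ξ a‖ ^ 2 := by
      unfold nsq
      rw [Finset.mul_sum]
      refine Finset.sum_lt_sum (fun a ha => le_trans ?_ (k0 a ha)) ⟨a1, ha1, ?_⟩
      · have : 0 ≤ η * ‖ζ a‖ ^ 2 + 1 / η * ‖ξ1 a‖ ^ 2 := by positivity
        linarith
      · simp only [hξ0, h1, if_false]
        exact mul_lt_mul_of_pos_right (h0 a1 ha1 h1) (by positivity)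
    rw [← hx1, zero_mul] at c1 c2
    linarith

end Pos

lemma hc_Bz {M : V → V → ℂ} {W : Finset V} (hM : HC M W) {S : Finset (V × Fin r)}
    (hS : ∀ a ∈ S, a.1 ∈ W) : HC (Bz (fun _ => 0) M) S := by
  refine ⟨fun a ha b hb => ?_, fun a _ => by simp [Bz], fun ξ => ?_⟩
  · unfold Bz
    by_cases h1 : a = b
    · simp [h1]
    · by_cases h2 : a.2 = b.2
      · rw [if_neg h1, if_neg (Ne.symm h1), if_pos h2, if_pos h2.symm,
          hM.herm a.1 (hS a ha) b.1 (hS b hb), map_neg]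
      · simp [h1, Ne.symm h1, h2, Ne.symm h2]
  · obtain ⟨x, h1, h2⟩ := form_Bz hM (fun _ => 0) hS ξ
    rw [h2]; simpa using h1

lemma Bz_ne {M : V → V → ℂ} {a b : V × Fin r} (h : Bz (fun _ => 0) M a b ≠ 0) :
    M a.1 b.1 ≠ 0 := by
  intro e; apply h; unfold Bz; split_ifs <;> simp [e]

/-- the perturbed matrix -/
noncomputable def Bq (Z : V × Fin r → ℂ) (M : V → V → ℂ) (D E : V × Fin r → ℂ) :
    V × Fin r → V × Fin r → ℂ := fun a b =>
  (1 + D a) * Bz Z M a b + if a = b then E a else 0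

lemma rot_Bq (ω : ℂ) (Z : V × Fin r → ℂ) (M : V → V → ℂ) (D E : V × Fin r → ℂ) :
    (fun a b => ω * Bq Z M D E a b) = fun a b =>
      (if a = b then ω * ((1 + D a) * Z a + E a) else 0) +
        (ω * (1 + D a)) * Bz (fun _ => 0) M a b := by
  funext a b
  unfold Bq Bz
  split_ifs <;> ring

/-- the perturbed polynomial -/
noncomputable def PQ (z : ℝ) (M : V → V → ℂ) (w : V → ℝ) (U : Finset V) (t : ℂ)
    (D E : V × Fin r → ℂ) (s : V → St r) : ℂ :=
  (∏ u ∈ live s U, (ws w s u : ℂ)) *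
    Pf (Bq (Zt z w s t) M D E) (fun _ => (r : ℂ)⁻¹) (Uu s U) (Tc s U)

lemma PQ_zero (z : ℝ) (M : V → V → ℂ) {w : V → ℝ} {U : Finset V} (hw : ∀ u ∈ U, w u ≠ 0) (t : ℂ)
    (s : V → St r) : PQ z M w U t (fun _ => 0) (fun _ => 0) s = (PP z M w s U).eval t := by
  rw [PP_eval z M s hw t, PQ]
  congr 2
  funext a b
  simp [Bq]

lemma Pf_rot (ω : ℂ) (B : V × Fin r → V × Fin r → ℂ) (π : V × Fin r → ℂ) {U : Finset V}
    {T : Finset (V × Fin r)} (h : Dis U T) :
    Pf (fun a b => ω * B a b) π U T = ω ^ T.card * ω ^ U.card * Pf B π U T := by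
  rw [Pf_row (fun _ => ω) B π h, Pf_weight (fun _ => ω)]
  simp [mul_assoc]

omit [DecidableEq V] in
lemma cast_inv : (fun _ : V × Fin r => (r : ℂ)⁻¹) = fun _ => (((r : ℝ)⁻¹ : ℝ) : ℂ) := by
  funext; simp

lemma Pf_ne' [NeZero r] {ω : ℂ} {B : V × Fin r → V × Fin r → ℂ} {U : Finset V}
    {T : Finset (V × Fin r)} (hD : Dis U T) (hB : PosIm (fun a b => ω * B a b) (supp U T)) :
    Pf B (fun _ => (r : ℂ)⁻¹) U T ≠ 0 := by
  have := Pf_ne (π := fun _ => (r : ℝ)⁻¹) hD
    (fun _ _ _ => inv_pos.2 (Nat.cast_pos.2 (NeZero.pos r))) hB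
  rw [Pf_rot _ _ _ hD, ← cast_inv] at this
  exact right_ne_zero_of_mul this

lemma Pf_ratio' [NeZero r] {ω : ℂ} (hω : ω ≠ 0) {B : V × Fin r → V × Fin r → ℂ} {U : Finset V}
    {T : Finset (V × Fin r)} {a : V × Fin r} (hD : Dis U T) (ha : a ∉ T) (hU : a.1 ∉ U)
    (hB : PosIm (fun a b => ω * B a b) (supp U (insert a T))) :
    0 < (ω * (Pf B (fun _ => (r : ℂ)⁻¹) U (insert a T) / Pf B (fun _ => (r : ℂ)⁻¹) U T)).im := by
  have hD' : Dis U (insert a T) := by
    intro b hb
    rcases Finset.mem_insert.1 hb with rfl | hb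
    exacts [hU, hD b hb]
  have := Pf_ratio (π := fun _ => (r : ℝ)⁻¹) hD ha hU
    (fun _ _ _ => inv_pos.2 (Nat.cast_pos.2 (NeZero.pos r))) hB
  rw [Pf_rot _ _ _ hD, Pf_rot _ _ _ hD', ← cast_inv, Finset.card_insert_of_notMem ha] at this
  convert this using 2
  rw [pow_succ, mul_right_comm (ω ^ T.card) ω, mul_assoc _ ω,
    mul_div_mul_left _ _ (mul_ne_zero (pow_ne_zero _ hω) (pow_ne_zero _ hω)), mul_div_assoc]

section Upd
variable (s : V → St r) {U : Finset V} {v : V}

lemma nm_Uu : v ∉ Uu (Function.update s v St.del) U := by simp [PfB_mem_Uu]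

lemma nm_Tc {a : V × Fin r} (h : a ∈ Tc (Function.update s v St.del) U) : a.1 ≠ v := by
  rintro rfl
  simp [PfB_mem_Tc] at h

lemma nm_supp {a : V × Fin r}
    (h : a ∈ supp (Uu (Function.update s v St.del) U) (Tc (Function.update s v St.del) U)) :
    a.1 ≠ v := by
  rintro rfl
  simpa using (PfB_supp_live h).2

lemma Uu_unc (hv : v ∈ U) :
    Uu (Function.update s v St.unc) U = insert v (Uu (Function.update s v St.del) U) := by
  ext u
  by_cases h : u = v
  · subst h; simp [PfB_mem_Uu, hv]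
  · simp [PfB_mem_Uu, h]

lemma Tc_unc : Tc (Function.update s v St.unc) U = Tc (Function.update s v St.del) U := by
  ext a
  by_cases h : a.1 = v
  · simp [PfB_mem_Tc, h]
  · simp [PfB_mem_Tc, h]

lemma Uu_col (j : Fin r) :
    Uu (Function.update s v (St.col j)) U = Uu (Function.update s v St.del) U := by
  ext u
  by_cases h : u = v
  · subst h; simp [PfB_mem_Uu]
  · simp [PfB_mem_Uu, h]

lemma Tc_col (hv : v ∈ U) (j : Fin r) :
    Tc (Function.update s v (St.col j)) U = insert (v, j) (Tc (Function.update s v St.del) U) := by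
  ext ⟨u, i⟩
  by_cases h : u = v
  · subst h; simp [PfB_mem_Tc, hv, eq_comm]
  · simp [PfB_mem_Tc, h]

lemma prod_upd (w : V → ℝ) (hv : v ∈ U) {o : St r} (ho : o ≠ St.del) :
    ∏ u ∈ live (Function.update s v o) U, (ws w (Function.update s v o) u : ℂ) =
      (ws w (Function.update s v o) v : ℂ) *
        ∏ u ∈ live (Function.update s v St.del) U, (ws w (Function.update s v St.del) u : ℂ) := by
  have e : live (Function.update s v o) U = insert v (live (Function.update s v St.del) U) := by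
    ext u
    by_cases h : u = v
    · subst h; simp [PfB_mem_live, hv, ho]
    · simp [PfB_mem_live, h]
  rw [e, Finset.prod_insert (by simp [PfB_mem_live])]
  congr 1
  refine Finset.prod_congr rfl fun u hu => ?_
  have h : u ≠ v := by rintro rfl; simp [PfB_mem_live] at hu
  simp [ws, h]

lemma Zt_upd (z : ℝ) (w : V → ℝ) (t : ℂ) (o o' : St r) {a : V × Fin r} (h : a.1 ≠ v) :
    Zt z w (Function.update s v o) t a = Zt z w (Function.update s v o') t a := by
  simp [Zt, zs, ws, h]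

lemma Zt_unc (z : ℝ) (w : V → ℝ) (t : ℂ) (i : Fin r) :
    Zt z w (Function.update s v St.unc) t (v, i) = z + t / w v := by
  simp [Zt, zs, ws]

lemma Zt_col (z : ℝ) (w : V → ℝ) (t : ℂ) (i j : Fin r) :
    Zt z w (Function.update s v (St.col j)) t (v, i) = 25 * z + 4 * t / w v := by
  simp only [Zt, zs, ws, Function.update_self, reduceCtorEq, if_false]
  push_cast
  rw [div_div_eq_mul_div, mul_comm t]

end Upd

omit [DecidableEq V] in
lemma Zt_cases (z : ℝ) (w : V → ℝ) (s : V → St r) (t : ℂ) (a : V × Fin r) :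
    Zt z w s t a = z + t / w a.1 ∨ Zt z w s t a = 25 * z + 4 * t / w a.1 := by
  by_cases h : s a.1 = St.unc
  · left; simp [Zt, zs, ws, h]
  · right
    simp only [Zt, zs, ws, h, if_false]
    push_cast
    rw [div_div_eq_mul_div, mul_comm t]

/-- one row is rescaled and its diagonal entry is changed -/
lemma Pf_one {Z Z0 D E D0 E0 : V × Fin r → ℂ} (M : V → V → ℂ) (π : V × Fin r → ℂ) {U : Finset V}
    {T : Finset (V × Fin r)} {a : V × Fin r} (hD : Dis U T) (hT : ∀ b ∈ supp U T, b.1 ≠ a.1)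
    (h : ∀ b : V × Fin r, b.1 ≠ a.1 → Z b = Z0 b ∧ D b = D0 b ∧ E b = E0 b) (h0 : D0 a = 0) :
    Pf (Bq Z M D E) π U T = Pf (Bq Z0 M D0 E0) π U T ∧
    Pf (Bq Z M D E) π U (insert a T) = ((1 + D a) * Z a + E a) * Pf (Bq Z0 M D0 E0) π U T +
      (1 + D a) * Pf (zeroAt (Bq Z0 M D0 E0) a) π U (insert a T) := by
  have ha : a ∉ T := fun h' => hT a (PfB_mem_supp.2 (Or.inl h')) rfl
  have hU : a.1 ∉ U := fun h' => hT a (PfB_mem_supp.2 (Or.inr h')) rfl
  have hrow : ∀ b : V × Fin r, b.1 ≠ a.1 → ∀ c, Bq Z M D E b c = Bq Z0 M D0 E0 b c := by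
    intro b hb c
    obtain ⟨h1, h2, h3⟩ := h b hb
    simp only [Bq, Bz, h1, h2, h3]
  have e1 : Pf (Bq Z M D E) π U T = Pf (Bq Z0 M D0 E0) π U T :=
    Pf_congr (fun b hb c _ => hrow b (hT b hb) c) fun _ _ _ => rfl
  refine ⟨e1, ?_⟩
  have hD' : Dis U (insert a T) := by
    intro b hb
    rcases Finset.mem_insert.1 hb with rfl | hb
    exacts [hU, hD b hb]
  rw [Pf_aff _ _ ha hU, e1]
  congr 1
  · simp [Bq, Bz]
  · have e2 := Pf_row (fun b => if b = a then 1 + D a else 1) (zeroAt (Bq Z0 M D0 E0) a) π hD'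
    rw [Finset.prod_ite_eq', if_pos (Finset.mem_insert_self a T)] at e2
    rw [Pf_congr (π := fun b => π b * if b = a then 1 + D a else 1) (π' := π)
      (fun _ _ _ _ => rfl) fun u hu i => by
      have : (u, i) ≠ a := by rintro rfl; exact hU hu
      simp [this]] at e2
    rw [← e2]
    refine Pf_congr (fun b hb c _ => ?_) fun _ _ _ => rfl
    by_cases hba : b = a
    · subst hba
      by_cases hc : c = b
      · simp [zeroAt, hc]
      · simp [zeroAt, hc, Bq, Bz, Ne.symm hc, h0]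
    · have hb' : b ∈ supp U T := by
        rw [PfB_mem_supp] at hb ⊢
        rcases hb with hb | hb
        · exact Or.inl ((Finset.mem_insert.1 hb).resolve_left hba)
        · exact Or.inr hb
      simp [zeroAt, hba, hrow b (hT b hb') c]

section Rec
variable (z : ℝ) (M : V → V → ℂ) (w : V → ℝ) (U : Finset V) (t : ℂ)

/-- weight of the state with `v` deleted -/
noncomputable def W0 (s : V → St r) (v : V) : ℂ :=
  ∏ u ∈ live (Function.update s v St.del) U, (ws w (Function.update s v St.del) u : ℂ)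

/-- `Pf` with `v` deleted -/
noncomputable def Q0 (D E : V × Fin r → ℂ) (s : V → St r) (v : V) : ℂ :=
  Pf (Bq (Zt z w (Function.update s v St.del) t) M D E) (fun _ => (r : ℂ)⁻¹)
    (Uu (Function.update s v St.del) U) (Tc (Function.update s v St.del) U)

/-- `Pf` with zero diagonal at `(v, i)` -/
noncomputable def P0 (D E : V × Fin r → ℂ) (s : V → St r) (v : V) (i : Fin r) : ℂ :=
  Pf (zeroAt (Bq (Zt z w (Function.update s v St.del) t) M D E) (v, i)) (fun _ => (r : ℂ)⁻¹)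
    (Uu (Function.update s v St.del) U) (insert (v, i) (Tc (Function.update s v St.del) U))

variable {U} {D E D0 E0 : V × Fin r → ℂ} (s : V → St r) {v : V}

lemma PQ_del (h : ∀ b : V × Fin r, b.1 ≠ v → D b = D0 b ∧ E b = E0 b) :
    PQ z M w U t D E (Function.update s v St.del) = W0 w U s v * Q0 z M w U t D0 E0 s v := by
  unfold PQ W0 Q0
  congr 1
  refine Pf_congr (fun b hb c _ => ?_) fun _ _ _ => rfl
  obtain ⟨h2, h3⟩ := h b (nm_supp s hb)
  simp only [Bq, h2, h3]

lemma PQ_unc (hv : v ∈ U) (h : ∀ b : V × Fin r, b.1 ≠ v → D b = D0 b ∧ E b = E0 b)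
    (h0 : ∀ i, D0 (v, i) = 0) :
    PQ z M w U t D E (Function.update s v St.unc) = W0 w U s v * w v *
      ∑ i, (r : ℂ)⁻¹ * (((1 + D (v, i)) * (z + t / w v) + E (v, i)) * Q0 z M w U t D0 E0 s v +
        (1 + D (v, i)) * P0 z M w U t D0 E0 s v i) := by
  unfold PQ
  rw [prod_upd s w hv (by simp), Uu_unc s hv, Tc_unc, Pf_insert _ _ (nm_Uu s)]
  congr 1
  · simp [ws, W0, mul_comm]
  · refine Finset.sum_congr rfl fun i _ => ?_
    rw [(Pf_one (a := (v, i)) M _ (dis_state _ U) (fun b hb => nm_supp s hb)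
      (fun b hb => ⟨Zt_upd s z w t _ St.del hb, h b hb⟩) (h0 i)).2, Zt_unc]
    rfl

lemma PQ_col (hv : v ∈ U) (h : ∀ b : V × Fin r, b.1 ≠ v → D b = D0 b ∧ E b = E0 b)
    (h0 : ∀ i, D0 (v, i) = 0) (j : Fin r) :
    PQ z M w U t D E (Function.update s v (St.col j)) = W0 w U s v * (w v / 4) *
      (((1 + D (v, j)) * (25 * z + 4 * t / w v) + E (v, j)) * Q0 z M w U t D0 E0 s v +
        (1 + D (v, j)) * P0 z M w U t D0 E0 s v j) := by
  unfold PQ
  rw [prod_upd s w hv (by simp), Uu_col, Tc_col s hv]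
  congr 1
  · simp [ws, W0, mul_comm]
  · rw [(Pf_one (a := (v, j)) M _ (dis_state _ U) (fun b hb => nm_supp s hb)
      (fun b hb => ⟨Zt_upd s z w t _ St.del hb, h b hb⟩) (h0 j)).2, Zt_col]
    rfl

end Rec

omit [DecidableEq V] in
lemma ws_pos {w : V → ℝ} (s : V → St r) {u : V} (h : 0 < w u) : 0 < ws w s u := by
  unfold ws; split_ifs <;> positivity

lemma W_ne {w : V → ℝ} {U : Finset V} (hw : ∀ u ∈ U, 0 < w u) (s : V → St r) :
    ∏ u ∈ live s U, (ws w s u : ℂ) ≠ 0 :=
  Finset.prod_ne_zero_iff.2 fun u hu =>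
    Complex.ofReal_ne_zero.2 (ws_pos s (hw u (PfB_mem_live.1 hu).1)).ne'

lemma PQ_ne [NeZero r] {z : ℝ} {M : V → V → ℂ} {w : V → ℝ} {U : Finset V} {t ω : ℂ}
    {D E : V × Fin r → ℂ} {s : V → St r} (hw : ∀ u ∈ U, 0 < w u)
    (hB : PosIm (fun a b => ω * Bq (Zt z w s t) M D E a b) (supp (Uu s U) (Tc s U))) :
    PQ z M w U t D E s ≠ 0 :=
  mul_ne_zero (W_ne hw s) (Pf_ne' (dis_state s U) hB)

/-- deleting a live vertex -/
lemma PQ_ratio [NeZero r] {z : ℝ} {M : V → V → ℂ} {w : V → ℝ} {U : Finset V} {t ω : ℂ}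
    (hω : ω ≠ 0) {D E : V × Fin r → ℂ} {s : V → St r} {v : V} {o : St r} (ho : o ≠ St.del)
    (hw : ∀ u ∈ U, 0 < w u) (hv : v ∈ U)
    (hB : PosIm (fun a b => ω * Bq (Zt z w (Function.update s v o) t) M D E a b)
      (supp (Uu (Function.update s v o) U) (Tc (Function.update s v o) U))) :
    PQ z M w U t D E (Function.update s v St.del) ≠ 0 ∧
      0 < (ω * (PQ z M w U t D E (Function.update s v o) /
        PQ z M w U t D E (Function.update s v St.del))).im := by
  set B := Bq (Zt z w (Function.update s v o) t) M D E with hBd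
  set U' := Uu (Function.update s v St.del) U with hU'
  set T := Tc (Function.update s v St.del) U with hT
  have hW := W_ne hw (Function.update s v St.del)
  have e0 : PQ z M w U t D E (Function.update s v St.del) =
      (∏ u ∈ live (Function.update s v St.del) U, (ws w (Function.update s v St.del) u : ℂ)) *
        Pf B (fun _ => (r : ℂ)⁻¹) U' T := by
    unfold PQ
    congr 1
    refine Pf_congr (fun b hb c _ => ?_) fun _ _ _ => rfl
    simp only [hBd, Bq, Bz, Zt_upd s z w t o St.del (nm_supp s hb)]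
  have hsub : ∀ i, (o = St.unc ∨ o = St.col i) → supp U' (insert (v, i) T) ⊆
      supp (Uu (Function.update s v o) U) (Tc (Function.update s v o) U) := by
    rintro i (rfl | rfl) a ha
    · rw [Uu_unc s hv, Tc_unc, PfB_mem_supp]
      rw [PfB_mem_supp, Finset.mem_insert] at ha
      rcases ha with (rfl | ha) | ha
      · exact Or.inr (Finset.mem_insert_self _ _)
      · exact Or.inl ha
      · exact Or.inr (Finset.mem_insert_of_mem ha)
    · rwa [Uu_col, Tc_col s hv]
  have hrat : ∀ i, (o = St.unc ∨ o = St.col i) →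
      0 < (ω * (Pf B (fun _ => (r : ℂ)⁻¹) U' (insert (v, i) T) /
        Pf B (fun _ => (r : ℂ)⁻¹) U' T)).im := fun i hi =>
    Pf_ratio' hω (dis_state _ U) (fun h => nm_Tc s h rfl) (nm_Uu s) (hB.mono (hsub i hi))
  have hne : ∀ i, (o = St.unc ∨ o = St.col i) → Pf B (fun _ => (r : ℂ)⁻¹) U' T ≠ 0 := by
    intro i hi h0
    have := hrat i hi
    rw [h0] at this
    simp at this
  have hwv := ws_pos (Function.update s v o) (hw v hv)
  rw [e0]
  unfold PQ
  rw [prod_upd s w hv ho, ← hBd]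
  cases o with
  | del => exact absurd rfl ho
  | unc =>
    refine ⟨mul_ne_zero hW (hne 0 (Or.inl rfl)), ?_⟩
    rw [Uu_unc s hv, Tc_unc, Pf_insert _ _ (nm_Uu s), ← hU', ← hT, mul_assoc, mul_div_assoc,
      mul_div_mul_left _ _ hW, Finset.sum_div, mul_left_comm, Finset.mul_sum, Complex.im_ofReal_mul,
      Complex.im_sum]
    refine mul_pos hwv (Finset.sum_pos (fun i _ => ?_) Finset.univ_nonempty)
    have := hrat i (Or.inl rfl)
    rw [mul_div_assoc, mul_left_comm, ← Complex.ofReal_natCast, ← Complex.ofReal_inv,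
      Complex.im_ofReal_mul]
    refine mul_pos (inv_pos.2 (Nat.cast_pos.2 (NeZero.pos r))) ?_
    simpa using this
  | col j =>
    refine ⟨mul_ne_zero hW (hne j (Or.inr rfl)), ?_⟩
    rw [Uu_col, Tc_col s hv, ← hU', ← hT, mul_assoc, mul_div_assoc, mul_div_mul_left _ _ hW,
      mul_left_comm, Complex.im_ofReal_mul]
    exact mul_pos hwv (hrat j (Or.inr rfl))

omit [DecidableEq V] in
lemma mg0_Zt {z : ℝ} {w : V → ℝ} {t ω : ℂ} (s : V → St r) {a : V × Fin r}
    (h : Mg0 z w t ω a.1) : |ω.im| < (ω * Zt z w s t a).im := by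
  rcases Zt_cases z w s t a with e | e <;> rw [e]
  exacts [h.1, h.2]

omit [DecidableEq V] in
lemma mg_Zt {z η : ℝ} {w : V → ℝ} {t ω : ℂ} (s : V → St r) {a : V × Fin r}
    (h : Mg z w t ω η a.1) : |ω.im| + η ≤ (ω * Zt z w s t a).im := by
  rcases Zt_cases z w s t a with e | e <;> rw [e]
  exacts [h.1, h.2]

omit [DecidableEq V] in
lemma mg0_of_mg {z η : ℝ} (hη : 0 < η) {w : V → ℝ} {t ω : ℂ} {a : V} (h : Mg z w t ω η a) :
    Mg0 z w t ω a := ⟨by linarith [h.1], by linarith [h.2]⟩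

lemma mg0_upd {z η : ℝ} (hη : 0 < η) {w : V → ℝ} {t ω : ℂ} {s : V → St r} {U : Finset V} {v : V}
    (h0 : ∀ a ∈ U, s a ≠ St.del → Mg0 z w t ω a) (hv : Mg z w t ω η v) (o : St r) :
    ∀ a ∈ U, Function.update s v o a ≠ St.del → Mg0 z w t ω a := by
  intro a ha h
  by_cases e : a = v
  · rw [e]; exact mg0_of_mg hη hv
  · rw [Function.update_of_ne e] at h; exact h0 a ha h

lemma ne_del {s : V → St r} {u a : V} (h : Function.update s u St.del a ≠ St.del) :
    s a ≠ St.del := by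
  by_cases e : a = u
  · subst e; simp at h
  · rwa [Function.update_of_ne e] at h

lemma posQ {K z η δ : ℝ} (hδ : 0 ≤ δ) (hη : δ < η) {M : V → V → ℂ} {w : V → ℝ} {s : V → St r}
    {U : Finset V} (h : Env K M w U) {t ω : ℂ} (hω : ‖ω‖ = 1)
    (h0 : ∀ a ∈ U, s a ≠ St.del → Mg0 z w t ω a) {D E : V × Fin r → ℂ} (A : Finset V)
    (hA : ∀ a : V × Fin r, a.1 ∉ A → D a = 0 ∧ E a = 0) (hD : ∀ a, ‖D a‖ ≤ δ)
    (hE : ∀ a : V × Fin r, a.1 ∈ A →
      |ω.im| + δ < (ω * ((1 + D a) * Zt z w s t a + E a)).im)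
    (hN : ∀ a : V × Fin r, D a ≠ 0 → ∀ b ∈ U, s b ≠ St.del → M a.1 b ≠ 0 → Mg z w t ω η b) :
    PosIm (fun a b => ω * Bq (Zt z w s t) M D E a b) (supp (Uu s U) (Tc s U)) := by
  rw [rot_Bq]
  refine posA (hc_Bz h.toHC fun a ha => (PfB_supp_live ha).1) _ _ ω hδ
    (fun a => a.1 ∈ A ∨ Mg z w t ω η a.1) (fun a ha => ?_) (fun a ha hp => ?_)
    (fun a _ => ?_) fun a _ hd => ?_
  · by_cases e : a.1 ∈ A
    · linarith [hE a e]
    · rw [(hA a e).1, (hA a e).2, add_zero, add_zero, one_mul]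
      exact mg0_Zt s (h0 _ (PfB_supp_live ha).1 (PfB_supp_live ha).2)
  · by_cases e : a.1 ∈ A
    · exact hE a e
    · rw [(hA a e).1, (hA a e).2, add_zero, add_zero, one_mul]
      linarith [mg_Zt s (hp.resolve_left e)]
  · rw [mul_add, mul_one, add_sub_cancel_left, norm_mul, hω, one_mul]; exact hD a
  · have hd' : D a ≠ 0 := fun e => hd (by rw [e, add_zero, mul_one])
    refine ⟨Or.inl (by_contra fun e => hd' (hA a e).1), fun b hb hab => Or.inr ?_⟩
    exact hN a hd' b.1 (PfB_supp_live hb).1 (PfB_supp_live hb).2 (Bz_ne hab)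

end ColA

/-- Scale all rows by `ω` (`Pf_row`, `Pf_weight`); `form_Bz` gives `PosIm`. -/
theorem PP_ne_of_mg [NeZero r] {K z : ℝ} {M : V → V → ℂ} {w : V → ℝ} {s : V → St r}
    {U : Finset V} (h : Env K M w U) {t ω : ℂ} (hω : ‖ω‖ = 1)
    (h0 : ∀ a ∈ U, s a ≠ St.del → Mg0 z w t ω a) : (PP z M w s U).eval t ≠ 0 := by
  rw [← ColA.PQ_zero z M (fun u hu => (h.pos u hu).ne') t s]
  exact ColA.PQ_ne h.pos (ColA.posQ le_rfl zero_lt_one h hω h0 ∅ (by simp) (by simp) (by simp)
    (by simp))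

namespace ColA

lemma mul_conj1 {ω : ℂ} (hω : ‖ω‖ = 1) : ω * (starRingEnd ℂ) ω = 1 := by
  rw [Complex.mul_conj', hω]; simp

lemma beta_bd [NeZero r] {K z η : ℝ} (hη : 0 < η) {M : V → V → ℂ} {w : V → ℝ} {s : V → St r}
    {U : Finset V} (h : Env K M w U) {t ω : ℂ} (hω : ‖ω‖ = 1) {v : V} (hv : v ∈ U)
    (h0 : ∀ a ∈ U, s a ≠ St.del → Mg0 z w t ω a) (hvη : Mg z w t ω η v)
    (hN : ∀ a ∈ U, s a ≠ St.del → M v a ≠ 0 → Mg z w t ω η a) (i : Fin r) :
    ‖P0 z M w U t (fun _ => 0) (fun _ => 0) s v i / Q0 z M w U t (fun _ => 0) (fun _ => 0) s v‖ ≤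
      1 / η := by
  by_contra hβ
  push Not at hβ
  set P := P0 z M w U t (fun _ => 0) (fun _ => 0) s v i with hP
  set Q := Q0 z M w U t (fun _ => 0) (fun _ => 0) s v with hQ
  set β := P / Q with hβd
  have hβ0 : 0 < ‖β‖ := lt_trans (by positivity) hβ
  have hβc : ((‖β‖ : ℝ) : ℂ) ≠ 0 := Complex.ofReal_ne_zero.2 hβ0.ne'
  have hω0 : ω ≠ 0 := by rintro rfl; simp at hω
  set θ : ℂ := -Complex.I * (starRingEnd ℂ) β / ‖β‖ with hθ
  have hθn : ‖θ‖ = 1 := by
    rw [hθ, norm_div, norm_mul, norm_neg, Complex.norm_I, Complex.norm_conj, Complex.norm_real,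
      norm_norm, one_mul, div_self hβ0.ne']
  have hθβ : θ * β = -(Complex.I * ‖β‖) := by
    rw [hθ, div_mul_eq_mul_div, mul_assoc, Complex.conj_mul']
    field_simp
  set D : V × Fin r → ℂ := fun a => if a = (v, i) then (starRingEnd ℂ) ω * θ - 1 else 0 with hD
  set E : V × Fin r → ℂ := fun a => if a = (v, i) then (starRingEnd ℂ) ω * (Complex.I * ‖β‖) -
    (starRingEnd ℂ) ω * θ * (25 * z + 4 * t / w v) else 0 with hE
  have hoff : ∀ b : V × Fin r, b ≠ (v, i) → D b = 0 ∧ E b = 0 := fun b hb => by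
    simp [hD, hE, hb]
  have hoff' : ∀ b : V × Fin r, b.1 ≠ v → D b = 0 ∧ E b = 0 := fun b hb =>
    hoff b (by rintro rfl; exact hb rfl)
  have d1 : ω * (1 + D (v, i)) = θ := by
    simp only [hD, if_true]
    linear_combination θ * mul_conj1 hω
  have d2 : ω * ((1 + D (v, i)) * (25 * z + 4 * t / w v) + E (v, i)) = Complex.I * ‖β‖ := by
    simp only [hD, hE, if_true]
    linear_combination (Complex.I * ‖β‖) * mul_conj1 hω
  have h0' := mg0_upd hη h0 hvη (St.col i)
  have hB : PosIm (fun a b => ω * Bq (Zt z w (Function.update s v (St.col i)) t) M D E a b)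
      (supp (Uu (Function.update s v (St.col i)) U) (Tc (Function.update s v (St.col i)) U)) := by
    rw [rot_Bq]
    refine posB (hc_Bz h.toHC fun a ha => (PfB_supp_live ha).1) _ _ hω.le hη (a0 := (v, i))
      (PfB_mem_supp.2 (Or.inl (by simp [PfB_mem_Tc, hv]))) (by rw [d1, hθn])
      (fun a _ ha => by rw [(hoff a ha).1, add_zero, mul_one]) (fun a ha ha' => ?_)
      (fun b hb hb' hn => ?_) ?_
    · rw [(hoff a ha').1, (hoff a ha').2, add_zero, add_zero, one_mul]
      exact mg0_Zt _ (h0' _ (PfB_supp_live ha).1 (PfB_supp_live ha).2)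
    · rw [(hoff b hb').1, (hoff b hb').2, add_zero, add_zero, one_mul]
      refine mg_Zt _ ?_
      by_cases e : b.1 = v
      · rw [e]; exact hvη
      · have := (PfB_supp_live hb).2
        rw [Function.update_of_ne e] at this
        exact hN _ (PfB_supp_live hb).1 this (Bz_ne hn)
    · rw [Zt_col, d2]; simpa using hβ
  obtain ⟨h1, h2⟩ := PQ_ratio hω0 (by simp) h.pos hv hB
  rw [PQ_del z M w t s (D0 := fun _ => 0) (E0 := fun _ => 0) hoff'] at h1 h2
  rw [PQ_col z M w t s (D0 := fun _ => 0) (E0 := fun _ => 0) hv hoff' (fun _ => rfl), ← hP,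
    ← hQ] at h2
  rw [← hQ] at h1
  have hW := left_ne_zero_of_mul h1
  have hQ0 := right_ne_zero_of_mul h1
  have e : ω * (W0 w U s v * (w v / 4) * (((1 + D (v, i)) * (25 * z + 4 * t / w v) + E (v, i)) * Q +
      (1 + D (v, i)) * P) / (W0 w U s v * Q)) = (w v / 4) *
        (ω * ((1 + D (v, i)) * (25 * z + 4 * t / w v) + E (v, i)) + ω * (1 + D (v, i)) * β) := by
    rw [hβd]; field_simp
  rw [e, d1, d2, hθβ] at h2
  simp at h2

lemma Aq_low [NeZero r] {K z η : ℝ} (hη : 0 < η) {M : V → V → ℂ} {w : V → ℝ} {s : V → St r}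
    {U : Finset V} (h : Env K M w U) {t ω : ℂ} (hω : ‖ω‖ = 1) {v : V} (hv : v ∈ U)
    (h0 : ∀ a ∈ U, s a ≠ St.del → Mg0 z w t ω a) (hvη : Mg z w t ω η v) {o : St r}
    (ho : o ≠ St.del) {η' : ℝ} (hη' : η' < η) :
    η' * ws w (Function.update s v o) v < (ω * Aq z M w s U v o t).im := by
  have hω0 : ω ≠ 0 := by rintro rfl; simp at hω
  set e : ℂ := -((starRingEnd ℂ) ω * (Complex.I * η')) with he
  have hωe : ω * e = -(Complex.I * η') := by
    rw [he]; linear_combination -(Complex.I * η') * mul_conj1 hω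
  set E : V × Fin r → ℂ := fun a => if a.1 = v then e else 0 with hE
  have hoff : ∀ b : V × Fin r, b.1 ≠ v → (0 : ℂ) = 0 ∧ E b = 0 := fun b hb => by simp [hE, hb]
  have hB := posQ (D := fun _ => 0) (E := E) le_rfl hη h hω (mg0_upd hη h0 hvη o) {v}
    (fun a ha => hoff a (by simpa using ha)) (by simp) (fun a ha => by
      have ha' : a.1 = v := by simpa using ha
      have := mg_Zt (Function.update s v o) (a := a) (ha' ▸ hvη)
      simp only [hE, ha', if_true, add_zero, one_mul, mul_add, hωe, Complex.add_im]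
      simp only [Complex.neg_im, Complex.mul_im, Complex.I_re, Complex.I_im, Complex.ofReal_re,
        Complex.ofReal_im] at this ⊢
      linarith) (by simp)
  obtain ⟨h1, h2⟩ := PQ_ratio hω0 ho h.pos hv hB
  have hw : ∀ u ∈ U, w u ≠ 0 := fun u hu => (h.pos u hu).ne'
  have key : PQ z M w U t (fun _ => 0) E (Function.update s v o) /
      PQ z M w U t (fun _ => 0) E (Function.update s v St.del) =
      Aq z M w s U v o t + ws w (Function.update s v o) v * e := by
    unfold Aq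
    rw [← PQ_zero z M hw, ← PQ_zero z M hw]
    rw [PQ_del z M w t s (D0 := fun _ => 0) (E0 := fun _ => 0) hoff] at h1 ⊢
    rw [PQ_del z M w t s (D0 := fun _ => 0) (E0 := fun _ => 0) fun _ _ => ⟨rfl, rfl⟩]
    have hW := left_ne_zero_of_mul h1
    have hQ0 := right_ne_zero_of_mul h1
    have hr : (r : ℂ) ≠ 0 := Nat.cast_ne_zero.2 (NeZero.ne r)
    cases o with
    | del => exact absurd rfl ho
    | unc =>
      rw [PQ_unc z M w t s (D0 := fun _ => 0) (E0 := fun _ => 0) hv hoff (fun _ => rfl),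
        PQ_unc z M w t s (D0 := fun _ => 0) (E0 := fun _ => 0) hv (fun _ _ => ⟨rfl, rfl⟩)
          (fun _ => rfl)]
      simp only [hE, ws, Function.update_self, if_true, add_zero, one_mul, mul_add, add_mul,
        Finset.sum_add_distrib, Finset.sum_const, Finset.card_univ, Fintype.card_fin, nsmul_eq_mul]
      field_simp
      ring
    | col j =>
      rw [PQ_col z M w t s (D0 := fun _ => 0) (E0 := fun _ => 0) hv hoff (fun _ => rfl),
        PQ_col z M w t s (D0 := fun _ => 0) (E0 := fun _ => 0) hv (fun _ _ => ⟨rfl, rfl⟩)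
          (fun _ => rfl)]
      simp only [hE, ws, Function.update_self, if_true, add_zero, one_mul, reduceCtorEq, if_false]
      push_cast
      field_simp
      ring
  rw [key, mul_add, mul_left_comm, hωe, Complex.add_im, Complex.im_ofReal_mul] at h2
  simp only [Complex.neg_im, Complex.mul_im, Complex.I_re, Complex.I_im, Complex.ofReal_re,
    Complex.ofReal_im, zero_mul, one_mul, zero_add] at h2 ⊢
  linarith

end ColA

/-- `Aq = ws * (Z - α)` (an average over the colours if `o = unc`). Lower bound: replacing `Z` at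
`v` by `Z - conj ω * I * η'`, `η' < η`, keeps `PosIm` of the rotated matrix (`Pf_ratio`). Upper
bound: `‖α‖ ≤ 1 / η` as in `selfEnergy`, for the rotated matrix. -/
theorem Aq_bd [NeZero r] {K z η B : ℝ} (hη : 0 < η) {M : V → V → ℂ} {w : V → ℝ} {s : V → St r}
    {U : Finset V} (h : Env K M w U) {t ω : ℂ} (hω : ‖ω‖ = 1) {v : V} (hv : v ∈ U)
    (h0 : ∀ a ∈ U, s a ≠ St.del → Mg0 z w t ω a) (hvη : Mg z w t ω η v)
    (hN : ∀ a ∈ U, s a ≠ St.del → M v a ≠ 0 → Mg z w t ω η a)
    (hB : ‖z + t / w v‖ ≤ B ∧ ‖25 * z + 4 * t / w v‖ ≤ B) {o : St r} (ho : o ≠ St.del) :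
    η * w v / 4 ≤ (ω * Aq z M w s U v o t).im ∧ ‖Aq z M w s U v o t‖ ≤ w v * (B + 1 / η) := by
  have hwv := h.pos v hv
  constructor
  · have h1 : η * ws w (Function.update s v o) v ≤ (ω * Aq z M w s U v o t).im := by
      have hp := ColA.ws_pos (Function.update s v o) hwv
      rw [← le_div_iff₀ hp]
      refine le_of_forall_lt_imp_le_of_dense fun η' hη' => ?_
      rw [le_div_iff₀ hp]
      exact (ColA.Aq_low hη h hω hv h0 hvη ho hη').le
    refine le_trans ?_ h1
    unfold ws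
    split_ifs <;> nlinarith [mul_pos hη hwv]
  · have hβ := ColA.beta_bd hη h hω hv h0 hvη hN
    have h1 := PP_ne_of_mg h hω (ColA.mg0_upd hη h0 hvη St.del)
    have hw : ∀ u ∈ U, w u ≠ 0 := fun u hu => (h.pos u hu).ne'
    unfold Aq
    rw [← ColA.PQ_zero z M hw] at h1
    rw [← ColA.PQ_zero z M hw, ← ColA.PQ_zero z M hw]
    rw [ColA.PQ_del z M w t s (D0 := fun _ => 0) (E0 := fun _ => 0) fun _ _ => ⟨rfl, rfl⟩] at h1 ⊢
    have hW := left_ne_zero_of_mul h1
    have hQ0 := right_ne_zero_of_mul h1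
    set Q := ColA.Q0 z M w U t (fun _ => 0) (fun _ => 0) s v with hQ
    set P := ColA.P0 z M w U t (fun _ => 0) (fun _ => 0) s v with hP
    have hr : (0 : ℝ) < r := Nat.cast_pos.2 (NeZero.pos r)
    cases o with
    | del => exact absurd rfl ho
    | unc =>
      rw [ColA.PQ_unc z M w t s (D0 := fun _ => 0) (E0 := fun _ => 0) hv (fun _ _ => ⟨rfl, rfl⟩)
        (fun _ => rfl), ← hQ, ← hP, mul_assoc, mul_div_mul_left _ _ hW, mul_div_assoc,
        Finset.sum_div, norm_mul, Complex.norm_real, Real.norm_of_nonneg hwv.le]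
      refine mul_le_mul_of_nonneg_left ((norm_sum_le _ _).trans ?_) hwv.le
      calc _ ≤ ∑ _i : Fin r, (r : ℝ)⁻¹ * (B + 1 / η) := by
            refine Finset.sum_le_sum fun i _ => ?_
            rw [mul_div_assoc, norm_mul, norm_inv, Complex.norm_natCast]
            refine mul_le_mul_of_nonneg_left ?_ (by positivity)
            simp only [add_zero, one_mul]
            rw [add_div, mul_div_assoc, div_self hQ0, mul_one]
            exact (norm_add_le _ _).trans (add_le_add hB.1 (hβ i))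
        _ = B + 1 / η := by
            rw [Finset.sum_const, Finset.card_univ, Fintype.card_fin, nsmul_eq_mul]
            field_simp
    | col j =>
      rw [ColA.PQ_col z M w t s (D0 := fun _ => 0) (E0 := fun _ => 0) hv (fun _ _ => ⟨rfl, rfl⟩)
        (fun _ => rfl), ← hQ, ← hP, mul_assoc, mul_div_mul_left _ _ hW, mul_div_assoc, norm_mul]
      simp only [add_zero, one_mul]
      rw [add_div, mul_div_assoc _ Q, div_self hQ0, mul_one]
      refine mul_le_mul ?_ ((norm_add_le _ _).trans (add_le_add hB.2 (hβ j))) (norm_nonneg _)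
        hwv.le
      rw [norm_div, Complex.norm_real, Real.norm_of_nonneg hwv.le]
      simp only [Complex.norm_ofNat]
      linarith

namespace ColA

/-- row coefficient of the state `o` -/
noncomputable def d1 : St r → Fin r → ℂ
  | St.unc, _ => 1
  | St.col j, i => if i = j then (r : ℂ) / 4 else 0
  | St.del, _ => 0

/-- diagonal coefficient of the state `o` -/
noncomputable def d2 (z : ℝ) (w : V → ℝ) (t : ℂ) (v : V) : St r → Fin r → ℂ
  | St.unc, _ => 0
  | St.col j, i => if i = j then (r : ℂ) / 4 * ((25 * z + 4 * t / w v) - (z + t / w v)) else 0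
  | St.del, _ => 1 / w v

/-- row perturbation -/
noncomputable def DA (o : St r) (x c : V → ℂ) (A : Finset V) : V × Fin r → ℂ := fun a =>
  if a.1 ∈ A then x a.1 * (-1 + c a.1 * d1 o a.2) else 0

/-- diagonal perturbation -/
noncomputable def EA (z : ℝ) (w : V → ℝ) (t : ℂ) (o : St r) (x c : V → ℂ) (A : Finset V) :
    V × Fin r → ℂ := fun a => if a.1 ∈ A then x a.1 * (c a.1 * d2 z w t a.1 o a.2) else 0

lemma PQ_rec [NeZero r] (z : ℝ) (M : V → V → ℂ) {w : V → ℝ} {U : Finset V} (t : ℂ) (o : St r)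
    (x c : V → ℂ) {A : Finset V} (s : V → St r) {v : V} (hv : v ∈ U) (hA : v ∉ A)
    (hw : w v ≠ 0) :
    PQ z M w U t (DA o x c (insert v A)) (EA z w t o x c (insert v A))
        (Function.update s v St.unc) =
      (1 - x v) * PQ z M w U t (DA o x c A) (EA z w t o x c A) (Function.update s v St.unc) +
        x v * c v * PQ z M w U t (DA o x c A) (EA z w t o x c A) (Function.update s v o) := by
  have h0 : ∀ i, DA o x c A (v, i) = 0 := fun i => by simp [DA, hA]
  have h0' : ∀ i, EA z w t o x c A (v, i) = 0 := fun i => by simp [EA, hA]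
  have h1 : ∀ i, DA o x c (insert v A) (v, i) = x v * (-1 + c v * d1 o i) := fun i => by simp [DA]
  have h1' : ∀ i, EA z w t o x c (insert v A) (v, i) = x v * (c v * d2 z w t v o i) :=
    fun i => by simp [EA]
  have hr : (r : ℂ) ≠ 0 := Nat.cast_ne_zero.2 (NeZero.ne r)
  have hw' : (w v : ℂ) ≠ 0 := Complex.ofReal_ne_zero.2 hw
  rw [PQ_unc z M w t s (D0 := DA o x c A) (E0 := EA z w t o x c A) hv
      (fun b hb => by simp [DA, EA, hb]) h0,
    PQ_unc z M w t s (D0 := DA o x c A) (E0 := EA z w t o x c A) hv (fun _ _ => ⟨rfl, rfl⟩) h0]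
  set Q := Q0 z M w U t (DA o x c A) (EA z w t o x c A) s v with hQ
  set P := P0 z M w U t (DA o x c A) (EA z w t o x c A) s v with hP
  have key : PQ z M w U t (DA o x c A) (EA z w t o x c A) (Function.update s v o) =
      W0 w U s v * w v * ∑ i, (r : ℂ)⁻¹ *
        (d1 o i * ((z + t / w v) * Q + P i) + d2 z w t v o i * Q) := by
    cases o with
    | unc =>
      rw [PQ_unc z M w t s hv (fun _ _ => ⟨rfl, rfl⟩) h0]
      simp only [h0, h0', d1, d2, add_zero, one_mul, zero_mul, hQ, hP]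
    | col j =>
      rw [PQ_col z M w t s hv (fun _ _ => ⟨rfl, rfl⟩) h0, Finset.sum_eq_single j
        (fun i _ hi => by simp [d1, d2, hi]) (by simp)]
      simp only [h0, h0', d1, d2, add_zero, one_mul, if_true, ← hQ, ← hP]
      field_simp
      ring
    | del =>
      rw [PQ_del z M w t s (fun _ _ => ⟨rfl, rfl⟩)]
      simp only [d1, d2, zero_mul, zero_add, Finset.sum_const, Finset.card_univ, Fintype.card_fin,
        nsmul_eq_mul, ← hQ]
      field_simp
  rw [key]
  simp only [h0, h0', h1, h1', Finset.mul_sum, ← Finset.sum_add_distrib]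
  exact Finset.sum_congr rfl fun i _ => by ring

lemma PQ_deriv [NeZero r] (z : ℝ) (M : V → V → ℂ) {w : V → ℝ} {U : Finset V}
    (hw : ∀ u ∈ U, w u ≠ 0) (t : ℂ) (o : St r) (ε c : V → ℂ) (A : Finset V) (hA : A ⊆ U) :
    ∀ s : V → St r, (∀ v ∈ A, s v = St.unc) →
      Differentiable ℂ (fun ζ : ℂ => PQ z M w U t (DA o (fun v => ζ * ε v) c A)
        (EA z w t o (fun v => ζ * ε v) c A) s) ∧
      PQ z M w U t (DA o (fun v => 0 * ε v) c A) (EA z w t o (fun v => 0 * ε v) c A) s =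
        (PP z M w s U).eval t ∧
      HasDerivAt (fun ζ : ℂ => PQ z M w U t (DA o (fun v => ζ * ε v) c A)
        (EA z w t o (fun v => ζ * ε v) c A) s)
        (∑ v ∈ A, ε v * (c v * (PP z M w (Function.update s v o) U).eval t -
          (PP z M w s U).eval t)) 0 := by
  induction A using Finset.induction_on with
  | empty =>
    intro s _
    have e : ∀ x : V → ℂ, PQ z M w U t (DA o x c ∅) (EA z w t o x c ∅) s =
        (PP z M w s U).eval t := by
      intro x
      rw [← PQ_zero z M hw]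
      congr 1
    simp only [e, Finset.sum_empty]
    exact ⟨differentiable_const _, trivial, hasDerivAt_const _ _⟩
  | insert v A hvA ih =>
    intro s hs
    have hv : v ∈ U := hA (Finset.mem_insert_self _ _)
    have hA' : A ⊆ U := fun a ha => hA (Finset.mem_insert_of_mem ha)
    have hs1 : Function.update s v St.unc = s := by
      rw [← hs v (Finset.mem_insert_self _ _), Function.update_eq_self]
    obtain ⟨a1, a2, a3⟩ := ih hA' s fun a ha => hs a (Finset.mem_insert_of_mem ha)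
    obtain ⟨b1, b2, b3⟩ := ih hA' (Function.update s v o) fun a ha => by
      rw [Function.update_of_ne (by rintro rfl; exact hvA ha)]
      exact hs a (Finset.mem_insert_of_mem ha)
    have e := fun x : V → ℂ => PQ_rec z M t o x c s hv hvA (hw v hv)
    rw [hs1] at e
    simp only [e]
    refine ⟨by fun_prop, by rw [a2]; simp, ?_⟩
    have c1 : HasDerivAt (fun ζ : ℂ => 1 - ζ * ε v) (-ε v) 0 := by
      simpa using ((hasDerivAt_id (0 : ℂ)).mul_const (ε v)).const_sub 1
    have c2 : HasDerivAt (fun ζ : ℂ => ζ * ε v * c v) (ε v * c v) 0 := by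
      simpa using ((hasDerivAt_id (0 : ℂ)).mul_const (ε v)).mul_const (c v)
    refine ((c1.mul a3).add (c2.mul b3)).congr_deriv ?_
    rw [Finset.sum_insert hvA, a2, b2]
    ring

lemma exists_phase (y : ℂ) : ∃ e : ℂ, ‖e‖ ≤ 1 ∧ e * y = ‖y‖ := by
  by_cases h : y = 0
  · exact ⟨0, by simp, by simp [h]⟩
  · have h1 : 0 < ‖y‖ := norm_pos_iff.2 h
    have h2 : ((‖y‖ : ℝ) : ℂ) ≠ 0 := Complex.ofReal_ne_zero.2 h1.ne'
    refine ⟨(starRingEnd ℂ) y / ‖y‖, ?_, ?_⟩
    · rw [norm_div, Complex.norm_conj, Complex.norm_real, norm_norm, div_self h1.ne']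
    · rw [div_mul_eq_mul_div, Complex.conj_mul']
      field_simp

lemma c_bd [NeZero r] {K z η B : ℝ} (hη : 0 < η) {M : V → V → ℂ} {w : V → ℝ} {s : V → St r}
    {U : Finset V} (h : Env K M w U) {t ω : ℂ} (hω : ‖ω‖ = 1) {v : V} (hv : v ∈ U)
    (h0 : ∀ a ∈ U, s a ≠ St.del → Mg0 z w t ω a) (hvη : Mg z w t ω η v)
    (hN : ∀ a ∈ U, s a ≠ St.del → M v a ≠ 0 → Mg z w t ω η a)
    (hB : ‖z + t / w v‖ ≤ B ∧ ‖25 * z + 4 * t / w v‖ ≤ B) (o : St r) (i : Fin r) {c : ℂ}
    (hc : c = (PP z M w (Function.update s v St.unc) U).eval t /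
      (PP z M w (Function.update s v o) U).eval t) {Λ : ℝ}
    (hΛ : Λ = 1 + (|B| + 1 / η) + 4 * (|B| + 1 / η) / η * (1 + r) * (1 + |B|)) :
    ‖-1 + c * d1 o i‖ ≤ Λ ∧ ‖c * d2 z w t v o i‖ ≤ Λ := by
  have hwv := h.pos v hv
  have hB0 : 0 ≤ B := (norm_nonneg _).trans hB.1
  rw [abs_of_nonneg hB0] at hΛ
  have hd := PP_ne_of_mg h hω (mg0_upd hη h0 hvη St.del)
  have hu := (Aq_bd hη h hω hv h0 hvη hN hB (o := St.unc) (by simp)).2
  set c1 := 4 * (B + 1 / η) / η with hc1
  have hc10 : 0 ≤ c1 := by positivity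
  have hr0 : (0 : ℝ) ≤ r := Nat.cast_nonneg r
  have hcb : o ≠ St.del → ‖c‖ ≤ c1 := by
    intro ho
    have h1 := (Aq_bd hη h hω hv h0 hvη hN hB ho).1
    have h2 : η * w v / 4 ≤ ‖Aq z M w s U v o t‖ := by
      refine h1.trans ((le_abs_self _).trans ((Complex.abs_im_le_norm _).trans ?_))
      rw [norm_mul, hω, one_mul]
    have e : c = Aq z M w s U v St.unc t / Aq z M w s U v o t := by
      rw [hc, Aq, Aq, div_div_div_cancel_right₀ hd]
    rw [e, norm_div]
    calc _ ≤ w v * (B + 1 / η) / (η * w v / 4) := by gcongr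
      _ = c1 := by rw [hc1]; field_simp
  have p1 : 0 ≤ B + 1 / η := by positivity
  have p2 : 0 ≤ c1 * r := by positivity
  have p3 : 0 ≤ c1 * B := by positivity
  have p4 : 0 ≤ c1 * r * B := by positivity
  have n1 : ∀ y : ℂ, ‖-1 + y‖ ≤ 1 + ‖y‖ := fun y => (norm_add_le _ _).trans (by simp)
  cases o with
  | unc =>
    have := hcb (by simp)
    simp only [d1, d2, mul_one, mul_zero, norm_zero]
    exact ⟨(n1 c).trans (by nlinarith), by nlinarith⟩
  | col j =>
    have := hcb (by simp)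
    simp only [d1, d2]
    split_ifs
    · have n2 : ‖(r : ℂ) / 4‖ = r / 4 := by simp
      constructor
      · refine (n1 _).trans ?_
        rw [norm_mul, n2]
        have := mul_le_mul_of_nonneg_right this (by positivity : (0 : ℝ) ≤ r / 4)
        nlinarith
      · rw [norm_mul, norm_mul, n2]
        have h3 : ‖(25 * z + 4 * t / w v) - (z + t / w v)‖ ≤ B + B :=
          (norm_sub_le _ _).trans (add_le_add hB.2 hB.1)
        calc _ ≤ c1 * (r / 4 * (B + B)) := by gcongr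
          _ ≤ Λ := by nlinarith
    · simp only [mul_zero, add_zero, norm_neg, norm_one, norm_zero]
      constructor <;> nlinarith
  | del =>
    simp only [d1, d2, mul_zero, add_zero, norm_neg, norm_one]
    refine ⟨by nlinarith, ?_⟩
    have e : c = Aq z M w s U v St.unc t := hc
    rw [norm_mul, e, norm_div, norm_one, Complex.norm_real, Real.norm_of_nonneg hwv.le,
      mul_one_div, div_le_iff₀ hwv]
    refine hu.trans ?_
    rw [mul_comm]
    exact mul_le_mul_of_nonneg_right (by nlinarith) hwv.le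

end ColA

/-- Let `s' = update s u del`, `R s v = Aq s v o / Aq s v unc = PP (update s v o) / PP s` for
`s v = unc`, `c v = 1 / R s' v` (bounded by `Aq_bd`; if `o = del` then `c v / w v` is bounded).
If `s u = del` all terms vanish. Otherwise replace, for each `v ∈ V'`, the state `unc` by the
combination `(1 - ζ ε_v) [unc] + ζ ε_v c_v [o]` (`‖ε_v‖ = 1`): in terms of `Pf` this changes the
weights `π (v, i)` into complex numbers close to `1 / r` and the diagonal entries `Z (v, i)` by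
`O(ζ)` (`Pf_insert`, `Pf_aff`). Move the phases of the weights into the rows (`Pf_row`); for
`‖ζ‖ < c₀(r, η, B)` the rotated matrix is still `PosIm`. Let `g ζ` be `ω` times the quotient of
the perturbed `Pf` for `s` and for `s'`: `0 < (g ζ).im` (`Pf_ratio`). Both `Pf` are multi-affine in
the parameters `ζ ε_v`, so `g' 0 = g 0 * ∑ ε_v (R s v / R s' v - 1)`. Choose the phases and use
`schwarz_deriv`. (To differentiate: induction on `V'`, or expand the perturbed `Pf` as
`∑_{J ⊆ V'} ∏_{J} (ζ ε c) ∏_{V' \ J} (1 - ζ ε) * PP (s with J in state o)`.) -/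
theorem col (V : Type*) [DecidableEq V] (r : ℕ) [NeZero r] {η B : ℝ} (hη : 0 < η) :
    ∃ C : ℝ, 0 ≤ C ∧ ∀ (K z : ℝ) (M : V → V → ℂ) (w : V → ℝ) (s : V → St r) (U V' : Finset V)
      (u : V) (o : St r) (t ω : ℂ), Env K M w U → ‖ω‖ = 1 → u ∈ U → V' ⊆ U → u ∉ V' →
      (∀ v ∈ V', s v = St.unc) → (∀ a ∈ U, s a ≠ St.del → Mg0 z w t ω a) →
      (∀ v ∈ V', Mg z w t ω η v) →
      (∀ v ∈ V', ∀ a ∈ U, s a ≠ St.del → M v a ≠ 0 → Mg z w t ω η a) →
      (∀ v ∈ V', ‖z + t / w v‖ ≤ B ∧ ‖25 * z + 4 * t / w v‖ ≤ B) →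
      ∑ v ∈ V', ‖(Aq z M w s U v o t / Aq z M w s U v St.unc t) /
        (Aq z M w (Function.update s u St.del) U v o t /
          Aq z M w (Function.update s u St.del) U v St.unc t) - 1‖ ≤ C := by
  obtain ⟨Λ, hΛ⟩ : ∃ Λ : ℝ, Λ = 1 + (|B| + 1 / η) + 4 * (|B| + 1 / η) / η * (1 + r) * (1 + |B|) :=
    ⟨_, rfl⟩
  have hΛ0 : 0 < Λ := by rw [hΛ]; positivity
  set c0 : ℝ := η / (Λ * (|B| + 2)) with hc0
  have hc00 : 0 < c0 := by positivity
  refine ⟨2 / c0, by positivity, ?_⟩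
  intro K z M w s U V' u o t ω h hω hu hV huV hs h0 hη1 hN hB
  have hω0 : ω ≠ 0 := by rintro rfl; simp at hω
  have hw : ∀ u ∈ U, w u ≠ 0 := fun u hu => (h.pos u hu).ne'
  set s' := Function.update s u St.del with hs'
  have h0' : ∀ a ∈ U, s' a ≠ St.del → Mg0 z w t ω a := fun a ha e => h0 a ha (ColA.ne_del e)
  have hs'1 : ∀ v ∈ V', s' v = St.unc := fun v hv => by
    rw [hs', Function.update_of_ne (by rintro rfl; exact huV hv)]; exact hs v hv
  have hup : ∀ v ∈ V', Function.update s v St.unc = s := fun v hv => by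
    rw [← hs v hv, Function.update_eq_self]
  have hup' : ∀ v ∈ V', Function.update s' v St.unc = s' := fun v hv => by
    rw [← hs'1 v hv, Function.update_eq_self]
  have n1 := PP_ne_of_mg h hω h0
  have n2 := PP_ne_of_mg h hω h0'
  have n3 : ∀ v ∈ V', ∀ o' : St r, (PP z M w (Function.update s v o') U).eval t ≠ 0 :=
    fun v hv o' => PP_ne_of_mg h hω (ColA.mg0_upd hη h0 (hη1 v hv) o')
  have n4 : ∀ v ∈ V', ∀ o' : St r, (PP z M w (Function.update s' v o') U).eval t ≠ 0 :=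
    fun v hv o' => PP_ne_of_mg h hω (ColA.mg0_upd hη h0' (hη1 v hv) o')
  set c : V → ℂ := fun v => (PP z M w s' U).eval t / (PP z M w (Function.update s' v o) U).eval t
    with hc
  set y : V → ℂ := fun v =>
    c v * (PP z M w (Function.update s v o) U).eval t / (PP z M w s U).eval t - 1 with hy
  have hterm : ∀ v ∈ V', (Aq z M w s U v o t / Aq z M w s U v St.unc t) /
      (Aq z M w s' U v o t / Aq z M w s' U v St.unc t) - 1 = y v := by
    intro v hv
    unfold Aq
    rw [div_div_div_cancel_right₀ (n3 v hv _), div_div_div_cancel_right₀ (n4 v hv _), hup v hv,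
      hup' v hv]
    have := n4 v hv o
    simp only [hy, hc]
    field_simp
  rw [Finset.sum_congr rfl fun v hv => by rw [hterm v hv]]
  by_cases hsu : s u = St.del
  · have e : s' = s := by rw [hs', ← hsu, Function.update_eq_self]
    rw [Finset.sum_eq_zero fun v hv => ?_]
    · positivity
    · have := n3 v hv o
      simp only [hy, hc, e]
      rw [norm_eq_zero]
      field_simp
      ring
  choose ε hε1 hε2 using fun v => ColA.exists_phase (y v)
  obtain ⟨a1, a2, a3⟩ := ColA.PQ_deriv z M hw t o ε c V' hV s hs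
  obtain ⟨b1, b2, b3⟩ := ColA.PQ_deriv z M hw t o ε c V' hV s' hs'1
  rw [Finset.sum_eq_zero fun v hv => by
    have := n4 v hv o
    simp only [hc]
    rw [div_mul_cancel₀ _ this, sub_self, mul_zero]] at b3
  set Nn : ℂ → ℂ := fun ζ => ColA.PQ z M w U t (ColA.DA o (fun v => ζ * ε v) c V')
    (ColA.EA z w t o (fun v => ζ * ε v) c V') s with hNn
  set Dd : ℂ → ℂ := fun ζ => ColA.PQ z M w U t (ColA.DA o (fun v => ζ * ε v) c V')
    (ColA.EA z w t o (fun v => ζ * ε v) c V') s' with hDd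
  have a2' : Nn 0 = (PP z M w s U).eval t := a2
  have b2' : Dd 0 = (PP z M w s' U).eval t := b2
  have hball : ∀ ζ ∈ Metric.ball (0 : ℂ) c0, Dd ζ ≠ 0 ∧ 0 < (ω * (Nn ζ / Dd ζ)).im := by
    intro ζ hζ
    rw [mem_ball_zero_iff, hc0, lt_div_iff₀ (by positivity)] at hζ
    have hbd : ∀ a : V × Fin r, a.1 ∈ V' → ‖ColA.DA o (fun v => ζ * ε v) c V' a‖ ≤ ‖ζ‖ * Λ ∧
        ‖ColA.EA z w t o (fun v => ζ * ε v) c V' a‖ ≤ ‖ζ‖ * Λ := by
      intro a ha
      obtain ⟨k1, k2⟩ := ColA.c_bd hη h hω (hV ha) h0' (hη1 _ ha)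
        (fun b hb e => hN _ ha b hb (ColA.ne_del e)) (hB _ ha) o a.2 (c := c a.1)
        (by rw [hup' _ ha]) hΛ
      have k3 : ‖ζ * ε a.1‖ ≤ ‖ζ‖ := by
        rw [norm_mul]; exact mul_le_of_le_one_right (norm_nonneg _) (hε1 _)
      simp only [ColA.DA, ColA.EA, if_pos ha]
      rw [norm_mul (ζ * ε a.1), norm_mul (ζ * ε a.1)]
      exact ⟨mul_le_mul k3 k1 (norm_nonneg _) (norm_nonneg _),
        mul_le_mul k3 k2 (norm_nonneg _) (norm_nonneg _)⟩
    have hδ : 0 ≤ ‖ζ‖ * Λ := by positivity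
    have hδB : 0 ≤ ‖ζ‖ * Λ * |B| := by positivity
    have hP := ColA.posQ (η := η) (D := ColA.DA o (fun v => ζ * ε v) c V')
      (E := ColA.EA z w t o (fun v => ζ * ε v) c V') hδ (by nlinarith) h hω h0 V'
      (fun a ha => by simp [ColA.DA, ColA.EA, ha])
      (fun a => by
        by_cases ha : a.1 ∈ V'
        · exact (hbd a ha).1
        · simpa [ColA.DA, ha] using hδ)
      (fun a ha => by
        obtain ⟨k1, k2⟩ := hbd a ha
        have k3 := ColA.mg_Zt s (hη1 _ ha)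
        have k4 : ‖Zt z w s t a‖ ≤ |B| := by
          rcases ColA.Zt_cases z w s t a with e | e <;> rw [e]
          exacts [(hB _ ha).1.trans (le_abs_self B), (hB _ ha).2.trans (le_abs_self B)]
        set D := ColA.DA o (fun v => ζ * ε v) c V' a
        set E := ColA.EA z w t o (fun v => ζ * ε v) c V' a
        have k5 : ‖ω * (D * Zt z w s t a + E)‖ ≤ ‖ζ‖ * Λ * |B| + ‖ζ‖ * Λ := by
          rw [norm_mul, hω, one_mul]
          refine (norm_add_le _ _).trans (add_le_add ?_ k2)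
          rw [norm_mul]
          exact mul_le_mul k1 k4 (norm_nonneg _) hδ
        have k6 := (abs_le.1 ((Complex.abs_im_le_norm _).trans k5)).1
        have e : ω * ((1 + D) * Zt z w s t a + E) =
            ω * Zt z w s t a + ω * (D * Zt z w s t a + E) := by ring
        rw [e, Complex.add_im]
        nlinarith)
      (fun a ha => hN a.1 (by_contra fun e => ha (by simp [ColA.DA, e])))
    have e : Function.update s u (s u) = s := Function.update_eq_self _ _
    have := ColA.PQ_ratio (s := s) hω0 hsu h.pos hu (by rw [e]; exact hP)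
    rw [e] at this
    exact this
  have hg : DifferentiableOn ℂ (fun ζ => ω * (Nn ζ / Dd ζ)) (Metric.ball 0 c0) :=
    (a1.differentiableOn.div b1.differentiableOn fun ζ hζ => (hball ζ hζ).1).const_mul ω
  have hsch := schwarz_deriv hc00 hg fun ζ hζ => (hball ζ hζ).2
  have hD0 : Dd 0 ≠ 0 := by rw [b2']; exact n2
  have hder := ((a3.div b3 hD0).const_mul ω).deriv
  have hg0 : 0 < ‖ω * (Nn 0 / Dd 0)‖ :=
    norm_pos_iff.2 (mul_ne_zero hω0 (div_ne_zero (by rw [a2']; exact n1) hD0))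
  have e1 : ∑ v ∈ V', ε v * (c v * (PP z M w (Function.update s v o) U).eval t -
      (PP z M w s U).eval t) = Nn 0 * ((∑ v ∈ V', ‖y v‖ : ℝ) : ℂ) := by
    rw [a2', Complex.ofReal_sum, Finset.mul_sum]
    refine Finset.sum_congr rfl fun v _ => ?_
    rw [← hε2 v]
    simp only [hy]
    field_simp
  have e2 : deriv (fun ζ => ω * (Nn ζ / Dd ζ)) 0 =
      ω * (Nn 0 / Dd 0) * ((∑ v ∈ V', ‖y v‖ : ℝ) : ℂ) := by
    refine hder.trans ?_
    rw [e1]
    field_simp
    ring
  rw [e2, norm_mul, Complex.norm_real,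
    Real.norm_of_nonneg (Finset.sum_nonneg fun _ _ => norm_nonneg _)] at hsch
  refine le_of_mul_le_mul_left (hsch.trans_eq ?_) hg0
  ring

end Crest.Agent.R109
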