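import Crest.Agent.R109.VB

/-! Task 109-GNS: the GNS representation; strong resolvent convergence. -/

set_option autoImplicit false

open scoped InnerProductSpace ComplexOrder
open Filter Topology

namespace Crest.Agent.R109

universe u

variable {H : Type u} [NormedAddCommGroup H] [InnerProductSpace ℂ H] [CompleteSpace H]
variable {M A : VonNeumannAlgebra H}

namespace GnsA

theorem gns0 {B : Type u} [CStarAlgebra B] (ψ : B →ₗ[ℂ] ℂ) (h : ∀ b, 0 ≤ ψ (star b * b)) :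
    ∃ (K : Type u) (_ : NormedAddCommGroup K) (_ : InnerProductSpace ℂ K) (_ : CompleteSpace K)
      (π : B →⋆ₐ[ℂ] Op K) (ξ : K), ∀ b, ⟪ξ, π b ξ⟫_ℂ = ψ b := by
  let _ := CStarAlgebra.spectralOrder B
  have _ := CStarAlgebra.spectralOrderedRing B
  let f : B →ₚ[ℂ] ℂ := PositiveLinearMap.mk₀ ψ (fun x hx => by
    obtain ⟨b, rfl⟩ := CStarAlgebra.nonneg_iff_eq_star_mul_self.1 hx
    exact h b)
  refine ⟨f.GNS, inferInstance, inferInstance, inferInstance, f.gnsStarAlgHom,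
    ((f.toPreGNS 1 : f.PreGNS) : f.GNS), fun b => ?_⟩
  have : f.gnsStarAlgHom b ((f.toPreGNS 1 : f.PreGNS) : f.GNS) =
      ((f.toPreGNS (b * 1) : f.PreGNS) : f.GNS) := by
    simp only [PositiveLinearMap.gnsStarAlgHom_apply]
    exact f.gnsNonUnitalStarAlgHom_apply_coe
  rw [this, UniformSpace.Completion.inner_coe, PositiveLinearMap.preGNS_inner_def]
  simp only [PositiveLinearMap.ofPreGNS_toPreGNS, star_one, one_mul, mul_one]
  rfl

variable {K : Type*} [NormedAddCommGroup K] [InnerProductSpace ℂ K] [CompleteSpace K]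

omit [InnerProductSpace ℂ K] [CompleteSpace K] in
theorem tendsto_of_approx {a : ℕ → K} {b : K}
    (h : ∀ ε : ℝ, 0 < ε → ∃ (a' : ℕ → K) (b' : K), Tendsto a' atTop (𝓝 b') ∧
      (∀ n, ‖a n - a' n‖ ≤ ε) ∧ ‖b - b'‖ ≤ ε) : Tendsto a atTop (𝓝 b) := by
  rw [Metric.tendsto_atTop]
  intro ε hε
  obtain ⟨a', b', h1, h2, h3⟩ := h (ε / 4) (by positivity)
  obtain ⟨N, hN⟩ := Metric.tendsto_atTop.1 h1 (ε / 4) (by positivity)
  refine ⟨N, fun n hn => ?_⟩
  have h4 := hN n hn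
  have h5 := dist_triangle4 (a n) (a' n) b' b
  rw [dist_eq_norm (a n) (a' n), dist_comm b' b, dist_eq_norm b b'] at h5
  linarith [h2 n]

omit [CompleteSpace K] in
theorem tendsto_of_dense {S : ℕ → Op K} {T : Op K} {C : ℝ} (hS : ∀ n, ‖S n‖ ≤ C) (hT : ‖T‖ ≤ C)
    {D : Set K} (hD : Dense D) (h : ∀ η ∈ D, Tendsto (fun n => S n η) atTop (𝓝 (T η))) (η : K) :
    Tendsto (fun n => S n η) atTop (𝓝 (T η)) := by
  have hC : 0 ≤ C := (norm_nonneg _).trans hT
  refine tendsto_of_approx fun ε hε => ?_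
  obtain ⟨ζ, hζ, hζD⟩ := hD.exists_dist_lt η (ε := ε / (C + 1)) (by positivity)
  rw [dist_eq_norm, lt_div_iff₀ (by positivity)] at hζD
  have key : ∀ R : Op K, ‖R‖ ≤ C → ‖R η - R ζ‖ ≤ ε := fun R hR => by
    rw [← map_sub]
    refine (R.le_opNorm _).trans ?_
    nlinarith [norm_nonneg (η - ζ)]
  exact ⟨fun n => S n ζ, T ζ, h ζ hζ, fun n => key _ (hS n), key _ hT⟩

noncomputable def uu (t : ℝ) : ℝ := (1 + t ^ 2)⁻¹
noncomputable def vv (t : ℝ) : ℝ := t * (1 + t ^ 2)⁻¹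

@[fun_prop] theorem cont_uu : Continuous uu :=
  Continuous.inv₀ (by fun_prop) (fun t => by positivity)
@[fun_prop] theorem cont_vv : Continuous vv := continuous_id.mul cont_uu

theorem abs_uu (t : ℝ) : |uu t| ≤ 1 := by
  rw [uu, abs_of_pos (by positivity)]
  exact inv_le_one_of_one_le₀ (by nlinarith)

theorem abs_vv (t : ℝ) : |vv t| ≤ 1 := by
  rw [vv, abs_mul, abs_of_pos (a := (1 + t ^ 2)⁻¹) (by positivity), ← div_eq_mul_inv,
    div_le_one (by positivity)]
  nlinarith [sq_abs t, abs_nonneg t, sq_nonneg (|t| - 1)]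

/-- the resolvent -/
noncomputable def Rs (c : ℂ) (S : Op K) : Op K := cfc vv S + c • cfc uu S

theorem Rs_norm {c : ℂ} (hc : ‖c‖ = 1) (S : Op K) : ‖Rs c S‖ ≤ 2 := by
  refine (norm_add_le _ _).trans ?_
  rw [norm_smul, hc, one_mul]
  have h1 : ‖(cfc vv S : Op K)‖ ≤ 1 := norm_cfc_le zero_le_one fun t _ => abs_vv t
  have h2 : ‖(cfc uu S : Op K)‖ ≤ 1 := norm_cfc_le zero_le_one fun t _ => abs_uu t
  linarith

theorem Rs_mul {c : ℂ} (hc : c * c = -1) {S : Op K} (hS : IsSelfAdjoint S) :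
    Rs c S * (S - c • 1) = 1 ∧ (S - c • 1) * Rs c S = 1 := by
  have e1 : cfc uu S * S = cfc vv S := by
    conv_lhs => rw [← cfc_id' ℝ S, cfc_id' ℝ S]
    nth_rewrite 2 [← cfc_id' ℝ S]
    rw [← cfc_mul _ _ S]
    exact cfc_congr fun t _ => mul_comm _ _
  have e2 : cfc vv S * S + cfc uu S = 1 := by
    nth_rewrite 2 [← cfc_id' ℝ S]
    rw [← cfc_mul _ _ S, ← cfc_add S _ _, ← cfc_const_one ℝ S]
    refine cfc_congr fun t _ => ?_
    simp only [uu, vv]
    field_simp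
    ring
  have c1 : S * cfc uu S = cfc uu S * S := R124.cfc_comm rfl _
  have c2 : S * cfc vv S = cfc vv S * S := R124.cfc_comm rfl _
  constructor
  · simp only [Rs, add_mul, mul_sub, smul_mul_assoc, mul_smul_comm, mul_one, smul_add, smul_smul,
      hc, e1, neg_smul, one_smul]
    rw [← e2]; abel
  · simp only [Rs, mul_add, sub_mul, smul_mul_assoc, mul_smul_comm, one_mul, smul_sub, smul_smul,
      hc, c1, c2, e1, neg_smul, one_smul]
    rw [← e2]; abel

theorem Rs_tendsto {c : ℂ} (hc : c * c = -1) (hc' : ‖c‖ = 1) {T : Op K} (hT : IsSelfAdjoint T)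
    {S : ℕ → Op K} (hS : ∀ n, IsSelfAdjoint (S n)) {D : Set K}
    (hD : Dense D) (h : ∀ η ∈ D, Tendsto (fun n => S n η) atTop (𝓝 (T η))) (η : K) :
    Tendsto (fun n => Rs c (S n) η) atTop (𝓝 (Rs c T η)) := by
  have hs : Function.Surjective (T - c • 1 : Op K) := fun ζ =>
    ⟨Rs c T ζ, by rw [← mul_apply_eq_comp, (Rs_mul hc hT).2]; rfl⟩
  refine tendsto_of_dense (fun n => Rs_norm hc' _) (Rs_norm hc' _)
    (hs.denseRange.dense_image (T - c • 1 : Op K).continuous hD) ?_ η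
  rintro _ ⟨ζ, hζ, rfl⟩
  rw [← mul_apply_eq_comp, (Rs_mul hc hT).1, tendsto_iff_norm_sub_tendsto_zero]
  have h1 := (tendsto_iff_norm_sub_tendsto_zero.1 (h ζ hζ)).const_mul 2
  rw [mul_zero] at h1
  refine squeeze_zero (fun _ => norm_nonneg _) (fun n => ?_) h1
  have e : Rs c (S n) ((T - c • 1 : Op K) ζ) - (1 : Op K) ζ = -Rs c (S n) (S n ζ - T ζ) := by
    have e1 : (1 : Op K) ζ = Rs c (S n) ((S n - c • 1 : Op K) ζ) := by
      rw [← mul_apply_eq_comp, (Rs_mul hc (hS n)).1]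
    rw [e1, ← map_sub, ← map_neg]
    congr 1
    simp
  rw [e, norm_neg]
  exact ((Rs c (S n)).le_opNorm _).trans (by gcongr; exact Rs_norm hc' _)

theorem spec_le {a : Op K} {R : ℝ} (h : ‖a‖ ≤ R) {t : ℝ} (ht : t ∈ spectrum ℝ a) : |t| ≤ R := by
  have h1 := spectrum.norm_le_norm_mul_of_mem ht
  have h2 : ‖(1 : Op K)‖ ≤ 1 := ContinuousLinearMap.norm_id_le
  rw [Real.norm_eq_abs] at h1
  nlinarith [norm_nonneg a, norm_nonneg (1 : Op K)]

theorem poly_near {f : ℝ → ℝ} (hf : Continuous f) {p : Polynomial ℝ} {R ε : ℝ} (hε : 0 ≤ ε)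
    (hp : ∀ x ∈ Set.Icc (-R) R, |p.eval x - f x| < ε) {a : Op K} (ha : IsSelfAdjoint a)
    (hR : ‖a‖ ≤ R) : ‖Polynomial.aeval a p - cfc f a‖ ≤ ε := by
  rw [← cfc_polynomial p a, ← cfc_sub _ _ a]
  exact norm_cfc_le hε fun t ht => (hp t (abs_le.1 (spec_le hR ht))).le

end GnsA

open GnsA

/-- Mathlib's `PositiveLinearMap.GNS` for the C*-algebra `M`, or by hand: complete a type synonym
of `M` with the inner product `ψ (x* y)` and extend the left multiplications. -/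
theorem Nce.gns (𝓔 : Nce M A) : ∃ (K : Type u) (_ : NormedAddCommGroup K)
    (_ : InnerProductSpace ℂ K) (_ : CompleteSpace K) (π : Op H → Op K) (ξ : K),
    IsRep M 𝓔.ψ π ξ := by
  classical
  have hcl : IsClosed (M.toStarSubalgebra : Set (Op H)) := R124.isClosed_vn M
  obtain ⟨K, i1, i2, i3, π, ξ, h⟩ := gns0 (B := M.toStarSubalgebra)
    (𝓔.ψ ∘ₗ M.toStarSubalgebra.toSubalgebra.val.toLinearMap)
    (fun b => 𝓔.pos _ (mul_mem (star_mem b.2) b.2) (star_mul_self_nonneg (b : Op H)))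
  let π' : Op H → Op K := fun x => if hx : x ∈ M then π ⟨x, hx⟩ else 0
  have e : ∀ x (hx : x ∈ M), π' x = π ⟨x, hx⟩ := fun x hx => dif_pos hx
  have hadd : ∀ x ∈ M, ∀ y ∈ M, π' (x + y) = π' x + π' y := fun x hx y hy => by
    rw [e x hx, e y hy, e _ (add_mem hx hy), ← map_add]; rfl
  have hmul : ∀ x ∈ M, ∀ y ∈ M, π' (x * y) = π' x * π' y := fun x hx y hy => by
    rw [e x hx, e y hy, e _ (mul_mem hx hy), ← map_mul]; rfl
  have hstar : ∀ x ∈ M, π' (star x) = star (π' x) := fun x hx => by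
    rw [e x hx, e _ (star_mem hx), ← map_star]; rfl
  refine ⟨K, i1, i2, i3, π', ξ, hadd, fun c x hx => ?_, hmul, hstar, ?_, fun x hx => ?_,
    fun x hx y hy hxy => ?_, fun x hx => ?_⟩
  · rw [e x hx, e _ (R124.csmul_mem c hx), ← map_smul]; rfl
  · rw [e _ (one_mem M), ← map_one π]; rfl
  · rw [e x hx]
    exact NonUnitalStarAlgHom.norm_apply_le π (⟨x, hx⟩ : M.toStarSubalgebra)
  · have h0 : 0 ≤ y - x := sub_nonneg.2 hxy
    have hs : IsSelfAdjoint (cfc Real.sqrt (y - x) : Op H) := cfc_predicate _ _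
    have hm : cfc Real.sqrt (y - x) ∈ M := R124.cfc_mem _ (sub_mem hy hx)
    have h1 : y = x + star (cfc Real.sqrt (y - x)) * cfc Real.sqrt (y - x) := by
      rw [hs.star_eq, ← cfc_mul _ _ (y - x),
        cfc_congr (g := fun t : ℝ => t) (fun t ht => Real.mul_self_sqrt
          (spectrum_nonneg_of_nonneg h0 ht)), cfc_id' ℝ (y - x)]
      abel
    rw [h1, hadd _ hx _ (mul_mem (star_mem hm) hm), hmul _ (star_mem hm) _ hm, hstar _ hm]
    exact le_add_of_nonneg_right (star_mul_self_nonneg _)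
  · rw [e x hx, h]; rfl

theorem IsRep.norm_sq {ψ : Op H →ₗ[ℂ] ℂ} {K : Type*} [NormedAddCommGroup K]
    [InnerProductSpace ℂ K] [CompleteSpace K] {π : Op H → Op K} {ξ : K} (h : IsRep M ψ π ξ)
    {x y : Op H} (hx : x ∈ M) (hy : y ∈ M) : ⟪π x ξ, π y ξ⟫_ℂ = ψ (star x * y) := by
  rw [← h.inner _ (mul_mem (star_mem hx) hy), h.mul _ (star_mem hx) _ hy, h.map_star _ hx,
    mul_apply_eq_comp, ContinuousLinearMap.star_eq_adjoint,
    ContinuousLinearMap.adjoint_inner_right]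

theorem IsRep.sum {ψ : Op H →ₗ[ℂ] ℂ} {K : Type*} [NormedAddCommGroup K]
    [InnerProductSpace ℂ K] [CompleteSpace K] {π : Op H → Op K} {ξ : K} (h : IsRep M ψ π ξ)
    {ι : Type*} (s : Finset ι) {x : ι → Op H} (hx : ∀ i ∈ s, x i ∈ M) :
    π (∑ i ∈ s, x i) = ∑ i ∈ s, π (x i) := by
  classical
  induction s using Finset.induction_on with
  | empty => simpa using h.smul 0 0 (zero_mem M)
  | insert a s ha ih =>
    rw [Finset.sum_insert ha, Finset.sum_insert ha, h.add _ (hx a (Finset.mem_insert_self _ _)) _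
      (sum_mem fun i hi => hx i (Finset.mem_insert_of_mem hi)),
      ih fun i hi => hx i (Finset.mem_insert_of_mem hi)]

theorem IsRep.sub {ψ : Op H →ₗ[ℂ] ℂ} {K : Type*} [NormedAddCommGroup K]
    [InnerProductSpace ℂ K] [CompleteSpace K] {π : Op H → Op K} {ξ : K} (h : IsRep M ψ π ξ)
    {x y : Op H} (hx : x ∈ M) (hy : y ∈ M) : π (x - y) = π x - π y := by
  rw [eq_sub_iff_add_eq, ← h.add _ (sub_mem hx hy) _ hy, sub_add_cancel]

theorem IsRep.n2 (𝓔 : Nce M A) {K : Type*} [NormedAddCommGroup K]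
    [InnerProductSpace ℂ K] [CompleteSpace K] {π : Op H → Op K} {ξ : K} (h : IsRep M 𝓔.ψ π ξ)
    {x : Op H} (hx : x ∈ M) : 𝓔.n2 x = ‖π x ξ‖ := by
  rw [Nce.n2, ← h.norm_sq hx hx, inner_self_eq_norm_sq_to_K]
  norm_cast
  exact Real.sqrt_sq (norm_nonneg _)

/-- Pure Hilbert space statement. `T` is self-adjoint, `S n` self-adjoint with `S n η → T η` for
`η` in a dense set. Then `(S n ± i)⁻¹ → (T ± i)⁻¹` strongly (resolvent identity on the dense set
`(T ± i) D`), hence `f (S n) → f T` strongly for every `f` in the closed algebra generated by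
`(t ± i)⁻¹` (Stone-Weierstrass, e.g. through the Cayley transform), in particular for continuous
`f` with compact support. -/
theorem cfc_tendsto {K : Type*} [NormedAddCommGroup K] [InnerProductSpace ℂ K] [CompleteSpace K]
    {T : Op K} (hT : IsSelfAdjoint T) {S : ℕ → Op K} (hS : ∀ n, IsSelfAdjoint (S n)) {D : Set K}
    (hD : Dense D) (h : ∀ η ∈ D, Tendsto (fun n => S n η) atTop (𝓝 (T η))) {f : ℝ → ℝ}
    (hf : Continuous f) (hc : HasCompactSupport f) (η : K) :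
    Tendsto (fun n => (cfc f (S n) : Op K) η) atTop (𝓝 ((cfc f T : Op K) η)) := by
  let Φ : C(OnePoint ℝ, ℝ) → Op K → Op K := fun g a => cfc (fun t : ℝ => g t) a
  have hΦ : ∀ g a, ‖Φ g a‖ ≤ ‖g‖ := fun g a =>
    norm_cfc_le (norm_nonneg _) fun t _ => g.norm_coe_le_norm _
  have hcont : ∀ g : C(OnePoint ℝ, ℝ), Continuous fun t : ℝ => g t := fun g =>
    g.continuous.comp OnePoint.continuous_coe
  let 𝒜 : Subalgebra ℝ C(OnePoint ℝ, ℝ) :=
    { carrier := {g | ∀ η, Tendsto (fun n => Φ g (S n) η) atTop (𝓝 (Φ g T η))}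
      mul_mem' := by
        intro g g' hg hg' η
        have e : ∀ a, Φ (g * g') a = Φ g a * Φ g' a := fun a =>
          cfc_mul _ _ a (hcont g).continuousOn (hcont g').continuousOn
        simp only [e, mul_apply_eq_comp]
        have h1 := (tendsto_iff_norm_sub_tendsto_zero.1 (hg' η)).const_mul ‖g‖
        rw [mul_zero] at h1
        have h2 : Tendsto (fun n => Φ g (S n) (Φ g' (S n) η - Φ g' T η)) atTop (𝓝 0) :=
          squeeze_zero_norm (fun n => ((Φ g (S n)).le_opNorm _).trans (by gcongr; exact hΦ _ _)) h1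
        simpa using h2.add (hg (Φ g' T η))
      add_mem' := by
        intro g g' hg hg' η
        have e : ∀ a, Φ (g + g') a = Φ g a + Φ g' a := fun a =>
          cfc_add a _ _ (hcont g).continuousOn (hcont g').continuousOn
        simp only [e]
        exact (hg η).add (hg' η)
      algebraMap_mem' := by
        intro r η
        have e : ∀ a, IsSelfAdjoint a → Φ (algebraMap ℝ _ r) a = algebraMap ℝ _ r := fun a ha => by
          rw [← cfc_const r a]; exact cfc_congr fun t _ => by simp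
        simp only [e _ (hS _), e _ hT]
        exact tendsto_const_nhds }
  have hz : ∀ g : ℝ → ℝ, (∀ t, t ≠ 0 → |g t| ≤ |t|⁻¹) →
      Tendsto g (coclosedCompact ℝ) (𝓝 0) := fun g hg => by
    rw [coclosedCompact_eq_cocompact]
    refine squeeze_zero_norm' ?_ (tendsto_norm_cocompact_atTop (E := ℝ)).inv_tendsto_atTop
    filter_upwards [(tendsto_norm_cocompact_atTop (E := ℝ)).eventually_gt_atTop 0] with t ht
    exact hg t (norm_pos_iff.1 ht)
  let U : C(OnePoint ℝ, ℝ) := OnePoint.continuousMapMk ⟨uu, cont_uu⟩ 0 (hz _ fun t ht => by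
    change |uu t| ≤ _
    rw [uu, abs_of_pos (by positivity)]
    exact inv_anti₀ (abs_pos.2 ht) (by nlinarith [sq_abs t, abs_nonneg t, sq_nonneg (|t| - 1)]))
  let V : C(OnePoint ℝ, ℝ) := OnePoint.continuousMapMk ⟨vv, cont_vv⟩ 0 (hz _ fun t ht => by
    change |vv t| ≤ _
    rw [vv, abs_mul, abs_of_pos (a := (1 + t ^ 2)⁻¹) (by positivity), ← div_eq_mul_inv,
      inv_eq_one_div, div_le_div_iff₀ (by positivity) (abs_pos.2 ht)]
    nlinarith [sq_abs t])
  let F : C(OnePoint ℝ, ℝ) := OnePoint.continuousMapMk ⟨f, hf⟩ 0 (by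
    rw [coclosedCompact_eq_cocompact]; exact hc.is_zero_at_infty)
  have r1 := Rs_tendsto (c := Complex.I) Complex.I_mul_I Complex.norm_I hT hS hD h
  have r2 := Rs_tendsto (c := -Complex.I) (by simp) (by simp) hT hS hD h
  have hU : U ∈ 𝒜 := fun η => by
    have e : ∀ a, Φ U a η = (-Complex.I / 2) • (Rs Complex.I a η - Rs (-Complex.I) a η) := fun a => by
      change (cfc uu a : Op K) η = _
      simp only [Rs, add_apply, smul_apply]
      rw [add_sub_add_left_eq_sub, ← sub_smul, smul_smul]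
      have : -Complex.I / 2 * (Complex.I - -Complex.I) = 1 := by
        linear_combination (-1 : ℂ) * Complex.I_mul_I
      rw [this, one_smul]
    simp only [e]
    exact ((r1 η).sub (r2 η)).const_smul _
  have hV : V ∈ 𝒜 := fun η => by
    have e : ∀ a, Φ V a η = (1 / 2 : ℂ) • (Rs Complex.I a η + Rs (-Complex.I) a η) := fun a => by
      change (cfc vv a : Op K) η = _
      simp only [Rs, add_apply, smul_apply]
      module
    simp only [e]
    exact ((r1 η).add (r2 η)).const_smul _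
  have hsep : 𝒜.SeparatesPoints := by
    intro x y hxy
    by_cases h1 : U x = U y
    · refine ⟨V, ⟨V, hV, rfl⟩, fun h2 => hxy ?_⟩
      have hp : ∀ t, uu t ≠ 0 := fun t => by unfold uu; positivity
      induction x using OnePoint.rec with
      | infty =>
        induction y using OnePoint.rec with
        | infty => rfl
        | coe y => exact absurd (show (0 : ℝ) = uu y from h1).symm (hp y)
      | coe x =>
        induction y using OnePoint.rec with
        | infty => exact absurd (show uu x = 0 from h1) (hp x)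
        | coe y =>
          have h3 : uu x = uu y := h1
          have h4 : x * uu x = y * uu y := h2
          rw [h3] at h4
          rw [mul_right_cancel₀ (hp y) h4]
    · exact ⟨U, ⟨U, hU, rfl⟩, h1⟩
  change Tendsto (fun n => Φ F (S n) η) atTop (𝓝 (Φ F T η))
  refine tendsto_of_approx fun ε hε => ?_
  obtain ⟨g, hg⟩ := ContinuousMap.exists_mem_subalgebra_near_continuousMap_of_separatesPoints 𝒜
    hsep F (ε / (‖η‖ + 1)) (by positivity)
  rw [lt_div_iff₀ (by positivity), norm_sub_rev] at hg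
  have key : ∀ a, ‖Φ F a η - Φ g a η‖ ≤ ε := fun a => by
    have e : Φ (F - g) a = Φ F a - Φ g a :=
      cfc_sub _ _ a (hcont F).continuousOn (hcont g).continuousOn
    rw [← sub_apply, ← e]
    refine ((Φ (F - g) a).le_opNorm _).trans ?_
    nlinarith [hΦ (F - g) a, norm_nonneg η, norm_nonneg (F - g : C(OnePoint ℝ, ℝ))]
  exact ⟨_, _, g.2 η, fun n => key _, key _⟩

/-- Let `K₀` be the closure of `π(N) ξ`, `T` the compression of `π x` to `K₀`, `S n` the restriction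
of `π (s n)` (or extend by zero: multiply by the projection onto `K₀`, which commutes with
`π (s n)`). `π (s n * b) ξ` is Cauchy and tends to `T (π b ξ)`. Take `f` with compact support,
`f t = t` on `[-‖x‖, ‖x‖]`, `|f| ≤ ‖x‖`: `π (f (s n)) ξ → T ξ` (`cfc_tendsto`; `π` commutes with
`cfc` by polynomial approximation), so `f (s n)` is Cauchy with limit `y` (`exists_lim`).
Finally approximate `f (s n)` in norm by a real polynomial in `s n`. -/
theorem Nce.res (𝓔 : Nce M A) (N : Submodule ℂ (Op H)) (hN : ∀ b ∈ N, b ∈ M) (h1 : 1 ∈ N)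
    (hmul : ∀ a ∈ N, ∀ b ∈ N, a * b ∈ N) (hstar : ∀ a ∈ N, star a ∈ N)
    (hR : ∀ b ∈ N, ∃ C : ℝ, 0 ≤ C ∧ ∀ x ∈ M, 𝓔.n2 (x * b) ≤ C * 𝓔.n2 x) {x : Op H} (hx : x ∈ M)
    (hsa : IsSelfAdjoint x) {s : ℕ → Op H} (hs : ∀ n, s n ∈ N ∧ IsSelfAdjoint (s n))
    (hc : ∀ ε : ℝ, 0 < ε → ∃ n₀, ∀ m ≥ n₀, ∀ n ≥ n₀, 𝓔.n2 (s m - s n) ≤ ε)
    (hl : ∀ b ∈ N, ∀ c ∈ N, Tendsto (fun n => 𝓔.ψ (star c * (x - s n) * b)) atTop (𝓝 0)) :
    ∃ y ∈ M, IsSelfAdjoint y ∧ ‖y‖ ≤ ‖x‖ ∧ (∀ c ∈ N, 𝓔.ψ (star c * (x - y)) = 0) ∧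
      ∀ ε : ℝ, 0 < ε → ∃ t ∈ N, IsSelfAdjoint t ∧ ‖t‖ ≤ ‖x‖ + ε ∧ 𝓔.n2 (t - y) ≤ ε := by
  obtain ⟨K, i1, i2, i3, π, ξ, h⟩ := 𝓔.gns
  obtain ⟨P, hP, hP1, hP0⟩ := R124.exists_pr {v : K | ∃ b ∈ N, v = π b ξ}
  replace hP1 : ∀ b ∈ N, P (π b ξ) = π b ξ := fun b hb => hP1 _ ⟨b, hb, rfl⟩
  replace hP0 : ∀ T : Op K, (∀ b ∈ N, T (π b ξ) = 0) → T * P = 0 := fun T hT =>
    hP0 T (by rintro _ ⟨b, hb, rfl⟩; exact hT b hb)
  have hPP : ∀ v, P (P v) = P v := fun v => by rw [← mul_apply_eq_comp, hP.isIdempotentElem.eq]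
  have hPi : ∀ v w, ⟪P v, w⟫_ℂ = ⟪v, P w⟫_ℂ := fun v w => by
    rw [← ContinuousLinearMap.adjoint_inner_right, ← ContinuousLinearMap.star_eq_adjoint,
      hP.isSelfAdjoint.star_eq]
  have hperp : ∀ δ : K, (∀ c ∈ N, ⟪π c ξ, δ⟫_ℂ = 0) → P δ = 0 := fun δ hδ => by
    have h0 := hP0 ((innerSL ℂ δ).smulRight δ) (fun b hb => by
      simp [inner_eq_zero_symm.1 (hδ b hb)])
    have h2 : ⟪δ, P δ⟫_ℂ • δ = 0 := by simpa using congrArg (fun T : Op K => T δ) h0
    rcases smul_eq_zero.1 h2 with h3 | h3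
    · rwa [← hPP, ← hPi, inner_self_eq_zero] at h3
    · rw [h3, map_zero]
  have hξ : P ξ = ξ := by simpa [h.one] using hP1 1 h1
  have hπ : ∀ a ∈ M, ∀ b ∈ M, π a (π b ξ) = π (a * b) ξ := fun a ha b hb => by
    rw [h.mul a ha b hb, mul_apply_eq_comp]
  have hπsa : ∀ a ∈ M, IsSelfAdjoint a → IsSelfAdjoint (P * π a * P) := fun a ha ha' => by
    rw [IsSelfAdjoint, star_mul, star_mul, hP.isSelfAdjoint.star_eq, ← h.map_star a ha,
      ha'.star_eq, mul_assoc]
  have hπn : ∀ a ∈ M, ‖P * π a * P‖ ≤ ‖a‖ := fun a ha => by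
    have a1 := norm_mul₃_le (a := P) (b := π a) (c := P)
    have a2 := hP.norm_le
    have a3 := h.norm_le a ha
    refine a1.trans ?_
    calc ‖P‖ * ‖π a‖ * ‖P‖ ≤ 1 * ‖a‖ * 1 := by gcongr
      _ = ‖a‖ := by ring
  have hπ0 : π 0 = 0 := by simpa using h.smul 0 0 (zero_mem M)
  let U : Submodule ℂ K :=
    { carrier := {v | ∃ b ∈ N, ∃ w, P w = 0 ∧ v = π b ξ + w}
      add_mem' := by
        rintro _ _ ⟨b, hb, w, hw, rfl⟩ ⟨b', hb', w', hw', rfl⟩
        refine ⟨b + b', add_mem hb hb', w + w', by rw [map_add, hw, hw', add_zero], ?_⟩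
        rw [h.add _ (hN b hb) _ (hN b' hb'), add_apply]; abel
      zero_mem' := ⟨0, zero_mem _, 0, map_zero _, by simp [hπ0]⟩
      smul_mem' := by
        rintro c _ ⟨b, hb, w, hw, rfl⟩
        refine ⟨c • b, N.smul_mem c hb, c • w, by rw [map_smul, hw, smul_zero], ?_⟩
        rw [h.smul c _ (hN b hb), smul_apply, smul_add] }
  have hU : Dense (U : Set K) := by
    rw [Submodule.dense_iff_topologicalClosure_eq_top, Submodule.topologicalClosure_eq_top_iff,
      Submodule.eq_bot_iff]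
    intro δ hδ
    have a1 : P δ = 0 := hperp δ fun c hc' =>
      hδ _ ⟨c, hc', 0, map_zero _, (add_zero _).symm⟩
    exact inner_self_eq_zero.1 (hδ δ ⟨0, zero_mem _, δ, a1, by simp [hπ0]⟩)
  have hconv : ∀ η ∈ (U : Set K), Tendsto (fun n => (P * π (s n) * P) η) atTop
      (𝓝 ((P * π x * P) η)) := by
    rintro _ ⟨b, hb, w, hw, rfl⟩
    have hbM := hN b hb
    have hsM := fun n => hN _ (hs n).1
    simp only [mul_apply_eq_comp, map_add, hw, map_zero, add_zero, hP1 b hb, hπ _ (hsM _) _ hbM,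
      hπ _ hx _ hbM, hP1 _ (hmul _ (hs _).1 _ hb)]
    obtain ⟨C, hC, hCb⟩ := hR b hb
    have hcs : CauchySeq fun n => π (s n * b) ξ := by
      rw [Metric.cauchySeq_iff]
      intro ε hε
      obtain ⟨n₀, hn₀⟩ := hc (ε / (C + 1)) (by positivity)
      refine ⟨n₀, fun m hm n hn => ?_⟩
      rw [dist_eq_norm, ← sub_apply, ← h.sub (mul_mem (hsM m) hbM) (mul_mem (hsM n) hbM),
        ← h.n2 𝓔 (sub_mem (mul_mem (hsM m) hbM) (mul_mem (hsM n) hbM)), ← sub_mul]
      refine (hCb _ (sub_mem (hsM m) (hsM n))).trans_lt ?_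
      calc C * 𝓔.n2 (s m - s n) ≤ C * (ε / (C + 1)) := by gcongr; exact hn₀ m hm n hn
        _ < (C + 1) * (ε / (C + 1)) := by gcongr; linarith
        _ = ε := by field_simp
    obtain ⟨ζ, hζ⟩ := cauchySeq_tendsto_of_complete hcs
    have a1 : P ζ = ζ := tendsto_nhds_unique (by
      simpa only [Function.comp_def, hP1 _ (hmul _ (hs _).1 _ hb)] using
        (P.continuous.tendsto ζ).comp hζ) hζ
    have a2 : P (π (x * b) ξ - ζ) = 0 := hperp _ fun c hc' => by
      refine tendsto_nhds_unique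
        (((tendsto_const_nhds (x := π c ξ)).inner ((tendsto_const_nhds (x := π (x * b) ξ)).sub hζ)))
        ((hl b hb c hc').congr fun n => ?_)
      rw [← sub_apply, ← h.sub (mul_mem hx hbM) (mul_mem (hsM n) hbM),
        h.norm_sq (hN c hc') (sub_mem (mul_mem hx hbM) (mul_mem (hsM n) hbM)), ← sub_mul, mul_assoc]
    rw [map_sub, sub_eq_zero, a1] at a2
    rwa [a2]
  let f : ℝ → ℝ := fun t => max (-‖x‖) (min ‖x‖ t) * max 0 (min 1 (‖x‖ + 1 - |t|))
  have hx0 := norm_nonneg x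
  have hf : Continuous f := by fun_prop
  have hfc : HasCompactSupport f := by
    refine HasCompactSupport.intro (isCompact_Icc (a := -(‖x‖ + 1)) (b := ‖x‖ + 1)) fun t ht => ?_
    rw [Set.mem_Icc, ← abs_le, not_le] at ht
    simp only [f]
    rw [max_eq_left (b := min 1 _) ((min_le_right _ _).trans (by linarith)), mul_zero]
  have hfb : ∀ t, |f t| ≤ ‖x‖ := fun t => by
    have a1 : |max (-‖x‖) (min ‖x‖ t)| ≤ ‖x‖ :=
      abs_le.2 ⟨le_max_left _ _, max_le (by linarith) (min_le_left _ _)⟩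
    have a2 : |max 0 (min 1 (‖x‖ + 1 - |t|))| ≤ 1 :=
      abs_le.2 ⟨(by norm_num : (-1 : ℝ) ≤ 0).trans (le_max_left _ _),
        max_le zero_le_one (min_le_left _ _)⟩
    simp only [f]
    rw [abs_mul]
    exact (mul_le_of_le_one_right (abs_nonneg _) a2).trans a1
  have hfT : cfc f (P * π x * P) = P * π x * P := by
    have := hπsa x hx hsa
    refine (cfc_congr (g := fun t : ℝ => t) fun t ht => ?_).trans (cfc_id' ℝ _)
    have a1 := spec_le (hπn x hx) ht
    have a2 := abs_le.1 a1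
    simp only [f]
    rw [min_eq_right a2.2, max_eq_right a2.1, min_eq_left (by linarith), max_eq_right zero_le_one,
      mul_one]
  have hlim := cfc_tendsto (hπsa x hx hsa) (fun n => hπsa _ (hN _ (hs n).1) (hs n).2) hU hconv hf
    hfc ξ
  rw [hfT] at hlim
  have hpoly : ∀ a ∈ N, ∀ p : Polynomial ℝ, Polynomial.aeval a p ∈ N ∧
      Polynomial.aeval (P * π a * P) p ξ = π (Polynomial.aeval a p) ξ := by
    intro a ha p
    induction p using Polynomial.induction_on with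
    | C r =>
      simp only [Polynomial.aeval_C, Algebra.algebraMap_eq_smul_one, ← Complex.coe_smul]
      exact ⟨N.smul_mem _ h1, by rw [h.smul _ _ (one_mem M), h.one]⟩
    | add p q hp hq =>
      simp only [map_add]
      exact ⟨add_mem hp.1 hq.1, by
        rw [h.add _ (hN _ hp.1) _ (hN _ hq.1), add_apply, add_apply, hp.2, hq.2]⟩
    | monomial n r ih =>
      rw [pow_succ, ← mul_assoc, mul_comm]
      simp only [map_mul (Polynomial.aeval _) Polynomial.X, Polynomial.aeval_X]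
      refine ⟨hmul _ ha _ ih.1, ?_⟩
      rw [mul_apply_eq_comp, ih.2, mul_apply_eq_comp, mul_apply_eq_comp, hP1 _ ih.1,
        hπ _ (hN a ha) _ (hN _ ih.1), hP1 _ (hmul _ ha _ ih.1)]
  have happ : ∀ n (ε : ℝ), 0 < ε → ∃ t ∈ N, IsSelfAdjoint t ∧ ‖t - cfc f (s n)‖ ≤ ε ∧
      ‖π t ξ - (cfc f (P * π (s n) * P) : Op K) ξ‖ ≤ ε * ‖ξ‖ := by
    intro n ε hε
    obtain ⟨p, hp⟩ := exists_polynomial_near_of_continuousOn (-‖s n‖) ‖s n‖ f hf.continuousOn ε hε
    have hsn := (hs n).2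
    refine ⟨_, (hpoly _ (hs n).1 p).1, ?_, poly_near hf hε.le hp hsn le_rfl, ?_⟩
    · rw [← cfc_polynomial p (s n)]; exact cfc_predicate _ _
    · rw [← (hpoly _ (hs n).1 p).2, ← sub_apply]
      refine (ContinuousLinearMap.le_opNorm _ _).trans ?_
      gcongr
      exact poly_near hf hε.le hp (hπsa _ (hN _ (hs n).1) hsn) (hπn _ (hN _ (hs n).1))
  have hyM : ∀ n, cfc f (s n) ∈ M := fun n => R124.cfc_mem _ (hN _ (hs n).1)
  have hyn : ∀ n, ‖(cfc f (s n) : Op H)‖ ≤ ‖x‖ := fun n => norm_cfc_le hx0 fun t _ => hfb t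
  have hn2 : ∀ a ∈ M, ∀ b ∈ M, 𝓔.n2 (a - b) = ‖π a ξ - π b ξ‖ := fun a ha b hb => by
    rw [h.n2 𝓔 (sub_mem ha hb), h.sub ha hb, sub_apply]
  have hn3 : ∀ a ∈ M, ∀ b ∈ M, ‖π a ξ - π b ξ‖ ≤ ‖a - b‖ * ‖ξ‖ := fun a ha b hb => by
    rw [← sub_apply, ← h.sub ha hb]
    exact (ContinuousLinearMap.le_opNorm _ _).trans (by gcongr; exact h.norm_le _ (sub_mem ha hb))
  have hξ0 := norm_nonneg ξ
  have heq : ∀ n, (cfc f (P * π (s n) * P) : Op K) ξ = π (cfc f (s n)) ξ := fun n => by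
    refine eq_of_forall_dist_le fun ε hε => ?_
    obtain ⟨t, ht, -, a1, a2⟩ := happ n (ε / (2 * (‖ξ‖ + 1))) (by positivity)
    have a3 := (hn3 t (hN t ht) _ (hyM n)).trans (mul_le_mul_of_nonneg_right a1 hξ0)
    have a4 := dist_triangle_left ((cfc f (P * π (s n) * P) : Op K) ξ) (π (cfc f (s n)) ξ) (π t ξ)
    rw [dist_eq_norm (π t ξ), dist_eq_norm (π t ξ)] at a4
    have a5 : ε / (2 * (‖ξ‖ + 1)) * ‖ξ‖ ≤ ε / 2 := by
      rw [div_mul_eq_mul_div, div_le_div_iff₀ (by positivity) (by positivity)]; nlinarith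
    linarith
  simp only [heq] at hlim
  obtain ⟨y, hy, hy1, hy2, hy3⟩ := 𝓔.exists_lim (x := fun n => cfc f (s n)) (C := ‖x‖)
    (fun n => ⟨hyM n, hyn n⟩) (fun n => cfc_predicate _ _) (fun ε hε => by
      obtain ⟨n₀, hn₀⟩ := Metric.cauchySeq_iff.1 hlim.cauchySeq ε hε
      refine ⟨n₀, fun m hm n hn => ?_⟩
      rw [hn2 _ (hyM m) _ (hyM n), ← dist_eq_norm]
      exact (hn₀ m hm n hn).le)
  have hyT : π y ξ = (P * π x * P) ξ := by
    refine tendsto_nhds_unique ?_ hlim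
    rw [Metric.tendsto_atTop]
    intro ε hε
    obtain ⟨n₀, hn₀⟩ := hy3 (ε / 2) (by positivity)
    refine ⟨n₀, fun n hn => ?_⟩
    rw [dist_eq_norm, ← hn2 _ (hyM n) _ hy]
    linarith [hn₀ n hn]
  refine ⟨y, hy, hy2, hy1, fun c hc' => ?_, fun ε hε => ?_⟩
  · rw [← h.norm_sq (hN c hc') (sub_mem hx hy), h.sub hx hy, sub_apply, hyT, inner_sub_right,
      mul_apply_eq_comp, mul_apply_eq_comp, ← hPi, hP1 c hc', hξ, sub_self]
  · obtain ⟨n, hn⟩ := hy3 (ε / 2) (by positivity)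
    obtain ⟨t, ht, a0, a1, -⟩ := happ n (ε / (2 * (‖ξ‖ + 1))) (by positivity)
    have a5 : ε / (2 * (‖ξ‖ + 1)) * ‖ξ‖ ≤ ε / 2 := by
      rw [div_mul_eq_mul_div, div_le_div_iff₀ (by positivity) (by positivity)]; nlinarith
    have a6 : ε / (2 * (‖ξ‖ + 1)) ≤ ε := div_le_self hε.le (by linarith)
    refine ⟨t, ht, a0, ?_, ?_⟩
    · have := norm_sub_norm_le t (cfc f (s n))
      linarith [hyn n]
    · have a3 := (hn3 t (hN t ht) _ (hyM n)).trans (mul_le_mul_of_nonneg_right a1 hξ0)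
      have a4 := hn n le_rfl
      rw [hn2 _ (hyM n) _ hy] at a4
      rw [hn2 _ (hN t ht) _ hy]
      have := norm_sub_le_norm_sub_add_norm_sub (π t ξ) (π (cfc f (s n)) ξ) (π y ξ)
      linarith

end Crest.Agent.R109
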