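import Crest.Agent.R109.Nor
import Crest.Agent.R109.Gns

/-! Task 109-DEC: decomposition along the normalisers. -/

set_option autoImplicit false

open scoped InnerProductSpace ComplexOrder
open Filter Topology

namespace Crest.Agent.R109

variable {H : Type*} [NormedAddCommGroup H] [InnerProductSpace ℂ H] [CompleteSpace H]
variable {M A : VonNeumannAlgebra H} (𝓔 : Nce M A)

namespace Nce

theorem Dec_bn_mul {v w : Op H} (hv : ∃ K, 𝓔.BN K v) (hw : ∃ K, 𝓔.BN K w) :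
    ∃ K, 𝓔.BN K (v * w) := by
  obtain ⟨K, hv⟩ := hv
  obtain ⟨K', hw⟩ := hw
  exact ⟨_, BN.mul (le_max_right K 0) (le_max_right K' 0) (hv.mono (le_max_left _ _))
    (hw.mono (le_max_left _ _))⟩

theorem Dec_step {v w : Op H} (hv : Nor M A v) (hw : Nor M A w) :
    ∃ g ∈ A, IsStarProjection g ∧ ∃ a ∈ A, v = v * g + w * a ∧ 𝓔.E (star w * (v * g)) = 0 := by
  have hu : Nor M A (star w * v) := hw.star.mul 𝓔.masa hv
  obtain ⟨h1, h2⟩ := 𝓔.E_nor hu
  have hc : 𝓔.E (star w * v) ∈ A := 𝓔.ce.mem _ hu.mem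
  have h3 : 𝓔.E (star w * v) * (star v * v) = 𝓔.E (star w * v) := by
    rw [← 𝓔.ce.right _ hv.init _ hu.mem, mul_assoc, hv.pi.mul_init]
  obtain ⟨c, hcd⟩ : ∃ c, 𝓔.E (star w * v) = c := ⟨_, rfl⟩
  rw [hcd] at h1 h2 hc h3
  obtain ⟨f, hf⟩ : ∃ f, star c * c = f := ⟨_, rfl⟩
  rw [hf] at h1 h2
  have hfA : f ∈ A := hf ▸ mul_mem (star_mem hc) hc
  have hff : f * f = f := h1.isIdempotentElem.eq
  have hfs : star f = f := h1.isSelfAdjoint.star_eq
  have h4 : f * (star v * v) = f := by rw [← hf, mul_assoc, h3]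
  have h5 : star c = f * star v * w := by
    rw [h2, star_mul, star_mul, star_star, hfs, mul_assoc]
  have h6 : star w * w * c = c := by
    have := hw.pi.star
    unfold R124.PI at this
    rw [star_star] at this
    conv_lhs => rw [h2]
    rw [← mul_assoc, ← mul_assoc, this, ← h2]
  have h7 : v * f = w * c := by
    rw [← sub_eq_zero, ← CStarRing.star_mul_self_eq_zero_iff]
    have e : star (v * f - w * c) * (v * f - w * c) = f * (star v * v) * f -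
        f * star v * w * c - star c * (star w * v * f) + star c * (star w * w * c) := by
      rw [star_sub, star_mul, star_mul, hfs]
      noncomm_ring
    rw [e, h4, ← h5, ← h2, h6, hf, hff]
    abel
  refine ⟨1 - f, sub_mem (one_mem A) hfA, h1.one_sub, c, hc, ?_, ?_⟩
  · rw [← h7, mul_sub, mul_one, sub_add_cancel]
  · rw [← mul_assoc, 𝓔.ce.right _ (sub_mem (one_mem A) hfA) _ hu.mem, hcd, mul_sub, mul_one]
    conv_lhs => rw [h2, mul_assoc (star w * v), hff]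
    exact sub_self _

theorem Dec_steps {ι : Type*} {v : Op H} (hv : Nor M A v) {w : ι → Op H}
    (hw : ∀ i, Nor M A (w i)) (s : Finset ι) :
    ∃ g ∈ A, IsStarProjection g ∧ ∃ a : ι → Op H, (∀ i, a i ∈ A) ∧
      v = v * g + ∑ i ∈ s, w i * a i ∧ ∀ i ∈ s, 𝓔.E (star (w i) * (v * g)) = 0 := by
  classical
  induction s using Finset.induction_on with
  | empty => exact ⟨1, one_mem A, IsStarProjection.one _, 0, fun _ => zero_mem A, by simp, by simp⟩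
  | insert j s hj ih =>
    obtain ⟨g, hg, hgp, a, ha, h1, h2⟩ := ih
    have hvg : Nor M A (v * g) := hv.mul 𝓔.masa (nor_of_mem 𝓔.masa hg (R124.pi_of_proj hgp))
    obtain ⟨g', hg', hgp', a', ha', h3, h4⟩ := 𝓔.Dec_step hvg (hw j)
    refine ⟨g * g', mul_mem hg hg', hgp.mul hgp' (𝓔.masa.comm g hg g' hg'),
      Function.update a j a', fun i => ?_, ?_, fun i hi => ?_⟩
    · by_cases h : i = j
      · subst h; simpa using ha'
      · simpa [h] using ha i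
    · have e : ∑ i ∈ s, w i * Function.update a j a' i = ∑ i ∈ s, w i * a i :=
        Finset.sum_congr rfl fun i hi => by
          rw [Function.update_of_ne (fun h : i = j => hj (h ▸ hi))]
      rw [Finset.sum_insert hj, Function.update_self, e, ← add_assoc, ← mul_assoc, ← h3]
      exact h1
    · rw [← mul_assoc v]
      rcases Finset.mem_insert.1 hi with rfl | hi
      · exact h4
      · rw [← mul_assoc, 𝓔.ce.right _ hg' _ (mul_mem (star_mem (hw i).mem) hvg.mem), h2 i hi,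
          zero_mul]

/-- Gram-Schmidt. Induction on `L`: for `Γ` orthogonal and a new `v` let
`f_w = E(w* v)* E(w* v)` (`E_nor`): `v f_w = w E(w* v)`, the `f_w` are orthogonal projections of `A`,
and `v' = v (1 - ∑ f_w)` is orthogonal to `Γ`. -/
theorem gram (L : Finset (Op H)) (hL : ∀ v ∈ L, ∃ K, 𝓔.BN K v) :
    ∃ (n : ℕ) (w : Fin n → Op H), (∀ i, ∃ K, 𝓔.BN K (w i)) ∧
      (∀ i j, i ≠ j → 𝓔.E (star (w i) * w j) = 0) ∧
      ∀ v ∈ L, ∃ a : Fin n → Op H, (∀ i, a i ∈ A) ∧ v = ∑ i, w i * a i := by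
  classical
  induction L using Finset.induction_on with
  | empty => exact ⟨0, Fin.elim0, fun i => i.elim0, fun i => i.elim0, by simp⟩
  | insert v L _ ih =>
    obtain ⟨n, w, h1, h2, h3⟩ := ih fun u hu => hL u (Finset.mem_insert_of_mem hu)
    have hv := hL v (Finset.mem_insert_self _ _)
    have hw : ∀ i, Nor M A (w i) := fun i => (h1 i).elim fun _ h => h.toNor
    have hvn : Nor M A v := hv.elim fun _ h => h.toNor
    obtain ⟨g, hg, hgp, a, ha, h4, h5⟩ := 𝓔.Dec_steps hvn hw Finset.univ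
    have hvg := 𝓔.Dec_bn_mul hv ⟨1, bn_of_mem hg (R124.pi_of_proj hgp)⟩
    have hvgM : v * g ∈ M := hvg.elim fun _ h => h.mem
    refine ⟨n + 1, Fin.cons (v * g) w, fun i => ?_, fun i j hij => ?_, fun u hu => ?_⟩
    · refine Fin.cases ?_ (fun i => ?_) i
      · exact hvg
      · exact h1 i
    · revert hij
      refine Fin.cases ?_ (fun i => ?_) i <;> refine Fin.cases ?_ (fun j => ?_) j <;> intro hij
      · exact absurd rfl hij
      · have := 𝓔.ce.map_star _ (mul_mem (star_mem (hw j).mem) hvgM)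
        rw [h5 j (Finset.mem_univ _), star_zero, star_mul, star_star] at this
        exact this
      · exact h5 i (Finset.mem_univ _)
      · exact h2 i j fun h => hij (by rw [h])
    · rcases Finset.mem_insert.1 hu with rfl | hu
      · refine ⟨Fin.cons 1 a, fun i => Fin.cases (one_mem A) (fun i => ha i) i, ?_⟩
        rw [Fin.sum_univ_succ]
        simpa using h4
      · obtain ⟨b, hb, hb'⟩ := h3 u hu
        refine ⟨Fin.cons 0 b, fun i => Fin.cases (zero_mem A) (fun i => hb i) i, ?_⟩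
        rw [Fin.sum_univ_succ]
        simpa using hb'

/-- The projection on the module spanned by an orthogonal family. -/
theorem Dec_proj {n : ℕ} {w : Fin n → Op H} (hw : ∀ i, Nor M A (w i))
    (ho : ∀ i j, i ≠ j → 𝓔.E (star (w i) * w j) = 0) {x : Op H} (hx : x ∈ M)
    {a : Fin n → Op H} (ha : ∀ i, a i ∈ A) :
    𝓔.n2 (x - ∑ i, w i * 𝓔.E (star (w i) * x)) ≤ 𝓔.n2 (x - ∑ i, w i * a i) := by
  have hwx : ∀ i, star (w i) * x ∈ M := fun i => mul_mem (star_mem (hw i).mem) hx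
  have hc : ∀ i, 𝓔.E (star (w i) * x) ∈ A := fun i => 𝓔.ce.mem _ (hwx i)
  have hQ : ∑ i, w i * 𝓔.E (star (w i) * x) ∈ M :=
    sum_mem fun i _ => mul_mem (hw i).mem (𝓔.masa.le _ (hc i))
  have h1 : ∀ i, 𝓔.E (star (w i) * (x - ∑ j, w j * 𝓔.E (star (w j) * x))) = 0 := by
    intro i
    rw [mul_sub, map_sub, Finset.mul_sum, map_sum, Finset.sum_eq_single i, sub_eq_zero]
    · have := (hw i).pi.star
      unfold R124.PI at this
      rw [star_star] at this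
      rw [← mul_assoc, ← 𝓔.ce.left _ (hw i).init _ (hwx i), ← mul_assoc, this,
        𝓔.E_of_mem (hc i)]
    · intro j _ hj
      rw [← mul_assoc, 𝓔.ce.right _ (hc j) _ (mul_mem (star_mem (hw i).mem) (hw j).mem),
        ho i j hj.symm, zero_mul]
    · simp
  set Q := ∑ i, w i * 𝓔.E (star (w i) * x) with hQd
  have hb : ∀ i, 𝓔.E (star (w i) * x) - a i ∈ A := fun i => sub_mem (hc i) (ha i)
  have hz : ∑ i, w i * (𝓔.E (star (w i) * x) - a i) ∈ M :=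
    sum_mem fun i _ => mul_mem (hw i).mem (𝓔.masa.le _ (hb i))
  have h2 : 𝓔.ψ (star (∑ i, w i * (𝓔.E (star (w i) * x) - a i)) * (x - Q)) = 0 := by
    rw [star_sum, Finset.sum_mul, map_sum]
    refine Finset.sum_eq_zero fun i _ => ?_
    have hm : star (w i) * (x - Q) ∈ M := mul_mem (star_mem (hw i).mem) (sub_mem hx hQ)
    rw [star_mul, mul_assoc, ← 𝓔.ψ_E _ (mul_mem (star_mem (𝓔.masa.le _ (hb i))) hm),
      𝓔.ce.left _ (star_mem (hb i)) _ hm, h1, mul_zero, map_zero]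
  have h3 := 𝓔.n2_add_sq hz (sub_mem hx hQ) h2
  have e : ∑ i, w i * (𝓔.E (star (w i) * x) - a i) + (x - Q) = x - ∑ i, w i * a i := by
    simp only [mul_sub, Finset.sum_sub_distrib]
    rw [← hQd]
    abel
  rw [e] at h3
  refine le_of_sq (𝓔.n2_nonneg _) ?_
  rw [h3]
  exact le_add_of_nonneg_left (sq_nonneg _)

theorem Dec_star {w x : Op H} (hw : Nor M A w) (hx : x ∈ M) :
    𝓔.E (x * w) * star w = star w * 𝓔.E (w * x) := by
  have h1 := 𝓔.E_conj hw (mul_mem hw.mem hx)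
  have h2 := hw.pi.star
  unfold R124.PI at h2
  rw [star_star] at h2
  have hxw : x * w ∈ M := mul_mem hx hw.mem
  have hwx : w * x ∈ M := mul_mem hw.mem hx
  rw [show star w * (w * x) * w = star w * w * (x * w) by simp only [mul_assoc],
    𝓔.ce.left _ hw.init _ hxw, 𝓔.masa.comm _ hw.init _ (𝓔.ce.mem _ hxw)] at h1
  calc 𝓔.E (x * w) * star w = 𝓔.E (x * w) * (star w * w) * star w := by
        rw [mul_assoc, h2]
    _ = star w * (𝓔.E (w * x) * (w * star w)) := by rw [h1]; simp only [mul_assoc]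
    _ = star w * 𝓔.E (w * x) := by
        rw [𝓔.masa.comm _ (𝓔.ce.mem _ hwx) _ hw.fin, ← mul_assoc, ← mul_assoc, h2]

theorem Dec_span {n : ℕ} {w : Fin n → Op H} {L : Set (Op H)}
    (hL : ∀ v ∈ L, ∃ a : Fin n → Op H, (∀ i, a i ∈ A) ∧ v = ∑ i, w i * a i) {y : Op H}
    (hy : y ∈ Submodule.span ℂ L) : ∃ a : Fin n → Op H, (∀ i, a i ∈ A) ∧ y = ∑ i, w i * a i := by
  induction hy using Submodule.span_induction with
  | mem v hv => exact hL v hv
  | zero => exact ⟨0, fun _ => zero_mem A, by simp⟩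
  | add u v _ _ hu hv =>
    obtain ⟨a, ha, rfl⟩ := hu
    obtain ⟨b, hb, rfl⟩ := hv
    exact ⟨a + b, fun i => add_mem (ha i) (hb i), by simp [mul_add, Finset.sum_add_distrib]⟩
  | smul c u _ hu =>
    obtain ⟨a, ha, rfl⟩ := hu
    exact ⟨c • a, fun i => A.toStarSubalgebra.smul_mem (ha i) c, by simp [Finset.smul_sum]⟩

/-- For an orthogonal family `w`, `Q_w x = ∑ w i * E (w i* x)` is the orthogonal projection of `x`
on `∑ w i A`; `star (Q_w x) = Q_{w*} x` (`E_conj`) and `w*` is orthogonal too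
(`E_mul_star_eq_zero`). Apply `gram` to `L ∪ star L`, `L` the normalisers occurring in `y`: then
`y` lies in both modules. -/
theorem exists_sym {x : Op H} (hx : x ∈ M) (hsa : IsSelfAdjoint x) {y : Op H} (hy : y ∈ 𝓔.N0) :
    ∃ s ∈ 𝓔.N0, IsSelfAdjoint s ∧ 𝓔.n2 (x - s) ≤ 𝓔.n2 (x - y) := by
  classical
  obtain ⟨L, hL, hyL⟩ := Submodule.mem_span_finite_of_mem_span hy
  obtain ⟨L', hL', hyL'⟩ := Submodule.mem_span_finite_of_mem_span (𝓔.N0_star hy)
  obtain ⟨n, w, h1, h2, h3⟩ := 𝓔.gram (L ∪ L') fun v hv =>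
    (Finset.mem_union.1 hv).elim (fun h => hL h) fun h => hL' h
  have hw : ∀ i, Nor M A (w i) := fun i => (h1 i).elim fun _ h => h.toNor
  obtain ⟨a, ha, e1⟩ := Dec_span (fun v hv => h3 v (Finset.mem_union_left _ hv)) hyL
  obtain ⟨b, hb, e2⟩ := Dec_span (fun v hv => h3 v (Finset.mem_union_right _ hv)) hyL'
  have e3 : y = ∑ i, star (w i) * (w i * star (b i) * star (w i)) := by
    rw [← star_star y, e2, star_sum]
    refine Finset.sum_congr rfl fun i _ => ?_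
    have := ((hw i).star.mul_comm 𝓔.masa (star_mem (hb i))).2
    rw [star_star] at this
    rw [star_mul, this]
  have p1 := 𝓔.Dec_proj hw h2 hx ha
  have p2 := 𝓔.Dec_proj (w := fun i => star (w i)) (fun i => (hw i).star) (fun i j hij => by
    rw [star_star]
    exact 𝓔.E_mul_star_eq_zero (hw j) (hw i).mem (h2 j i hij.symm)) hx
    (a := fun i => w i * star (b i) * star (w i)) fun i => (hw i).out _ (star_mem (hb i))
  rw [← e1] at p1
  rw [← e3] at p2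
  have hwx : ∀ i, star (w i) * x ∈ M := fun i => mul_mem (star_mem (hw i).mem) hx
  have e4 : ∑ i, star (w i) * 𝓔.E (star (star (w i)) * x) =
      star (∑ i, w i * 𝓔.E (star (w i) * x)) := by
    rw [star_sum]
    refine Finset.sum_congr rfl fun i _ => ?_
    rw [star_mul, ← 𝓔.ce.map_star _ (hwx i), star_mul, star_star, hsa.star_eq,
      𝓔.Dec_star (hw i) hx]
  rw [e4] at p2
  have hQ : ∑ i, w i * 𝓔.E (star (w i) * x) ∈ 𝓔.N0 := sum_mem fun i _ =>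
    𝓔.N0_mul (Submodule.subset_span (h1 i)) (𝓔.mem_N0_of_mem (𝓔.ce.mem _ (hwx i)))
  set Q := ∑ i, w i * 𝓔.E (star (w i) * x)
  refine ⟨(1 / 2 : ℂ) • (Q + star Q), 𝓔.N0.smul_mem _ (add_mem hQ (𝓔.N0_star hQ)), ?_, ?_⟩
  · rw [IsSelfAdjoint, star_smul, star_add, star_star, add_comm]
    simp
  · have e5 : x - (1 / 2 : ℂ) • (Q + star Q) = (1 / 2 : ℂ) • ((x - Q) + (x - star Q)) := by
      module
    have hQM := 𝓔.N0_mem hQ
    have := 𝓔.n2_add_le (sub_mem hx hQM) (sub_mem hx (star_mem hQM))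
    rw [e5, 𝓔.n2_smul]
    norm_num
    linarith

/-- An almost minimiser is almost orthogonal. -/
theorem Dec_orth {ζ c : Op H} (hζ : ζ ∈ M) (hc : c ∈ M) {η : ℝ} (hη : 0 ≤ η)
    (h : ∀ t : ℂ, 𝓔.n2 ζ ^ 2 ≤ 𝓔.n2 (ζ - t • c) ^ 2 + η ^ 2) :
    ‖𝓔.ψ (star c * ζ)‖ ≤ η * 𝓔.n2 c := by
  by_cases h0 : 𝓔.n2 c = 0
  · rw [𝓔.n2_eq_zero hc h0]
    simp [n2_zero]
  have hp : 0 < 𝓔.n2 c := lt_of_le_of_ne (𝓔.n2_nonneg c) (Ne.symm h0)
  set α := 𝓔.ψ (star c * ζ) with hα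
  set t : ℂ := ((1 / 𝓔.n2 c ^ 2 : ℝ) : ℂ) * α with ht
  have h1 := h t
  have hm : (-t) • c ∈ M := M.toStarSubalgebra.smul_mem hc _
  have h2 := 𝓔.n2_add_sq' hm hζ
  have e1 : (-t) • c + ζ = ζ - t • c := by module
  have e2 : (𝓔.ψ (star ((-t) • c) * ζ)).re = -(‖α‖ ^ 2 / 𝓔.n2 c ^ 2) := by
    rw [star_smul, smul_mul_assoc, map_smul, ← hα, smul_eq_mul, star_neg, ht, star_mul',
      Complex.star_def, Complex.conj_ofReal, neg_mul, mul_assoc, Complex.conj_mul',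
      ← Complex.ofReal_pow, ← Complex.ofReal_mul, Complex.neg_re, Complex.ofReal_re]
    ring
  have e3 : 𝓔.n2 ((-t) • c) ^ 2 = ‖α‖ ^ 2 / 𝓔.n2 c ^ 2 := by
    rw [𝓔.n2_smul, norm_neg, ht, norm_mul, Complex.norm_real, Real.norm_of_nonneg (by positivity)]
    field_simp
  rw [e1, e2, e3] at h2
  have h3 : ‖α‖ ^ 2 / 𝓔.n2 c ^ 2 ≤ η ^ 2 := by linarith
  rw [div_le_iff₀ (by positivity), ← mul_pow] at h3
  exact le_of_sq (by positivity) h3

theorem Dec_right {ζ : Op H} (hζ : ζ ∈ M) {η : ℝ} (hη : 0 ≤ η)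
    (h : ∀ c ∈ 𝓔.N0, ‖𝓔.ψ (star c * ζ)‖ ≤ η * 𝓔.n2 c) {K : ℝ} (hK : 0 ≤ K) {v c : Op H}
    (hv : 𝓔.BN K v) (hc : c ∈ 𝓔.N0) :
    ‖𝓔.ψ (star c * ζ * v)‖ ≤ 𝓔.n2 v * (Real.sqrt K * ‖c * star v‖) * η := by
  have hcM := 𝓔.N0_mem hc
  have hd : c * star v ∈ 𝓔.N0 := 𝓔.N0_mul hc (Submodule.subset_span ⟨K, hv.star⟩)
  have hdM := 𝓔.N0_mem hd
  set d := c * star v with hdd
  have hT : star d * ζ ∈ M := mul_mem (star_mem hdM) hζ
  have he : 𝓔.E (star d * ζ) ∈ A := 𝓔.ce.mem _ hT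
  have heM := 𝓔.masa.le _ he
  have e1 : 𝓔.ψ (star c * ζ * v) = 𝓔.ψ (star v * (𝓔.E (star d * ζ) * v)) := by
    have hm : star c * ζ * v ∈ M := mul_mem (mul_mem (star_mem hcM) hζ) hv.mem
    rw [← mul_assoc (star v), ← 𝓔.E_conj hv.toNor hT,
      𝓔.ψ_E _ (mul_mem (mul_mem (star_mem hv.mem) hT) hv.mem), hdd, star_mul, star_star,
      show star v * (v * star c * ζ) * v = star v * v * (star c * ζ * v) by simp only [mul_assoc],
      𝓔.ψ_cen hv.toNor.init hm, mul_assoc (star c * ζ), hv.pi.mul_init]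
  set e := 𝓔.E (star d * ζ) with hed
  have h1 : 𝓔.n2 e ^ 2 ≤ η * ‖d‖ * 𝓔.n2 e := by
    have e2 : 𝓔.ψ (star e * e) = 𝓔.ψ (star (d * e) * ζ) := by
      rw [star_mul, mul_assoc, ← 𝓔.ψ_E _ (mul_mem (star_mem heM) hT),
        𝓔.ce.left _ (star_mem he) _ hT]
    rw [𝓔.n2_sq heM, e2]
    refine (Complex.re_le_norm _).trans ((h _ (𝓔.N0_mul hd (𝓔.mem_N0_of_mem he))).trans ?_)
    rw [mul_assoc η]
    exact mul_le_mul_of_nonneg_left (𝓔.n2_mul_left hdM heM) hη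
  have h2 : 𝓔.n2 e ≤ η * ‖d‖ := by
    by_contra h3
    have h4 : η * ‖d‖ < 𝓔.n2 e := not_le.1 h3
    have h5 : 0 ≤ η * ‖d‖ := by positivity
    nlinarith
  rw [e1]
  refine (𝓔.cs hv.mem (mul_mem heM hv.mem)).trans ?_
  rw [mul_assoc]
  refine mul_le_mul_of_nonneg_left ((hv.n2_mul hK heM).trans ?_) (𝓔.n2_nonneg _)
  rw [mul_assoc, mul_comm ‖d‖]
  exact mul_le_mul_of_nonneg_left h2 (Real.sqrt_nonneg _)

/-- A minimising sequence for `n2 (x - ·)` on `N0`, symmetrised by `exists_sym`: Cauchy by the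
parallelogram law, `sup {|ψ (c* (x - s n))| : c ∈ N0, n2 c ≤ 1} → 0`. For `v ∈ BN`:
`ψ (c* ζ v) = ψ (v* E (v c* ζ) v)` and `n2 (E (d* ζ))² = ψ ((d E(d* ζ))* ζ)`. -/
theorem exists_seq {x : Op H} (hx : x ∈ M) (hsa : IsSelfAdjoint x) :
    ∃ s : ℕ → Op H, (∀ n, s n ∈ 𝓔.N0 ∧ IsSelfAdjoint (s n)) ∧
      (∀ ε : ℝ, 0 < ε → ∃ n₀, ∀ m ≥ n₀, ∀ n ≥ n₀, 𝓔.n2 (s m - s n) ≤ ε) ∧
      ∀ b ∈ 𝓔.N0, ∀ c ∈ 𝓔.N0, Tendsto (fun n => 𝓔.ψ (star c * (x - s n) * b)) atTop (𝓝 0) := by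
  set η : ℕ → ℝ := fun n => 1 / ((n : ℝ) + 1) with hη
  have hη0 : ∀ n, 0 < η n := fun n => Nat.one_div_pos_of_nat
  have hηl : Tendsto η atTop (𝓝 0) := tendsto_one_div_add_atTop_nhds_zero_nat
  have h1 : ∀ n, ∃ s ∈ 𝓔.N0, IsSelfAdjoint s ∧
      ∀ c ∈ 𝓔.N0, ‖𝓔.ψ (star c * (x - s))‖ ≤ η n * 𝓔.n2 c := by
    intro n
    have hb : BddBelow (Set.range fun y : 𝓔.N0 => 𝓔.n2 (x - y) ^ 2) :=
      ⟨0, by rintro _ ⟨y, rfl⟩; positivity⟩
    obtain ⟨y, hy⟩ := exists_lt_of_ciInf_lt (f := fun y : 𝓔.N0 => 𝓔.n2 (x - y) ^ 2)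
      (lt_add_of_pos_right _ (pow_pos (hη0 n) 2))
    obtain ⟨s, hs, hs1, hs2⟩ := 𝓔.exists_sym hx hsa y.2
    refine ⟨s, hs, hs1, fun c hc => 𝓔.Dec_orth (sub_mem hx (𝓔.N0_mem hs)) (𝓔.N0_mem hc)
      (hη0 n).le fun t => ?_⟩
    have h2 := ciInf_le hb ⟨s + t • c, add_mem hs (𝓔.N0.smul_mem t hc)⟩
    have h3 := pow_le_pow_left₀ (𝓔.n2_nonneg _) hs2 2
    rw [sub_sub]
    exact h3.trans (hy.le.trans (add_le_add h2 le_rfl))
  choose s hs hsa' hs2 using h1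
  have hζ : ∀ n, x - s n ∈ M := fun n => sub_mem hx (𝓔.N0_mem (hs n))
  refine ⟨s, fun n => ⟨hs n, hsa' n⟩, fun ε hε => ?_, fun b hb c hc => ?_⟩
  · obtain ⟨n₀, hn₀⟩ := eventually_atTop.1 (hηl.eventually (ge_mem_nhds (half_pos hε)))
    refine ⟨n₀, fun m hm n hn => ?_⟩
    have hc : s m - s n ∈ 𝓔.N0 := sub_mem (hs m) (hs n)
    have h3 : 𝓔.n2 (s m - s n) ^ 2 ≤ ε * 𝓔.n2 (s m - s n) := by
      have e : star (s m - s n) * (s m - s n) =
          star (s m - s n) * (x - s n) - star (s m - s n) * (x - s m) := by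
        rw [← mul_sub, sub_sub_sub_cancel_left]
      rw [𝓔.n2_sq (𝓔.N0_mem hc), e, map_sub]
      refine (Complex.re_le_norm _).trans ((norm_sub_le _ _).trans ?_)
      have a1 := hs2 n _ hc
      have a2 := hs2 m _ hc
      have a3 := hn₀ n hn
      have a4 := hn₀ m hm
      have a5 := 𝓔.n2_nonneg (s m - s n)
      nlinarith
    by_contra h4
    have h5 : ε < 𝓔.n2 (s m - s n) := not_le.1 h4
    nlinarith
  · induction hb using Submodule.span_induction with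
    | mem v hv =>
      obtain ⟨K, hv⟩ := hv
      have hv' := hv.mono (le_max_left K 0)
      refine squeeze_zero_norm (fun n => 𝓔.Dec_right (hζ n) (hη0 n).le (hs2 n)
        (le_max_right K 0) hv' hc) ?_
      simpa using hηl.const_mul (𝓔.n2 v * (Real.sqrt (max K 0) * ‖c * star v‖))
    | zero => simp
    | add u v _ _ hu hv => simpa [mul_add] using hu.add hv
    | smul a u _ hu => simpa using hu.const_mul a

/-- `res`, `perp_of_bn` (`E_eq`), `x' = x - y`, `x₁ = t - EP p t` (`exists_inv`, `EP_approx`),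
`d = (y - t) + (EP p t - E t) + E (t - y)`, `E y = E x`. -/
theorem dec {x : Op H} (hx : x ∈ M) (hsa : IsSelfAdjoint x) (h1 : ‖x‖ ≤ 1) {ε : ℝ} (hε : 0 < ε) :
    ∃ x' x₁ d : Op H, x = x' + 𝓔.E x + x₁ + d ∧
      (x' ∈ M ∧ IsSelfAdjoint x' ∧ ‖x'‖ ≤ 2 ∧ 𝓔.Perp x') ∧
      (d ∈ M ∧ IsSelfAdjoint d ∧ 𝓔.n2 d ≤ ε) ∧
      IsSelfAdjoint x₁ ∧ ‖x₁‖ ≤ 3 ∧ 𝓔.E x₁ = 0 ∧
      ∃ (n : ℕ) (u a : Fin n → Op H) (K : ℝ), 1 ≤ K ∧ (∀ g, 𝓔.Inv K (u g)) ∧ (∀ g, a g ∈ A) ∧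
        x₁ = ∑ g, a g * u g := by
  obtain ⟨s, hs1, hs2, hs3⟩ := 𝓔.exists_seq hx hsa
  obtain ⟨y, hy, hysa, hyn, hyo, hyt⟩ := 𝓔.res 𝓔.N0 (fun _ hb => 𝓔.N0_mem hb)
    (𝓔.mem_N0_of_mem (one_mem A)) (fun _ ha _ hb => 𝓔.N0_mul ha hb) (fun _ ha => 𝓔.N0_star ha)
    (fun _ hb => 𝓔.N0_right hb) hx hsa hs1 hs2 hs3
  have hδ : 0 < min (ε / 3) (1 / 2) := lt_min (by positivity) (by norm_num)
  have hδ1 := min_le_left (ε / 3) (1 / 2)
  have hδ2 := min_le_right (ε / 3) (1 / 2)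
  obtain ⟨t, ht, htsa, htn, hty⟩ := hyt _ hδ
  have htM := 𝓔.N0_mem ht
  obtain ⟨n, p, hp, hp2⟩ := 𝓔.EP_approx htM hδ
  have hp3 := hp2 n p hp (Ref.refl p hp.proj)
  have hx' : x - y ∈ M := sub_mem hx hy
  have hperp : 𝓔.Perp (x - y) := by
    refine 𝓔.perp_of_bn hx' fun K v hv => 𝓔.E_eq (mul_mem (star_mem hv.mem) hx') (zero_mem A)
      fun a ha => ?_
    have := hyo _ (𝓔.N0_mul (Submodule.subset_span ⟨K, hv⟩) (𝓔.mem_N0_of_mem (star_mem ha)))
    rw [star_mul, star_star, mul_assoc] at this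
    rw [this, mul_zero, map_zero]
  have hE : 𝓔.E x = 𝓔.E y := by
    have := hperp 1 (nor_of_mem 𝓔.masa (one_mem A) (R124.pi_of_proj (IsStarProjection.one _)))
    rwa [star_one, one_mul, map_sub, sub_eq_zero] at this
  have hEP : EP p t ∈ M := EP_mem 𝓔.masa hp htM
  have hEPsa : IsSelfAdjoint (EP p t) := by
    rw [IsSelfAdjoint, star_EP hp.toPart0, htsa.star_eq]
  have hEsa : ∀ z ∈ M, IsSelfAdjoint z → IsSelfAdjoint (𝓔.E z) := fun z hz h => by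
    rw [IsSelfAdjoint, ← 𝓔.ce.map_star z hz, h.star_eq]
  have m1 : y - t ∈ M := sub_mem hy htM
  have m2 : EP p t - 𝓔.E t ∈ M := sub_mem hEP (𝓔.E_mem htM)
  have m3 : t - y ∈ M := sub_mem htM hy
  refine ⟨x - y, t - EP p t, (y - t) + (EP p t - 𝓔.E t) + 𝓔.E (t - y), ?_,
    ⟨hx', hsa.sub hysa, ?_, hperp⟩, ⟨add_mem (add_mem m1 m2) (𝓔.E_mem m3),
      ((hysa.sub htsa).add (hEPsa.sub (hEsa t htM htsa))).add (hEsa _ m3 (htsa.sub hysa)), ?_⟩,
    htsa.sub hEPsa, ?_, ?_, 𝓔.exists_inv hp ht⟩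
  · rw [map_sub, hE]
    abel
  · linarith [norm_sub_le x y]
  · have a1 := 𝓔.n2_add_le (add_mem m1 m2) (𝓔.E_mem m3)
    have a2 := 𝓔.n2_add_le m1 m2
    have a3 := 𝓔.n2_E_le m3
    have a4 := 𝓔.n2_sub_comm y t
    linarith
  · linarith [norm_sub_le t (EP p t), norm_EP_le hp.toPart0 t]
  · rw [map_sub, 𝓔.E_EP hp htM, sub_self]

end Nce

end Crest.Agent.R109
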