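import Mathlib

/-! Row 109 (so-paving over MASAs): definitions of the finite theory
(expected characteristic polynomials of random colourings). -/

set_option autoImplicit false

open Polynomial

namespace Crest.Agent.R109

/-- State of a vertex: uncoloured (a uniformly random colour), coloured, deleted. -/
inductive St (r : ℕ) where
  | unc : St r
  | col (i : Fin r) : St r
  | del : St r
  deriving DecidableEq

instance (r : ℕ) : Fintype (St r) where
  elems := insert St.unc (insert St.del (Finset.univ.image St.col))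
  complete := by
    intro s
    cases s <;> simp

instance (r : ℕ) : MeasurableSpace (St r) := ⊤

section Pf
variable {V R : Type*} [DecidableEq V] [CommRing R] {r : ℕ}

/-- Principal minor of `B` on the finite set `T`. -/
def minor {ι : Type*} [DecidableEq ι] (B : ι → ι → R) (T : Finset ι) : R :=
  Matrix.det (Matrix.of fun a b : T => B a b)

/-- Graph of a colouring of `U`. -/
def gr (U : Finset V) (c : U → Fin r) : Finset (V × Fin r) :=
  Finset.univ.image fun u : U => ((u : V), c u)

/-- Weighted sum over the colourings `c` of `U` of the minors on `T ∪ graph c`. -/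
def Pf (B : V × Fin r → V × Fin r → R) (π : V × Fin r → R) (U : Finset V)
    (T : Finset (V × Fin r)) : R :=
  ∑ c : U → Fin r, (∏ u : U, π ((u : V), c u)) * minor B (T ∪ gr U c)

/-- All indices that `Pf B π U T` can see. -/
def supp (U : Finset V) (T : Finset (V × Fin r)) : Finset (V × Fin r) := T ∪ U ×ˢ Finset.univ

/-- `T` has no index over `U`. -/
def Dis (U : Finset V) (T : Finset (V × Fin r)) : Prop := ∀ a ∈ T, a.1 ∉ U

end Pf

/-- Sesquilinear form of `B` on the finite set `S`. -/
noncomputable def form {ι : Type*} (B : ι → ι → ℂ) (S : Finset ι) (η : ι → ℂ) : ℂ :=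
  ∑ a ∈ S, ∑ b ∈ S, (starRingEnd ℂ) (η a) * B a b * η b

/-- Squared `ℓ²` norm on `S`. -/
noncomputable def nsq {ι : Type*} (S : Finset ι) (η : ι → ℂ) : ℝ := ∑ a ∈ S, ‖η a‖ ^ 2

/-- The imaginary part of `B` is positive definite on `S`. -/
def PosIm {ι : Type*} (B : ι → ι → ℂ) (S : Finset ι) : Prop :=
  ∀ η : ι → ℂ, (∃ a ∈ S, η a ≠ 0) → 0 < (form B S η).im

section State
variable {V : Type*} [DecidableEq V] {r : ℕ}

/-- `diag Z - M`, one copy of `M` for each colour (the diagonal of `M` is ignored). -/
def Bz (Z : V × Fin r → ℂ) (M : V → V → ℂ) : V × Fin r → V × Fin r → ℂ := fun a b =>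
  if a = b then Z a else if a.2 = b.2 then -M a.1 b.1 else 0

/-- Weight of a vertex in a state. -/
noncomputable def ws (w : V → ℝ) (s : V → St r) (u : V) : ℝ :=
  if s u = St.unc then w u else w u / 4

/-- Level of a vertex in a state. -/
noncomputable def zs (z : ℝ) (s : V → St r) (u : V) : ℝ := if s u = St.unc then z else 25 * z

/-- Uncoloured vertices. -/
def Uu (s : V → St r) (U : Finset V) : Finset V := U.filter fun u => s u = St.unc

/-- Coloured vertices, with their colours. -/
def Tc (s : V → St r) (U : Finset V) : Finset (V × Fin r) :=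
  (U ×ˢ Finset.univ).filter fun a => s a.1 = St.col a.2

/-- Vertices that are not deleted. -/
def live (s : V → St r) (U : Finset V) : Finset V := U.filter fun u => s u ≠ St.del

/-- `X + diag(ws) (diag zs - M)`. -/
noncomputable def Bp (z : ℝ) (M : V → V → ℂ) (w : V → ℝ) (s : V → St r) :
    V × Fin r → V × Fin r → ℂ[X] := fun a b =>
  if a = b then X + C ((ws w s a.1 * zs z s a.1 : ℝ) : ℂ)
  else if a.2 = b.2 then -C ((ws w s a.1 : ℂ) * M a.1 b.1) else 0

/-- The expected characteristic polynomial of the state `s` on `U`. -/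
noncomputable def PP (z : ℝ) (M : V → V → ℂ) (w : V → ℝ) (s : V → St r) (U : Finset V) : ℂ[X] :=
  Pf (Bp z M w s) (fun _ => C ((r : ℂ)⁻¹)) (Uu s U) (Tc s U)

/-- The diagonal seen at the complex point `t`: `zs + t / ws`. -/
noncomputable def Zt (z : ℝ) (w : V → ℝ) (s : V → St r) (t : ℂ) : V × Fin r → ℂ := fun a =>
  (zs z s a.1 : ℂ) + t / (ws w s a.1 : ℂ)

/-- Hermitian contraction with zero diagonal on `U`. -/
structure HC (M : V → V → ℂ) (U : Finset V) : Prop where
  herm : ∀ u ∈ U, ∀ u' ∈ U, M u' u = (starRingEnd ℂ) (M u u')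
  diag : ∀ u ∈ U, M u u = 0
  bd : ∀ η : V → ℂ, ‖form M U η‖ ≤ nsq U η

/-- Hermitian contraction with zero diagonal and `K`-Lipschitz positive weights on `U`. -/
structure Env (K : ℝ) (M : V → V → ℂ) (w : V → ℝ) (U : Finset V) : Prop extends HC M U where
  pos : ∀ u ∈ U, 0 < w u
  lip : ∀ u ∈ U, ∀ u' ∈ U, M u u' ≠ 0 → w u' ≤ K * w u

/-- The live vertices of `U` have weights in `[lo, hi]`. -/
def Rng (lo hi : ℝ) (w : V → ℝ) (s : V → St r) (U : Finset V) : Prop :=
  ∀ u ∈ U, s u ≠ St.del → lo ≤ w u ∧ w u ≤ hi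

/-- Delete the vertices of `B`. -/
def delOn (B : Finset V) (s : V → St r) : V → St r := fun u => if u ∈ B then St.del else s u

/-- `B` with the entry `(a, a)` replaced by `0`. -/
def zeroAt {ι R : Type*} [DecidableEq ι] [Zero R] (B : ι → ι → R) (a : ι) : ι → ι → R :=
  fun x y => if x = a ∧ y = a then 0 else B x y

end State

/-- `P` is the monic polynomial with the real roots `l`. -/
def RR (P : ℂ[X]) (l : Multiset ℝ) : Prop := P = (l.map fun x : ℝ => X - C (x : ℂ)).prod

/-- Sum of `φ` over the real parts of the roots. -/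
noncomputable def sumR (φ : ℝ → ℝ) (P : ℂ[X]) : ℝ := (P.roots.map fun x => φ x.re).sum

/-- Sum of the polynomial `χ` over the roots. -/
noncomputable def sumC (χ : ℂ[X]) (P : ℂ[X]) : ℂ := (P.roots.map fun x => χ.eval x).sum

/-- `t + c - ∑ ν p / (t - p)`, real version. -/
noncomputable def gR (S : Finset ℝ) (ν : ℝ → ℝ) (c : ℝ) (t : ℝ) : ℝ :=
  t + c - ∑ p ∈ S, ν p / (t - p)

/-- `t + c - ∑ ν p / (t - p)`, complex version. -/
noncomputable def gC (S : Finset ℝ) (ν : ℝ → ℝ) (c : ℝ) (t : ℂ) : ℂ :=
  t + c - ∑ p ∈ S, (ν p : ℂ) / (t - p)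

/-- Lebesgue measure of `{t > 0 : g t < 0}`. -/
noncomputable def fpos (g : ℝ → ℝ) : ℝ :=
  (MeasureTheory.volume {t : ℝ | 0 < t ∧ g t < 0}).toReal

/-- Lebesgue measure of `{t < 0 : g t > 0}`. -/
noncomputable def fneg (g : ℝ → ℝ) : ℝ :=
  (MeasureTheory.volume {t : ℝ | t < 0 ∧ 0 < g t}).toReal

/-- Number of elements of `l` above `t`. -/
noncomputable def cnt (l : Multiset ℝ) (t : ℝ) : ℕ := Multiset.card (l.filter fun x => t < x)

/-- Indicator of `{g < 0}`. -/
noncomputable def xi (g : ℝ → ℝ) (t : ℝ) : ℝ := if g t < 0 then 1 else 0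

section Incr
variable {V : Type*} [DecidableEq V] {r : ℕ}

/-- Increase of the sum of the positive roots when `v` goes from deleted to the state `o`. -/
noncomputable def Dp (z : ℝ) (M : V → V → ℂ) (w : V → ℝ) (s : V → St r) (U : Finset V) (v : V)
    (o : St r) : ℝ :=
  sumR (fun x => max x 0) (PP z M w (Function.update s v o) U) -
    sumR (fun x => max x 0) (PP z M w (Function.update s v St.del) U)

/-- Change of `sumC χ` when `v` goes from its state in `s` to the state `o`. -/
noncomputable def Ic (χ : ℂ[X]) (z : ℝ) (M : V → V → ℂ) (w : V → ℝ) (s : V → St r)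
    (U : Finset V) (v : V) (o : St r) : ℂ :=
  sumC χ (PP z M w (Function.update s v o) U) - sumC χ (PP z M w s U)

/-- Entries of the powers of the matrix `Y` restricted to `U`. -/
noncomputable def pw (U : Finset V) (Y : V → V → ℂ) : ℕ → V → V → ℂ
  | 0, x, y => if x = y then 1 else 0
  | k + 1, x, y => ∑ u ∈ U, Y x u * pw U Y k u y

/-- Diagonal entry of `χ(Y)`, `Y` restricted to `U`. -/
noncomputable def dg (χ : ℂ[X]) (U : Finset V) (Y : V → V → ℂ) (x : V) : ℂ :=
  χ.sum fun k a => a * pw U Y k x x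

/-- `M` with the entries between different colours (or non-coloured vertices) removed. -/
def Mc (M : V → V → ℂ) (c : V → Option (Fin r)) : V → V → ℂ := fun u u' =>
  if c u = c u' ∧ c u ≠ none then M u u' else 0

/-- The colour of a vertex. -/
def St.toOpt : St r → Option (Fin r)
  | St.col i => some i
  | _ => none

/-- The matrix whose characteristic polynomial is `PP` when no vertex is uncoloured. -/
noncomputable def Yc (z : ℝ) (M : V → V → ℂ) (w : V → ℝ) (s : V → St r) : V → V → ℂ :=
  fun u u' => ((w u / 4 : ℝ) : ℂ) *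
    (Mc M (fun x => (s x).toOpt) u u' - if u = u' then ((25 * z : ℝ) : ℂ) else 0)

end Incr

/-- `χ` is a real polynomial with `χ(-T) ≈ 0` and `χ' ≈ 1_{>0}` in `L¹[-T, T]`. -/
structure Chi (T β : ℝ) (χ : ℝ[X]) : Prop where
  left : |χ.eval (-T)| ≤ β
  der : ∫ t in (-T)..T, |χ.derivative.eval t - if 0 < t then 1 else 0| ≤ β

/-- A real polynomial seen as a complex one. -/
noncomputable abbrev cx (χ : ℝ[X]) : ℂ[X] := χ.map (algebraMap ℝ ℂ)

/-- The labels: the better half of the colours. -/
abbrev Lab (r : ℕ) := Fin ((r + 1) / 2)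

end Crest.Agent.R109
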