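import Crest.Agent.R109.SplitA

/-! Task 109-SPLIT: the normal and the singular part of `A ⊆ M`. -/

set_option autoImplicit false

open scoped InnerProductSpace ComplexOrder
open Filter Topology

namespace Crest.Agent.R109

variable {H : Type*} [NormedAddCommGroup H] [InnerProductSpace ℂ H] [CompleteSpace H]
variable {M A : VonNeumannAlgebra H}

open SplitA

/-- A positive functional that is strongly continuous at `0` on positive contractions is normal:
Cauchy-Schwarz gives strong continuity on bounded sets, `mazur` weak continuity (if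
`Re ψ (x i) ≥ Re ψ y + ε` frequently, pass to the finer filter and to convex combinations; apply
to `c • x` for `c = ±1, ±I`). -/
theorem normal_of_strong {ψ : Op H →ₗ[ℂ] ℂ} (hpos : ∀ x ∈ M, 0 ≤ x → 0 ≤ ψ x)
    (h : ∀ ε : ℝ, 0 < ε → ∃ (F : Finset H) (δ : ℝ), 0 < δ ∧ ∀ x ∈ M, 0 ≤ x → x ≤ 1 →
      (∀ ξ ∈ F, ‖x ξ‖ ≤ δ) → (ψ x).re ≤ ε) : Normal M ψ := by
  have hp : Pos M ψ := hpos
  intro l C y hl hy hw
  refine (tendsto_iff_ultrafilter _ _ _).2 fun U hU => ?_
  have hl' : ∀ᶠ x in (U : Filter (Op H)), x ∈ M ∧ ‖x‖ ≤ C := hU hl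
  have hw' : WLim (U : Filter (Op H)) id y := fun ξ η => (hw ξ η).mono_left hU
  have hC : 0 ≤ C := by
    obtain ⟨x, hx⟩ := hl'.exists
    exact (norm_nonneg _).trans hx.2
  obtain ⟨z, -, hz⟩ := (isCompact_closedBall (0 : ℂ) (n ψ 1 * (C * n ψ 1))).ultrafilter_le_nhds
    (U.map ψ) (by
      rw [le_principal_iff]
      change ∀ᶠ x in (U : Filter (Op H)), ψ x ∈ Metric.closedBall 0 _
      filter_upwards [hl'] with x hx
      rw [mem_closedBall_zero_iff]
      refine (hp.norm_le hx.1).trans ?_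
      have := n_nonneg ψ 1
      gcongr
      exact hx.2)
  have hz' : Tendsto ψ U (𝓝 z) := hz
  suffices hh : ψ y = z by rwa [hh]
  rw [← sub_eq_zero, ← norm_le_zero_iff]
  refine le_of_forall_pos_le_add fun ε hε => ?_
  obtain ⟨F, δ, hδ, hF⟩ := hp.strong h (C := C + ‖y‖ + 1) (by positivity) (half_pos hε)
  have hs : {x | (x ∈ M ∧ ‖x‖ ≤ C) ∧ ‖ψ x - z‖ ≤ ε / 2} ∈ (U : Filter (Op H)) := by
    filter_upwards [hl', Metric.tendsto_nhds.1 hz' _ (half_pos hε)] with x h1 h2
    exact ⟨h1, by rw [← dist_eq_norm]; exact h2.le⟩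
  obtain ⟨k, c, i, hc, hc1, hξ⟩ := mazur hw' hs F hδ
  set w := ∑ j, c j • id (i j) with hwdef
  have hwM : w ∈ M := sum_mem fun j _ => R124.rsmul_mem _ (hc j).2.1.1
  have hwC : ‖w‖ ≤ C := by
    refine (norm_sum_le _ _).trans ?_
    calc ∑ j, ‖c j • id (i j)‖ ≤ ∑ j, c j * C := Finset.sum_le_sum fun j _ => by
          rw [norm_smul, Real.norm_of_nonneg (hc j).1]
          exact mul_le_mul_of_nonneg_left (hc j).2.1.2 (hc j).1
      _ = C := by rw [← Finset.sum_mul, hc1, one_mul]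
  have h1 := hF (w - y) (sub_mem hwM hy) ((norm_sub_le _ _).trans (by linarith)) hξ
  have h2 : ‖ψ w - z‖ ≤ ε / 2 := by
    have e : ψ w - z = ∑ j, (c j : ℂ) * (ψ (i j) - z) := by
      simp only [hwdef, map_sum, map_rsmul, mul_sub, Finset.sum_sub_distrib, id]
      rw [← Finset.sum_mul, ← Complex.ofReal_sum, hc1, Complex.ofReal_one, one_mul]
    rw [e]
    refine (norm_sum_le _ _).trans ?_
    calc ∑ j, ‖(c j : ℂ) * (ψ (i j) - z)‖ ≤ ∑ j, c j * (ε / 2) := Finset.sum_le_sum fun j _ => by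
          rw [norm_mul, Complex.norm_real, Real.norm_of_nonneg (hc j).1]
          exact mul_le_mul_of_nonneg_left (hc j).2.2 (hc j).1
      _ = ε / 2 := by rw [← Finset.sum_mul, hc1, one_mul]
  rw [map_sub] at h1
  calc ‖ψ y - z‖ = ‖(ψ w - z) - (ψ w - ψ y)‖ := by congr 1; ring
    _ ≤ ‖ψ w - z‖ + ‖ψ w - ψ y‖ := norm_sub_le _ _
    _ ≤ 0 + ε := by linarith

/-- The normal part of an `A`-central positive functional `φ`. Let `‖y‖_φ² = φ (y* y)` and
`m = sup_V inf {‖t‖_φ² : t ∈ M, ‖t‖ ≤ 1, t ∈ V}`, `V` running over the strong neighbourhoods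
`{t | ∀ ξ ∈ F, ‖t ξ - ξ‖ ≤ δ}` of `1`; one may take `t ≥ 0` (replace `t` by `|t|`; for contractions
`t → 1` strongly iff `⟪ξ, t* t ξ⟫ → ‖ξ‖²` and `0 ≤ t`). Choose `0 ≤ s_i ≤ 1`, `s_i → 1` strongly,
`‖s_i‖_φ² → m` along an ultrafilter, `ψ x = lim φ (s_i x s_i)`. Parallelogram law: two such
families satisfy `‖s_i - s'_i‖_φ → 0`; apply it to `u* s_i u`, `u ∈ A` unitary, to get centrality.
If `0 ≤ x ≤ 1` is strongly small then `s_i (1 - x) s_i` is eventually strongly close to `1`, so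
`ψ (1 - x) ≥ m - ε` (`normal_of_strong`). -/
theorem exists_normal_part (h : Masa M A) {φ : Op H →ₗ[ℂ] ℂ} (hpos : ∀ x ∈ M, 0 ≤ x → 0 ≤ φ x)
    (hcen : ∀ a ∈ A, ∀ x ∈ M, φ (a * x) = φ (x * a)) :
    ∃ ψ : Op H →ₗ[ℂ] ℂ, (∀ x ∈ M, 0 ≤ x → 0 ≤ ψ x) ∧ Normal M ψ ∧
      (∀ a ∈ A, ∀ x ∈ M, ψ (a * x) = ψ (x * a)) ∧
      ∀ y ∈ M, ψ y = 0 → ∀ (F : Finset H) (ε : ℝ), 0 < ε → ∃ s ∈ M, 0 ≤ s ∧ s ≤ 1 ∧
        (∀ ξ ∈ F, ‖s ξ - ξ‖ ≤ ε) ∧ ‖φ (s * y * s)‖ ≤ ε := by
  classical
  have hp : Pos M φ := hpos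
  have hne : (sn (PC M) 1).NeBot := sn_neBot fun F δ hδ =>
    ⟨1, ⟨one_mem M, zero_le_one, le_rfl⟩, fun ξ _ => by simpa using hδ.le⟩
  have hn1 : ∀ s ∈ PC M, n φ s ≤ n φ 1 := fun s hs =>
    (hp.n_le hs.1).trans (mul_le_of_le_one_left (n_nonneg _ _) (norm_le_one hs.2.1 hs.2.2))
  have hq1 : ∀ s ∈ PC M, q φ s ≤ q φ 1 := fun s hs => by
    have := hp.q_mul_le hs.1 (one_mem M)
    rw [mul_one] at this
    exact this.trans (mul_le_of_le_one_left (hp.q_nonneg (one_mem M))
      (pow_le_one₀ (norm_nonneg _) (norm_le_one hs.2.1 hs.2.2)))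
  have hbd : IsBoundedUnder (· ≥ ·) (sn (PC M) 1) (q φ) :=
    ⟨0, (sn_mem (PC M) 1).mono fun s hs => hp.q_nonneg hs.1⟩
  have hbd' : IsBoundedUnder (· ≤ ·) (sn (PC M) 1) (q φ) :=
    ⟨q φ 1, (sn_mem (PC M) 1).mono fun s hs => hq1 s hs⟩
  set m := liminf (q φ) (sn (PC M) 1) with hm
  obtain ⟨U, hU, hUm⟩ := mapClusterPt_iff_ultrafilter.1
    (MapClusterPt.liminf (f := sn (PC M) 1) (u := q φ) hbd'.isCoboundedUnder_ge hbd)
  rw [← hm] at hUm
  have hlow : ∀ ε : ℝ, 0 < ε → ∀ᶠ s in sn (PC M) 1, m - ε < q φ s := fun ε hε =>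
    eventually_lt_of_lt_liminf (by linarith) hbd
  have hUP : ∀ᶠ s in (U : Filter (Op H)), s ∈ PC M := hU (sn_mem _ _)
  have hex : ∀ x ∈ M, ∃ z, Tendsto (fun s => φ (s * x * s)) U (𝓝 z) := by
    intro x hx
    obtain ⟨z, -, hz⟩ := (isCompact_closedBall (0 : ℂ) (n φ 1 * (‖x‖ * n φ 1))).ultrafilter_le_nhds
      (U.map fun s => φ (s * x * s)) (by
        rw [le_principal_iff]
        change ∀ᶠ s in (U : Filter (Op H)), φ (s * x * s) ∈ Metric.closedBall 0 _
        filter_upwards [hUP] with s hs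
        rw [mem_closedBall_zero_iff]
        have h1 := hp.cs3 hs.1 hx hs.1
        rw [hs.2.1.star_eq] at h1
        refine h1.trans ?_
        have := n_nonneg φ 1
        have := n_nonneg φ s
        have := hn1 s hs
        gcongr)
    exact ⟨z, hz⟩
  choose! g hg using hex
  let N : Submodule ℂ (Op H) := Subalgebra.toSubmodule M.toStarSubalgebra.toSubalgebra
  have hN : ∀ a : N, (a : Op H) ∈ M := fun a => a.2
  let ψ₀ : N →ₗ[ℂ] ℂ :=
    { toFun := fun a => g a
      map_add' := fun a b => tendsto_nhds_unique (hg _ (hN (a + b))) (by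
        simpa [mul_add, add_mul] using (hg _ (hN a)).add (hg _ (hN b)))
      map_smul' := fun c a => tendsto_nhds_unique (hg _ (hN (c • a))) (by
        simpa using (hg _ (hN a)).const_mul c) }
  obtain ⟨ψ, hψ⟩ := ψ₀.exists_extend
  have hlim : ∀ x ∈ M, Tendsto (fun s => φ (s * x * s)) U (𝓝 (ψ x)) := fun x hx => by
    have : ψ x = g x := DFunLike.congr_fun hψ ⟨x, hx⟩
    rw [this]
    exact hg x hx
  have hψpos : Pos M ψ := fun x hx h0 => ge_of_tendsto (hlim x hx) (hUP.mono fun s hs =>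
    hp _ (mul_mem (mul_mem hs.1 hx) hs.1) ((IsSelfAdjoint.of_nonneg hs.2.1).conjugate_nonneg h0))
  refine ⟨ψ, hψpos, normal_of_strong hψpos fun ε hε => ?_, hψpos.cen_of_proj h.le ?_, ?_⟩
  · obtain ⟨F, δ, hδ, hF⟩ := eventually_sn.1 (hlow ε hε)
    refine ⟨F, δ / 3, by positivity, fun x hx h0 h1 hxF => ?_⟩
    have t1 : Tendsto (fun s => (φ (s * x * s)).re) U (𝓝 (ψ x).re) :=
      (Complex.continuous_re.tendsto _).comp (hlim x hx)
    have t2 : Tendsto (fun s => q φ s - m + ε) U (𝓝 (m - m + ε)) := (hUm.sub_const m).add_const ε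
    rw [sub_self, zero_add] at t2
    refine le_of_tendsto_of_tendsto t1 t2 ?_
    filter_upwards [hUP, hU (sn_near (PC M) 1 F (δ := δ / 3) (by positivity))] with s hs hsF
    have hs1 := norm_le_one hs.2.1 hs.2.2
    have hx1 : 1 - x ∈ PC M := ⟨sub_mem (one_mem M) hx, sub_nonneg.2 h1, sub_le_self _ h0⟩
    have hw := conj_pc (IsSelfAdjoint.of_nonneg hs.2.1) hs1 hs.1 hx1
    have a1 := hF _ hw fun ξ hξ => by
      have b1 : ‖s ξ - ξ‖ ≤ δ / 3 := hsF ξ hξ
      have e : (s * (1 - x) * s) ξ - (1 : Op H) ξ = s ((1 - x) (s ξ - ξ)) + (s ξ - ξ) - s (x ξ) := by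
        simp only [ContinuousLinearMap.mul_apply, map_sub, ContinuousLinearMap.one_apply,
          ContinuousLinearMap.sub_apply]
        abel
      rw [e]
      have b2 := (apply_le hs1 ((1 - x) (s ξ - ξ))).trans (apply_le (norm_le_one hx1.2.1 hx1.2.2) _)
      have b3 := (apply_le hs1 (x ξ)).trans (hxF ξ hξ)
      refine (norm_sub_le _ _).trans ((add_le_add_left (norm_add_le _ _) _).trans ?_)
      linarith
    have a2 := hp.mono (mul_mem (star_mem hw.1) hw.1) hw.1 (mul_self_le hw.2.1 hw.2.2)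
    have e : s * (1 - x) * s = star s * s - s * x * s := by rw [hs.2.1.star_eq]; noncomm_ring
    have a3 : (φ (s * (1 - x) * s)).re = q φ s - (φ (s * x * s)).re := by
      rw [e, map_sub, Complex.sub_re, q]
    have a4 : q φ (s * (1 - x) * s) ≤ (φ (s * (1 - x) * s)).re := a2
    show (φ (s * x * s)).re ≤ q φ s - m + ε
    linarith
  · intro p hpA hpp
    set u := 1 - (p + p) with hu
    have huA : u ∈ A := sub_mem (one_mem A) (add_mem hpA hpA)
    have huM := h.le u huA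
    have hus : IsSelfAdjoint u := (IsSelfAdjoint.one _).sub (hpp.isSelfAdjoint.add hpp.isSelfAdjoint)
    have huu : u * u = 1 := by
      have : u * u = 1 - (p + p + p + p) + (p * p + p * p + p * p + p * p) := by
        rw [hu]; noncomm_ring
      rw [this, hpp.isIdempotentElem.eq, sub_add_cancel]
    have hu1 : ‖u‖ ≤ 1 := by
      have h1 : ‖star u * u‖ ≤ 1 := by
        rw [hus.star_eq, huu]
        exact norm_le_one zero_le_one le_rfl
      rw [CStarRing.norm_star_mul_self] at h1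
      nlinarith [norm_nonneg u]
    have hinv : ∀ z ∈ M, φ (u * z * u) = φ z := fun z hz => by
      rw [mul_assoc, hcen u huA _ (mul_mem hz huM), mul_assoc, huu, mul_one]
    have hqu : ∀ s, s ∈ M → q φ (u * s * u) = q φ s := fun s hs => by
      have : star (u * s * u) * (u * s * u) = u * (star s * (u * u) * s) * u := by
        simp only [star_mul, hus.star_eq, mul_assoc]
      rw [q, this, huu, mul_one, hinv _ (mul_mem (star_mem hs) hs), q]
    have hq0 : Tendsto (fun s => q φ (s - u * s * u)) U (𝓝 0) := by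
      refine Metric.tendsto_nhds.2 fun ε hε => ?_
      obtain ⟨F, δ, hδ, hF⟩ := eventually_sn.1 (hlow (ε / 8) (by positivity))
      filter_upwards [hUP, hU (sn_near (PC M) 1 (F ∪ F.image u) hδ),
        hUm.eventually (gt_mem_nhds (show m < m + ε / 8 by linarith))] with s hs hsF hsm
      have hs' := conj_pc hus hu1 huM hs
      have a1 := hF ((1 / 2 : ℝ) • (s + u * s * u)) ⟨R124.rsmul_mem _ (add_mem hs.1 hs'.1),
        smul_nonneg (by norm_num) (add_nonneg hs.2.1 hs'.2.1), by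
          refine (smul_le_smul_of_nonneg_left (add_le_add hs.2.2 hs'.2.2) (by norm_num)).trans_eq ?_
          rw [← two_smul ℝ, smul_smul]; norm_num⟩ fun ξ hξ => by
        have b1 : ‖s ξ - ξ‖ ≤ δ := hsF ξ (Finset.mem_union_left _ hξ)
        have b2 : ‖s (u ξ) - u ξ‖ ≤ δ :=
          hsF _ (Finset.mem_union_right _ (Finset.mem_image_of_mem _ hξ))
        have b3 : u (u ξ) = ξ := DFunLike.congr_fun huu ξ
        have e : ((1 / 2 : ℝ) • (s + u * s * u)) ξ - (1 : Op H) ξ =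
            (1 / 2 : ℝ) • ((s ξ - ξ) + u (s (u ξ) - u ξ)) := by
          rw [map_sub, b3]
          change (1 / 2 : ℝ) • (s ξ + u (s (u ξ))) - ξ = _
          module
        rw [e, norm_smul, Real.norm_of_nonneg (by norm_num)]
        have b4 := (norm_add_le (s ξ - ξ) _).trans (add_le_add b1 ((apply_le hu1 _).trans b2))
        linarith
      have a2 := q_par φ s (u * s * u)
      rw [hqu s hs.1] at a2
      rw [Real.dist_eq, sub_zero, abs_of_nonneg (hp.q_nonneg (sub_mem hs.1 hs'.1))]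
      linarith
    have hn0 : Tendsto (fun s => n φ (s - u * s * u)) U (𝓝 0) := by
      simpa [n] using hq0.sqrt
    have hψu : ∀ x ∈ M, ψ (u * x * u) = ψ x := by
      intro x hx
      refine tendsto_nhds_unique (hlim _ (mul_mem (mul_mem huM hx) huM)) ?_
      have t : Tendsto (fun s => φ (s * x * s) - φ (s * (u * x * u) * s)) U (𝓝 0) := by
        have t1 := hn0.mul_const (2 * (‖x‖ * n φ 1))
        rw [zero_mul] at t1
        refine squeeze_zero_norm' ?_ t1
        filter_upwards [hUP] with s hs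
        have hs' := conj_pc hus hu1 huM hs
        have hd := sub_mem hs.1 hs'.1
        have e1 : φ (s * (u * x * u) * s) = φ (u * s * u * x * (u * s * u)) := by
          rw [← hinv _ (mul_mem (mul_mem hs.1 (mul_mem (mul_mem huM hx) huM)) hs.1)]
          simp only [mul_assoc]
        have e2 : φ (s * x * s) - φ (u * s * u * x * (u * s * u)) =
            φ (star (s - u * s * u) * x * s) + φ (star (u * s * u) * x * (s - u * s * u)) := by
          rw [star_sub, hs.2.1.star_eq, hs'.2.1.star_eq, ← map_sub, ← map_add]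
          congr 1
          noncomm_ring
        rw [e1, e2]
        have a1 := hp.cs3 hd hx hs.1
        have a2 := hp.cs3 hs'.1 hx hd
        have a3 := hn1 s hs
        have a4 := hn1 _ hs'
        have a5 := n_nonneg φ (s - u * s * u)
        have a6 : n φ (s - u * s * u) * (‖x‖ * n φ s) ≤ n φ (s - u * s * u) * (‖x‖ * n φ 1) := by
          gcongr
        have a7 : n φ (u * s * u) * (‖x‖ * n φ (s - u * s * u)) ≤
            n φ 1 * (‖x‖ * n φ (s - u * s * u)) := by gcongr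
        refine (norm_add_le _ _).trans ?_
        linarith
      simpa using (hlim x hx).sub t
    intro x hx
    have h1 := hψu _ (mul_mem huM hx)
    rw [← mul_assoc, huu, one_mul, hu, mul_sub, sub_mul, mul_add, add_mul, mul_one, one_mul] at h1
    simp only [map_sub, map_add] at h1
    linear_combination h1 / 2
  · intro y hy h0 F ε hε
    have t := hlim y hy
    rw [h0] at t
    obtain ⟨s, ⟨hs, hsF⟩, hs'⟩ := ((hUP.and (hU (sn_near (PC M) 1 F hε))).and
      (Metric.tendsto_nhds.1 t ε hε)).exists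
    rw [dist_zero_right] at hs'
    exact ⟨s, hs.1, hs.2.1, hs.2.2, hsF, hs'.le⟩

/-- Support. Zorn: a maximal orthogonal family of null projections has a null sum `1 - e`
(normality along finite partial sums, or use `R124.exists_maximal_pi`); `R124.sp` gives
faithfulness on `e M e`; every null projection is below `1 - e`, so `e` commutes with the
symmetries `1 - 2 p`, `p ∈ A`. -/
theorem exists_supp (h : Masa M A) {ψ : Op H →ₗ[ℂ] ℂ} (hpos : ∀ x ∈ M, 0 ≤ x → 0 ≤ ψ x)
    (hn : Normal M ψ) (hcen : ∀ a ∈ A, ∀ x ∈ M, ψ (a * x) = ψ (x * a)) :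
    ∃ e ∈ A, IsStarProjection e ∧ ψ (1 - e) = 0 ∧
      ∀ x ∈ M, ψ (star x * x) = 0 → x * e = 0 := by
  have hp : Pos M ψ := hpos
  obtain ⟨f, hfM, -, ⟨hf, hf0⟩, hmax⟩ := R124.exists_maximal_pi M
    (fun v => IsStarProjection v ∧ ψ v = 0) ⟨IsStarProjection.zero _, map_zero _⟩ (by
      intro C v hC hvM hv hap
      have hsa : star v = v := by
        ext ξ
        rw [← sub_eq_zero, ← norm_le_zero_iff]
        refine le_of_forall_pos_le_add fun ε hε => ?_
        obtain ⟨w, hw, hw'⟩ := hap {ξ} _ (half_pos hε)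
        obtain ⟨b1, b2⟩ := hw' ξ (Finset.mem_singleton_self ξ)
        rw [(hC w hw).2.2.1.1.isSelfAdjoint.star_eq] at b2
        calc ‖star v ξ - v ξ‖ = ‖(w ξ - v ξ) - (w ξ - star v ξ)‖ := by congr 1; abel
          _ ≤ _ := norm_sub_le _ _
          _ ≤ 0 + ε := by linarith
      have hid : v * v = v := hap.mul_left fun w hw => by
        have := (hC w hw).2.2.2
        rwa [R124.Ext, (hC w hw).2.2.1.1.isSelfAdjoint.star_eq,
          (hC w hw).2.2.1.1.isIdempotentElem.eq] at this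
      refine ⟨isStarProjection_iff'.2 ⟨hid, hsa⟩, ?_⟩
      have : (sn C v).NeBot := sn_neBot fun F δ hδ => by
        obtain ⟨w, hw, hw'⟩ := hap F δ hδ
        exact ⟨w, hw, fun ξ hξ => (hw' ξ hξ).1⟩
      have t := hn (sn C v) 1 v ((sn_mem C v).mono fun w hw => ⟨(hC w hw).1, (hC w hw).2.1.norm_le⟩)
        hvM (sn_wLim C v)
      exact tendsto_nhds_unique t (tendsto_const_nhds.congr'
        ((sn_mem C v).mono fun w hw => (hC w hw).2.2.1.2.symm)))
  have hfs := hf.isSelfAdjoint.star_eq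
  have hff : ψ (star f * f) = 0 := by rw [hfs, hf.isIdempotentElem.eq, hf0]
  have heM : 1 - f ∈ M := sub_mem (one_mem M) hfM
  have key : ∀ x ∈ M, ψ (star x * x) = 0 → x * (1 - f) = 0 := by
    intro x hx h0
    by_contra hne
    set z := x * (1 - f) with hz
    have hzM : z ∈ M := mul_mem hx heM
    have ha0 := star_mul_self_nonneg z
    have haM := mul_mem (star_mem hzM) hzM
    have ha : ψ (star z * z) = 0 := by
      have e : star z * z = star z * x - star (star x * z) * f := by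
        conv_lhs => rw [hz]
        simp only [star_mul, star_star, ← hz]
        rw [hz]
        noncomm_ring
      rw [e, map_sub, hp.null_right hzM hx h0, hp.null_right (mul_mem (star_mem hx) hzM) hfM hff,
        sub_zero]
    obtain ⟨t, ht, hg0⟩ := R124.exists_sp_ne_zero ha0
      fun h' => hne ((CStarRing.star_mul_self_eq_zero_iff _).1 h')
    have hle := smul_sp_le' ha0 t
    have hg := R124.sp_proj (star z * z) t
    have hgM := R124.sp_mem (IsSelfAdjoint.of_nonneg ha0) haM t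
    set g := R124.sp (star z * z) t
    have hgf : g * f = 0 := proj_mul_eq_zero hg ht hle hf.isSelfAdjoint (by
      rw [mul_assoc, hz, mul_assoc, hf.one_sub_mul_self, mul_zero, mul_zero])
    have hfg : f * g = 0 := by
      simpa [hfs, hg.isSelfAdjoint.star_eq] using congrArg star hgf
    have hψg : ψ g = 0 := hp.eq_zero hgM hg.nonneg (by
      have := hp.mono (R124.rsmul_mem t hgM) haM hle
      rw [ha, re_rsmul, Complex.zero_re] at this
      by_contra hc
      push Not at hc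
      nlinarith [mul_pos ht hc])
    have hfg' := hf.add hg hfg
    have := hmax (f + g) (add_mem hfM hgM) (R124.pi_of_proj hfg') ⟨hfg', by
      rw [map_add, hf0, hψg, add_zero]⟩ (by
        rw [R124.Ext, hfs, hf.isIdempotentElem.eq, add_mul, hgf, hf.isIdempotentElem.eq, add_zero])
    exact hg0 (by simpa using this)
  have key2 : ∀ a ∈ A, (1 - (1 - f)) * a * (1 - f) = 0 := by
    intro a ha
    rw [sub_sub_cancel]
    have haM := h.le a ha
    refine key _ (mul_mem hfM haM) ?_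
    rw [star_mul, mul_assoc, hcen _ (star_mem ha) _ (mul_mem (star_mem hfM) (mul_mem hfM haM)),
      mul_assoc]
    exact hp.null_left hfM (mul_mem (mul_mem hfM haM) (star_mem haM)) hff
  exact ⟨1 - f, h.max _ heM fun a ha => R124.comm_of_inv hf.one_sub (key2 a ha)
    (key2 _ (star_mem ha)), hf.one_sub, by rw [sub_sub_cancel, hf0], key⟩

/-- `exists_ce`; `ψ (E x) = lim ψ (EP p x) = ψ x`. -/
theorem exists_nce (h : Masa M A) {ψ : Op H →ₗ[ℂ] ℂ} (hpos : ∀ x ∈ M, 0 ≤ x → 0 ≤ ψ x)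
    (hn : Normal M ψ) (hcen : ∀ a ∈ A, ∀ x ∈ M, ψ (a * x) = ψ (x * a))
    (hf : ∀ x ∈ M, ψ (star x * x) = 0 → x = 0) : Nonempty (Nce M A) := by
  obtain ⟨E, U, hE, -, hlim⟩ := exists_ce h
  refine ⟨⟨h, E, hE, ψ, hpos, fun x hx => ?_, hf, hn⟩⟩
  have t := hn.tendsto (C := ‖x‖) (Eventually.of_forall fun P : PT A =>
    ⟨EP_mem h P.2.2 hx, norm_EP_le P.2.2.toPart0 x⟩) (h.le _ (hE.mem x hx)) (hlim x)
  refine tendsto_nhds_unique t (tendsto_const_nhds.congr fun P => ?_)
  have e : ∀ i, ψ (P.2.1 i * x * P.2.1 i) = ψ (x * P.2.1 i) := fun i => by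
    rw [mul_assoc, hcen _ (P.2.2.mem i) _ (mul_mem hx (h.le _ (P.2.2.mem i))), mul_assoc,
      (P.2.2.proj i).isIdempotentElem.eq]
  simp only [EP, map_sum, e]
  rw [← map_sum, ← Finset.mul_sum, P.2.2.sum, mul_one]

/-- Apply the above to `φ = ψ₀ ∘ E`, `ψ₀ = ∑_{ξ ∈ F} ⟪ξ, · ξ⟫`. On the corner use `ψ ∘ lift e`.
With `f = 1 - e`, `y = f s f s f`: `φ y ≤ φ (s f s)` is small (centrality), `y ξ ≈ f ξ`; take
`q = sp y (1/2) ≤ 2 y`, `f - q ≤ 2 (f - y)`; `φ q = lim_P ∑_ξ ∑_i ‖q (p i ξ)‖²`. -/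
theorem split (h : Masa M A) (F : Finset H) : ∃ e ∈ A, IsStarProjection e ∧
    Nonempty (Nce (R124.corner M e) (R124.corner A e)) ∧
    ∀ κ : ℝ, 0 < κ → ∃ q ∈ M, IsStarProjection q ∧ q * e = 0 ∧
      (∀ ξ ∈ F, ‖(1 - e) ξ - q ξ‖ ≤ κ) ∧
      ∃ (n : ℕ) (p : Fin n → Op H), Part A p ∧ ∀ ξ ∈ F, ∑ i, ‖q (p i ξ)‖ ^ 2 ≤ κ := by
  classical
  obtain ⟨E, U, hE, -, hlim⟩ := exists_ce h
  let φ : Op H →ₗ[ℂ] ℂ :=
    { toFun := fun x => ∑ ξ ∈ F, ⟪ξ, E x ξ⟫_ℂ
      map_add' := fun x y => by simp [inner_add_right, Finset.sum_add_distrib]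
      map_smul' := fun c x => by simp [inner_smul_right, Finset.mul_sum] }
  have hφ : ∀ x, φ x = ∑ ξ ∈ F, ⟪ξ, E x ξ⟫_ℂ := fun _ => rfl
  have hp : Pos M φ := fun x hx h0 => Finset.sum_nonneg fun ξ _ =>
    ((ContinuousLinearMap.nonneg_iff_isPositive _).1 (hE.nonneg x hx h0)).inner_nonneg_right ξ
  have hcen : ∀ a ∈ A, ∀ x ∈ M, φ (a * x) = φ (x * a) := fun a ha x hx => by
    rw [hφ, hφ, hE.left a ha x hx, hE.right a ha x hx, h.comm a ha _ (hE.mem x hx)]
  obtain ⟨ψ, hψ, hn, hc, hsing⟩ := exists_normal_part h hp hcen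
  obtain ⟨e, heA, he, he0, hfaith⟩ := exists_supp h hψ hn hc
  have heM := h.le e heA
  refine ⟨e, heA, he, ?_, fun κ hκ => ?_⟩
  · let L : Op (R124.cS e) →ₗ[ℂ] Op H :=
      { toFun := R124.lift e
        map_add' := R124.lift_add
        map_smul' := R124.lift_csmul }
    have hM : ∀ {x}, x ∈ R124.corner M e → R124.lift e x ∈ M := (R124.mem_corner he heM).1
    refine exists_nce (h.corner he heA) (ψ := ψ ∘ₗ L) (fun x hx h0 => hψ _ (hM hx) ?_) ?_ ?_ ?_
    · obtain ⟨b, rfl⟩ := (CStarAlgebra.nonneg_iff_eq_star_mul_self).1 h0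
      change 0 ≤ R124.lift e _
      rw [R124.lift_mul, R124.lift_star]
      exact star_mul_self_nonneg _
    · intro l C y hl hy hw
      refine hn.tendsto (x := R124.lift e) (C := C)
        (hl.mono fun x hx => ⟨hM hx.1, by rw [R124.norm_lift]; exact hx.2⟩) (hM hy) fun ξ η => ?_
      have e1 : ∀ T, ⟪ξ, R124.lift e T η⟫_ℂ = ⟪ContinuousLinearMap.adjoint (R124.inc e) ξ,
          T (ContinuousLinearMap.adjoint (R124.inc e) η)⟫_ℂ := fun T => by
        rw [ContinuousLinearMap.adjoint_inner_left]; rfl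
      change Tendsto (fun T => ⟪ξ, R124.lift e T η⟫_ℂ) l (𝓝 ⟪ξ, R124.lift e y η⟫_ℂ)
      simp only [e1]
      exact hw _ _
    · intro a ha x hx
      change ψ (R124.lift e _) = ψ (R124.lift e _)
      rw [R124.lift_mul, R124.lift_mul]
      exact hc _ ((R124.mem_corner he heA).1 ha) _ (hM hx)
    · intro x hx h0
      change ψ (R124.lift e _) = 0 at h0
      rw [R124.lift_mul, R124.lift_star] at h0
      have := hfaith _ (hM hx) h0
      rw [R124.lift_mul_self he] at this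
      exact R124.lift_injective (this.trans R124.lift_zero.symm)
  set f := 1 - e with hfdef
  have hf : IsStarProjection f := he.one_sub
  have hfA : f ∈ A := sub_mem (one_mem A) heA
  have hfM := h.le f hfA
  obtain ⟨s, hsM, hs0, hs1, hsF, hsφ⟩ := hsing f hfM he0 (F.image f) (κ / 4) (by positivity)
  have hz := conj_pc (IsSelfAdjoint.of_nonneg hs0) (norm_le_one hs0 hs1) hsM
    ⟨hfM, hf.nonneg, hf.le_one⟩
  have hy := conj_pc hf.isSelfAdjoint hf.norm_le hfM hz
  set z := s * f * s with hzdef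
  set y := f * z * f with hydef
  have hys := IsSelfAdjoint.of_nonneg hy.2.1
  have hg := R124.sp_proj y (1 / 2)
  have hgM := R124.sp_mem hys hy.1 (1 / 2)
  have hle := smul_sp_le' hy.2.1 (1 / 2)
  have hge : R124.sp y (1 / 2) * e = 0 := proj_mul_eq_zero hg (by norm_num) hle he.isSelfAdjoint (by
    rw [hydef, mul_assoc, hfdef, he.one_sub_mul_self, mul_zero])
  refine ⟨_, hgM, hg, hge, fun ξ hξ => ?_, ?_⟩
  · have h1 := norm_sub_sp_le hys (f ξ)
    have h2 : R124.sp y (1 / 2) (f ξ) = R124.sp y (1 / 2) ξ := by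
      change (R124.sp y (1 / 2) * f) ξ = _
      rw [hfdef, mul_sub, hge, sub_zero, mul_one]
    rw [h2] at h1
    refine h1.trans ?_
    have b1 : ‖s (f ξ) - f ξ‖ ≤ κ / 4 := hsF _ (Finset.mem_image_of_mem _ hξ)
    have b2 : f (f ξ) = f ξ := DFunLike.congr_fun hf.isIdempotentElem.eq ξ
    have e1 : f ξ - y (f ξ) = -(f (s (f (s (f ξ) - f ξ))) + f (s (f ξ) - f ξ)) := by
      change f ξ - f (s (f (s (f (f ξ))))) = _
      simp only [map_sub, b2]
      abel
    rw [e1, norm_neg]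
    have b3 := (apply_le hf.norm_le _).trans ((apply_le (norm_le_one hs0 hs1) _).trans
      ((apply_le hf.norm_le _).trans b1))
    have b4 := (apply_le hf.norm_le _).trans b1
    have b5 := (norm_add_le _ _).trans (add_le_add b3 b4)
    linarith
  have a1 : (φ y).re ≤ κ / 4 := by
    have e1 : φ y = φ (z * f) := by
      rw [hydef, mul_assoc, hcen f hfA _ (mul_mem hz.1 hfM), mul_assoc, hf.isIdempotentElem.eq]
    have e2 : φ (e * z * e) = φ (z * e) := by
      rw [mul_assoc, hcen e heA _ (mul_mem hz.1 heM), mul_assoc, he.isIdempotentElem.eq]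
    have e3 := hp.re_nonneg (mul_mem (mul_mem heM hz.1) heM) (he.isSelfAdjoint.conjugate_nonneg hz.2.1)
    rw [e1, hfdef, mul_sub, mul_one, map_sub, Complex.sub_re, ← e2]
    have := (Complex.re_le_norm _).trans hsφ
    linarith
  have a2 := hp.mono (R124.rsmul_mem (1 / 2) hgM) hy.1 hle
  rw [re_rsmul] at a2
  set g := R124.sp y (1 / 2)
  have t : Tendsto (fun P : PT A => (∑ ξ ∈ F, ⟪ξ, EP P.2.1 g ξ⟫_ℂ).re) U (𝓝 (φ g).re) :=
    (Complex.continuous_re.tendsto _).comp (tendsto_finsetSum F fun ξ _ => hlim g ξ ξ)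
  obtain ⟨P, hP⟩ := (t.eventually (gt_mem_nhds (show (φ g).re < κ by linarith))).exists
  refine ⟨P.1, P.2.1, P.2.2, fun ξ hξ => ?_⟩
  have e1 : ∀ η, (⟪η, EP P.2.1 g η⟫_ℂ).re = ∑ i, ‖g (P.2.1 i η)‖ ^ 2 := fun η => by
    rw [EP, ContinuousLinearMap.sum_apply, inner_sum, Complex.re_sum]
    refine Finset.sum_congr rfl fun i _ => ?_
    have : P.2.1 i * g * P.2.1 i = star (g * P.2.1 i) * (g * P.2.1 i) := by
      rw [star_mul, hg.isSelfAdjoint.star_eq, (P.2.2.proj i).isSelfAdjoint.star_eq, mul_assoc,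
        mul_assoc, ← mul_assoc g, hg.isIdempotentElem.eq]
    rw [this]
    change (⟪η, star (g * P.2.1 i) ((g * P.2.1 i) η)⟫_ℂ).re = _
    rw [ContinuousLinearMap.star_eq_adjoint, ContinuousLinearMap.adjoint_inner_right]
    exact inner_self_eq_norm_sq (𝕜 := ℂ) _
  rw [Complex.re_sum] at hP
  simp only [e1] at hP
  exact (Finset.single_le_sum (f := fun η => ∑ i, ‖g (P.2.1 i η)‖ ^ 2)
    (fun η _ => Finset.sum_nonneg fun i _ => sq_nonneg _) hξ).trans hP.le

end Crest.Agent.R109
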