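import Crest.Agent.R109.Maine
import Crest.Agent.R109.Split

/-! Task 109-FINAL: the two theorems for `‖x‖ = 1`. -/

set_option autoImplicit false

open scoped InnerProductSpace ComplexOrder

namespace Crest.Agent.R109

variable {H : Type*} [NormedAddCommGroup H] [InnerProductSpace ℂ H] [CompleteSpace H]
variable {M A : VonNeumannAlgebra H}

namespace FinA

theorem swap {p q : Op H} (hp : IsStarProjection p) (hq : IsStarProjection q) {c : Op H}
    (hc : star c = c) (h : p * q = c) : q * p = c := by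
  simpa [hp.isSelfAdjoint.star_eq, hq.isSelfAdjoint.star_eq, hc] using congrArg star h

theorem block {e u v : Op H} (he : IsStarProjection e) {c : ℝ} (hu : ‖u‖ ≤ c) (hv : ‖v‖ ≤ c) :
    ‖e * u * e + (1 - e) * v * (1 - e)‖ ≤ c := by
  have h1 : ∀ {p y : Op H}, IsStarProjection p → ‖y‖ ≤ c → ‖p * y * p‖ ≤ c := by
    intro p y hp hy
    have := hp.norm_le
    calc ‖p * y * p‖ ≤ ‖p‖ * ‖y‖ * ‖p‖ := norm_mul₃_le
      _ ≤ 1 * c * 1 := by gcongr; exact mul_nonneg zero_le_one ((norm_nonneg _).trans hy)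
      _ = c := by ring
  have hP := part_two (A := R124.vnOf ∅) he (by simp [R124.mem_vnOf])
  have := norm_sum_orth_le (p := ![e, 1 - e]) (q := ![e, 1 - e]) (y := ![u, v]) hP.proj hP.orth
    hP.proj hP.orth ((norm_nonneg _).trans hu) (fun i => by
      fin_cases i
      · exact h1 he hu
      · exact h1 he.one_sub hv)
  simpa using this

theorem conj_le {p y : Op H} (hp : IsStarProjection p) : ‖p * y * p‖ ≤ ‖y‖ := by
  have := hp.norm_le
  calc ‖p * y * p‖ ≤ ‖p‖ * ‖y‖ * ‖p‖ := norm_mul₃_le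
    _ ≤ 1 * ‖y‖ * 1 := by gcongr
    _ = ‖y‖ := by ring

variable {ι κ : Type*} [Fintype ι] [Fintype κ] {e : Op H} {p : ι → Op H} {P : κ → Op H}

theorem mul_e (hp : ∀ o, p o ∈ A ∧ IsStarProjection (p o))
    (ho : ∀ o o', o ≠ o' → p o * p o' = 0) (hs : ∑ o, p o = e) (o : ι) : p o * e = p o := by
  rw [← hs, Finset.mul_sum, Finset.sum_eq_single o (fun o' _ h => ho o o' h.symm) (by simp)]
  exact (hp o).2.isIdempotentElem.eq

theorem part (h : Masa M A) (he : IsStarProjection e) (heA : e ∈ A)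
    (hp : ∀ o, p o ∈ A ∧ IsStarProjection (p o)) (ho : ∀ o o', o ≠ o' → p o * p o' = 0)
    (hs : ∑ o, p o = e) (hP : Part A P) : Part A (Sum.elim p fun i => P i * (1 - e)) := by
  have h1 := sub_mem (one_mem A) heA
  have hc : ∀ i, P i * (1 - e) = (1 - e) * P i := fun i => h.comm _ (hP.mem i) _ h1
  have h2 : ∀ i, IsStarProjection (P i * (1 - e)) := fun i => (hP.proj i).mul he.one_sub (hc i)
  have h3 : ∀ o i, p o * (P i * (1 - e)) = 0 := fun o i => by
    rw [hc, ← mul_assoc, mul_sub, mul_one, mul_e hp ho hs, sub_self, zero_mul]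
  refine ⟨⟨?_, ?_, ?_⟩, ?_⟩
  · rintro (o | i)
    exacts [(hp o).2, h2 i]
  · rintro (o | i) (o' | i') hne
    · exact ho o o' fun h => hne (congrArg _ h)
    · exact h3 o i'
    · exact swap (hp o').2 (h2 i) (star_zero _) (h3 o' i)
    · show P i * (1 - e) * (P i' * (1 - e)) = 0
      rw [hc i, mul_assoc, ← mul_assoc (P i), hP.orth i i' fun h => hne (congrArg _ h)]
      simp
  · simp only [Fintype.sum_sum_type, Sum.elim_inl, Sum.elim_inr, hs, ← Finset.sum_mul, hP.sum]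
    simp
  · rintro (o | i)
    exacts [(hp o).1, mul_mem (hP.mem i) h1]

theorem EP_elim (h : Masa M A) (heA : e ∈ A) (hP : Part A P) (p : ι → Op H) (x : Op H) :
    EP (Sum.elim p fun i => P i * (1 - e)) x = EP p x + (1 - e) * EP P x * (1 - e) := by
  simp only [EP, Fintype.sum_sum_type, Sum.elim_inl, Sum.elim_inr, Finset.mul_sum, Finset.sum_mul]
  congr 1
  refine Finset.sum_congr rfl fun i _ => ?_
  nth_rw 1 [h.comm _ (hP.mem i) _ (sub_mem (one_mem A) heA)]
  simp only [mul_assoc]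

theorem e_EP (he : IsStarProjection e) (hp : ∀ o, p o ∈ A ∧ IsStarProjection (p o))
    (ho : ∀ o o', o ≠ o' → p o * p o' = 0) (hs : ∑ o, p o = e) (x : Op H) :
    e * EP p x = EP p x ∧ EP p x * e = EP p x := by
  have h1 := mul_e hp ho hs
  have h2 : ∀ o, e * p o = p o := fun o => swap (hp o).2 he (hp o).2.isSelfAdjoint.star_eq (h1 o)
  constructor
  · simp only [EP, Finset.mul_sum, ← mul_assoc, h2]
  · simp only [EP, Finset.sum_mul, mul_assoc, h1]

end FinA

/-- `split`, `mainc`, `exists_cut` (for `e` and `d`), `sing143`; the partition consists of the `p o`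
and the `P i * (1 - e)`; `q = q₁ + q₂`, `a = a₁ + a₂ (1 - e)`; everything is block diagonal for
`e, 1 - e` (`norm_sum_orth_le`). -/
theorem final143 (h : Masa M A) {x : Op H} (hx : x ∈ M) (hsa : IsSelfAdjoint x) (h1 : ‖x‖ ≤ 1)
    (r₁ r₂ : ℕ) [NeZero r₁] [NeZero r₂] (F : Finset H) {κ : ℝ} (hκ : 0 < κ) :
    ∃ p : Option (Fin r₁) ⊕ Fin r₂ → Op H, Part A p ∧ ∃ a ∈ A, IsSelfAdjoint a ∧ ‖a‖ ≤ ‖x‖ ∧
      ∃ q ∈ M, IsStarProjection q ∧ (∀ ξ ∈ F, ‖(1 - q) ξ‖ ≤ κ) ∧
        ‖q * (EP p x - a) * q‖ ≤ 250 / Real.sqrt r₁ + 2 / r₂ + κ := by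
  obtain ⟨e, heA, he, ⟨𝓔⟩, hS⟩ := split h F
  obtain ⟨p, hp, ho, hs, a₁, ha₁A, ha₁, ha₁n, ha₁e, d, hdM, hd, hEd, hdF, hmain⟩ :=
    mainc h he heA 𝓔 hx hsa h1 r₁ F (show 0 < κ ^ 2 / 4 by positivity)
  have hed : e * d = d := by rw [← hEd]; exact (FinA.e_EP he hp ho hs d).1
  obtain ⟨q₁, hq₁M, hq₁, hq₁e, hq₁d, hq₁F⟩ :=
    exists_cut he (h.le e heA) hd hdM hed (half_pos hκ)
  obtain ⟨q₂, hq₂M, hq₂, hq₂e, hq₂F, P, hP, a₂, ha₂A, ha₂, ha₂n, hsing⟩ :=
    sing143 h he heA hS r₂ (half_pos hκ) hx hsa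
  have heq₁ : e * q₁ = q₁ := FinA.swap hq₁ he hq₁.isSelfAdjoint.star_eq hq₁e
  have heq₂ : e * q₂ = 0 := FinA.swap hq₂ he (star_zero _) hq₂e
  have h1e := sub_mem (one_mem A) heA
  have hea₁ : e * a₁ = a₁ := by rw [h.comm e heA a₁ ha₁A, ha₁e]
  have ha₁' : e * a₁ * e = a₁ := by rw [hea₁, ha₁e]
  obtain ⟨hE1, hE2⟩ := FinA.e_EP he hp ho hs x
  refine ⟨_, FinA.part h he heA hp ho hs hP, a₁ + (1 - e) * a₂ * (1 - e),
    add_mem ha₁A (mul_mem (mul_mem h1e ha₂A) h1e),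
    ha₁.add (by simpa [he.one_sub.isSelfAdjoint.star_eq] using ha₂.conjugate (1 - e)), ?_,
    q₁ + q₂, add_mem hq₁M hq₂M,
    hq₁.add hq₂ (by rw [← hq₁e, mul_assoc, heq₂, mul_zero]), fun ξ hξ => ?_, ?_⟩
  · rw [← ha₁']
    exact FinA.block he ha₁n ha₂n
  · have h2 : (1 - (q₁ + q₂)) ξ = (e ξ - q₁ ξ) + ((1 - e) ξ - q₂ ξ) := by
      simp only [ContinuousLinearMap.sub_apply, ContinuousLinearMap.add_apply,
        ContinuousLinearMap.one_apply]
      abel
    have h3 : ‖d ξ‖ / (κ / 2) ≤ κ / 2 := by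
      rw [div_le_iff₀ (half_pos hκ)]
      linarith [hdF ξ hξ]
    rw [h2]
    linarith [norm_add_le (e ξ - q₁ ξ) ((1 - e) ξ - q₂ ξ), hq₁F ξ, hq₂F ξ hξ]
  · have hY : EP p x - a₁ = e * (EP p x - a₁) * e := by
      rw [mul_sub, sub_mul, hE1, hE2, ha₁']
    have k1 : (q₁ + q₂) * e = q₁ := by rw [add_mul, hq₁e, hq₂e, add_zero]
    have k2 : e * (q₁ + q₂) = q₁ := by rw [mul_add, heq₁, heq₂, add_zero]
    have k3 : (q₁ + q₂) * (1 - e) = q₂ := by rw [mul_sub, k1]; simp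
    have k4 : (1 - e) * (q₁ + q₂) = q₂ := by rw [sub_mul, k2]; simp
    have h2 : (q₁ + q₂) * (EP (Sum.elim p fun i => P i * (1 - e)) x -
        (a₁ + (1 - e) * a₂ * (1 - e))) * (q₁ + q₂) =
        q₁ * (EP p x - a₁ - d) * q₁ + q₁ * d * q₁ + q₂ * (EP P x - a₂) * q₂ := by
      rw [FinA.EP_elim h heA hP]
      calc _ = (q₁ + q₂) * (EP p x - a₁) * (q₁ + q₂) +
            ((q₁ + q₂) * (1 - e)) * (EP P x - a₂) * ((1 - e) * (q₁ + q₂)) := by noncomm_ring
        _ = ((q₁ + q₂) * e) * (EP p x - a₁) * (e * (q₁ + q₂)) + q₂ * (EP P x - a₂) * q₂ := by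
            rw [k3, k4]; nth_rw 1 [hY]; simp only [mul_assoc]
        _ = _ := by rw [k1, k2]; noncomm_ring
    rw [h2]
    have h3 := (FinA.conj_le (y := EP p x - a₁ - d) hq₁).trans hmain
    have h4 : 2 * ‖x‖ / r₂ ≤ 2 / r₂ := by gcongr; linarith
    linarith [norm_add₃_le (a := q₁ * (EP p x - a₁ - d) * q₁) (b := q₁ * d * q₁)
      (c := q₂ * (EP P x - a₂) * q₂)]

/-- `split` for `F ∪ x F`, `mainc`, `sing144`; `y = (e + q) x (e + q) - t d` with
`t = (1 + 250 / √r₁)⁻¹` (so `‖t d‖ ≤ 2`); `EP p y = (EP p₁ x - t d) + ∑ P_i (1 - e) q x q P_i (1 - e)`. -/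
theorem final144 (h : Masa M A) {x : Op H} (hx : x ∈ M) (hsa : IsSelfAdjoint x) (h1 : ‖x‖ ≤ 1)
    (r₁ r₂ : ℕ) [NeZero r₁] [NeZero r₂] (F : Finset H) {κ : ℝ} (hκ : 0 < κ) :
    ∃ y ∈ M, IsSelfAdjoint y ∧ ‖y‖ ≤ 3 ∧ (∀ ξ ∈ F, ‖(y - x) ξ‖ ≤ κ) ∧
      ∃ p : Option (Fin r₁) ⊕ Fin r₂ → Op H, Part A p ∧ ∃ a ∈ A, IsSelfAdjoint a ∧
        ‖EP p y - a‖ ≤ 750 / Real.sqrt r₁ + 1 / r₂ + κ := by
  classical
  obtain ⟨e, heA, he, ⟨𝓔⟩, hS⟩ := split h (F ∪ F.image x)
  have hκ3 : 0 < κ / 3 := by positivity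
  obtain ⟨p, hp, ho, hs, a₁, ha₁A, ha₁, ha₁n, -, d, hdM, hd, hEd, hdF, hmain⟩ :=
    mainc h he heA 𝓔 hx hsa h1 r₁ F hκ3
  obtain ⟨q, hqM, hq, hqe, hqF, P, hP, hsing⟩ := sing144 h he heA hS r₂ hκ3
  have heq : e * q = 0 := FinA.swap hq he (star_zero _) hqe
  have hf : IsStarProjection (e + q) := he.add hq heq
  have hfM : e + q ∈ M := add_mem (h.le e heA) hqM
  set c : ℝ := 250 / Real.sqrt r₁ with hc
  have hc0 : 0 ≤ c := by positivity
  have hEx : ‖EP p x‖ ≤ 1 :=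
    norm_sum_orth_le (y := fun _ => x) (fun o => (hp o).2) ho (fun o => (hp o).2) ho zero_le_one
      fun o => (FinA.conj_le (hp o).2).trans h1
  have hdn : ‖d‖ ≤ 2 + c := by
    have h2 : d = EP p x - a₁ - (EP p x - a₁ - d) := by abel
    have h3 := norm_sub_le (EP p x - a₁) (EP p x - a₁ - d)
    rw [← h2] at h3
    linarith [norm_sub_le (EP p x) a₁]
  set t : ℝ := (1 + c)⁻¹ with ht
  have ht0 : 0 < t := by positivity
  have ht1 : t * (1 + c) = 1 := inv_mul_cancel₀ (by positivity)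
  have ht2 : t ≤ 1 := by nlinarith
  refine ⟨(e + q) * x * (e + q) - t • d,
    sub_mem (mul_mem (mul_mem hfM hx) hfM) (R124.rsmul_mem _ hdM),
    IsSelfAdjoint.sub (by simpa only [hf.isSelfAdjoint.star_eq] using hsa.conjugate (e + q))
      ((IsSelfAdjoint.all t).smul hd), ?_, fun ξ hξ => ?_, _, FinA.part h he heA hp ho hs hP,
    a₁, ha₁A, ha₁, ?_⟩
  · have h2 := (FinA.conj_le (y := x) hf).trans h1
    have h3 : ‖t • d‖ ≤ 2 := by
      rw [norm_smul, Real.norm_of_nonneg ht0.le]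
      nlinarith
    linarith [norm_sub_le ((e + q) * x * (e + q)) (t • d)]
  · have h2 : ((e + q) * x * (e + q) - t • d - x) ξ =
        -(((e + q) * x) ((1 - e) ξ - q ξ)) - ((1 - e) (x ξ) - q (x ξ)) - t • d ξ := by
      simp only [ContinuousLinearMap.sub_apply, ContinuousLinearMap.add_apply,
        ContinuousLinearMap.one_apply, ContinuousLinearMap.mul_apply,
        ContinuousLinearMap.smul_apply, map_sub, map_add]
      abel
    have h3 : ‖(e + q) * x‖ ≤ 1 := by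
      have := hf.norm_le
      calc ‖(e + q) * x‖ ≤ ‖e + q‖ * ‖x‖ := norm_mul_le _ _
        _ ≤ 1 * 1 := by gcongr
        _ = 1 := one_mul _
    have h4 := ((e + q) * x).le_of_opNorm_le h3 ((1 - e) ξ - q ξ)
    have h5 := hqF ξ (Finset.mem_union_left _ hξ)
    have h6 := hqF (x ξ) (Finset.mem_union_right _ (Finset.mem_image_of_mem _ hξ))
    have h7 : ‖t • d ξ‖ ≤ κ / 3 := by
      rw [norm_smul, Real.norm_of_nonneg ht0.le]
      nlinarith [hdF ξ hξ, norm_nonneg (d ξ)]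
    rw [h2]
    have h8 := norm_sub_le (-(((e + q) * x) ((1 - e) ξ - q ξ)) - ((1 - e) (x ξ) - q (x ξ))) (t • d ξ)
    have h9 := norm_sub_le (-(((e + q) * x) ((1 - e) ξ - q ξ))) ((1 - e) (x ξ) - q (x ξ))
    rw [norm_neg] at h9
    linarith
  · have k0 := FinA.mul_e hp ho hs
    have k1 : ∀ o, p o * (e + q) = p o := fun o => by
      rw [mul_add, k0, ← k0 o, mul_assoc, heq, mul_zero, add_zero]
    have k2 : ∀ o, (e + q) * p o = p o := fun o =>
      FinA.swap (hp o).2 hf (hp o).2.isSelfAdjoint.star_eq (k1 o)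
    have k3 : (1 - e) * (e + q) = q := by
      rw [mul_add, he.one_sub_mul_self, sub_mul, heq]; simp
    have k4 : (e + q) * (1 - e) = q := by
      rw [add_mul, he.mul_one_sub_self, mul_sub, hqe]; simp
    have k5 : (1 - e) * d = 0 := by
      rw [sub_mul, ← hEd, (FinA.e_EP he hp ho hs d).1]; simp
    have hc' : ∀ i, P i * (1 - e) = (1 - e) * P i := fun i =>
      h.comm _ (hP.mem i) _ (sub_mem (one_mem A) heA)
    have h2 : EP p ((e + q) * x * (e + q) - t • d) = EP p x - t • d := by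
      nth_rw 2 [← hEd]
      simp only [EP, mul_sub, sub_mul, Finset.sum_sub_distrib, Finset.smul_sum, mul_smul_comm,
        smul_mul_assoc]
      congr 1
      refine Finset.sum_congr rfl fun o _ => ?_
      rw [← mul_assoc, ← mul_assoc, k1, mul_assoc, k2]
    have h3 : (1 - e) * EP P ((e + q) * x * (e + q) - t • d) * (1 - e) =
        ∑ i, P i * (q * x * q) * P i := by
      rw [EP, Finset.mul_sum, Finset.sum_mul]
      refine Finset.sum_congr rfl fun i _ => ?_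
      calc _ = ((1 - e) * P i) * ((e + q) * x * (e + q) - t • d) * (P i * (1 - e)) := by
            simp only [mul_assoc]
        _ = P i * (((1 - e) * (e + q)) * x * ((e + q) * (1 - e)) - t • ((1 - e) * d) * (1 - e)) *
            P i := by
            have z : (1 - e) * ((e + q) * x * (e + q) - t • d) * (1 - e) =
                ((1 - e) * (e + q)) * x * ((e + q) * (1 - e)) - t • ((1 - e) * d) * (1 - e) := by
              generalize 1 - e = g
              generalize e + q = f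
              simp only [mul_sub, sub_mul, mul_assoc, mul_smul_comm, smul_mul_assoc]
            rw [← z, ← hc' i]; nth_rw 2 [hc' i]
            simp only [mul_assoc]
        _ = _ := by rw [k3, k4, k5]; simp
    have h4 : ‖∑ i, P i * (q * x * q) * P i‖ ≤ 1 / r₂ + κ / 3 := by
      refine norm_sum_orth_le hP.proj hP.orth hP.proj hP.orth (by positivity) fun i => ?_
      have e1 : P i * (q * x * q) * P i = star (q * P i) * x * (q * P i) := by
        rw [star_mul, hq.isSelfAdjoint.star_eq, (hP.proj i).isSelfAdjoint.star_eq]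
        simp only [mul_assoc]
      have e2 : ‖q * P i‖ * ‖q * P i‖ = ‖P i * q * P i‖ := by
        rw [← CStarRing.norm_star_mul_self, star_mul, hq.isSelfAdjoint.star_eq,
          (hP.proj i).isSelfAdjoint.star_eq, mul_assoc, ← mul_assoc q, hq.isIdempotentElem.eq,
          mul_assoc]
      calc _ ≤ ‖star (q * P i)‖ * ‖x‖ * ‖q * P i‖ := e1 ▸ norm_mul₃_le
        _ ≤ ‖q * P i‖ * 1 * ‖q * P i‖ := by rw [norm_star]; gcongr
        _ ≤ _ := by rw [mul_one, e2]; exact hsing i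
    have h5 : ‖(1 - t) • d‖ ≤ 2 * c := by
      rw [norm_smul, Real.norm_of_nonneg (by linarith)]
      have : 1 - t = t * c := by linarith
      rw [this]
      have h6 : t * (2 + c) ≤ 2 := by nlinarith
      calc t * c * ‖d‖ ≤ t * c * (2 + c) := by gcongr
        _ = c * (t * (2 + c)) := by ring
        _ ≤ c * 2 := by gcongr
        _ = 2 * c := by ring
    rw [FinA.EP_elim h heA hP, h2, h3]
    have h6 : EP p x - t • d + ∑ i, P i * (q * x * q) * P i - a₁ =
        (EP p x - a₁ - d) + (1 - t) • d + ∑ i, P i * (q * x * q) * P i := by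
      rw [sub_smul, one_smul]; abel
    have h7 : 750 / Real.sqrt r₁ = 3 * c := by rw [hc]; ring
    rw [h6, h7]
    linarith [norm_add₃_le (a := EP p x - a₁ - d) (b := (1 - t) • d)
      (c := ∑ i, P i * (q * x * q) * P i)]

end Crest.Agent.R109
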