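import Crest.Agent.R109.Fin0

/-! Task 109-FRAC: partial fractions of rational Herglotz functions. -/

set_option autoImplicit false

open Polynomial

namespace Crest.Agent.R109

theorem Frac_cx_eval (χ : ℝ[X]) (x : ℝ) :
    (cx χ).eval (x : ℂ) = ((χ.eval x : ℝ) : ℂ) := by
  rw [cx, eval_map]
  exact eval₂_at_apply (algebraMap ℝ ℂ) x

theorem RR.roots {P : ℂ[X]} {l : Multiset ℝ} (h : RR P l) :
    P.roots = l.map fun x : ℝ => (x : ℂ) := by
  rw [h, ← roots_multiset_prod_X_sub_C (l.map fun x : ℝ => (x : ℂ)), Multiset.map_map]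
  rfl

theorem RR.monic {P : ℂ[X]} {l : Multiset ℝ} (h : RR P l) :
    P.Monic ∧ P.natDegree = Multiset.card l := by
  have e : P = ((l.map fun x : ℝ => (x : ℂ)).map fun a => X - C a).prod := by
    rw [h, Multiset.map_map]; rfl
  rw [e]
  exact ⟨monic_multisetProd_X_sub_C _, by
    rw [natDegree_multiset_prod_X_sub_C_eq_card, Multiset.card_map]⟩

theorem RR.eval {P : ℂ[X]} {l : Multiset ℝ} (h : RR P l) (t : ℂ) :
    P.eval t = (l.map fun x : ℝ => t - (x : ℂ)).prod := by
  rw [h, eval_multiset_prod, Multiset.map_map]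
  simp

theorem RR.sumR {P : ℂ[X]} {l : Multiset ℝ} (h : RR P l) (φ : ℝ → ℝ) :
    sumR φ P = (l.map φ).sum := by
  rw [R109.sumR, h.roots, Multiset.map_map]
  simp

theorem RR.sumC {P : ℂ[X]} {l : Multiset ℝ} (h : RR P l) (χ : ℝ[X]) :
    sumC (cx χ) P = (((l.map fun x => χ.eval x).sum : ℝ) : ℂ) := by
  rw [R109.sumC, h.roots, Multiset.map_map, ← Complex.ofRealHom_eq_coe, map_multiset_sum,
    Multiset.map_map]
  congr 1
  refine Multiset.map_congr rfl fun x _ => ?_
  exact Frac_cx_eval χ x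

theorem rr_of_ne {P : ℂ[X]} (hm : P.Monic) (h : ∀ t : ℂ, t.im ≠ 0 → P.eval t ≠ 0) :
    ∃ l : Multiset ℝ, RR P l := by
  refine ⟨P.roots.map Complex.re, ?_⟩
  unfold RR
  rw [Multiset.map_map]
  conv_lhs => rw [(IsAlgClosed.splits P).eq_prod_roots_of_monic hm]
  congr 1
  refine Multiset.map_congr rfl fun x hx => ?_
  have hx0 : x.im = 0 := by
    by_contra h0
    exact h x h0 (isRoot_of_mem_roots hx)
  have : ((x.re : ℝ) : ℂ) = x := Complex.ext (by simp) (by simp [hx0])
  simp [this]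

open Filter Topology in
theorem Frac_loc (N D₀ : ℂ[X]) (p : ℝ) (j : ℕ) (hD : D₀.eval (p : ℂ) ≠ 0)
    (him : ∀ t : ℂ, 0 < t.im → (N.eval t / ((t - p) ^ j * D₀.eval t)).im ≤ 0) (u : ℂ)
    (hu : 0 < u.im) : (N.eval (p : ℂ) / D₀.eval (p : ℂ) / u ^ j).im ≤ 0 := by
  have hc : ContinuousAt (fun ε : ℝ =>
      (N.eval ((p : ℂ) + ε * u) / D₀.eval ((p : ℂ) + ε * u) / u ^ j).im) 0 := by
    refine Complex.continuous_im.continuousAt.comp (ContinuousAt.div_const ?_ _)
    refine ContinuousAt.div (by fun_prop) (by fun_prop) (by simpa using hD)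
  have h1 := hc.tendsto.mono_left (nhdsWithin_le_nhds (s := Set.Ioi 0))
  simp only [Complex.ofReal_zero, zero_mul, add_zero] at h1
  refine le_of_tendsto h1 ?_
  filter_upwards [self_mem_nhdsWithin] with ε hε
  have hε' : (0 : ℝ) < ε := hε
  have h2 := him ((p : ℂ) + ε * u) (by simpa using mul_pos hε' hu)
  have e : N.eval ((p : ℂ) + ε * u) / D₀.eval ((p : ℂ) + ε * u) / u ^ j =
      ((ε ^ j : ℝ) : ℂ) * (N.eval ((p : ℂ) + ε * u) /
        (((p : ℂ) + ε * u - p) ^ j * D₀.eval ((p : ℂ) + ε * u))) := by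
    have : (ε : ℂ) ≠ 0 := by exact_mod_cast hε'.ne'
    rw [add_sub_cancel_left, mul_pow]
    push_cast
    field_simp
  rw [e, Complex.im_ofReal_mul]
  exact mul_nonpos_of_nonneg_of_nonpos (by positivity) h2

theorem Frac_one {c : ℂ} (h : ∀ u : ℂ, 0 < u.im → (c / u ^ 1).im ≤ 0) :
    c = (c.re : ℂ) ∧ 0 ≤ c.re := by
  have key : ∀ s : ℝ, c.im * s - c.re ≤ 0 := by
    intro s
    have h1 := h ⟨s, 1⟩ one_pos
    rw [pow_one, Complex.div_im, ← sub_div, div_nonpos_iff] at h1
    have h2 : 0 < Complex.normSq ⟨s, 1⟩ := by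
      rw [Complex.normSq_mk]; nlinarith [mul_self_nonneg s]
    rcases h1 with h1 | h1
    · linarith [h1.2]
    · simpa using h1.1
  have h0 : c.im = 0 := by
    by_contra h0
    have := key ((c.re + 1) / c.im)
    rw [mul_div_cancel₀ _ h0] at this
    linarith
  exact ⟨Complex.ext (by simp) (by simp [h0]), by simpa using key 0⟩

theorem Frac_two {c : ℂ} {j : ℕ} (hj : 2 ≤ j) (h : ∀ u : ℂ, 0 < u.im → (c / u ^ j).im ≤ 0) :
    c = 0 := by
  have hj' : (2 : ℝ) ≤ j := by exact_mod_cast hj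
  have key : ∀ φ : ℝ, 0 < φ → φ < 2 * Real.pi → c.im * Real.cos φ - c.re * Real.sin φ ≤ 0 := by
    intro φ h0 h1
    have h2 := h (Complex.exp ((φ / j : ℝ) * Complex.I)) (by
      rw [Complex.exp_ofReal_mul_I_im]
      refine Real.sin_pos_of_pos_of_lt_pi (by positivity) ?_
      rw [div_lt_iff₀ (by positivity)]
      nlinarith [Real.pi_pos])
    have e : Complex.exp ((φ / j : ℝ) * Complex.I) ^ j = Complex.exp (φ * Complex.I) := by
      rw [← Complex.exp_nat_mul]
      congr 1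
      have : (j : ℂ) ≠ 0 := by exact_mod_cast (by omega : j ≠ 0)
      push_cast
      field_simp
    rw [e, Complex.div_im, Complex.normSq_eq_norm_sq, Complex.norm_exp_ofReal_mul_I,
      Complex.exp_ofReal_mul_I_im, Complex.exp_ofReal_mul_I_re] at h2
    simpa using h2
  have hπ := Real.pi_pos
  have k1 := key (Real.pi / 2) (by positivity) (by linarith)
  have k2 := key (Real.pi / 2 + Real.pi) (by positivity) (by linarith)
  have k3 := key Real.pi (by positivity) (by linarith)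
  have k4 := key (Real.pi / 3) (by positivity) (by linarith)
  simp only [Real.cos_pi_div_two, Real.sin_pi_div_two, Real.cos_add_pi, Real.sin_add_pi,
    Real.cos_pi, Real.sin_pi, Real.cos_pi_div_three] at k1 k2 k3 k4
  have r0 : c.re = 0 := by linarith
  rw [r0] at k4
  exact Complex.ext r0 (by simp only [Complex.zero_im]; linarith)

open Filter Topology in
theorem Frac_inv (p : ℝ) : Tendsto (fun y : ℝ => ((y : ℂ) * Complex.I - p)⁻¹) atTop (𝓝 0) := by
  refine squeeze_zero_norm' ?_ tendsto_inv_atTop_zero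
  filter_upwards [eventually_gt_atTop 0] with y hy
  rw [norm_inv]
  refine inv_anti₀ hy ?_
  simpa [abs_of_pos hy] using Complex.abs_im_le_norm ((y : ℂ) * Complex.I - p)

open Filter Topology in
theorem Frac_poly (Q : ℂ[X]) (h : Tendsto (fun y : ℝ => Q.eval ((y : ℂ) * Complex.I)) atTop (𝓝 0)) :
    Q = 0 := by
  by_cases hd : 0 < Q.degree
  · have h1 := Q.tendsto_norm_atTop hd (l := atTop) (z := fun y : ℝ => (y : ℂ) * Complex.I) (by
      simpa using tendsto_abs_atTop_atTop)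
    exact absurd h.norm (not_tendsto_nhds_of_tendsto_atTop h1 _)
  · rw [eq_C_of_degree_le_zero (not_lt.mp hd)] at h ⊢
    simp only [eval_C] at h
    rw [tendsto_nhds_unique tendsto_const_nhds h, C_0]

open Filter Topology in
theorem Frac_fin (N : ℂ[X]) (S : Finset ℝ) {m : ℝ}
    (him : ∀ t : ℂ, 0 < t.im → (N.eval t / ∏ p ∈ S, (t - (p : ℂ))).im ≤ 0)
    (hm : ∀ᶠ y : ℝ in atTop,
      ‖N.eval (y * Complex.I) / ∏ p ∈ S, (y * Complex.I - (p : ℂ))‖ ≤ m / y) :
    ∃ ν : ℝ → ℝ, (∀ p, 0 ≤ ν p) ∧ ∑ p ∈ S, ν p ≤ m ∧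
      ∀ t : ℂ, ∏ p ∈ S, (t - (p : ℂ)) ≠ 0 →
        N.eval t / ∏ p ∈ S, (t - (p : ℂ)) = ∑ p ∈ S, (ν p : ℂ) / (t - p) := by
  classical
  set E : ℝ → ℂ[X] := fun p => ∏ q ∈ S.erase p, (X - C (q : ℂ)) with hE
  have hEe : ∀ p t, (E p).eval t = ∏ q ∈ S.erase p, (t - (q : ℂ)) := by
    intro p t; simp [hE, eval_prod]
  have hE0 : ∀ p : ℝ, (E p).eval (p : ℂ) ≠ 0 := by
    intro p
    rw [hEe]
    refine Finset.prod_ne_zero_iff.mpr fun q hq => sub_ne_zero.mpr ?_
    exact_mod_cast (Finset.mem_erase.mp hq).1.symm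
  set c : ℝ → ℂ := fun p => N.eval (p : ℂ) / (E p).eval (p : ℂ) with hc
  have hcr : ∀ p ∈ S, c p = ((c p).re : ℂ) ∧ 0 ≤ (c p).re := by
    intro p hp
    refine Frac_one (Frac_loc N (E p) p 1 (hE0 p) fun t ht => ?_)
    rw [pow_one, hEe, Finset.mul_prod_erase S (fun q : ℝ => t - (q : ℂ)) hp]
    exact him t ht
  have hdvd : (∏ p ∈ S, (X - C (p : ℂ))) ∣ N - ∑ p ∈ S, C (c p) * E p := by
    refine Finset.prod_dvd_of_coprime
      ((pairwise_coprime_X_sub_C Complex.ofReal_injective).set_pairwise _) fun p hp => ?_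
    rw [dvd_iff_isRoot, IsRoot, eval_sub, eval_finsetSum, Finset.sum_eq_single p]
    · rw [eval_mul, eval_C, hc, div_mul_cancel₀ _ (hE0 p), sub_self]
    · intro q _ hq
      rw [eval_mul, hEe, Finset.prod_eq_zero (f := fun x : ℝ => (p : ℂ) - x)
        (Finset.mem_erase.mpr ⟨hq.symm, hp⟩) (sub_self _), mul_zero]
    · exact fun h => absurd hp h
  obtain ⟨Q, hQ⟩ := hdvd
  have key : ∀ t : ℂ, ∏ p ∈ S, (t - (p : ℂ)) ≠ 0 →
      Q.eval t = N.eval t / ∏ p ∈ S, (t - (p : ℂ)) - ∑ p ∈ S, c p * (t - p)⁻¹ := by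
    intro t ht
    have h1 := congrArg (eval t) hQ
    simp only [eval_sub, eval_finsetSum, eval_mul, eval_C, eval_prod, eval_X, hEe] at h1
    rw [eq_sub_iff_add_eq, eq_div_iff ht, add_mul, mul_comm (Q.eval t), ← h1, Finset.sum_mul,
      sub_add_eq_add_sub, sub_eq_iff_eq_add, add_right_inj]
    refine Finset.sum_congr rfl fun p hp => ?_
    rw [← Finset.mul_prod_erase S (fun q : ℝ => t - (q : ℂ)) hp, mul_assoc, ← mul_assoc _ (t - p),
      inv_mul_cancel₀ (Finset.prod_ne_zero_iff.mp ht p hp), one_mul]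
  have hne : ∀ y : ℝ, 0 < y → ∏ p ∈ S, ((y : ℂ) * Complex.I - (p : ℂ)) ≠ 0 := by
    intro y hy
    refine Finset.prod_ne_zero_iff.mpr fun p _ h0 => ?_
    have := congrArg Complex.im h0
    simp at this
    exact hy.ne' this
  have hQ0 : Q = 0 := by
    refine Frac_poly Q ?_
    have t1 : Tendsto (fun y : ℝ => N.eval ((y : ℂ) * Complex.I) /
        ∏ p ∈ S, ((y : ℂ) * Complex.I - (p : ℂ))) atTop (𝓝 0) :=
      squeeze_zero_norm' hm (tendsto_const_nhds.div_atTop tendsto_id)
    have t2 := tendsto_finsetSum S fun p _ => (Frac_inv p).const_mul (c p)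
    have t3 := t1.sub t2
    simp only [mul_zero, Finset.sum_const_zero, sub_zero] at t3
    refine t3.congr' ?_
    filter_upwards [eventually_gt_atTop 0] with y hy
    exact (key _ (hne y hy)).symm
  have key2 : ∀ t : ℂ, ∏ p ∈ S, (t - (p : ℂ)) ≠ 0 →
      N.eval t / ∏ p ∈ S, (t - (p : ℂ)) = ∑ p ∈ S, ((max (c p).re 0 : ℝ) : ℂ) / (t - p) := by
    intro t ht
    have := key t ht
    rw [hQ0, eval_zero, eq_comm, sub_eq_zero] at this
    rw [this]
    refine Finset.sum_congr rfl fun p hp => ?_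
    rw [max_eq_left (hcr p hp).2, ← (hcr p hp).1, div_eq_mul_inv]
  refine ⟨fun p => max (c p).re 0, fun p => le_max_right _ _, ?_, key2⟩
  have t2 := (tendsto_finsetSum S fun p _ => (((Frac_inv p).const_mul (p : ℂ)).const_add 1).const_mul
    ((max (c p).re 0 : ℝ) : ℂ)).norm
  simp only [mul_zero, add_zero, mul_one] at t2
  have t3 := le_of_tendsto t2 (b := m) (by
    filter_upwards [hm, eventually_gt_atTop 0] with y h1 hy
    rw [key2 _ (hne y hy), le_div_iff₀ hy] at h1
    refine le_trans (le_of_eq ?_) h1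
    have : ‖(y : ℂ) * Complex.I‖ = y := by simp [abs_of_pos hy]
    rw [← this, ← norm_mul, this, Finset.sum_mul]
    congr 1
    refine Finset.sum_congr rfl fun p hp => ?_
    have := Finset.prod_ne_zero_iff.mp (hne y hy) p hp
    field_simp
    ring)
  rw [← Complex.ofReal_sum, Complex.norm_real] at t3
  exact (le_abs_self _).trans t3

/-- At a root `p`: `N = (X-p)^a N₀`, `D = (X-p)^b D₀`, `j = b - a`. If `j ≥ 1`, along
`t = p + ε e^{iθ}` one gets `(c e^{-i j θ}).im ≤ 0` for all `θ ∈ (0, π)`, `c = N₀(p)/D₀(p) ≠ 0`;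
`j ≥ 2` is impossible (`θ` and `θ + π/j`), `j = 1` gives `c` real, `c ≥ 0`; put `ν p = c`
(`0` if `j ≤ 0`). Then `N - ∑ ν p * (D / (X - p))` is divisible by `D`; the quotient is a
polynomial tending to `0` along `y I`, so it is `0`. The mass bound: multiply by `y I`. -/
theorem frac (N D : ℂ[X]) {l : Multiset ℝ} (hD : RR D l) {m : ℝ}
    (him : ∀ t : ℂ, 0 < t.im → (N.eval t / D.eval t).im ≤ 0)
    (hm : ∀ᶠ y : ℝ in Filter.atTop,
      ‖N.eval (y * Complex.I) / D.eval (y * Complex.I)‖ ≤ m / y) :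
    ∃ ν : ℝ → ℝ, (∀ p, 0 ≤ ν p) ∧ ∑ p ∈ l.toFinset, ν p ≤ m ∧
      ∀ t : ℂ, D.eval t ≠ 0 → N.eval t / D.eval t = ∑ p ∈ l.toFinset, (ν p : ℂ) / (t - p) := by
  classical
  simp only [hD.eval] at him hm ⊢
  clear hD D
  induction hn : Multiset.card l generalizing l N with
  | zero =>
    obtain rfl := Multiset.card_eq_zero.mp hn
    exact Frac_fin N ∅ him hm
  | succ n ih =>
    by_cases hl : l.Nodup
    · have e : ∀ t : ℂ, (l.map fun x : ℝ => t - (x : ℂ)).prod = ∏ p ∈ l.toFinset, (t - (p : ℂ)) := by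
        intro t
        rw [Finset.prod, Multiset.toFinset_val, Multiset.dedup_eq_self.mpr hl]
      simp only [e] at him hm ⊢
      exact Frac_fin N _ him hm
    rw [Multiset.nodup_iff_count_le_one] at hl
    push Not at hl
    obtain ⟨p, hp⟩ := hl
    have hpl : p ∈ l := Multiset.count_pos.mp (by omega)
    have hN : N.eval (p : ℂ) = 0 := by
      set D₀ : ℂ[X] := ((l.filter (fun x => ¬ p = x)).map fun x : ℝ => X - C (x : ℂ)).prod with hD₀
      have hr : RR D₀ (l.filter (fun x => ¬ p = x)) := rfl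
      have h0 : D₀.eval (p : ℂ) ≠ 0 := by
        rw [hr.eval]
        refine Multiset.prod_ne_zero fun h => ?_
        obtain ⟨x, hx, hx'⟩ := Multiset.mem_map.mp h
        exact (Multiset.mem_filter.mp hx).2 (by exact_mod_cast sub_eq_zero.mp hx')
      have h1 := Frac_two (j := l.count p) hp (Frac_loc N D₀ p _ h0 fun t ht => by
        have := him t ht
        rw [← Multiset.filter_add_not (fun x => p = x) l, Multiset.map_add, Multiset.prod_add,
          Multiset.filter_eq, Multiset.map_replicate, Multiset.prod_replicate, ← hr.eval] at this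
        exact this)
      exact (div_eq_zero_iff.mp h1).resolve_right h0
    obtain ⟨N₁, rfl⟩ := dvd_iff_isRoot.mpr hN
    obtain ⟨l₁, rfl⟩ := Multiset.exists_cons_of_mem hpl
    have hp1 : p ∈ l₁ := by
      rw [Multiset.count_cons_self] at hp
      exact Multiset.count_pos.mp (by omega)
    have e : ∀ t : ℂ, t - p ≠ 0 → ((X - C (p : ℂ)) * N₁).eval t /
        ((p ::ₘ l₁).map fun x : ℝ => t - (x : ℂ)).prod =
        N₁.eval t / (l₁.map fun x : ℝ => t - (x : ℂ)).prod := by
      intro t ht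
      rw [Multiset.map_cons, Multiset.prod_cons, eval_mul, eval_sub, eval_X, eval_C,
        mul_div_mul_left _ _ ht]
    have hne : ∀ t : ℂ, 0 < t.im → t - p ≠ 0 := by
      intro t ht h0
      have := congrArg Complex.im h0
      simp at this
      exact ht.ne' this
    obtain ⟨ν, h1, h2, h3⟩ := ih N₁ (l := l₁) (fun t ht => e t (hne t ht) ▸ him t ht) (by
      filter_upwards [hm, Filter.eventually_gt_atTop 0] with y h1 hy
      rwa [e _ (hne _ (by simpa using hy))] at h1) (by simpa using hn)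
    rw [Multiset.toFinset_cons, Finset.insert_eq_of_mem (Multiset.mem_toFinset.mpr hp1)]
    refine ⟨ν, h1, h2, fun t ht => ?_⟩
    have ht' := ht
    rw [Multiset.map_cons, Multiset.prod_cons, mul_ne_zero_iff] at ht'
    rw [e t ht'.1, h3 t ht'.2]

/-- Hurwitz for polynomials: `‖q(t)‖ ≥ ‖lead q‖ * t.im ^ n` when `q` has degree `n` and no root in
the upper half plane. -/
theorem norm_eval_ge {q : ℂ[X]} (h : ∀ t : ℂ, 0 < t.im → q.eval t ≠ 0) {t : ℂ} (ht : 0 < t.im) :
    ‖q.leadingCoeff‖ * t.im ^ q.natDegree ≤ ‖q.eval t‖ := by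
  have key : ∀ s : Multiset ℂ, (∀ a ∈ s, a.im ≤ 0) →
      t.im ^ Multiset.card s ≤ ‖(s.map fun a => t - a).prod‖ := by
    intro s
    induction s using Multiset.induction_on with
    | empty => simp
    | cons a s ih =>
      intro hs
      rw [Multiset.card_cons, Multiset.map_cons, Multiset.prod_cons, norm_mul, pow_succ']
      refine mul_le_mul ?_ (ih fun b hb => hs b (Multiset.mem_cons_of_mem hb)) (by positivity)
        (norm_nonneg _)
      have h1 := (le_abs_self _).trans (Complex.abs_im_le_norm (t - a))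
      have h2 := hs a (Multiset.mem_cons_self _ _)
      rw [Complex.sub_im] at h1
      linarith
  rw [(IsAlgClosed.splits q).eval_eq_prod_roots, norm_mul,
    (IsAlgClosed.splits q).natDegree_eq_card_roots]
  refine mul_le_mul_of_nonneg_left (key _ fun a ha => ?_) (norm_nonneg _)
  by_contra h0
  exact h a (not_le.mp h0) (isRoot_of_mem_roots ha)

end Crest.Agent.R109
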