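import Crest.Agent.R109.Fin0

/-! Task 109-PF: algebra of `minor`, `Pf`, `PP`. -/

set_option autoImplicit false

open Polynomial

namespace Crest.Agent.R109

section
variable {ι R : Type*} [DecidableEq ι] [CommRing R]

theorem minor_empty (B : ι → ι → R) : minor B ∅ = 1 := by
  simp [minor]

theorem minor_congr {B B' : ι → ι → R} {T : Finset ι} (h : ∀ a ∈ T, ∀ b ∈ T, B a b = B' a b) :
    minor B T = minor B' T := by
  unfold minor
  congr 1
  ext a b
  exact h a a.2 b b.2

theorem PfB_equiv {κ : Type*} [Fintype κ] [DecidableEq κ] (B : ι → ι → R) (T : Finset ι)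
    (e : κ ≃ T) : minor B T = Matrix.det (Matrix.of fun a b : κ => B (e a) (e b)) := by
  unfold minor
  rw [← Matrix.det_submatrix_equiv_self e]
  rfl

/-- The filtered subtype. -/
def PfB_fe (T : Finset ι) (p : ι → Prop) [DecidablePred p] :
    {a : T // p a} ≃ T.filter p where
  toFun a := ⟨a.1.1, Finset.mem_filter.2 ⟨a.1.2, a.2⟩⟩
  invFun a := ⟨⟨a.1, (Finset.mem_filter.1 a.2).1⟩, (Finset.mem_filter.1 a.2).2⟩
  left_inv _ := rfl
  right_inv _ := rfl

theorem PfB_block (B : ι → ι → R) (T : Finset ι) (p : ι → Prop) [DecidablePred p]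
    (h : ∀ a ∈ T, ∀ b ∈ T, p a → ¬ p b → B a b = 0) :
    minor B T = minor B (T.filter p) * minor B (T.filter fun a => ¬ p a) := by
  rw [PfB_equiv B _ (PfB_fe T p), PfB_equiv B _ (PfB_fe T fun a => ¬ p a)]
  exact Matrix.twoBlockTriangular_det' (Matrix.of fun a b : T => B a b) (fun a => p a)
    fun i hi j hj => h i i.2 j j.2 hi hj

theorem PfB_single (B : ι → ι → R) (a : ι) : minor B {a} = B a a := by
  unfold minor
  rw [Matrix.det_unique]
  rfl

/-- Linearity in row `a` (`Matrix.det_updateRow_add`), then Laplace expansion / block form. -/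
theorem minor_insert (B : ι → ι → R) {T : Finset ι} {a : ι} (ha : a ∉ T) :
    minor B (insert a T) = B a a * minor B T + minor (zeroAt B a) (insert a T) := by
  set A : Matrix (insert a T : Finset ι) (insert a T : Finset ι) R :=
    Matrix.of fun x y => B x y with hA
  set i₀ : (insert a T : Finset ι) := ⟨a, Finset.mem_insert_self a T⟩ with hi
  set B' : ι → ι → R := fun x y => if x = a then (if y = a then B a a else 0) else B x y with hB'
  have h1 : A = A.updateRow i₀ ((fun y : (insert a T : Finset ι) => B' a y) +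
      fun y : (insert a T : Finset ι) => zeroAt B a a y) := by
    ext x y
    by_cases hx : x = i₀
    · subst hx
      rw [Matrix.updateRow_self]
      by_cases hy : (y : ι) = a <;> simp [hA, hB', zeroAt, hy, hi]
    · rw [Matrix.updateRow_ne hx]
  have hx' : ∀ x : (insert a T : Finset ι), x ≠ i₀ → (x : ι) ≠ a :=
    fun x hx h => hx (Subtype.ext h)
  have h2 : (A.updateRow i₀ fun y : (insert a T : Finset ι) => B' a y) =
      Matrix.of fun x y : (insert a T : Finset ι) => B' x y := by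
    ext x y
    by_cases hx : x = i₀
    · subst hx
      rw [Matrix.updateRow_self]; rfl
    · rw [Matrix.updateRow_ne hx]
      simp [hA, hB', hx' x hx]
  have h3 : (A.updateRow i₀ fun y : (insert a T : Finset ι) => zeroAt B a a y) =
      Matrix.of fun x y : (insert a T : Finset ι) => zeroAt B a x y := by
    ext x y
    by_cases hx : x = i₀
    · subst hx
      rw [Matrix.updateRow_self]; rfl
    · rw [Matrix.updateRow_ne hx]
      simp [hA, zeroAt, hx' x hx]
  have h4 : minor B' (insert a T) = B a a * minor B T := by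
    rw [PfB_block B' (insert a T) (fun x => x = a) (fun x _ y _ hx hy => by simp [hB', hx, hy])]
    have e1 : (insert a T).filter (fun x => x = a) = {a} := by
      ext x; simp only [Finset.mem_filter, Finset.mem_insert, Finset.mem_singleton]; tauto
    have e2 : (insert a T).filter (fun x => ¬ x = a) = T := by
      ext x
      simp only [Finset.mem_filter, Finset.mem_insert]
      constructor
      · tauto
      · intro hx
        exact ⟨Or.inr hx, fun h => ha (h ▸ hx)⟩
    rw [e1, e2, PfB_single]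
    congr 1
    · simp [hB']
    · refine minor_congr fun x hx y _ => ?_
      have : x ≠ a := fun h => ha (h ▸ hx)
      simp [hB', this]
  change A.det = _
  rw [h1, Matrix.det_updateRow_add, h2, h3, ← h4]
  rfl

theorem minor_row (d : ι → R) (B : ι → ι → R) (T : Finset ι) :
    minor (fun a b => d a * B a b) T = (∏ a ∈ T, d a) * minor B T := by
  unfold minor
  rw [← Finset.prod_coe_sort T d]
  exact Matrix.det_mul_column (fun a : T => d a) (Matrix.of fun a b : T => B a b)

theorem minor_col (d : ι → R) (B : ι → ι → R) (T : Finset ι) :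
    minor (fun a b => B a b * d b) T = (∏ a ∈ T, d a) * minor B T := by
  unfold minor
  rw [← Finset.prod_coe_sort T d, ← Matrix.det_mul_row (fun a : T => d a)]
  congr 1
  ext a b
  exact mul_comm _ _

/-- Block triangular (`Matrix.twoBlockTriangular_det`). -/
theorem minor_block (B : ι → ι → R) (T : Finset ι) (p : ι → Prop) [DecidablePred p]
    (h : ∀ a ∈ T, ∀ b ∈ T, p a → ¬ p b → B a b = 0) :
    minor B T = minor B (T.filter p) * minor B (T.filter fun a => ¬ p a) := by
  exact PfB_block B T p h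

theorem minor_image {κ : Type*} [DecidableEq κ] (B : ι → ι → R) (e : κ → ι) (T : Finset κ)
    (he : Set.InjOn e T) : minor B (T.image e) = minor (fun a b => B (e a) (e b)) T := by
  rw [PfB_equiv B _ (Equiv.ofBijective
    (fun a : T => (⟨e a, Finset.mem_image_of_mem e a.2⟩ : T.image e)) ⟨?_, ?_⟩)]
  · rfl
  · intro a b hab
    exact Subtype.ext (he a.2 b.2 (congrArg Subtype.val hab))
  · rintro ⟨x, hx⟩
    obtain ⟨a, ha, rfl⟩ := Finset.mem_image.1 hx
    exact ⟨⟨a, ha⟩, rfl⟩

theorem minor_map {R' : Type*} [CommRing R'] (f : R →+* R') (B : ι → ι → R) (T : Finset ι) :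
    f (minor B T) = minor (fun a b => f (B a b)) T := by
  unfold minor
  rw [RingHom.map_det]
  rfl

end

section
variable {V V' R R' : Type*} [DecidableEq V] [DecidableEq V'] [CommRing R] [CommRing R'] {r : ℕ}

theorem PfB_mem_gr {U : Finset V} {c : U → Fin r} {a : V × Fin r} :
    a ∈ gr U c ↔ ∃ h : a.1 ∈ U, c ⟨a.1, h⟩ = a.2 := by
  simp only [gr, Finset.mem_image, Finset.mem_univ, true_and]
  constructor
  · rintro ⟨u, rfl⟩
    exact ⟨u.2, rfl⟩
  · rintro ⟨h, e⟩
    exact ⟨⟨a.1, h⟩, Prod.ext rfl e⟩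

theorem PfB_prod_gr {M : Type*} [CommMonoid M] (U : Finset V) (c : U → Fin r)
    (d : V × Fin r → M) : ∏ a ∈ gr U c, d a = ∏ u : U, d ((u : V), c u) := by
  unfold gr
  rw [Finset.prod_image]
  intro x _ y _ h
  exact Subtype.ext (congrArg Prod.fst h)

theorem PfB_card_gr (U : Finset V) (c : U → Fin r) : (gr U c).card = U.card := by
  unfold gr
  rw [Finset.card_image_of_injective, Finset.card_univ, Fintype.card_coe]
  intro x y h
  exact Subtype.ext (congrArg Prod.fst h)

theorem PfB_disj {U : Finset V} {T : Finset (V × Fin r)} (h : Dis U T) (c : U → Fin r) :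
    Disjoint T (gr U c) :=
  Finset.disjoint_left.2 fun a ha hg => h a ha (PfB_mem_gr.1 hg).1

theorem PfB_mem_supp {U : Finset V} {T : Finset (V × Fin r)} {a : V × Fin r} :
    a ∈ supp U T ↔ a ∈ T ∨ a.1 ∈ U := by
  simp [supp]

theorem PfB_sub (U : Finset V) (T : Finset (V × Fin r)) (c : U → Fin r) :
    T ∪ gr U c ⊆ supp U T := by
  intro a ha
  rcases Finset.mem_union.1 ha with h | h
  · exact PfB_mem_supp.2 (Or.inl h)
  · exact PfB_mem_supp.2 (Or.inr (PfB_mem_gr.1 h).1)

/-- Colourings of `insert v U`. -/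
def PfB_ins {U : Finset V} {v : V} (hv : v ∉ U) :
    (Fin r × (U → Fin r)) ≃ (↥(insert v U : Finset V) → Fin r) where
  toFun z u := if h : (u : V) ∈ U then z.2 ⟨u, h⟩ else z.1
  invFun c := (c ⟨v, Finset.mem_insert_self v U⟩, fun u => c ⟨u, Finset.mem_insert_of_mem u.2⟩)
  left_inv z := by
    ext
    · simp [hv]
    · simp
  right_inv c := by
    funext u
    by_cases h : (u : V) ∈ U
    · simp [h]
    · have : (u : V) = v := (Finset.mem_insert.1 u.2).resolve_right h
      simp only [h, dite_false]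
      congr 1
      exact Subtype.ext this.symm

theorem Pf_empty (B : V × Fin r → V × Fin r → R) (π : V × Fin r → R) (T : Finset (V × Fin r)) :
    Pf B π ∅ T = minor B T := by
  simp [Pf, gr]

/-- The recurrence (`Finset.subtypeInsertEquivOption`, `Equiv.piOptionEquivProd`). All the other
lemmas on `Pf` can be proved by `Finset.induction` on `U` (generalizing `T`) from this one. -/
theorem Pf_insert (B : V × Fin r → V × Fin r → R) (π : V × Fin r → R) {U : Finset V} {v : V}
    (hv : v ∉ U) (T : Finset (V × Fin r)) :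
    Pf B π (insert v U) T = ∑ i, π (v, i) * Pf B π U (insert (v, i) T) := by
  unfold Pf
  rw [← (PfB_ins hv).sum_comp, Fintype.sum_prod_type]
  refine Finset.sum_congr rfl fun i _ => ?_
  rw [Finset.mul_sum]
  refine Finset.sum_congr rfl fun c _ => ?_
  have e1 : gr (insert v U) (PfB_ins hv (i, c)) = insert (v, i) (gr U c) := by
    ext a
    rw [Finset.mem_insert, PfB_mem_gr, PfB_mem_gr]
    constructor
    · rintro ⟨h, e⟩
      by_cases h' : a.1 ∈ U
      · exact Or.inr ⟨h', by simpa [PfB_ins, h'] using e⟩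
      · left
        refine Prod.ext ((Finset.mem_insert.1 h).resolve_right h') ?_
        simpa [PfB_ins, h'] using e.symm
    · rintro (rfl | ⟨h, e⟩)
      · exact ⟨Finset.mem_insert_self _ _, by simp [PfB_ins, hv]⟩
      · exact ⟨Finset.mem_insert_of_mem h, by simpa [PfB_ins, h] using e⟩
  have e2 : (v, i) ∉ gr U c := fun h => hv (PfB_mem_gr.1 h).1
  rw [← PfB_prod_gr, ← PfB_prod_gr, e1, Finset.prod_insert e2, Finset.union_insert,
    Finset.insert_union, mul_assoc]

theorem Pf_congr {B B' : V × Fin r → V × Fin r → R} {π π' : V × Fin r → R} {U : Finset V}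
    {T : Finset (V × Fin r)} (hB : ∀ a ∈ supp U T, ∀ b ∈ supp U T, B a b = B' a b)
    (hπ : ∀ u ∈ U, ∀ i, π (u, i) = π' (u, i)) : Pf B π U T = Pf B' π' U T := by
  unfold Pf
  refine Finset.sum_congr rfl fun c _ => ?_
  congr 1
  · exact Finset.prod_congr rfl fun u _ => hπ u u.2 _
  · exact minor_congr fun a ha b hb => hB a (PfB_sub U T c ha) b (PfB_sub U T c hb)

theorem Pf_aff (B : V × Fin r → V × Fin r → R) (π : V × Fin r → R) {U : Finset V}
    {T : Finset (V × Fin r)} {a : V × Fin r} (ha : a ∉ T) (hU : a.1 ∉ U) :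
    Pf B π U (insert a T) = B a a * Pf B π U T + Pf (zeroAt B a) π U (insert a T) := by
  unfold Pf
  rw [Finset.mul_sum, ← Finset.sum_add_distrib]
  refine Finset.sum_congr rfl fun c _ => ?_
  have : a ∉ T ∪ gr U c := by
    rw [Finset.mem_union, not_or]
    exact ⟨ha, fun h => hU (PfB_mem_gr.1 h).1⟩
  rw [Finset.insert_union, minor_insert B this]
  ring

theorem Pf_map (f : R →+* R') (B : V × Fin r → V × Fin r → R) (π : V × Fin r → R) (U : Finset V)
    (T : Finset (V × Fin r)) :
    f (Pf B π U T) = Pf (fun a b => f (B a b)) (fun a => f (π a)) U T := by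
  unfold Pf
  simp only [map_sum, map_mul, map_prod, minor_map]

theorem Pf_row (d : V × Fin r → R) (B : V × Fin r → V × Fin r → R) (π : V × Fin r → R)
    {U : Finset V} {T : Finset (V × Fin r)} (h : Dis U T) :
    Pf (fun a b => d a * B a b) π U T = (∏ a ∈ T, d a) * Pf B (fun a => π a * d a) U T := by
  unfold Pf
  rw [Finset.mul_sum]
  refine Finset.sum_congr rfl fun c _ => ?_
  rw [minor_row, Finset.prod_union (PfB_disj h c), PfB_prod_gr, Finset.prod_mul_distrib]
  ring

theorem Pf_col (d : V × Fin r → R) (B : V × Fin r → V × Fin r → R) (π : V × Fin r → R)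
    {U : Finset V} {T : Finset (V × Fin r)} (h : Dis U T) :
    Pf (fun a b => B a b * d b) π U T = (∏ a ∈ T, d a) * Pf B (fun a => π a * d a) U T := by
  unfold Pf
  rw [Finset.mul_sum]
  refine Finset.sum_congr rfl fun c _ => ?_
  rw [minor_col, Finset.prod_union (PfB_disj h c), PfB_prod_gr, Finset.prod_mul_distrib]
  ring

theorem Pf_weight (d : V → R) (B : V × Fin r → V × Fin r → R) (π : V × Fin r → R)
    (U : Finset V) (T : Finset (V × Fin r)) :
    Pf B (fun a => π a * d a.1) U T = (∏ u ∈ U, d u) * Pf B π U T := by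
  unfold Pf
  rw [Finset.mul_sum]
  refine Finset.sum_congr rfl fun c _ => ?_
  rw [Finset.prod_mul_distrib, Finset.prod_coe_sort U d]
  ring

theorem Pf_block (B : V × Fin r → V × Fin r → R) (π : V × Fin r → R) (U : Finset V)
    (T : Finset (V × Fin r)) (p : V → Prop) [DecidablePred p]
    (h : ∀ a ∈ supp U T, ∀ b ∈ supp U T, p a.1 → ¬ p b.1 → B a b = 0) :
    Pf B π U T = Pf B π (U.filter p) (T.filter fun a => p a.1) *
      Pf B π (U.filter fun u => ¬ p u) (T.filter fun a => ¬ p a.1) := by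
  induction U using Finset.induction_on generalizing T with
  | empty =>
    simp only [Finset.filter_empty, Pf_empty]
    exact minor_block B T (fun a => p a.1) fun a ha b hb =>
      h a (PfB_mem_supp.2 (Or.inl ha)) b (PfB_mem_supp.2 (Or.inl hb))
  | insert v U hv ih =>
    have hs : ∀ i, supp U (insert (v, i) T) ⊆ supp (insert v U) T := by
      intro i a ha
      rw [PfB_mem_supp] at ha ⊢
      rcases ha with ha | ha
      · rcases Finset.mem_insert.1 ha with rfl | ha
        · exact Or.inr (Finset.mem_insert_self _ _)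
        · exact Or.inl ha
      · exact Or.inr (Finset.mem_insert_of_mem ha)
    rw [Pf_insert B π hv]
    rw [Finset.sum_congr rfl fun i _ => by
      rw [ih (insert (v, i) T) fun a ha b hb => h a (hs i ha) b (hs i hb)]]
    simp only [Finset.filter_insert]
    by_cases hp : p v
    · simp only [hp, if_true, not_true, if_false]
      rw [Pf_insert B π (fun h => hv (Finset.mem_filter.1 h).1), Finset.sum_mul]
      exact Finset.sum_congr rfl fun i _ => by ring
    · simp only [hp, if_true, not_false_eq_true, if_false]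
      rw [Pf_insert B π (fun h => hv (Finset.mem_filter.1 h).1), Finset.mul_sum]
      exact Finset.sum_congr rfl fun i _ => by ring

theorem Pf_image (B : V × Fin r → V × Fin r → R) (π : V × Fin r → R) (e : V' → V) (U : Finset V')
    (T : Finset (V' × Fin r)) (he : Set.InjOn e ((U : Set V') ∪ Prod.fst '' (T : Set (V' × Fin r)))) :
    Pf B π (U.image e) (T.image fun a => (e a.1, a.2)) =
      Pf (fun a b => B (e a.1, a.2) (e b.1, b.2)) (fun a => π (e a.1, a.2)) U T := by
  induction U using Finset.induction_on generalizing T with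
  | empty =>
    simp only [Finset.image_empty, Pf_empty]
    refine minor_image B (fun a : V' × Fin r => (e a.1, a.2)) T fun a ha b hb hab => ?_
    exact Prod.ext (he (Or.inr ⟨a, ha, rfl⟩) (Or.inr ⟨b, hb, rfl⟩) (congrArg Prod.fst hab))
      (Prod.ext_iff.1 hab).2
  | insert v U hv ih =>
    have hv' : e v ∉ U.image e := by
      intro h
      obtain ⟨u, hu, hu'⟩ := Finset.mem_image.1 h
      have := he (Or.inl (Finset.mem_coe.2 (Finset.mem_insert_of_mem hu)))
        (Or.inl (Finset.mem_coe.2 (Finset.mem_insert_self v U))) hu'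
      exact hv (this ▸ hu)
    rw [Finset.image_insert, Pf_insert B π hv', Pf_insert _ _ hv]
    refine Finset.sum_congr rfl fun i _ => ?_
    rw [← ih (insert (v, i) T) (he.mono ?_), Finset.image_insert]
    rintro x (hx | ⟨a, ha, rfl⟩)
    · exact Or.inl (Finset.mem_coe.2 (Finset.mem_insert_of_mem hx))
    · rcases Finset.mem_insert.1 (Finset.mem_coe.1 ha) with rfl | ha
      · exact Or.inl (Finset.mem_coe.2 (Finset.mem_insert_self _ _))
      · exact Or.inr ⟨a, ha, rfl⟩

theorem PfB_mem_Uu {s : V → St r} {U : Finset V} {u : V} :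
    u ∈ Uu s U ↔ u ∈ U ∧ s u = St.unc := by
  simp [Uu]

theorem PfB_mem_Tc {s : V → St r} {U : Finset V} {a : V × Fin r} :
    a ∈ Tc s U ↔ a.1 ∈ U ∧ s a.1 = St.col a.2 := by
  simp [Tc]

theorem PfB_mem_live {s : V → St r} {U : Finset V} {u : V} :
    u ∈ live s U ↔ u ∈ U ∧ s u ≠ St.del := by
  simp [live]

theorem PfB_supp_live {s : V → St r} {U : Finset V} {a : V × Fin r}
    (h : a ∈ supp (Uu s U) (Tc s U)) : a.1 ∈ U ∧ s a.1 ≠ St.del := by
  rw [PfB_mem_supp, PfB_mem_Uu, PfB_mem_Tc] at h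
  rcases h with ⟨h1, h2⟩ | ⟨h1, h2⟩ <;> exact ⟨h1, by simp [h2]⟩

theorem PfB_prod_live {N : Type*} [CommMonoid N] (s : V → St r) (U : Finset V) (f : V → N) :
    (∏ a ∈ Tc s U, f a.1) * ∏ u ∈ Uu s U, f u = ∏ u ∈ live s U, f u := by
  unfold Tc Uu live
  rw [Finset.prod_filter, Finset.prod_filter, Finset.prod_filter, Finset.prod_product,
    ← Finset.prod_mul_distrib]
  refine Finset.prod_congr rfl fun u _ => ?_
  cases h : s u <;> simp [h]

theorem PfB_card_live (s : V → St r) (U : Finset V) :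
    (Tc s U).card + (Uu s U).card = (live s U).card := by
  have := PfB_prod_live s U (fun _ => Multiplicative.ofAdd (1 : ℕ))
  simp only [Finset.prod_const, ← pow_add, ← ofAdd_nsmul, smul_eq_mul, mul_one] at this
  exact Multiplicative.ofAdd.injective this

theorem dis_state (s : V → St r) (U : Finset V) : Dis (Uu s U) (Tc s U) := by
  intro a ha h
  rw [PfB_mem_Tc] at ha
  rw [PfB_mem_Uu, ha.2] at h
  simp at h

theorem PP_empty (z : ℝ) (M : V → V → ℂ) (w : V → ℝ) (s : V → St r) : PP z M w s ∅ = 1 := by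
  simp [PP, Uu, Tc, Pf_empty, minor_empty]

theorem PP_congr (z : ℝ) {M M' : V → V → ℂ} {w w' : V → ℝ} {s s' : V → St r} {U : Finset V}
    (hs : ∀ u ∈ U, s u = s' u) (hw : ∀ u ∈ U, s u ≠ St.del → w u = w' u)
    (hM : ∀ u ∈ U, s u ≠ St.del → ∀ u' ∈ U, s u' ≠ St.del → u ≠ u' → M u u' = M' u u') :
    PP z M w s U = PP z M' w' s' U := by
  have e1 : Uu s' U = Uu s U := Finset.filter_congr fun u hu => by rw [hs u hu]
  have e2 : Tc s' U = Tc s U :=
    Finset.filter_congr fun a ha => by rw [hs a.1 (Finset.mem_product.1 ha).1]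
  unfold PP
  rw [e1, e2]
  refine Pf_congr (fun a ha b hb => ?_) fun _ _ _ => rfl
  obtain ⟨a1, a2⟩ := PfB_supp_live ha
  obtain ⟨b1, b2⟩ := PfB_supp_live hb
  simp only [Bp, ws, zs, ← hs a.1 a1, ← hw a.1 a1 a2]
  split_ifs with h1 h2 h3 h4 h5 <;> try rfl
  all_goals rw [hM a.1 a1 a2 b.1 b1 b2 fun h => h1 (Prod.ext h ‹_›)]

/-- Only the live vertices matter. -/
theorem PP_of_live (z : ℝ) (M : V → V → ℂ) (w : V → ℝ) {s s' : V → St r} {U U' : Finset V}
    (h1 : live s U = live s' U') (h2 : ∀ u ∈ live s U, s u = s' u) :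
    PP z M w s U = PP z M w s' U' := by
  have key : ∀ u (o : St r), o ≠ St.del → ((u ∈ U' ∧ s' u = o) ↔ (u ∈ U ∧ s u = o)) := by
    intro u o ho
    constructor
    · rintro ⟨h3, h4⟩
      have h5 : u ∈ live s U := by rw [h1]; exact PfB_mem_live.2 ⟨h3, h4 ▸ ho⟩
      exact ⟨(PfB_mem_live.1 h5).1, (h2 u h5).trans h4⟩
    · rintro ⟨h3, h4⟩
      have h5 : u ∈ live s U := PfB_mem_live.2 ⟨h3, h4 ▸ ho⟩
      exact ⟨(PfB_mem_live.1 (h1 ▸ h5)).1, (h2 u h5).symm.trans h4⟩
  have e1 : Uu s' U' = Uu s U := by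
    ext u; rw [PfB_mem_Uu, PfB_mem_Uu]; exact key u _ (by simp)
  have e2 : Tc s' U' = Tc s U := by
    ext a; rw [PfB_mem_Tc, PfB_mem_Tc]; exact key _ _ (by simp)
  unfold PP
  rw [e1, e2]
  refine Pf_congr (fun a ha b _ => ?_) fun _ _ _ => rfl
  simp only [Bp, ws, zs, ← h2 a.1 (PfB_mem_live.2 (PfB_supp_live ha))]

theorem PP_eval (z : ℝ) (M : V → V → ℂ) {w : V → ℝ} (s : V → St r) {U : Finset V}
    (hw : ∀ u ∈ U, w u ≠ 0) (t : ℂ) :
    (PP z M w s U).eval t = (∏ u ∈ live s U, (ws w s u : ℂ)) *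
      Pf (Bz (Zt z w s t) M) (fun _ => (r : ℂ)⁻¹) (Uu s U) (Tc s U) := by
  have h1 := Pf_map (evalRingHom t) (Bp z M w s) (fun _ => C ((r : ℂ)⁻¹)) (Uu s U) (Tc s U)
  have h2 : Pf (fun a b => evalRingHom t (Bp z M w s a b))
      (fun _ : V × Fin r => evalRingHom t (C ((r : ℂ)⁻¹))) (Uu s U) (Tc s U) =
      Pf (fun a b => (ws w s a.1 : ℂ) * Bz (Zt z w s t) M a b) (fun _ => (r : ℂ)⁻¹)
        (Uu s U) (Tc s U) := by
    refine Pf_congr (fun a ha b _ => ?_) fun _ _ _ => by simp
    have h0 : (ws w s a.1 : ℂ) ≠ 0 := by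
      have := hw a.1 (PfB_supp_live ha).1
      unfold ws
      split_ifs <;> simp [this]
    simp only [Bp, Bz, Zt, coe_evalRingHom]
    split_ifs
    · simp only [eval_add, eval_X, eval_C]
      push_cast
      field_simp
      ring
    · simp
    · simp
  rw [← PfB_prod_live, mul_assoc,
    ← Pf_weight (fun u => (ws w s u : ℂ)), ← Pf_row (fun a => (ws w s a.1 : ℂ)) _ _ (dis_state s U),
    ← h2, ← h1]
  rfl

/-- Every minor is a characteristic polynomial (or induction with `minor_insert`). -/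
theorem PP_monic [NeZero r] (z : ℝ) (M : V → V → ℂ) (w : V → ℝ) (s : V → St r) (U : Finset V) :
    (PP z M w s U).Monic ∧ (PP z M w s U).natDegree = (live s U).card := by
  set n := (live s U).card with hn
  have h1 : ∀ c : Uu s U → Fin r, (minor (Bp z M w s) (Tc s U ∪ gr (Uu s U) c)).Monic ∧
      (minor (Bp z M w s) (Tc s U ∪ gr (Uu s U) c)).natDegree = n := by
    intro c
    set T := Tc s U ∪ gr (Uu s U) c with hT
    have hc : T.card = n := by
      rw [hT, Finset.card_union_of_disjoint (PfB_disj (dis_state s U) c), PfB_card_gr,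
        PfB_card_live]
    have e : minor (Bp z M w s) T = (Matrix.of fun a b : T =>
        if a = b then -((ws w s a.1.1 * zs z s a.1.1 : ℝ) : ℂ)
        else if a.1.2 = b.1.2 then (ws w s a.1.1 : ℂ) * M a.1.1 b.1.1 else 0).charpoly := by
      unfold minor Matrix.charpoly
      congr 1
      ext1 a b
      by_cases hab : a = b
      · subst hab
        simp [Bp]
      · have hab' : (a : V × Fin r) ≠ b := fun h => hab (Subtype.ext h)
        rw [Matrix.charmatrix_apply_ne _ _ _ hab]
        simp only [Bp, Matrix.of_apply, hab, hab', if_false]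
        split_ifs <;> simp
    rw [e]
    exact ⟨Matrix.charpoly_monic _, by rw [Matrix.charpoly_natDegree_eq_dim, Fintype.card_coe, hc]⟩
  have hr : (r : ℂ) ≠ 0 := Nat.cast_ne_zero.2 (NeZero.ne r)
  have h2 : (PP z M w s U).natDegree ≤ n := by
    unfold PP Pf
    refine natDegree_sum_le_of_forall_le _ _ fun c _ => ?_
    rw [← map_prod]
    exact (natDegree_C_mul_le _ _).trans (h1 c).2.le
  have h3 : (PP z M w s U).coeff n = 1 := by
    unfold PP Pf
    rw [finsetSum_coeff]
    rw [Finset.sum_congr rfl fun c _ => by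
      rw [← map_prod, coeff_C_mul, ← (h1 c).2, (h1 c).1.coeff_natDegree, mul_one]]
    simp only [Finset.prod_const, Finset.sum_const, Finset.card_univ, Fintype.card_fun,
      Fintype.card_fin, nsmul_eq_mul, Nat.cast_pow]
    rw [← mul_pow, mul_inv_cancel₀ hr, one_pow]
  exact ⟨monic_of_natDegree_le_of_coeff_eq_one n h2 h3,
    natDegree_eq_of_le_of_coeff_ne_zero h2 (by rw [h3]; exact one_ne_zero)⟩

/-- Invariance under relabelling and diagonal unitary conjugation. -/
theorem PP_iso (z : ℝ) {M : V → V → ℂ} {m : V' → V' → ℂ} (w : V → ℝ) (s : V → St r) (e : V' → V)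
    {U : Finset V'} (he : Set.InjOn e U) (γ : V' → ℂ) (hγ : ∀ a ∈ U, ‖γ a‖ = 1)
    (hM : ∀ a ∈ U, ∀ b ∈ U, M (e a) (e b) = (starRingEnd ℂ) (γ a) * m a b * γ b) :
    PP z M w s (U.image e) = PP z m (w ∘ e) (s ∘ e) U := by
  have e1 : Uu s (U.image e) = (Uu (s ∘ e) U).image e := by
    unfold Uu
    rw [Finset.filter_image]
    rfl
  have e2 : Tc s (U.image e) = (Tc (s ∘ e) U).image fun a => (e a.1, a.2) := by
    ext a
    simp only [PfB_mem_Tc, Finset.mem_image, Function.comp]
    constructor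
    · rintro ⟨⟨u, hu, hu'⟩, h⟩
      exact ⟨(u, a.2), ⟨hu, by rw [hu']; exact h⟩, Prod.ext hu' rfl⟩
    · rintro ⟨b, ⟨hb, h⟩, rfl⟩
      exact ⟨⟨b.1, hb, rfl⟩, h⟩
  have hg : ∀ a ∈ U, (starRingEnd ℂ) (γ a) * γ a = 1 := by
    intro a ha
    rw [Complex.conj_mul', hγ a ha]
    simp
  have hd := dis_state (s ∘ e) U
  unfold PP
  rw [e1, e2, Pf_image _ _ e _ _ (he.mono ?_)]
  · have h2 : Pf (fun a b => Bp z M w s (e a.1, a.2) (e b.1, b.2))
        (fun _ : V' × Fin r => C ((r : ℂ)⁻¹)) (Uu (s ∘ e) U) (Tc (s ∘ e) U) =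
        Pf (fun a b => (C ((starRingEnd ℂ) (γ a.1)) * Bp z m (w ∘ e) (s ∘ e) a b) * C (γ b.1))
        (fun _ : V' × Fin r => C ((r : ℂ)⁻¹)) (Uu (s ∘ e) U) (Tc (s ∘ e) U) := by
      refine Pf_congr (fun a ha b hb => ?_) fun _ _ _ => rfl
      have a1 := (PfB_supp_live ha).1
      have b1 := (PfB_supp_live hb).1
      by_cases hab : a = b
      · subst hab
        simp only [Bp, if_true]
        rw [mul_right_comm, ← C_mul, hg _ a1, C_1, one_mul]
        rfl
      · have hab' : (e a.1, a.2) ≠ (e b.1, b.2) := fun h =>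
          hab (Prod.ext (he a1 b1 (congrArg Prod.fst h)) (Prod.ext_iff.1 h).2)
        simp only [Bp, hab, hab', if_false]
        split_ifs
        · rw [hM _ a1 _ b1]
          have : ws w s (e a.1) = ws (w ∘ e) (s ∘ e) a.1 := rfl
          rw [this]
          simp only [C_mul]
          ring
        · simp
    rw [h2, Pf_col (fun b => C (γ b.1)) _ _ hd,
      Pf_row (fun a => C ((starRingEnd ℂ) (γ a.1))) _ _ hd, ← mul_assoc,
      ← Finset.prod_mul_distrib, Finset.prod_eq_one, one_mul]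
    · refine Pf_congr (fun _ _ _ _ => rfl) fun u hu i => ?_
      rw [mul_assoc, ← C_mul, mul_comm (γ u), hg u (PfB_mem_Uu.1 hu).1, C_1, mul_one]
    · intro a ha
      rw [← C_mul, mul_comm, hg _ (PfB_mem_Tc.1 ha).1, C_1]
  · rintro x (hx | ⟨a, ha, rfl⟩)
    · exact (PfB_mem_Uu.1 hx).1
    · exact (PfB_mem_Tc.1 ha).1

theorem PP_block (z : ℝ) (M : V → V → ℂ) (w : V → ℝ) (s : V → St r) (U : Finset V)
    (p : V → Prop) [DecidablePred p] (h : ∀ u ∈ U, ∀ u' ∈ U, p u → ¬ p u' → M u u' = 0) :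
    PP z M w s U = PP z M w s (U.filter p) * PP z M w s (U.filter fun u => ¬ p u) := by
  have e1 : ∀ (q : V → Prop) [DecidablePred q], Uu s (U.filter q) = (Uu s U).filter q := by
    intro q _
    ext u
    simp only [PfB_mem_Uu, Finset.mem_filter]
    tauto
  have e2 : ∀ (q : V → Prop) [DecidablePred q],
      Tc s (U.filter q) = (Tc s U).filter fun a => q a.1 := by
    intro q _
    ext u
    simp only [PfB_mem_Tc, Finset.mem_filter]
    tauto
  unfold PP
  rw [e1, e1, e2, e2]
  refine Pf_block _ _ _ _ p fun a ha b hb h1 h2 => ?_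
  have hab : a ≠ b := fun h => h2 (h ▸ h1)
  simp [Bp, hab, h _ (PfB_supp_live ha).1 _ (PfB_supp_live hb).1 h1 h2]

/-- Scaling the weights scales the roots: `P_{c w}(c t) = c ^ n P_w(t)`. -/
theorem PP_roots_smul [NeZero r] (z : ℝ) (M : V → V → ℂ) (w : V → ℝ) (s : V → St r)
    (U : Finset V) {c : ℝ} (hc : c ≠ 0) :
    (PP z M (fun u => c * w u) s U).roots = (PP z M w s U).roots.map fun x => (c : ℂ) * x := by
  have hc' : (c : ℂ) ≠ 0 := Complex.ofReal_ne_zero.2 hc
  set q : ℂ[X] := C ((c : ℂ)⁻¹) * X + C 0 with hq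
  have h1 := Pf_map (compRingHom q) (Bp z M w s) (fun _ => C ((r : ℂ)⁻¹)) (Uu s U) (Tc s U)
  have h2 : PP z M (fun u => c * w u) s U =
      Pf (fun a b => C (c : ℂ) * compRingHom q (Bp z M w s a b))
      (fun _ : V × Fin r => compRingHom q (C ((r : ℂ)⁻¹))) (Uu s U) (Tc s U) := by
    refine Pf_congr (fun a _ b _ => ?_) fun _ _ _ => by simp
    have e : ws (fun u => c * w u) s a.1 = c * ws w s a.1 := by
      unfold ws
      split_ifs <;> ring
    simp only [Bp, e, coe_compRingHom_apply]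
    split_ifs
    · simp only [add_comp, X_comp, C_comp, hq, C_0, add_zero, mul_add, ← mul_assoc, ← C_mul,
        mul_inv_cancel₀ hc', C_1, one_mul]
      push_cast
      rw [mul_assoc]
    · simp only [neg_comp, C_comp, mul_neg, ← C_mul]
      push_cast
      rw [mul_assoc]
    · simp
  rw [h2, Pf_row (fun _ => C (c : ℂ)) _ _ (dis_state s U),
    Pf_weight (fun _ => C (c : ℂ)), ← h1, ← mul_assoc, Finset.prod_const, Finset.prod_const,
    ← pow_add, ← C_pow, roots_C_mul _ (pow_ne_zero _ hc'), coe_compRingHom_apply, hq,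
    roots_comp_C_mul_X_add_C _ _ _ (IsUnit.mk0 _ (inv_ne_zero hc'))]
  simp [PP]

theorem Dp_smul [NeZero r] (z : ℝ) (M : V → V → ℂ) (w : V → ℝ) (s : V → St r) (U : Finset V)
    (v : V) (o : St r) {c : ℝ} (hc : 0 < c) :
    Dp z M (fun u => c * w u) s U v o = c * Dp z M w s U v o := by
  have key : ∀ s' : V → St r, sumR (fun x => max x 0) (PP z M (fun u => c * w u) s' U) =
      c * sumR (fun x => max x 0) (PP z M w s' U) := by
    intro s'
    unfold sumR
    rw [PP_roots_smul z M w s' U hc.ne', Multiset.map_map, ← Multiset.sum_map_mul_left]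
    congr 1
    refine Multiset.map_congr rfl fun x _ => ?_
    simp only [Function.comp, Complex.re_ofReal_mul]
    rw [mul_max_of_nonneg _ _ hc.le, mul_zero]
  unfold Dp
  rw [key, key, mul_sub]

theorem HC.mono {M : V → V → ℂ} {U U' : Finset V} (h : HC M U) (hU : U' ⊆ U) : HC M U' := by
  refine ⟨fun u hu u' hu' => h.herm u (hU hu) u' (hU hu'), fun u hu => h.diag u (hU hu),
    fun η => ?_⟩
  have h1 := h.bd fun u => if u ∈ U' then η u else 0
  have e1 : form M U (fun u => if u ∈ U' then η u else 0) = form M U' η := by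
    unfold form
    rw [← Finset.sum_subset hU fun a _ ha => by simp [ha]]
    refine Finset.sum_congr rfl fun a ha => ?_
    rw [← Finset.sum_subset hU fun b _ hb => by simp [hb]]
    exact Finset.sum_congr rfl fun b hb => by simp [ha, hb]
  have e2 : nsq U (fun u => if u ∈ U' then η u else 0) = nsq U' η := by
    unfold nsq
    rw [← Finset.sum_subset hU fun a _ ha => by simp [ha]]
    exact Finset.sum_congr rfl fun b hb => by simp [hb]
  rwa [e1, e2] at h1

theorem HC.neg {M : V → V → ℂ} {U : Finset V} (h : HC M U) : HC (fun u u' => -M u u') U := by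
  refine ⟨fun u hu u' hu' => by rw [h.herm u hu u' hu', map_neg],
    fun u hu => by rw [h.diag u hu, neg_zero], fun η => ?_⟩
  have e : form (fun u u' => -M u u') U η = -form M U η := by
    simp [form]
  rw [e, norm_neg]
  exact h.bd η

theorem Env.mono {K : ℝ} {M : V → V → ℂ} {w : V → ℝ} {U U' : Finset V} (h : Env K M w U)
    (hU : U' ⊆ U) : Env K M w U' := by
  exact ⟨h.toHC.mono hU, fun u hu => h.pos u (hU hu),
    fun u hu u' hu' => h.lip u (hU hu) u' (hU hu')⟩

theorem Env.neg {K : ℝ} {M : V → V → ℂ} {w : V → ℝ} {U : Finset V} (h : Env K M w U) :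
    Env K (fun u u' => -M u u') w U := by
  exact ⟨h.toHC.neg, h.pos, fun u hu u' hu' h0 => h.lip u hu u' hu' (neg_ne_zero.1 h0)⟩

theorem PfB_half {M : V → V → ℂ} {U : Finset V} (h : HC M U) (η ζ : V → ℂ) :
    (∑ a ∈ U, ∑ b ∈ U, (starRingEnd ℂ) (η a) * M a b * ζ b).re ≤ (nsq U η + nsq U ζ) / 2 := by
  set φ := ∑ a ∈ U, ∑ b ∈ U, (starRingEnd ℂ) (η a) * M a b * ζ b with hφ
  have e0 : ∑ a ∈ U, ∑ b ∈ U, (starRingEnd ℂ) (ζ a) * M a b * η b = (starRingEnd ℂ) φ := by
    rw [hφ, Finset.sum_comm, map_sum]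
    refine Finset.sum_congr rfl fun a ha => ?_
    rw [map_sum]
    refine Finset.sum_congr rfl fun b hb => ?_
    rw [h.herm a ha b hb]
    simp only [map_mul, Complex.conj_conj]
    ring
  have e1 : form M U (η + ζ) - form M U (η - ζ) = 2 * (φ + (starRingEnd ℂ) φ) := by
    rw [← e0, hφ]
    simp only [form, ← Finset.sum_sub_distrib, ← Finset.sum_add_distrib, Finset.mul_sum,
      Pi.add_apply, Pi.sub_apply, map_add, map_sub]
    exact Finset.sum_congr rfl fun a _ => Finset.sum_congr rfl fun b _ => by ring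
  have e2 : nsq U (η + ζ) + nsq U (η - ζ) = 2 * (nsq U η + nsq U ζ) := by
    simp only [nsq, ← Finset.sum_add_distrib, Finset.mul_sum, Pi.add_apply, Pi.sub_apply]
    refine Finset.sum_congr rfl fun a _ => ?_
    have := parallelogram_law_with_norm ℂ (η a) (ζ a)
    nlinarith
  have e3 := congrArg Complex.re e1
  simp only [Complex.sub_re, Complex.add_conj] at e3
  have e4 : ((2 : ℂ) * ((2 * φ.re : ℝ) : ℂ)).re = 4 * φ.re := by
    simp only [Complex.mul_re, Complex.ofReal_re, Complex.ofReal_im, Complex.re_ofNat,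
      Complex.im_ofNat]
    ring
  have b1 := (Complex.re_le_norm _).trans (h.bd (η + ζ))
  have b2 := (Complex.abs_re_le_norm _).trans (h.bd (η - ζ))
  have b3 := neg_abs_le (form M U (η - ζ)).re
  linarith

/-- Polarisation: a Hermitian form bounded by `1` is a contraction. -/
theorem HC.bilin {M : V → V → ℂ} {U : Finset V} (h : HC M U) (η ζ : V → ℂ) :
    ‖∑ a ∈ U, ∑ b ∈ U, (starRingEnd ℂ) (η a) * M a b * ζ b‖ ≤
      Real.sqrt (nsq U η) * Real.sqrt (nsq U ζ) := by
  set φ := ∑ a ∈ U, ∑ b ∈ U, (starRingEnd ℂ) (η a) * M a b * ζ b with hφ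
  have hn : ∀ ξ : V → ℂ, 0 ≤ nsq U ξ := fun ξ => Finset.sum_nonneg fun _ _ => sq_nonneg _
  have hz : ∀ ξ : V → ℂ, nsq U ξ = 0 → ∀ a ∈ U, ξ a = 0 := by
    intro ξ h0 a ha
    have := (Finset.sum_eq_zero_iff_of_nonneg fun _ _ => sq_nonneg _).1 h0 a ha
    simpa using this
  by_cases hφ0 : φ = 0
  · rw [hφ0, norm_zero]; positivity
  have hA : 0 < nsq U η := by
    refine (hn η).lt_of_ne fun h0 => hφ0 ?_
    exact Finset.sum_eq_zero fun a ha => Finset.sum_eq_zero fun b _ => by
      simp [hz η h0.symm a ha]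
  have hB : 0 < nsq U ζ := by
    refine (hn ζ).lt_of_ne fun h0 => hφ0 ?_
    exact Finset.sum_eq_zero fun a _ => Finset.sum_eq_zero fun b hb => by
      simp [hz ζ h0.symm b hb]
  set x := Real.sqrt (nsq U η) with hx
  set y := Real.sqrt (nsq U ζ) with hy
  have hx0 : 0 < x := Real.sqrt_pos.2 hA
  have hy0 : 0 < y := Real.sqrt_pos.2 hB
  have hx2 : nsq U η = x ^ 2 := (Real.sq_sqrt hA.le).symm
  have hy2 : nsq U ζ = y ^ 2 := (Real.sq_sqrt hB.le).symm
  have hp : 0 < ‖φ‖ := norm_pos_iff.2 hφ0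
  have key := PfB_half h (fun a => ((y : ℂ) * φ) * η a) (fun a => ((x * ‖φ‖ : ℝ) : ℂ) * ζ a)
  have e1 : ∑ a ∈ U, ∑ b ∈ U, (starRingEnd ℂ) (((y : ℂ) * φ) * η a) * M a b *
      (((x * ‖φ‖ : ℝ) : ℂ) * ζ b) = ((y * (x * ‖φ‖) * ‖φ‖ ^ 2 : ℝ) : ℂ) := by
    have : (((y * (x * ‖φ‖) * ‖φ‖ ^ 2 : ℝ) : ℂ)) =
        (y : ℂ) * ((x * ‖φ‖ : ℝ) : ℂ) * (starRingEnd ℂ) φ * φ := by
      rw [mul_assoc _ _ φ, Complex.conj_mul']
      push_cast
      ring
    rw [this]
    conv_rhs => rw [← mul_one ((y : ℂ) * ((x * ‖φ‖ : ℝ) : ℂ) * (starRingEnd ℂ) φ)]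
    generalize (((x * ‖φ‖ : ℝ) : ℂ)) = κ
    generalize hψ : (starRingEnd ℂ) φ = ψ
    simp only [map_mul, hψ, Complex.conj_ofReal]
    rw [hφ, Finset.mul_sum]
    refine Finset.sum_congr rfl fun a _ => ?_
    rw [Finset.mul_sum]
    exact Finset.sum_congr rfl fun b _ => by ring
  have e2 : ∀ (κ : ℂ) (ξ : V → ℂ), nsq U (fun a => κ * ξ a) = ‖κ‖ ^ 2 * nsq U ξ := by
    intro κ ξ
    simp only [nsq, Finset.mul_sum, norm_mul, mul_pow]
  rw [e1, e2, e2, Complex.ofReal_re, norm_mul, Complex.norm_real, Complex.norm_real,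
    Real.norm_of_nonneg hy0.le, Real.norm_of_nonneg (by positivity), hx2, hy2] at key
  have h5 : (x * y * ‖φ‖ ^ 2) * ‖φ‖ ≤ (x * y * ‖φ‖ ^ 2) * (x * y) := by nlinarith
  exact le_of_mul_le_mul_left h5 (by positivity)

end

end Crest.Agent.R109
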