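import Crest.Agent.R109.Mob
import Crest.Agent.R109.PfB
import Crest.Agent.R124.Av

/-! Row 109: definitions of the measured-graph layer. -/

set_option autoImplicit false

open Polynomial MeasureTheory

namespace Crest.Agent.R109

section Graph
variable {G X : Type*}

/-- Action of words; the head of the list acts last. -/
def act (φ : G → X → X) : List G → X → X
  | [], x => x
  | g :: w, x => φ g (act φ w x)

/-- Words of length at most `R`. -/
def words (G : Type*) [Fintype G] [DecidableEq G] : ℕ → Finset (List G)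
  | 0 => {[]}
  | R + 1 => insert [] ((Finset.univ ×ˢ words G R).image fun p => p.1 :: p.2)

variable [Fintype G] [DecidableEq G] [DecidableEq X]

/-- Ball of radius `R`. -/
def ball (φ : G → X → X) (R : ℕ) (x : X) : Finset X := (words G R).image fun w => act φ w x

/-- Two distinct points of `V` are at distance more than `R`. -/
def Sepd (φ : G → X → X) (R : ℕ) (V : Set X) : Prop :=
  ∀ x ∈ V, ∀ y ∈ ball φ R x, y ∈ V → y = x

end Graph

/-- Delete the vertices of a set. -/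
noncomputable def delS {Y : Type*} {r : ℕ} (B : Set Y) (s : Y → St r) : Y → St r :=
  open Classical in fun y => if y ∈ B then St.del else s y

/-- A graph generated by measurable involutions, with a Hermitian kernel that is measurable up to
a gauge. -/
structure Kern (G Y : Type*) [MeasurableSpace Y] where
  φ : G → Y → Y
  invol : ∀ g y, φ g (φ g y) = y
  meas : ∀ g, Measurable (φ g)
  eqm : ∀ w w' : List G, MeasurableSet {y | act φ w y = act φ w' y}
  M : Y → Y → ℂ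
  hc : ∀ U, HC M U
  edge : ∀ y y', M y y' ≠ 0 → ∃ g, y' = φ g y
  m : List G → List G → Y → ℂ
  meas_m : ∀ w w', Measurable (m w w')
  gauge : ∀ y, ∃ γ : List G → ℂ, (∀ w, ‖γ w‖ = 1) ∧
    ∀ w w', M (act φ w y) (act φ w' y) = (starRingEnd ℂ) (γ w) * m w w' y * γ w'

/-- The opposite kernel. -/
def Kern.neg {G Y : Type*} [MeasurableSpace Y] [DecidableEq Y] (N : Kern G Y) : Kern G Y :=
  { N with
    M := fun a b => -N.M a b
    hc := fun U => (N.hc U).neg
    edge := fun y y' h => N.edge y y' (neg_ne_zero.1 h)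
    m := fun w w' y => -N.m w w' y
    meas_m := fun w w' => (N.meas_m w w').neg
    gauge := fun y => by
      obtain ⟨γ, h1, h2⟩ := N.gauge y
      exact ⟨γ, h1, fun w w' => by rw [h2]; ring⟩ }

/-- The coloured part of the kernel has norm at most `a` on the ball of radius `ρ`. -/
def Good {G Y : Type*} [Fintype G] [DecidableEq G] [DecidableEq Y] [MeasurableSpace Y] {r : ℕ}
    (N : Kern G Y) (ρ : ℕ) (a : ℝ) (c : Y → Option (Fin r)) (y : Y) : Prop :=
  ∀ η : Y → ℂ, ‖form (Mc N.M c) (ball N.φ ρ y) η‖ ≤ a * nsq (ball N.φ ρ y) η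

/-- A kernel with an invariant measure and a Lipschitz height `τ` (the log of the weights). -/
structure Net (G Y : Type*) [Fintype G] [DecidableEq G] [DecidableEq Y] [MeasurableSpace Y]
    extends Kern G Y where
  ν : Measure Y
  mp : ∀ g, MeasurePreserving (φ g) ν ν
  τ : Y → ℝ
  meas_τ : Measurable τ
  k : ℝ
  k_nonneg : 0 ≤ k
  lip : ∀ g y, |τ (φ g y) - τ y| ≤ k
  fin : ∀ a b : ℝ, ν {y | a ≤ τ y ∧ τ y ≤ b} ≠ ⊤
  sep : ∀ (R : ℕ) (B : Set Y), MeasurableSet B → ν B ≠ ⊤ → ∀ ε : ℝ, 0 < ε →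
    ∃ (n : ℕ) (C : Fin n → Set Y), (∀ i, MeasurableSet (C i) ∧ Sepd φ R (C i)) ∧
      ν.real (B \ ⋃ i, C i) ≤ ε

section Net
variable {G Y : Type*} [Fintype G] [DecidableEq G] [DecidableEq Y] [MeasurableSpace Y] {r : ℕ}

/-- Weights. -/
noncomputable def Net.w (N : Net G Y) : Y → ℝ := fun y => Real.exp (N.τ y)

/-- The slab of height `L`. -/
def Net.slab (N : Net G Y) (L : ℝ) : Set Y := {y | 0 ≤ N.τ y ∧ N.τ y ≤ L}

/-- A measurable state that is deleted outside the slab. -/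
def Net.Adm (N : Net G Y) (L : ℝ) (s : Y → St r) : Prop :=
  Measurable s ∧ ∀ y, s y ≠ St.del → y ∈ N.slab L

/-- Density of the potential. -/
noncomputable def Net.pd (N : Net G Y) (χ : ℝ[X]) (z : ℝ) (R : ℕ) (s : Y → St r) (y : Y) : ℝ :=
  dens (fun S => (sumC (cx χ) (PP z N.M N.w s S)).re) (ball N.φ (2 * R) y) y

/-- The potential. -/
noncomputable def Net.pot (N : Net G Y) (χ : ℝ[X]) (z : ℝ) (R : ℕ) (s : Y → St r) : ℝ :=
  ∫ y, N.pd χ z R s y ∂N.ν

/-- The local increment. -/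
noncomputable def Net.inc (N : Net G Y) (χ : ℂ[X]) (z : ℝ) (R : ℕ) (s : Y → St r) (y : Y)
    (o : St r) : ℂ := Ic χ z N.M N.w s (ball N.φ R y) y o

/-- The diagonal entry of `χ(Yc)`, for states without uncoloured vertices. -/
noncomputable def Net.dd (N : Net G Y) (χ : ℝ[X]) (z : ℝ) (R : ℕ) (s : Y → St r) (y : Y) : ℝ :=
  if s y = St.del then 0 else (dg (cx χ) (live s (ball N.φ R y)) (Yc z N.M N.w s) y).re

end Net

/-- All fibres of `c` belong to `𝓑`. -/
def Fib {X α : Type*} (𝓑 : Set (Set X)) (c : X → α) : Prop := ∀ a, c ⁻¹' {a} ∈ 𝓑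

/-- A kernel with a finite quasi-invariant measure and a dense algebra of sets. -/
structure Model (G X : Type*) [Fintype G] [DecidableEq G] [DecidableEq X] [MeasurableSpace X]
    extends Kern G X where
  μ : Measure X
  fin : IsFiniteMeasure μ
  h : G → X → ℝ
  meas_h : ∀ g, Measurable (h g)
  k : ℝ
  k_nonneg : 0 ≤ k
  h_le : ∀ g x, |h g x| ≤ k
  rn : ∀ (g : G) (f : X → ENNReal), Measurable f →
    ∫⁻ x, f x ∂μ = ∫⁻ x, f (φ g x) * ENNReal.ofReal (Real.exp (h g x)) ∂μ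
  W : X → ℝ
  W_φ : ∀ g x, W (φ g x) = W x + h g x
  𝓑 : Set (Set X)
  alg : IsSetAlgebra 𝓑
  meas_𝓑 : ∀ B ∈ 𝓑, MeasurableSet B
  dense : ∀ S, MeasurableSet S → ∀ ε : ℝ, 0 < ε → ∃ B ∈ 𝓑, μ.real (symmDiff S B) ≤ ε
  pre : ∀ g, ∀ B ∈ 𝓑, φ g ⁻¹' B ∈ 𝓑
  eq_mem : ∀ w w' : List G, {x | act φ w x = act φ w' x} ∈ 𝓑
  sep : ∀ (R : ℕ) (ε : ℝ), 0 < ε → ∃ (n : ℕ) (lab : X → Fin n), Fib 𝓑 lab ∧
    μ.real {x | ∃ y ∈ ball φ R x, y ≠ x ∧ lab y = lab x} ≤ ε

/-- The opposite model. -/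
def Model.neg {G X : Type*} [Fintype G] [DecidableEq G] [DecidableEq X] [MeasurableSpace X]
    (𝓜 : Model G X) : Model G X := { 𝓜 with toKern := 𝓜.toKern.neg }

/-- `f` depends on at most `D` coordinates. -/
def Junta {ι Λ α : Type*} (D : ℕ) (f : (ι → Λ) → α) : Prop :=
  ∃ J : Finset ι, J.card ≤ D ∧ ∀ ω ω', (∀ a ∈ J, ω a = ω' a) → f ω = f ω'

/-- Each colour is produced by at most one value of the coordinate `a`. -/
def Own {ι Λ : Type*} [DecidableEq ι] {r : ℕ} (a : ι) (f : (ι → Λ) → Option (Fin r)) : Prop :=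
  ∀ ω l l' i, f (Function.update ω a l) = some i → f (Function.update ω a l') = some i → l = l'

/-- The analytic parameters of the potential. -/
structure Par (V : Type*) [DecidableEq V] (r : ℕ) (K z β L s₀ CT : ℝ) (R : ℕ) (χ : ℝ[X])
    (χt : ℕ → ℂ[X]) (ct : ℕ → St r → ℝ) : Prop where
  chi : Chi (Real.exp L * (25 * z + 1)) β χ
  deg : χ.natDegree ≤ R
  degt : ∀ j, (χt j).natDegree ≤ R
  bot : ∀ (M : V → V → ℂ) (w : V → ℝ) (s : V → St r) (U B : Finset V) (v : V) (o : St r),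
    Env K M w U → v ∈ U → v ∉ B → (∀ u ∈ B, w u ≤ Real.exp (-s₀) * w v) →
    |Dp z M w s U v o - Dp z M w (delOn B s) U v o| ≤ β * w v
  top2 : ∀ (j : ℕ) (M : V → V → ℂ) (w : V → ℝ) (s : V → St r) (U : Finset V) (v : V) (o : St r),
    Env K M w U → Rng 1 (Real.exp L) w s U → v ∈ U → s v = St.unc →
    Real.exp j ≤ w v → w v ≤ Real.exp (j + 1) →
    |(Ic (χt j) z M w s U v o).im + ct j o -
      (Dp z M w s U v o - Dp z M w s U v St.unc)| ≤ β * w v
  top3 : ∀ (j : ℕ) (M : V → V → ℂ) (w : V → ℝ) (s : V → St r) (U V' : Finset V) (u : V)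
    (o : St r) (ε : V → ℝ), Env K M w U → Rng 1 (Real.exp L) w s U → u ∈ U → V' ⊆ U → u ∉ V' →
    (∀ v ∈ V', s v = St.unc ∧ Real.exp j ≤ w v ∧ w v ≤ Real.exp (j + 1) ∧ |ε v| ≤ 1) →
    ∑ v ∈ V', ε v * ((Ic (χt j) z M w (Function.update s u St.del) U v o).im -
      (Ic (χt j) z M w s U v o).im) ≤ CT * Real.exp (j + 1)

/-- The interface between the analysis and the colouring procedure. -/
structure Poti {G X : Type*} [Fintype G] [DecidableEq G] [DecidableEq X] [MeasurableSpace X]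
    (𝓜 : Model G X) (r ρ : ℕ) (z c β : ℝ) (R : ℕ) (CJ : ℝ) (𝓟 : (X → St r) → ℝ)
    (J : (X → St r) → X → St r → ℝ) (err : (X → St r) → X → ℝ) : Prop where
  loc : ∀ σ σ' x, (∀ y ∈ ball 𝓜.φ R x, σ y = σ' y) → J σ x = J σ' x
  meas_J : ∀ σ, Measurable σ → ∀ o, Measurable fun x => J σ x o
  J_le : ∀ σ x o, |J σ x o| ≤ CJ
  meas_err : ∀ σ, Measurable σ → Measurable (err σ)
  err_nonneg : ∀ σ x, 0 ≤ err σ x
  err_le : ∀ σ x, err σ x ≤ CJ
  change : ∀ σ σ' V, Measurable σ → Measurable σ' → MeasurableSet V → Sepd 𝓜.φ R V →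
    (∀ x ∉ V, σ' x = σ x) → 𝓟 σ' - 𝓟 σ = ∫ x in V, J σ x (σ' x) ∂𝓜.μ
  step : ∀ σ x, Measurable σ → σ x = St.unc → J σ x St.del + z ≤ β + err σ x ∨
    ∃ f : Lab r ↪ Fin r, R124.av (fun l => J σ x (St.col (f l))) ≤ β + err σ x
  err_int : ∀ σ, Measurable σ → ∫ x in {x | σ x = St.unc}, err σ x ∂𝓜.μ ≤ β
  init : 𝓟 (fun _ => St.unc) ≤ β
  final : ∀ σ, Measurable σ → (∀ x, σ x ≠ St.unc) →
    c * 𝓜.μ.real {x | ¬ Good 𝓜.toKern ρ (26 * z) (fun y => (σ y).toOpt) x} - β ≤ 𝓟 σ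
  del_unc : ∀ σ, Measurable σ → 𝓟 (delS {x | σ x = St.unc} σ) ≤ 𝓟 σ + β

end Crest.Agent.R109
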