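import Crest.Agent.R109.Reg
import Crest.Agent.R109.Int

/-! Task 109-INIT: the barrier argument. Before any vertex is coloured there is no positive root. -/

set_option autoImplicit false

open Polynomial

namespace Crest.Agent.R109

variable {V : Type*} [DecidableEq V] {r : ℕ}

namespace InitA

/-- `Pf` of `diag Z - M` with uniform weights. -/
noncomputable def F (M : V → V → ℂ) (Z : V × Fin r → ℂ) (U : Finset V)
    (T : Finset (V × Fin r)) : ℂ :=
  Pf (Bz Z M) (fun _ => (r : ℂ)⁻¹) U T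

theorem F_eq (M : V → V → ℂ) (Z : V × Fin r → ℂ) (U : Finset V) (T : Finset (V × Fin r)) :
    F M Z U T = Pf (Bz Z M) (fun a => (((fun _ => (r : ℝ)⁻¹ : V × Fin r → ℝ) a : ℝ) : ℂ)) U T := by
  simp [F]

theorem F_congr {M : V → V → ℂ} {Z Z' : V × Fin r → ℂ} {U : Finset V} {T : Finset (V × Fin r)}
    (h : ∀ a ∈ supp U T, Z a = Z' a) : F M Z U T = F M Z' U T := by
  refine Pf_congr (fun a ha b _ => ?_) fun _ _ _ => rfl
  unfold Bz
  rw [h a ha]

theorem F_upd {M : V → V → ℂ} {Z Z' : V × Fin r → ℂ} {U : Finset V} {T : Finset (V × Fin r)}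
    {a : V × Fin r} (ha : a ∉ T) (hU : a.1 ∉ U) (h : ∀ x ∈ supp U T, Z x = Z' x) :
    F M Z U (insert a T) = F M Z' U (insert a T) + (Z a - Z' a) * F M Z U T := by
  have e1 := F_congr (M := M) h
  have e2 : Pf (zeroAt (Bz Z M) a) (fun _ => (r : ℂ)⁻¹) U (insert a T) =
      Pf (zeroAt (Bz Z' M) a) (fun _ => (r : ℂ)⁻¹) U (insert a T) := by
    refine Pf_congr (fun x hx y _ => ?_) fun _ _ _ => rfl
    unfold zeroAt Bz
    by_cases hxy : x = y
    · subst hxy
      by_cases hxa : x = a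
      · simp [hxa]
      · have : x ∈ supp U T := by
          rw [PfB_mem_supp] at hx ⊢
          rcases hx with hx | hx
          · exact Or.inl ((Finset.mem_insert.1 hx).resolve_left hxa)
          · exact Or.inr hx
        simp [hxa, h x this]
    · simp [hxy]
  unfold F at e1 ⊢
  rw [Pf_aff (Bz Z M) _ ha hU, Pf_aff (Bz Z' M) _ ha hU, e2, ← e1]
  simp only [Bz, if_true]
  ring

theorem exists_poly (M : V → V → ℂ) (Z p : V × Fin r → ℂ) (U : Finset V)
    (T : Finset (V × Fin r)) :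
    ∃ P : ℂ[X], ∀ t, P.eval t = F M (fun a => Z a + t * p a) U T := by
  refine ⟨Pf (fun a b => if a = b then C (Z a) + X * C (p a) else
    if a.2 = b.2 then -C (M a.1 b.1) else 0) (fun _ => C (r : ℂ)⁻¹) U T, fun t => ?_⟩
  rw [← coe_evalRingHom, Pf_map]
  refine Pf_congr (fun a _ b _ => ?_) fun _ _ _ => by simp
  unfold Bz
  split_ifs
  · simp only [coe_evalRingHom, eval_add, eval_mul, eval_C, eval_X]
  · simp
  · simp

theorem F_cont (M : V → V → ℂ) {Z : ℝ → V × Fin r → ℂ} (hZ : ∀ a, Continuous fun e => Z e a)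
    (U : Finset V) (T : Finset (V × Fin r)) : Continuous fun e => F M (Z e) U T := by
  unfold F Pf minor
  refine continuous_finsetSum _ fun c _ => continuous_const.mul ?_
  refine Continuous.matrix_det (continuous_matrix fun a b => ?_)
  simp only [Matrix.of_apply, Bz]
  split_ifs
  · exact hZ _
  · exact continuous_const
  · exact continuous_const

theorem F_conj {M : V → V → ℂ} {W : Finset V} (hM : HC M W) (Z : V × Fin r → ℂ) {U : Finset V}
    {T : Finset (V × Fin r)} (hS : ∀ b ∈ supp U T, b.1 ∈ W) :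
    F M (fun a => (starRingEnd ℂ) (Z a)) U T = (starRingEnd ℂ) (F M Z U T) := by
  have e1 : ∀ (B : V × Fin r → V × Fin r → ℂ) (π : V × Fin r → ℂ),
      Pf (fun a b => B b a) π U T = Pf B π U T := fun B π => by
    unfold Pf minor
    refine Finset.sum_congr rfl fun c _ => ?_
    rw [← Matrix.det_transpose]
    rfl
  unfold F
  rw [Pf_map, ← e1]
  refine Pf_congr (fun a ha b hb => ?_) fun _ _ _ => by simp
  unfold Bz
  by_cases hab : a = b
  · simp [hab]
  · rw [if_neg hab, if_neg (Ne.symm hab)]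
    by_cases h2 : a.2 = b.2
    · rw [if_pos h2, if_pos h2.symm, hM.herm _ (hS a ha) _ (hS b hb), map_neg]
    · rw [if_neg h2, if_neg (Ne.symm h2), map_zero]

theorem rpos [NeZero r] : (0 : ℝ) < r := by exact_mod_cast Nat.pos_of_ne_zero (NeZero.ne r)

theorem F_ne [NeZero r] {M : V → V → ℂ} {W : Finset V} (hM : HC M W) {Z : V × Fin r → ℂ}
    {U : Finset V} {T : Finset (V × Fin r)} (hD : Dis U T) (hS : ∀ b ∈ supp U T, b.1 ∈ W)
    (hZ : ∀ b ∈ supp U T, 0 < (Z b).im) : F M Z U T ≠ 0 := by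
  rw [F_eq]
  exact Pf_ne hD (fun _ _ _ => inv_pos.2 rpos) (posIm_Bz hM hS hZ)

/-- Transfer from the upper half plane to the lower half plane. -/
theorem F_ne_of_upper {M : V → V → ℂ} {W : Finset V} (hM : HC M W) (Z p : V × Fin r → ℝ)
    {U : Finset V} {T : Finset (V × Fin r)} (hS : ∀ b ∈ supp U T, b.1 ∈ W)
    (h : ∀ s : ℂ, 0 < s.im → F M (fun a => (Z a : ℂ) + s * p a) U T ≠ 0) {s : ℂ}
    (hs : s.im ≠ 0) : F M (fun a => (Z a : ℂ) + s * p a) U T ≠ 0 := by
  rcases lt_or_gt_of_ne hs with hs | hs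
  · have h1 := h ((starRingEnd ℂ) s) (by simpa using hs)
    have h2 := F_conj hM (fun a => (Z a : ℂ) + s * p a) hS
    simp only [map_add, map_mul, Complex.conj_ofReal] at h2
    rw [h2] at h1
    exact fun h0 => h1 (by rw [h0, map_zero])
  · exact h s hs

open Filter Topology in
/-- `selfEnergy` on the boundary. -/
theorem se0 [NeZero r] {M : V → V → ℂ} {W : Finset V} (hM : HC M W) {Z : V × Fin r → ℂ}
    {U : Finset V} {T : Finset (V × Fin r)} {a : V × Fin r} (hD : Dis U T) (ha : a ∉ T)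
    (hU : a.1 ∉ U) (haW : a.1 ∈ W) (hS : ∀ b ∈ supp U T, b.1 ∈ W)
    (hZ : ∀ b ∈ supp U T, 0 ≤ (Z b).im) (h0 : F M Z U T ≠ 0) :
    (Z a - F M Z U (insert a T) / F M Z U T).im ≤ 0 ∧
      ∀ η : ℝ, 0 < η → (∀ b ∈ supp U T, b.2 = a.2 → M a.1 b.1 ≠ 0 → η ≤ (Z b).im) →
        ‖Z a - F M Z U (insert a T) / F M Z U T‖ ≤ 1 / η := by
  set Y : ℝ → V × Fin r → ℂ := fun e b => Z b + e * Complex.I with hY
  have hc : ∀ b, Continuous fun e => Y e b := fun b => by simp only [hY]; fun_prop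
  have hY0 : Y 0 = Z := by funext b; simp [hY]
  have him : ∀ e b, (Y e b).im = (Z b).im + e := fun e b => by simp [hY]
  have ht : Tendsto (fun e => Y e a - F M (Y e) U (insert a T) / F M (Y e) U T) (𝓝[>] 0)
      (𝓝 (Z a - F M Z U (insert a T) / F M Z U T)) := by
    have : ContinuousAt (fun e => Y e a - F M (Y e) U (insert a T) / F M (Y e) U T) 0 :=
      (hc a).continuousAt.sub ((F_cont M hc _ _).continuousAt.div (F_cont M hc _ _).continuousAt
        (by rwa [hY0]))
    have := this.tendsto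
    rw [hY0] at this
    exact this.mono_left nhdsWithin_le_nhds
  have key : ∀ e : ℝ, 0 < e → ∀ η : ℝ, 0 < η →
      (∀ b ∈ supp U T, b.2 = a.2 → M a.1 b.1 ≠ 0 → η ≤ (Y e b).im) →
      (Y e a - F M (Y e) U (insert a T) / F M (Y e) U T).im ≤ 0 ∧
        ‖Y e a - F M (Y e) U (insert a T) / F M (Y e) U T‖ ≤ 1 / η := fun e he η hη hN => by
    rw [F_eq, F_eq]
    exact selfEnergy hM hD ha hU (fun _ _ _ => inv_pos.2 rpos) haW hS
      (fun b hb => by rw [him]; linarith [hZ b hb]) hη hN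
  refine ⟨le_of_tendsto ((Complex.continuous_im.tendsto _).comp ht) ?_, fun η hη hN =>
    le_of_tendsto ht.norm ?_⟩
  · filter_upwards [self_mem_nhdsWithin] with e he
    exact (key e he e he fun b hb _ _ => by rw [him]; linarith [hZ b hb]).1
  · filter_upwards [self_mem_nhdsWithin] with e he
    exact (key e he η hη fun b hb h1 h2 => by
      rw [him]; linarith [hN b hb h1 h2, show 0 < e from he]).2

/-- `frac` for a denominator that is not monic. -/
theorem frac' (N D : ℂ[X]) (hD : ∀ t : ℂ, t.im ≠ 0 → D.eval t ≠ 0) {m : ℝ}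
    (him : ∀ t : ℂ, 0 < t.im → (N.eval t / D.eval t).im ≤ 0)
    (hm : ∀ᶠ y : ℝ in Filter.atTop,
      ‖N.eval (y * Complex.I) / D.eval (y * Complex.I)‖ ≤ m / y) :
    ∃ (S : Finset ℝ) (ν : ℝ → ℝ), (∀ p ∈ S, D.eval (p : ℂ) = 0) ∧ (∀ p, 0 ≤ ν p) ∧
      ∑ p ∈ S, ν p ≤ m ∧
      ∀ t : ℂ, D.eval t ≠ 0 → N.eval t / D.eval t = ∑ p ∈ S, (ν p : ℂ) / (t - p) := by
  have hD0 : D ≠ 0 := fun h => hD Complex.I (by simp) (by simp [h])
  have hl : D.leadingCoeff⁻¹ ≠ 0 := inv_ne_zero (leadingCoeff_ne_zero.2 hD0)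
  have e : ∀ t, (N * C D.leadingCoeff⁻¹).eval t / (D * C D.leadingCoeff⁻¹).eval t =
      N.eval t / D.eval t := fun t => by
    simp only [eval_mul, eval_C]
    exact mul_div_mul_right _ _ hl
  obtain ⟨l, hl'⟩ := rr_of_ne (monic_mul_leadingCoeff_inv hD0) fun t ht => by
    simpa [hD0] using hD t ht
  obtain ⟨ν, h1, h2, h3⟩ := frac (N * C D.leadingCoeff⁻¹) _ hl' (m := m)
    (fun t ht => by rw [e]; exact him t ht) (by simp only [e]; exact hm)
  refine ⟨l.toFinset, ν, fun p hp => ?_, h1, h2, fun t ht => ?_⟩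
  · have := hl'.eval p
    rw [Multiset.prod_eq_zero (s := l.map fun x : ℝ => (p : ℂ) - x)
      (Multiset.mem_map.2 ⟨p, Multiset.mem_toFinset.1 hp, sub_self _⟩)] at this
    simpa [hD0] using this
  · rw [← e, h3 t (by simpa [hD0] using ht)]

/-- The self-energy along a real direction `p` is a Stieltjes transform of mass at most `1`. -/
theorem se [NeZero r] {M : V → V → ℂ} {W : Finset V} (hM : HC M W) (Z p : V × Fin r → ℝ)
    {U : Finset V} {T : Finset (V × Fin r)} {a : V × Fin r} (hD : Dis U T) (ha : a ∉ T)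
    (hU : a.1 ∉ U) (haW : a.1 ∈ W) (hS : ∀ b ∈ supp U T, b.1 ∈ W) (hp : ∀ b, 0 ≤ p b)
    (hN : ∀ b ∈ supp U T, b.2 = a.2 → M a.1 b.1 ≠ 0 → p b = 1)
    (h0 : ∀ s : ℂ, s.im ≠ 0 → F M (fun b => (Z b : ℂ) + s * p b) U T ≠ 0) :
    ∃ (S : Finset ℝ) (ν : ℝ → ℝ), (∀ q ∈ S, F M (fun b => (Z b : ℂ) + q * p b) U T = 0) ∧
      (∀ q, 0 ≤ ν q) ∧ ∑ q ∈ S, ν q ≤ 1 ∧
      ∀ s : ℂ, F M (fun b => (Z b : ℂ) + s * p b) U T ≠ 0 →
        F M (fun b => (Z b : ℂ) + s * p b) U (insert a T) =
          (Z a + s * p a - ∑ q ∈ S, (ν q : ℂ) / (s - q)) *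
            F M (fun b => (Z b : ℂ) + s * p b) U T := by
  obtain ⟨D, hDe⟩ := exists_poly M (fun b => (Z b : ℂ)) (fun b => (p b : ℂ)) U T
  obtain ⟨D', hD'⟩ := exists_poly M (fun b => (Z b : ℂ)) (fun b => (p b : ℂ)) U (insert a T)
  have e : ∀ s : ℂ, D.eval s ≠ 0 →
      ((C (Z a : ℂ) + X * C (p a : ℂ)) * D - D').eval s / D.eval s =
        Z a + s * p a - D'.eval s / D.eval s := fun s hs => by
    simp only [eval_sub, eval_mul, eval_add, eval_C, eval_X]
    field_simp
  have k : ∀ s : ℂ, 0 < s.im → _ := fun s hs =>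
    se0 hM (Z := fun b => (Z b : ℂ) + s * p b) hD ha hU haW hS
      (fun b _ => by simpa using mul_nonneg hs.le (hp b)) (h0 s hs.ne')
  obtain ⟨S, ν, h1, h2, h3, h4⟩ := frac' ((C (Z a : ℂ) + X * C (p a : ℂ)) * D - D') D (m := 1)
    (fun t ht => by rw [hDe]; exact h0 t ht)
    (fun t ht => by
      rw [e t (by rw [hDe]; exact h0 t ht.ne'), hDe, hD']
      exact (k t ht).1)
    (by
      filter_upwards [Filter.eventually_gt_atTop 0] with y hy
      have hy' : 0 < ((y : ℂ) * Complex.I).im := by simpa using hy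
      rw [e _ (by rw [hDe]; exact h0 _ hy'.ne'), hDe, hD']
      exact (k _ hy').2 y hy fun b hb h1 h2 => by simp [hN b hb h1 h2])
  refine ⟨S, ν, fun q hq => by rw [← hDe]; exact h1 q hq, h2, h3, fun s hs => ?_⟩
  rw [← hDe] at hs
  rw [← h4 s hs, e s hs, ← hDe, ← hD']
  field_simp
  ring

theorem ne_aux {τ : ℝ} (hτ : τ < 0) {S : Finset ℝ} {ν : ℝ → ℝ} (hν : ∀ q, 0 ≤ ν q)
    (hS : ∀ q ∈ S, q < 0) {s : ℂ} (hs : s.im ≠ 0 ∨ 0 ≤ s.re) :
    (τ : ℂ) - ∑ q ∈ S, (ν q : ℂ) / (s - q) ≠ 0 := by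
  intro h
  rw [sub_eq_zero] at h
  have h1 := congrArg Complex.re h
  have h2 := congrArg Complex.im h
  simp only [Complex.ofReal_re, Complex.ofReal_im, Complex.re_sum, Complex.im_sum, Complex.div_re,
    Complex.div_im, Complex.sub_re, Complex.sub_im, zero_mul, zero_div, add_zero, sub_zero,
    zero_sub] at h1 h2
  have hn : ∀ q : ℝ, 0 ≤ ν q / Complex.normSq (s - q) := fun q =>
    div_nonneg (hν q) (Complex.normSq_nonneg _)
  rcases hs with hs | hs
  · have h3 : ∑ q ∈ S, ν q / Complex.normSq (s - q) = 0 := by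
      have : s.im * ∑ q ∈ S, ν q / Complex.normSq (s - q) = 0 := by
        rw [Finset.mul_sum, ← neg_eq_zero, ← Finset.sum_neg_distrib, h2]
        exact Finset.sum_congr rfl fun q _ => by ring
      exact (mul_eq_zero.1 this).resolve_left hs
    rw [Finset.sum_eq_zero_iff_of_nonneg fun q _ => hn q] at h3
    rw [Finset.sum_eq_zero fun q hq => by rw [mul_div_right_comm, h3 q hq, zero_mul]] at h1
    exact hτ.ne h1
  · have : 0 ≤ ∑ q ∈ S, ν q * (s.re - q) / Complex.normSq (s - q) :=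
      Finset.sum_nonneg fun q hq => by
        rw [mul_div_right_comm]
        exact mul_nonneg (hn q) (by linarith [hS q hq])
    linarith

theorem prod_insert (v : V) (j : Fin r) (J : Finset (Fin r)) (T : Finset (V × Fin r)) :
    T ∪ {v} ×ˢ insert j J = insert (v, j) (T ∪ {v} ×ˢ J) := by
  ext ⟨x, i⟩
  simp only [Finset.mem_union, Finset.mem_product, Finset.mem_singleton, Finset.mem_insert,
    Prod.mk.injEq]
  tauto

theorem dis_union {U : Finset V} {T : Finset (V × Fin r)} (hD : Dis U T) {v : V} (hvU : v ∉ U)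
    (J : Finset (Fin r)) : Dis U (T ∪ {v} ×ˢ J) := fun a ha => by
  rcases Finset.mem_union.1 ha with ha | ha
  · exact hD a ha
  · rw [Finset.mem_singleton.1 (Finset.mem_product.1 ha).1]; exact hvU

theorem supp_union {W U : Finset V} {T : Finset (V × Fin r)} (hS : ∀ b ∈ supp U T, b.1 ∈ W)
    {v : V} (hvW : v ∈ W) (J : Finset (Fin r)) : ∀ b ∈ supp U (T ∪ {v} ×ˢ J), b.1 ∈ W := by
  intro b hb
  rcases PfB_mem_supp.1 hb with hb | hb
  · rcases Finset.mem_union.1 hb with hb | hb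
    · exact hS b (PfB_mem_supp.2 (Or.inl hb))
    · rw [Finset.mem_singleton.1 (Finset.mem_product.1 hb).1]; exact hvW
  · exact hS b (PfB_mem_supp.2 (Or.inr hb))

theorem neg_aux [NeZero r] {M : V → V → ℂ} {W : Finset V} (hM : HC M W) {U : Finset V}
    {T : Finset (V × Fin r)} (hD : Dis U T) (hS : ∀ b ∈ supp U T, b.1 ∈ W) {v : V} (hvW : v ∈ W)
    (hvU : v ∉ U) (hvT : ∀ a ∈ T, a.1 ≠ v) (J : Finset (Fin r)) {τ : ℝ} (hτ : τ < 0) (Z : V → ℝ)
    (hZ : ∀ s : ℝ, 0 ≤ s → F M (fun a => ((Z a.1 + s : ℝ) : ℂ)) U T ≠ 0) :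
    ∀ s : ℂ, s.im ≠ 0 ∨ 0 ≤ s.re → F M (fun a => ((Function.update Z v τ a.1 : ℝ) : ℂ) +
      s * ((if a.1 = v then 0 else 1 : ℝ) : ℂ)) U (T ∪ {v} ×ˢ J) ≠ 0 := by
  induction J using Finset.induction_on with
  | empty =>
    intro s hs
    have hv : ∀ a ∈ supp U T, a.1 ≠ v := fun a ha => by
      rcases PfB_mem_supp.1 ha with ha | ha
      · exact hvT a ha
      · exact fun h => hvU (h ▸ ha)
    rw [Finset.product_empty, Finset.union_empty]
    by_cases h : s.im = 0
    · have h1 := hZ s.re (hs.resolve_left (not_not.2 h))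
      rw [F_congr (Z' := fun a => ((Z a.1 + s.re : ℝ) : ℂ))]
      · exact h1
      · intro a ha
        rw [Function.update_of_ne (hv a ha), if_neg (hv a ha)]
        apply Complex.ext <;> simp [h]
    · refine F_ne_of_upper hM (fun a => Function.update Z v τ a.1) _ hS (fun t ht => ?_) h
      exact F_ne hM hD hS fun b hb => by simpa [hv b hb] using ht
  | insert j J hj ih =>
    intro s hs
    have ha : (v, j) ∉ T ∪ {v} ×ˢ J := fun h => by
      rcases Finset.mem_union.1 h with h | h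
      · exact hvT _ h rfl
      · exact hj (Finset.mem_product.1 h).2
    obtain ⟨S, ν, h1, h2, -, h4⟩ := se hM (fun a => Function.update Z v τ a.1)
      (fun a => if a.1 = v then 0 else 1) (dis_union hD hvU J) ha hvU hvW (supp_union hS hvW J)
      (fun b => by split_ifs <;> norm_num)
      (fun b _ _ h => if_neg fun h' => h (by rw [h']; exact hM.diag v hvW))
      (fun t ht => ih t (Or.inl ht))
    rw [prod_insert, h4 s (ih s hs)]
    refine mul_ne_zero ?_ (ih s hs)
    simp only [Function.update_self, if_true, Complex.ofReal_zero, mul_zero, add_zero]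
    refine ne_aux hτ h2 (fun q hq => ?_) hs
    by_contra hq'
    exact ih q (Or.inr (by simpa using hq')) (h1 q hq)

/-- Add `t` to the diagonal entries in `A`. -/
noncomputable def ad (Z : V × Fin r → ℂ) (A : Finset (V × Fin r)) (t : ℂ) : V × Fin r → ℂ :=
  fun x => Z x + if x ∈ A then t else 0

theorem ad_step (M : V → V → ℂ) (Z : V × Fin r → ℂ) {A S : Finset (V × Fin r)} {U : Finset V}
    {a : V × Fin r} (hA : a ∉ A) (hS : a ∉ S) (hU : a.1 ∉ U) (t : ℂ) :
    F M (ad Z (insert a A) t) U S = F M (ad Z A t) U S ∧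
      F M (ad Z (insert a A) t) U (insert a S) =
        t * F M (ad Z A t) U S + F M (ad Z A t) U (insert a S) := by
  have h : ∀ x ∈ supp U S, ad Z (insert a A) t x = ad Z A t x := fun x hx => by
    have : x ≠ a := by
      rintro rfl
      exact (PfB_mem_supp.1 hx).elim hS hU
    simp [ad, this]
  refine ⟨F_congr h, ?_⟩
  rw [F_upd hS hU h, F_congr h]
  simp only [ad, Finset.mem_insert_self, if_true, if_neg hA]
  ring

/-- Multi-affine expansion: the two top coefficients and the derivative. -/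
theorem expand (M : V → V → ℂ) (Z : V × Fin r → ℂ) (U : Finset V) (A : Finset (V × Fin r)) :
    ∀ T : Finset (V × Fin r), (∀ a ∈ A, a ∉ T ∧ a.1 ∉ U) → ∃ P : ℂ[X],
      (∀ t, P.eval t = F M (ad Z A t) U (T ∪ A)) ∧ P.natDegree ≤ A.card ∧
      P.coeff A.card = F M Z U T ∧ (X * P).coeff A.card = ∑ i ∈ A, F M Z U (insert i T) ∧
      ∀ t, P.derivative.eval t = ∑ j ∈ A, F M (ad Z A t) U (T ∪ A.erase j) := by
  induction A using Finset.induction_on with
  | empty =>
    intro T _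
    refine ⟨C (F M Z U T), fun t => ?_, by simp, by simp, by simp, by simp⟩
    rw [eval_C, Finset.union_empty]
    exact F_congr fun a _ => by simp [ad]
  | insert a A ha ih =>
    intro T hT
    have h0 := hT a (Finset.mem_insert_self _ _)
    obtain ⟨P, p1, p2, p3, p4, p5⟩ := ih T fun x hx => hT x (Finset.mem_insert_of_mem hx)
    obtain ⟨Q, q1, q2, q3, -, q5⟩ := ih (insert a T) fun x hx =>
      ⟨fun h => (Finset.mem_insert.1 h).elim (fun h => ha (h ▸ hx))
        (hT x (Finset.mem_insert_of_mem hx)).1, (hT x (Finset.mem_insert_of_mem hx)).2⟩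
    have hTA : a ∉ T ∪ A := fun h => (Finset.mem_union.1 h).elim h0.1 ha
    rw [Finset.card_insert_of_notMem ha]
    refine ⟨X * P + Q, fun t => ?_, ?_, ?_, ?_, fun t => ?_⟩
    · rw [Finset.union_insert, (ad_step M Z ha hTA h0.2 t).2, eval_add, eval_mul, eval_X, p1, q1,
        Finset.insert_union]
    · refine (natDegree_add_le _ _).trans (max_le (natDegree_mul_le.trans ?_) (by omega))
      rw [natDegree_X]; omega
    · rw [coeff_add, coeff_X_mul, p3, coeff_eq_zero_of_natDegree_lt (by omega), add_zero]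
    · rw [coeff_X_mul, coeff_add, p4, q3, Finset.sum_insert ha, add_comm]
    · rw [Finset.sum_insert ha, Finset.erase_insert ha, (ad_step M Z ha hTA h0.2 t).1]
      simp only [derivative_add, derivative_mul, derivative_X, one_mul, eval_add, eval_mul, eval_X]
      rw [p1, p5, q5, add_assoc, Finset.mul_sum, ← Finset.sum_add_distrib]
      congr 1
      refine Finset.sum_congr rfl fun j hj => ?_
      have hja : a ≠ j := fun h => ha (h ▸ hj)
      rw [Finset.erase_insert_of_ne hja, Finset.union_insert, (ad_step M Z ha (fun h =>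
        (Finset.mem_union.1 h).elim h0.1 fun h => ha (Finset.mem_of_mem_erase h)) h0.2 t).2,
        Finset.insert_union]

/-- The diagonal with `t` at the vertex `v`. -/
noncomputable def Zv (Z : V → ℝ) (v : V) (t : ℂ) : V × Fin r → ℂ :=
  fun x => if x.1 = v then t else Z x.1

theorem Zv_real (Z : V → ℝ) (v : V) (τ : ℝ) :
    (Zv Z v τ : V × Fin r → ℂ) = fun a => ((Function.update Z v τ a.1 : ℝ) : ℂ) := by
  funext a
  by_cases h : a.1 = v
  · simp [Zv, h]
  · simp [Zv, h]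

theorem expandV [NeZero r] (M : V → V → ℂ) (Z : V → ℝ) {U : Finset V} {v : V} (hv : v ∉ U)
    {T : Finset (V × Fin r)} (hT : ∀ a ∈ T, a.1 ≠ v) : ∃ P : ℂ[X],
      (∀ t, P.eval t = F M (Zv Z v t) U (T ∪ {v} ×ˢ Finset.univ)) ∧ P.natDegree ≤ r ∧
      P.coeff r = F M (fun a => (Z a.1 : ℂ)) U T ∧
      r * F M (fun a => (Z a.1 : ℂ)) (insert v U) T =
        r * Z v * F M (fun a => (Z a.1 : ℂ)) U T + (X * P).coeff r ∧
      ∀ t, P.derivative.eval t = ∑ j ∈ ({v} ×ˢ Finset.univ : Finset (V × Fin r)),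
        F M (Zv Z v t) U (T ∪ ({v} ×ˢ Finset.univ).erase j) := by
  have hA : ∀ a : V × Fin r, a ∈ ({v} ×ˢ Finset.univ : Finset (V × Fin r)) ↔ a.1 = v := by
    intro a
    rw [Finset.mem_product, Finset.mem_singleton]
    exact and_iff_left (Finset.mem_univ _)
  obtain ⟨P, p1, p2, p3, p4, p5⟩ := expand M (Zv Z v 0) U ({v} ×ˢ Finset.univ) T
    fun a ha => ⟨fun h => hT a h ((hA a).1 ha), by rw [(hA a).1 ha]; exact hv⟩
  have e : ∀ t, ad (Zv Z v 0) ({v} ×ˢ (Finset.univ : Finset (Fin r))) t = Zv Z v t := fun t => by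
    funext x
    simp only [ad, Zv, hA]
    split_ifs <;> simp
  have hc : ({v} ×ˢ (Finset.univ : Finset (Fin r))).card = r := by simp
  have hs : ∀ x ∈ supp U T, (Z x.1 : ℂ) = Zv Z v 0 x := fun x hx => by
    have : x.1 ≠ v := (PfB_mem_supp.1 hx).elim (hT x) fun h h' => hv (h' ▸ h)
    simp [Zv, this]
  simp only [e, hc] at p1 p2 p3 p4 p5
  refine ⟨P, p1, p2, p3.trans (F_congr hs).symm, ?_, p5⟩
  have hr : (r : ℂ) ≠ 0 := by exact_mod_cast NeZero.ne r
  have e2 : F M (fun a => (Z a.1 : ℂ)) (insert v U) T =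
      ∑ i, (r : ℂ)⁻¹ * F M (fun a => (Z a.1 : ℂ)) U (insert (v, i) T) := Pf_insert _ _ hv T
  rw [p4, e2, ← Finset.mul_sum, mul_inv_cancel_left₀ hr, Finset.sum_product, Finset.sum_singleton,
    Finset.sum_congr rfl fun i _ => F_upd (a := (v, i)) (fun h => hT _ h rfl) hv hs,
    Finset.sum_add_distrib]
  simp [Zv]
  ring

theorem upper_union [NeZero r] {M : V → V → ℂ} {W : Finset V} (hM : HC M W) {Z : V × Fin r → ℂ}
    {U : Finset V} {T : Finset (V × Fin r)} (hD : Dis U T) (hS : ∀ b ∈ supp U T, b.1 ∈ W)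
    (hZ : ∀ b, 0 ≤ (Z b).im) (h0 : F M Z U T ≠ 0) {v : V} (hvW : v ∈ W) (hvU : v ∉ U)
    (hvT : ∀ a ∈ T, a.1 ≠ v) (hv : ∀ i, 0 < (Z (v, i)).im) (J : Finset (Fin r)) :
    F M Z U (T ∪ {v} ×ˢ J) ≠ 0 := by
  induction J using Finset.induction_on with
  | empty => simpa using h0
  | insert j J hj ih =>
    have ha : (v, j) ∉ T ∪ {v} ×ˢ J := fun h => by
      rcases Finset.mem_union.1 h with h | h
      · exact hvT _ h rfl
      · exact hj (Finset.mem_product.1 h).2
    have := (se0 hM (dis_union hD hvU J) ha hvU hvW (supp_union hS hvW J) (fun b _ => hZ b) ih).1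
    intro h
    rw [prod_insert] at h
    rw [h, zero_div, sub_zero] at this
    linarith [hv j]

theorem dis_erase {U : Finset V} {T : Finset (V × Fin r)} (hD : Dis U T) (a : V × Fin r) :
    Dis U (T.erase a) := fun x hx => hD x (Finset.mem_of_mem_erase hx)

theorem supp_erase {W U : Finset V} {T : Finset (V × Fin r)} (hS : ∀ b ∈ supp U T, b.1 ∈ W)
    (a : V × Fin r) : ∀ b ∈ supp U (T.erase a), b.1 ∈ W := fun b hb =>
  hS b (PfB_mem_supp.2 ((PfB_mem_supp.1 hb).imp_left Finset.mem_of_mem_erase))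

theorem erase_im [NeZero r] {M : V → V → ℂ} {W : Finset V} (hM : HC M W) {Z : V × Fin r → ℂ}
    {U : Finset V} {T : Finset (V × Fin r)} (hD : Dis U T) (hS : ∀ b ∈ supp U T, b.1 ∈ W)
    (hZ : ∀ b, 0 ≤ (Z b).im) {a : V × Fin r} (ha : a ∈ T) :
    (F M Z U (T.erase a) / F M Z U T).im ≤ 0 := by
  by_cases h0 : F M Z U (T.erase a) = 0
  · simp [h0]
  have := (se0 hM (dis_erase hD a) (Finset.notMem_erase a T) (hD a ha)
    (hS a (PfB_mem_supp.2 (Or.inl ha))) (supp_erase hS a) (fun b _ => hZ b) h0).1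
  rw [Finset.insert_erase ha, Complex.sub_im] at this
  rw [← inv_div, Complex.inv_im]
  exact div_nonpos_of_nonpos_of_nonneg (by linarith [hZ a]) (Complex.normSq_nonneg _)

theorem posdef [NeZero r] {M : V → V → ℂ} {W : Finset V} (hM : HC M W) {Z : V × Fin r → ℝ}
    {T : Finset (V × Fin r)} (hS : ∀ b ∈ T, b.1 ∈ W) (hZ : ∀ b ∈ T, 1 < Z b) :
    F M (fun a => (Z a : ℂ)) ∅ T ≠ 0 := by
  have hP : PosIm (fun a b => Complex.I * Bz (fun a => (Z a : ℂ)) M a b) (supp ∅ T) := by
    have e : supp (∅ : Finset V) T = T := by simp [supp]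
    rw [e]
    rintro η ⟨a, ha, hη⟩
    obtain ⟨x, h1, h2⟩ := form_Bz hM (fun a => (Z a : ℂ)) hS η
    have e2 : form (fun a b => Complex.I * Bz (fun a => (Z a : ℂ)) M a b) T η =
        Complex.I * form (Bz (fun a => (Z a : ℂ)) M) T η := by
      simp only [form, Finset.mul_sum]
      exact Finset.sum_congr rfl fun _ _ => Finset.sum_congr rfl fun _ _ => by ring
    have e3 : nsq T η < ∑ a ∈ T, Z a * ‖η a‖ ^ 2 :=
      Finset.sum_lt_sum (fun b hb => by nlinarith [hZ b hb, sq_nonneg ‖η b‖])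
        ⟨a, ha, by nlinarith [hZ a ha, pow_pos (norm_pos_iff.2 hη) 2]⟩
    rw [e2, h2]
    simp only [← Complex.ofReal_mul, ← Complex.ofReal_sum, ← Complex.ofReal_sub, Complex.I_mul_im,
      Complex.ofReal_re]
    linarith [le_abs_self x]
  have := Pf_ne (π := fun _ => 1) (fun _ _ => Finset.notMem_empty _) (fun _ _ _ => one_pos) hP
  rw [Pf_empty, minor_row] at this
  unfold F
  rw [Pf_empty]
  exact right_ne_zero_of_mul this

theorem sum_real {ι : Type*} (S : Finset ι) {f : ι → ℂ} {c : ℝ}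
    (h : ∀ a ∈ S, ∃ y : ℝ, y ≤ c ∧ f a = y) : ∃ x : ℝ, x ≤ S.card * c ∧ ∑ a ∈ S, f a = x := by
  refine ⟨∑ a ∈ S, (f a).re, ?_, ?_⟩
  · rw [← nsmul_eq_mul]
    exact Finset.sum_le_card_nsmul _ _ _ fun a ha => by
      obtain ⟨y, h1, h2⟩ := h a ha
      simpa [h2] using h1
  · rw [Complex.ofReal_sum]
    exact Finset.sum_congr rfl fun a ha => by
      obtain ⟨y, -, h2⟩ := h a ha
      simp [h2]

theorem sq1 [NeZero r] : 1 ≤ Real.sqrt r :=
  Real.one_le_sqrt.2 (by exact_mod_cast Nat.pos_of_ne_zero (NeZero.ne r))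

theorem beta_pos [NeZero r] : 0 < Real.sqrt r + 1 - 1 / Real.sqrt r := by
  have h1 := sq1 (r := r)
  have : 1 / Real.sqrt r ≤ 1 := (div_le_one (by linarith)).2 h1
  linarith

theorem base [NeZero r] {M : V → V → ℂ} {W : Finset V} (hM : HC M W)
    {T : Finset (V × Fin r)} (hS : ∀ b ∈ T, b.1 ∈ W) (Z : V → ℝ)
    (hT : ∀ a ∈ T, Real.sqrt r + 1 ≤ Z a.1) (u : V) :
    ∃ x : ℝ, x ≤ r / (Real.sqrt r + 1 - 1 / Real.sqrt r) ∧
      ∑ a ∈ T.filter (fun a => a.1 = u), F M (fun a => (Z a.1 : ℂ)) ∅ (T.erase a) /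
        F M (fun a => (Z a.1 : ℂ)) ∅ T = (x : ℂ) := by
  have h1 := sq1 (r := r)
  have hβ := beta_pos (r := r)
  obtain ⟨x, hx, hx'⟩ := sum_real (T.filter fun a => a.1 = u)
    (f := fun a => F M (fun a => (Z a.1 : ℂ)) ∅ (T.erase a) / F M (fun a => (Z a.1 : ℂ)) ∅ T)
    (c := 1 / (Real.sqrt r + 1 - 1 / Real.sqrt r)) fun a ha => by
      have ha := (Finset.mem_filter.1 ha).1
      have hS' : ∀ b ∈ supp ∅ (T.erase a), b.1 ∈ W := fun b hb =>
        hS b (Finset.mem_of_mem_erase (by simpa [supp] using hb))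
      have hD : Dis (∅ : Finset V) (T.erase a) := fun _ _ => Finset.notMem_empty _
      obtain ⟨S, ν, k1, k2, k3, k4⟩ := se hM (fun a => Z a.1) (fun _ => 1) hD
        (Finset.notMem_erase a T) (Finset.notMem_empty _) (hS a ha) hS' (fun _ => zero_le_one)
        (fun _ _ _ _ => rfl) fun s hs => F_ne_of_upper hM _ _ hS' (fun t ht =>
          F_ne hM hD hS' fun b _ => by simpa using ht) hs
      have hq : ∀ q : ℝ, -Real.sqrt r < q →
          F M (fun b => (Z b.1 : ℂ) + q * ((1 : ℝ) : ℂ)) ∅ (T.erase a) ≠ 0 := fun q hq => by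
        have := posdef hM (Z := fun b => Z b.1 + q) (T := T.erase a)
          (fun b hb => hS b (Finset.mem_of_mem_erase hb))
          fun b hb => by linarith [hT b (Finset.mem_of_mem_erase hb)]
        simpa using this
      have h0 := hq 0 (by linarith)
      have h2 := k4 ((0 : ℝ) : ℂ) h0
      rw [Finset.insert_erase ha] at h2
      simp only [Complex.ofReal_zero, zero_mul, add_zero] at h0 h2
      have h3 : ∑ q ∈ S, ν q / (0 - q) ≤ 1 / Real.sqrt r := by
        refine le_trans (Finset.sum_le_sum fun q hq' => ?_)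
          (((Finset.sum_div S ν _).symm.le).trans (div_le_div_of_nonneg_right k3 (by linarith)))
        refine div_le_div_of_nonneg_left (k2 q) (by linarith) ?_
        by_contra h
        exact hq q (by linarith) (k1 q hq')
      refine ⟨1 / (Z a.1 - ∑ q ∈ S, ν q / (0 - q)), one_div_le_one_div_of_le hβ
        (by linarith [hT a ha]), ?_⟩
      rw [h2, div_mul_cancel_right₀ h0]
      simp
  refine ⟨x, hx.trans ?_, hx'⟩
  rw [← mul_one_div (r : ℝ)]
  refine mul_le_mul_of_nonneg_right ?_ (by positivity)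
  have : (T.filter fun a => a.1 = u).card ≤ (Finset.univ : Finset (Fin r)).card :=
    Finset.card_le_card_of_injOn Prod.snd (fun _ _ => Finset.mem_coe.2 (Finset.mem_univ _))
      fun a ha b hb h => Prod.ext (((Finset.mem_filter.1 ha).2).trans
        ((Finset.mem_filter.1 hb).2).symm) h
  exact_mod_cast this.trans_eq (by simp)

theorem decay {N D : ℂ[X]} {n : ℕ} (hD : ∀ t : ℂ, 0 < t.im → D.eval t ≠ 0)
    (hn : D.natDegree = n + 1) (hN : N.natDegree < n + 1) : ∃ m : ℝ, ∀ᶠ y : ℝ in Filter.atTop,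
      ‖N.eval (y * Complex.I) / D.eval (y * Complex.I)‖ ≤ m / y := by
  have hD0 : D ≠ 0 := fun h => by simp [h] at hn
  have hl : 0 < ‖D.leadingCoeff‖ := norm_pos_iff.2 (leadingCoeff_ne_zero.2 hD0)
  refine ⟨(∑ i ∈ Finset.range (n + 1), ‖N.coeff i‖) / ‖D.leadingCoeff‖, ?_⟩
  filter_upwards [Filter.eventually_ge_atTop 1] with y hy
  have hy0 : 0 < y := by linarith
  have h1 := norm_eval_ge hD (t := y * Complex.I) (by simpa using hy0)
  rw [hn] at h1
  simp only [Complex.mul_im, Complex.ofReal_re, Complex.I_im, mul_one, Complex.ofReal_im,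
    Complex.I_re, mul_zero, add_zero] at h1
  have h2 : ‖N.eval (y * Complex.I)‖ ≤ (∑ i ∈ Finset.range (n + 1), ‖N.coeff i‖) * y ^ n := by
    rw [eval_eq_sum_range' hN, Finset.sum_mul]
    refine (norm_sum_le _ _).trans (Finset.sum_le_sum fun i hi => ?_)
    rw [norm_mul, norm_pow, norm_mul, Complex.norm_I, mul_one, Complex.norm_real,
      Real.norm_of_nonneg hy0.le]
    exact mul_le_mul_of_nonneg_left (pow_le_pow_right₀ hy
      (Nat.lt_succ_iff.1 (Finset.mem_range.1 hi))) (norm_nonneg _)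
  rw [norm_div]
  refine (div_le_div₀ (le_trans (norm_nonneg _) h2) h2 (by positivity) h1).trans_eq ?_
  field_simp
  ring

theorem coeff_frac {N D : ℂ[X]} {n : ℕ} (hD : D ≠ 0) (hn : D.natDegree ≤ n) {S : Finset ℝ}
    {ν : ℝ → ℝ} (hS : ∀ p ∈ S, D.eval (p : ℂ) = 0)
    (h : ∀ t : ℂ, D.eval t ≠ 0 → N.eval t / D.eval t = ∑ p ∈ S, (ν p : ℂ) / (t - p)) :
    (X * N).coeff n = D.coeff n * ∑ p ∈ S, (ν p : ℂ) := by
  have e : ∀ p ∈ S, (X - C (p : ℂ)) * (D /ₘ (X - C (p : ℂ))) = D := fun p hp =>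
    mul_divByMonic_eq_iff_isRoot.2 (hS p hp)
  have e1 : N = ∑ p ∈ S, C (ν p : ℂ) * (D /ₘ (X - C (p : ℂ))) := by
    refine mul_right_cancel₀ hD (Polynomial.funext fun t => ?_)
    rw [eval_mul, eval_mul]
    by_cases ht : D.eval t = 0
    · simp [ht]
    congr 1
    rw [(div_eq_iff ht).1 (h t ht), eval_finsetSum, Finset.sum_mul]
    refine Finset.sum_congr rfl fun p hp => ?_
    have h1 := congrArg (eval t) (e p hp)
    simp only [eval_mul, eval_sub, eval_X, eval_C] at h1 ⊢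
    have h2 : t - p ≠ 0 := fun h => ht (by rw [← h1, h, zero_mul])
    rw [← h1]
    field_simp
  rw [e1, Finset.mul_sum, finsetSum_coeff, Finset.mul_sum]
  refine Finset.sum_congr rfl fun p hp => ?_
  have h1 := congrArg (coeff · n) (e p hp)
  have h2 : (D /ₘ (X - C (p : ℂ))).coeff n = 0 := coeff_eq_zero_of_degree_lt
    ((degree_divByMonic_lt D _ hD (by simp)).trans_le (degree_le_of_natDegree_le hn))
  simp only [sub_mul, coeff_sub, coeff_C_mul, h2, mul_zero, sub_zero] at h1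
  rw [mul_left_comm, coeff_C_mul, h1, mul_comm]

theorem logder (l : Multiset ℝ) {b : ℝ} (hb : ∀ x ∈ l, x < b) :
    (l.map fun x : ℝ => X - C (x : ℂ)).prod.derivative.eval (b : ℂ) =
      (l.map fun x : ℝ => X - C (x : ℂ)).prod.eval (b : ℂ) *
        (((l.map fun x => (b - x)⁻¹).sum : ℝ) : ℂ) := by
  induction l using Multiset.induction_on with
  | empty => simp
  | cons a l ih =>
    have h1 : (b : ℂ) - a ≠ 0 := by
      exact_mod_cast (sub_pos.2 (hb a (Multiset.mem_cons_self _ _))).ne'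
    simp only [Multiset.map_cons, Multiset.prod_cons, Multiset.sum_cons, derivative_mul, eval_add,
      eval_mul, ih fun x hx => hb x (Multiset.mem_cons_of_mem hx), derivative_sub, derivative_X,
      derivative_C, sub_zero, eval_one, eval_sub, eval_X, eval_C]
    push_cast
    field_simp

theorem jensen (l : Multiset ℝ) {b β : ℝ} (hβ : 0 < β) (hb : ∀ x ∈ l, x < b)
    (h : (l.map fun x => (b - x)⁻¹).sum ≤ Multiset.card l / β) :
    l.sum ≤ Multiset.card l * (b - β) := by
  have k : Multiset.card l * (2 * β - b) + l.sum ≤ β ^ 2 * (l.map fun x => (b - x)⁻¹).sum := by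
    clear h
    induction l using Multiset.induction_on with
    | empty => simp
    | cons a l ih =>
      have h1 := sub_pos.2 (hb a (Multiset.mem_cons_self _ _))
      have h2 := ih fun x hx => hb x (Multiset.mem_cons_of_mem hx)
      have h3 : 2 * β - (b - a) ≤ β ^ 2 * (b - a)⁻¹ := by
        rw [← div_eq_mul_inv, le_div_iff₀ h1]
        nlinarith [sq_nonneg (β - (b - a))]
      simp only [Multiset.map_cons, Multiset.sum_cons, Multiset.card_cons]
      push_cast
      linarith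
  have h2 := mul_le_mul_of_nonneg_left h (sq_nonneg β)
  have h3 : β ^ 2 * (Multiset.card l / β) = Multiset.card l * β := by field_simp
  linarith

end InitA

open InitA

/-- Induction on `J`, see `InitA.neg_aux`. -/
theorem neg_copies [NeZero r] {M : V → V → ℂ} {W : Finset V} (hM : HC M W) {U : Finset V}
    {T : Finset (V × Fin r)} (hD : Dis U T) (hS : ∀ b ∈ supp U T, b.1 ∈ W) {v : V} (hvW : v ∈ W)
    (hvU : v ∉ U) (hvT : ∀ a ∈ T, a.1 ≠ v) (J : Finset (Fin r)) {τ : ℝ} (hτ : τ < 0) (Z : V → ℝ)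
    (hZ : ∀ s : ℝ, 0 ≤ s →
      Pf (Bz (fun a => ((Z a.1 + s : ℝ) : ℂ)) M) (fun _ => (r : ℂ)⁻¹) U T ≠ 0) :
    Pf (Bz (fun a => ((Function.update Z v τ a.1 : ℝ) : ℂ)) M) (fun _ => (r : ℂ)⁻¹) U
      (T ∪ {v} ×ˢ J) ≠ 0 := by
  have := neg_aux hM hD hS hvW hvU hvT J hτ Z hZ 0 (Or.inr le_rfl)
  simpa only [zero_mul, add_zero, F] using this

/-- Barrier, with `b = √r + 1`. Induction on `U`, for all `T`, `Z`. -/
theorem barrier [NeZero r] {M : V → V → ℂ} {W : Finset V} (hM : HC M W) (U : Finset V)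
    (T : Finset (V × Fin r)) (hD : Dis U T) (hS : ∀ b ∈ supp U T, b.1 ∈ W) (Z : V → ℝ)
    (hU : ∀ u ∈ U, 3 / Real.sqrt r ≤ Z u) (hT : ∀ a ∈ T, Real.sqrt r + 1 ≤ Z a.1) :
    Pf (Bz (fun a => (Z a.1 : ℂ)) M) (fun _ => (r : ℂ)⁻¹) U T ≠ 0 ∧
      ∀ u : V, ∃ x : ℝ, x ≤ r / (Real.sqrt r + 1 - 1 / Real.sqrt r) ∧
        ∑ a ∈ T.filter (fun a => a.1 = u),
          Pf (Bz (fun a => (Z a.1 : ℂ)) M) (fun _ => (r : ℂ)⁻¹) U (T.erase a) /
            Pf (Bz (fun a => (Z a.1 : ℂ)) M) (fun _ => (r : ℂ)⁻¹) U T = (x : ℂ) := by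
  have h1 := sq1 (r := r)
  have hβ := beta_pos (r := r)
  have hr := rpos (r := r)
  change F M (fun a => (Z a.1 : ℂ)) U T ≠ 0 ∧ ∀ u : V, ∃ x : ℝ, _ ∧
    ∑ a ∈ T.filter (fun a => a.1 = u), F M (fun a => (Z a.1 : ℂ)) U (T.erase a) /
      F M (fun a => (Z a.1 : ℂ)) U T = (x : ℂ)
  induction U using Finset.induction_on generalizing T Z with
  | empty =>
    have hS' : ∀ b ∈ T, b.1 ∈ W := fun b hb => hS b (PfB_mem_supp.2 (Or.inl hb))
    exact ⟨posdef hM hS' fun b hb => by linarith [hT b hb], base hM hS' Z hT⟩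
  | insert v U hv ih =>
    set b := Real.sqrt r + 1 with hb
    set A : Finset (V × Fin r) := {v} ×ˢ Finset.univ with hAdef
    have hA : ∀ a : V × Fin r, a ∈ A ↔ a.1 = v := by
      intro a
      rw [hAdef, Finset.mem_product, Finset.mem_singleton]
      exact and_iff_left (Finset.mem_univ _)
    have hvT : ∀ a ∈ T, a.1 ≠ v := fun a ha h => hD a ha (h ▸ Finset.mem_insert_self _ _)
    have hD0 : Dis U T := fun a ha h => hD a ha (Finset.mem_insert_of_mem h)
    have hS0 : ∀ b ∈ supp U T, b.1 ∈ W := fun b hb =>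
      hS b (PfB_mem_supp.2 ((PfB_mem_supp.1 hb).imp_right Finset.mem_insert_of_mem))
    have hvW : v ∈ W := hS (v, 0) (PfB_mem_supp.2 (Or.inr (Finset.mem_insert_self _ _)))
    have hU0 : ∀ u ∈ U, 3 / Real.sqrt r ≤ Z u := fun u hu => hU u (Finset.mem_insert_of_mem hu)
    obtain ⟨hQ, hQ'⟩ := ih T hD0 hS0 Z hU0 hT
    have hD1 : Dis U (T ∪ A) := dis_union hD0 hv _
    have hS1 : ∀ b ∈ supp U (T ∪ A), b.1 ∈ W := supp_union hS0 hvW _
    have ih1 : ∀ τ : ℝ, b ≤ τ → _ := fun τ hτ => ih (T ∪ A) hD1 hS1 (Function.update Z v τ)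
      (fun u hu => by rw [Function.update_of_ne (ne_of_mem_of_not_mem hu hv)]; exact hU0 u hu)
      (fun a ha => by
        rcases Finset.mem_union.1 ha with ha | ha
        · rw [Function.update_of_ne (hvT a ha)]; exact hT a ha
        · rw [(hA a).1 ha, Function.update_self]; exact hτ)
    simp only [← Zv_real] at ih1
    obtain ⟨f, f1, f2, f3, f4, f5⟩ := expandV M Z hv hvT
    set Q := F M (fun a => (Z a.1 : ℂ)) U T with hQdef
    have hZim : ∀ t : ℂ, 0 ≤ t.im → ∀ x : V × Fin r, 0 ≤ (Zv Z v t x).im := fun t ht x => by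
      unfold Zv; split_ifs
      · exact ht
      · simp
    have hup : ∀ t : ℂ, 0 < t.im → f.eval t ≠ 0 := fun t ht => by
      rw [f1]
      refine upper_union hM hD0 hS0 (hZim t ht.le) ?_ hvW hv hvT (fun i => by simpa [Zv] using ht) _
      rw [F_congr (Z' := fun a => (Z a.1 : ℂ))]
      · exact hQ
      · intro x hx
        exact if_neg ((PfB_mem_supp.1 hx).elim (hvT x) fun h h' => hv (h' ▸ h))
    have hnr : ∀ t : ℂ, t.im ≠ 0 → f.eval t ≠ 0 := fun t ht => by
      have e : ∀ s : ℂ, (Zv Z v s : V × Fin r → ℂ) = fun a =>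
          ((if a.1 = v then 0 else Z a.1 : ℝ) : ℂ) + s * ((if a.1 = v then 1 else 0 : ℝ) : ℂ) := by
        intro s; funext a; unfold Zv; split_ifs <;> simp
      rw [f1, e]
      exact F_ne_of_upper hM _ _ hS1 (fun s hs => by rw [← e, ← f1]; exact hup s hs) ht
    have hroot : ∀ p : ℝ, f.eval (p : ℂ) = 0 → 0 ≤ p ∧ p < b := fun p hp => by
      rw [f1] at hp
      refine ⟨not_lt.1 fun h => ?_, not_le.1 fun h => (ih1 p h).1 hp⟩
      rw [Zv_real] at hp
      exact neg_copies hM hD0 hS0 hvW hv hvT _ h Z (fun s hs => (ih T hD0 hS0 (fun u => Z u + s)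
        (fun u hu => by linarith [hU0 u hu]) fun a ha => by linarith [hT a ha]).1) hp
    have hdeg : f.natDegree = r := natDegree_eq_of_le_of_coeff_ne_zero f2 (by rwa [f3])
    have hf0 : f ≠ 0 := fun h => hQ (by rw [← f3, h, coeff_zero])
    have hlead : f.leadingCoeff = Q := by rw [leadingCoeff, hdeg, f3]
    obtain ⟨l, hl⟩ := rr_of_ne (monic_mul_leadingCoeff_inv hf0) fun t ht => by
      simpa [hf0] using hnr t ht
    rw [hlead] at hl
    have hfl : f = C Q * (l.map fun x : ℝ => X - C (x : ℂ)).prod := by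
      rw [← hl, mul_comm f, ← mul_assoc, ← C_mul, mul_inv_cancel₀ hQ, C_1, one_mul]
    have hcard : Multiset.card l = r := by
      rw [← hl.monic.2, natDegree_mul_C (inv_ne_zero hQ), hdeg]
    have hlb : ∀ x ∈ l, x < b := fun x hx => (hroot x (by
      have := hl.eval x
      rw [Multiset.prod_eq_zero (s := l.map fun y : ℝ => (x : ℂ) - y)
        (Multiset.mem_map.2 ⟨x, hx, sub_self _⟩)] at this
      simpa [hQ] using this)).2
    obtain ⟨n, hn⟩ : ∃ n, r = n + 1 := ⟨r - 1, by have := NeZero.ne r; omega⟩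
    have hsum : (X * f).coeff r = -Q * (l.sum : ℝ) := by
      have := hl.coeff_pred (hcard.trans hn)
      rw [coeff_mul_C, mul_inv_eq_iff_eq_mul₀ hQ] at this
      have e : (X * f : ℂ[X]).coeff r = (X * f : ℂ[X]).coeff (n + 1) := congrArg _ hn
      rw [e, coeff_X_mul, this]
      ring
    have hfb : f.eval (b : ℂ) ≠ 0 := fun h => (hroot b h).2.false
    have hmean : l.sum ≤ Real.sqrt r := by
      obtain ⟨x, x1, x2⟩ := (ih1 b le_rfl).2 v
      have e1 : (T ∪ A).filter (fun a => a.1 = v) = A := by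
        ext a
        simp only [Finset.mem_filter, Finset.mem_union, hA]
        exact ⟨fun h => h.2, fun h => ⟨Or.inr h, h⟩⟩
      have e2 : ∀ a ∈ A, (T ∪ A).erase a = T ∪ A.erase a := fun a ha => by
        rw [Finset.erase_union_distrib, Finset.erase_eq_of_notMem fun h => hvT a h ((hA a).1 ha)]
      rw [e1, ← Finset.sum_div, Finset.sum_congr rfl fun a ha => by rw [e2 a ha], ← f5, ← f1,
        div_eq_iff hfb] at x2
      have e3 : f.derivative.eval (b : ℂ) = (((l.map fun x => (b - x)⁻¹).sum : ℝ) : ℂ) *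
          f.eval (b : ℂ) := by
        rw [hfl, derivative_C_mul, eval_mul, eval_mul, logder l hlb]
        ring
      have e4 := mul_right_cancel₀ hfb (e3.symm.trans x2)
      have e5 := jensen l hβ hlb (by rw [hcard, Complex.ofReal_inj.1 e4]; exact x1)
      rw [hcard] at e5
      refine e5.trans_eq ?_
      rw [sub_sub_cancel, mul_one_div, Real.div_sqrt]
    have hden : b ≤ r * Z v - l.sum := by
      have e1 := mul_le_mul_of_nonneg_left (hU v (Finset.mem_insert_self _ _)) hr.le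
      have e2 : (r : ℝ) * (3 / Real.sqrt r) = 3 * Real.sqrt r := by
        rw [mul_div_left_comm, Real.div_sqrt]
      linarith
    have hb0 : 0 < b := by linarith
    have hnew : r * F M (fun a => (Z a.1 : ℂ)) (insert v U) T =
        Q * ((r * Z v - l.sum : ℝ) : ℂ) := by
      rw [f4, hsum]; push_cast; ring
    have hd0 : ((r * Z v - l.sum : ℝ) : ℂ) ≠ 0 := by exact_mod_cast (hb0.trans_le hden).ne'
    have hne : F M (fun a => (Z a.1 : ℂ)) (insert v U) T ≠ 0 := fun h => by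
      rw [h, mul_zero] at hnew
      exact mul_ne_zero hQ hd0 hnew.symm
    refine ⟨hne, fun u => ?_⟩
    by_cases huv : u = v
    · refine ⟨0, by positivity, ?_⟩
      rw [Finset.filter_false_of_mem fun a ha h => hvT a ha (h.trans huv)]
      simp
    obtain ⟨x0, -, hx0⟩ := hQ' u
    obtain ⟨x1, hx1, hx1'⟩ := (ih1 b le_rfl).2 u
    have e1 : (T ∪ A).filter (fun a => a.1 = u) = T.filter (fun a => a.1 = u) := by
      ext a
      simp only [Finset.mem_filter, Finset.mem_union, hA]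
      exact ⟨fun h => ⟨h.1.resolve_right fun h' => huv (h.2.symm.trans h'), h.2⟩,
        fun h => ⟨Or.inl h.1, h.2⟩⟩
    have e2 : ∀ a ∈ T, (T ∪ A).erase a = T.erase a ∪ A := fun a ha => by
      rw [Finset.erase_union_distrib, Finset.erase_eq_of_notMem (s := A)
        fun h => hvT a ha ((hA a).1 h)]
    choose P p1 p2 p3 p4 _ using fun a : V × Fin r => expandV M Z hv (T := T.erase a)
      fun x hx => hvT x (Finset.mem_of_mem_erase hx)
    set Ta := T.filter (fun a => a.1 = u) with hTa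
    have hTa' : ∀ a ∈ Ta, a ∈ T := fun a ha => (Finset.mem_filter.1 ha).1
    rw [← Finset.sum_div, div_eq_iff hQ] at hx0
    have hN : ∀ t : ℂ, f.eval t ≠ 0 → (∑ a ∈ Ta, P a - C (x0 : ℂ) * f).eval t / f.eval t =
        ∑ a ∈ Ta, F M (Zv Z v t) U ((T ∪ A).erase a) / F M (Zv Z v t) U (T ∪ A) - x0 := by
      intro t ht
      rw [eval_sub, eval_mul, eval_C, sub_div, mul_div_cancel_right₀ _ ht, eval_finsetSum,
        Finset.sum_div, f1]
      congr 1
      exact Finset.sum_congr rfl fun a ha => by rw [p1, e2 a (hTa' a ha)]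
    have hNdeg : (∑ a ∈ Ta, P a - C (x0 : ℂ) * f).natDegree < n + 1 := by
      rw [← hn]
      refine lt_of_le_of_ne ((natDegree_sub_le _ _).trans (max_le
        (natDegree_sum_le_of_forall_le _ _ fun a _ => p2 a) ((natDegree_C_mul_le _ _).trans f2)))
        fun h => ?_
      have h2 : (∑ a ∈ Ta, P a - C (x0 : ℂ) * f).leadingCoeff = 0 := by
        rw [leadingCoeff, h, coeff_sub, finsetSum_coeff, coeff_C_mul, f3,
          Finset.sum_congr rfl fun a _ => p3 a, hx0, sub_self]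
      rw [leadingCoeff_eq_zero.1 h2, natDegree_zero] at h
      exact NeZero.ne r h.symm
    obtain ⟨m, hm⟩ := decay hup (hdeg.trans hn) hNdeg
    obtain ⟨S, ν, s1, s2, -, s4⟩ := frac' _ f hnr (fun t ht => by
      rw [hN t (hup t ht), Complex.sub_im, Complex.ofReal_im, sub_zero, Complex.im_sum]
      exact Finset.sum_nonpos fun a ha => erase_im hM hD1 hS1 (hZim t ht.le)
        (Finset.mem_union_left _ (hTa' a ha))) hm
    have c1 := coeff_frac hf0 f2 s1 s4
    have c2 := s4 b hfb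
    rw [hN b hfb, ← e1, hx1'] at c2
    have c3 : x1 - x0 = ∑ p ∈ S, ν p / (b - p) := by exact_mod_cast c2
    refine ⟨x0 + (∑ p ∈ S, ν p) / (r * Z v - l.sum), le_trans ?_ hx1, ?_⟩
    · have : (∑ p ∈ S, ν p) / (r * Z v - l.sum) ≤ ∑ p ∈ S, ν p / (b - p) := by
        rw [Finset.sum_div]
        exact Finset.sum_le_sum fun p hp => div_le_div_of_nonneg_left (s2 p)
          (sub_pos.2 (hroot p (s1 p hp)).2) (by linarith [(hroot p (s1 p hp)).1])
      linarith
    · have hr' : (r : ℂ) ≠ 0 := by exact_mod_cast hr.ne'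
      rw [← Finset.sum_div, ← mul_div_mul_left _ _ hr', hnew, Finset.mul_sum,
        Finset.sum_congr rfl fun a _ => p4 a, Finset.sum_add_distrib, ← Finset.mul_sum, hx0,
        ← finsetSum_coeff, ← Finset.mul_sum]
      rw [mul_sub, coeff_sub, mul_left_comm, coeff_C_mul, hsum, f3, sub_eq_iff_eq_add] at c1
      rw [c1, div_eq_iff (mul_ne_zero hQ hd0), Complex.ofReal_add, Complex.ofReal_div]
      field_simp
      push_cast
      ring

/-- `PP_rr`, `PP_eval`, `barrier` with `T = ∅`. -/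
theorem init_roots [NeZero r] {K z : ℝ} (hz : 3 / Real.sqrt r ≤ z) {M : V → V → ℂ} {w : V → ℝ}
    {s : V → St r} {U : Finset V} (h : Env K M w U)
    (hs : ∀ u ∈ U, s u = St.unc ∨ s u = St.del) : ∀ x ∈ (PP z M w s U).roots, x.re ≤ 0 := by
  intro x hx
  obtain ⟨l, hl⟩ := PP_rr z s h
  have hx' := hx
  rw [hl.roots] at hx'
  obtain ⟨y, -, rfl⟩ := Multiset.mem_map.1 hx'
  rw [Complex.ofReal_re]
  by_contra hy
  have h0 := (mem_roots hl.monic.1.ne_zero).1 hx
  have hT : Tc s U = ∅ := Finset.eq_empty_of_forall_notMem fun a ha => by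
    obtain ⟨h1, h2⟩ := PfB_mem_Tc.1 ha
    rcases hs _ h1 with h3 | h3 <;> simp [h3] at h2
  have hB := (barrier h.toHC (Uu s U) (∅ : Finset (V × Fin r)) (fun a ha => by simp at ha)
    (fun b hb => (PfB_mem_supp.1 hb).elim (by simp) fun hb => (PfB_mem_Uu.1 hb).1)
    (fun u => zs z s u + y / ws w s u) (fun u hu => by
      obtain ⟨h1, h2⟩ := PfB_mem_Uu.1 hu
      have := div_nonneg (not_le.1 hy).le (h.pos u h1).le
      simp only [zs, ws, h2, if_true]
      linarith) (fun a ha => by simp at ha)).1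
  rw [IsRoot.def, PP_eval z M s (fun u hu => (h.pos u hu).ne'), hT] at h0
  refine mul_ne_zero (Finset.prod_ne_zero_iff.2 fun u hu => ?_) ?_ h0
  · have := h.pos u (PfB_mem_live.1 hu).1
    have : 0 < ws w s u := by unfold ws; split_ifs <;> positivity
    exact_mod_cast this.ne'
  · convert hB using 3
    funext a
    simp [Zt]

theorem init_Dp [NeZero r] {K z : ℝ} (hz : 3 / Real.sqrt r ≤ z) {M : V → V → ℂ} {w : V → ℝ}
    {s : V → St r} {U : Finset V} (h : Env K M w U)
    (hs : ∀ u ∈ U, s u = St.unc ∨ s u = St.del) (v : V) : Dp z M w s U v St.unc = 0 := by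
  have k : ∀ o : St r, o = St.unc ∨ o = St.del →
      sumR (fun x => max x 0) (PP z M w (Function.update s v o) U) = 0 := fun o ho => by
    refine Multiset.sum_eq_zero fun y hy => ?_
    obtain ⟨x, hx, rfl⟩ := Multiset.mem_map.1 hy
    refine max_eq_right (init_roots hz h (fun u hu => ?_) x hx)
    by_cases huv : u = v
    · rw [huv, Function.update_self]; exact ho
    · rw [Function.update_of_ne huv]; exact hs u hu
  rw [Dp, k _ (Or.inl rfl), k _ (Or.inr rfl), sub_zero]

end Crest.Agent.R109
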