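import Crest.Agent.R109.Int

/-! Task 109-KEY: three quarters of the colours are good. -/

set_option autoImplicit false

namespace Crest.Agent.R109

open IntAux MeasureTheory

theorem KeyAux.fin_pos (S : Finset ℝ) (ν : ℝ → ℝ) (c : ℝ) :
    volume {t : ℝ | 0 < t ∧ gR S ν c t < 0} ≠ ⊤ := by
  obtain ⟨T, -, h, -⟩ := gR_bdd S ν c
  refine ne_top_of_le_ne_top (b := volume (Set.Ioo 0 T)) (by simp) (measure_mono ?_)
  rintro t ⟨h1, h2⟩
  refine ⟨h1, ?_⟩
  by_contra h3
  linarith [h t (not_lt.1 h3)]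

theorem KeyAux.fin_neg (S : Finset ℝ) (ν : ℝ → ℝ) (c : ℝ) :
    volume {t : ℝ | t < 0 ∧ 0 < gR S ν c t} ≠ ⊤ := by
  obtain ⟨T, -, -, h⟩ := gR_bdd S ν c
  refine ne_top_of_le_ne_top (b := volume (Set.Ioo (-T) 0)) (by simp) (measure_mono ?_)
  rintro t ⟨h1, h2⟩
  refine ⟨?_, h1⟩
  by_contra h3
  linarith [h t (not_lt.1 h3)]

theorem KeyAux.gR_split (S : Finset ℝ) (ν : ℝ → ℝ) (c a t : ℝ) :
    gR S ν c t = t + c - ∑ p ∈ S.filter (fun p => a < p), ν p / (t - p) -
      ∑ p ∈ S.filter (fun p => p ≤ a), ν p / (t - p) := by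
  have h := Finset.sum_filter_add_sum_filter_not S (fun p => a < p) (fun p => ν p / (t - p))
  simp only [not_lt] at h
  rw [gR, ← h]
  ring

theorem KeyAux.fpos_nonneg (g : ℝ → ℝ) : 0 ≤ fpos g := ENNReal.toReal_nonneg

/-- The part of `{g < 0}` in `(0, l]` has measure at most `l`. -/
theorem KeyAux.fpos_le_add {g : ℝ → ℝ} {A : Set ℝ} (hA : volume A ≠ ⊤) {l : ℝ} (hl : 0 ≤ l)
    (h : ∀ t, l < t → g t < 0 → t ∈ A) : fpos g ≤ l + (volume A).toReal := by
  have h1 : {t : ℝ | 0 < t ∧ g t < 0} ⊆ Set.Ioc 0 l ∪ A := by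
    rintro t ⟨h1, h2⟩
    by_cases h3 : t ≤ l
    · exact Or.inl ⟨h1, h3⟩
    · exact Or.inr (h t (not_le.1 h3) h2)
  have h2 := (measure_mono (μ := volume) h1).trans (measure_union_le _ _)
  rw [Real.volume_Ioc, sub_zero] at h2
  have h3 := ENNReal.toReal_mono (ENNReal.add_ne_top.2 ⟨ENNReal.ofReal_ne_top, hA⟩) h2
  rwa [ENNReal.toReal_add ENNReal.ofReal_ne_top hA, ENNReal.toReal_ofReal hl] at h3

open KeyAux

/-- Upper bound when all poles are positive: by `boole`; for `t ≤ -c - T'` one has `g t ≤ 0`. -/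
theorem fpos_le_pos {S : Finset ℝ} (hS : ∀ p ∈ S, 0 < p) {ν : ℝ → ℝ} (hν : ∀ p, 0 ≤ ν p) {c : ℝ}
    (hc : 0 < c) : fpos (gR S ν c) ≤ ∑ p ∈ S, ν p / (p + c) := by
  rw [boole S hν c]
  have h0 : 0 ≤ ∑ p ∈ S, ν p / (p + c) :=
    Finset.sum_nonneg fun p hp => div_nonneg (hν p) (by linarith [hS p hp])
  have h1 : {t : ℝ | t < 0 ∧ 0 < gR S ν c t} ⊆ Set.Ioo (-c - ∑ p ∈ S, ν p / (p + c)) 0 := by
    rintro t ⟨h1, h2⟩
    refine ⟨?_, h1⟩
    by_contra h3
    have h3 := not_lt.1 h3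
    have h4 : -∑ p ∈ S, ν p / (t - p) ≤ ∑ p ∈ S, ν p / (p + c) := by
      rw [← Finset.sum_neg_distrib]
      refine Finset.sum_le_sum fun p hp => ?_
      rw [← div_neg, neg_sub]
      exact div_le_div_of_nonneg_left (hν p) (by linarith [hS p hp]) (by linarith)
    unfold gR at h2
    linarith
  have h2 := ENNReal.toReal_mono (by simp) (measure_mono (μ := volume) h1)
  rw [Real.volume_Ioo, ENNReal.toReal_ofReal (by linarith)] at h2
  unfold fneg
  linarith

/-- Lower bound when all poles are positive: `g > 0` on `(-c - min T' c, 0)`. -/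
theorem min_le_fpos {S : Finset ℝ} (hS : ∀ p ∈ S, 0 < p) {ν : ℝ → ℝ} (hν : ∀ p, 0 ≤ ν p) {c : ℝ}
    (hc : 0 < c) : min (∑ p ∈ S, ν p / (p + 2 * c)) c ≤ fpos (gR S ν c) := by
  rw [boole S hν c]
  have h0 : 0 ≤ ∑ p ∈ S, ν p / (p + 2 * c) :=
    Finset.sum_nonneg fun p hp => div_nonneg (hν p) (by linarith [hS p hp])
  set m := min (∑ p ∈ S, ν p / (p + 2 * c)) c with hm
  have hm0 : 0 ≤ m := le_min h0 hc.le
  have hm1 : m ≤ c := min_le_right _ _
  have hm2 : m ≤ ∑ p ∈ S, ν p / (p + 2 * c) := min_le_left _ _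
  have h1 : Set.Ioo (-c - m) 0 ⊆ {t : ℝ | t < 0 ∧ 0 < gR S ν c t} := by
    rintro t ⟨h1, h2⟩
    refine ⟨h2, ?_⟩
    have h4 : ∑ p ∈ S, ν p / (p + 2 * c) ≤ -∑ p ∈ S, ν p / (t - p) := by
      rw [← Finset.sum_neg_distrib]
      refine Finset.sum_le_sum fun p hp => ?_
      rw [← div_neg, neg_sub]
      exact div_le_div_of_nonneg_left (hν p) (by linarith [hS p hp]) (by linarith)
    unfold gR
    linarith
  have h2 := ENNReal.toReal_mono (fin_neg S ν c) (measure_mono (μ := volume) h1)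
  rw [Real.volume_Ioo, ENNReal.toReal_ofReal (by linarith)] at h2
  unfold fneg
  linarith

/-- Dropping the non-positive poles increases `g` on `t > 0`. -/
theorem fpos_filter_pos_le (S : Finset ℝ) {ν : ℝ → ℝ} (hν : ∀ p, 0 ≤ ν p) (c : ℝ) :
    fpos (gR (S.filter fun p => 0 < p) ν c) ≤ fpos (gR S ν c) := by
  refine ENNReal.toReal_mono (fin_pos S ν c) (measure_mono ?_)
  rintro t ⟨h1, h2⟩
  refine ⟨h1, ?_⟩
  have h3 : 0 ≤ ∑ p ∈ S.filter (fun p => p ≤ 0), ν p / (t - p) :=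
    Finset.sum_nonneg fun p hp => div_nonneg (hν p) (by linarith [(Finset.mem_filter.1 hp).2])
  rw [gR_split S ν c 0 t]
  unfold gR at h2
  linarith

/-- Dropping the positive poles decreases `g` on `t < 0`; use `boole` twice. -/
theorem fpos_filter_nonpos_le (S : Finset ℝ) {ν : ℝ → ℝ} (hν : ∀ p, 0 ≤ ν p) (c : ℝ) :
    fpos (gR (S.filter fun p => p ≤ 0) ν c) ≤ fpos (gR S ν c) := by
  rw [boole _ hν, boole _ hν]
  refine sub_le_sub_right (ENNReal.toReal_mono (fin_neg S ν c) (measure_mono ?_)) c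
  rintro t ⟨h1, h2⟩
  refine ⟨h1, ?_⟩
  have h3 : ∑ p ∈ S.filter (fun p => 0 < p), ν p / (t - p) ≤ 0 :=
    Finset.sum_nonpos fun p hp =>
      div_nonpos_of_nonneg_of_nonpos (hν p) (by linarith [(Finset.mem_filter.1 hp).2])
  rw [gR_split S ν c 0 t]
  unfold gR at h2
  linarith

/-- Write `A_i t = ∑_{p ≤ 0} ν i p / (t - p)` (decreasing on `t > 0`, `A (2t) ≥ A t / 2`),
`Ā` the average, `f̄` the left side of `hf`, `l = inf {t > 0 : Ā t ≤ 2c + 4t}`. On `(0, 2l)`:
`Ā t ≥ Ā (t/2) / 2 > c + t`, so `2 l ≤ f̄ < c` (`fpos_filter_nonpos_le`). Take `l₀ > 0` with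
`Ā l₀ ≤ 2c + 4 l₀`, `l₀ ≤ l + η`, `S₀ = {i : A_i l₀ ≤ 4 Ā l₀}` (Markov; if `Ā l₀ = 0` all `i`).
For `i ∈ S₀`, `t > l₀`: `A_i t ≤ 17 c`, so `g_i t ≥ t + 2c - ∑_{p>0} (ν i p / 4) / (t - p)` and
`f_i ≤ l₀ + ∑_{p>0} (ν i p / 4) / (p + 2c)` (`fpos_le_pos`). Finally
`∑_{p>0} ν̄ p / (p + 2c) ≤ f̄` (`min_le_fpos`, `fpos_filter_pos_le`) and
`∑_{i ∈ S'} ν i ≤ r ν̄ ≤ 2 #S' ν̄`. -/
theorem key {r : ℕ} [NeZero r] (S : Finset ℝ) {ν : Fin r → ℝ → ℝ} (hν : ∀ i p, 0 ≤ ν i p)
    {c η : ℝ} (hc : 0 < c) (hη : 0 < η) (hη' : η ≤ c / 16)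
    (hf : fpos (gR S (fun p => (∑ i, ν i p) / r) c) < c) :
    ∃ S₀ : Finset (Fin r), 3 * r ≤ 4 * S₀.card ∧ ∀ S' ⊆ S₀, r ≤ 2 * S'.card →
      ∑ i ∈ S', fpos (gR S (fun p => ν i p / 4) (25 * c / 4)) ≤
        S'.card * (fpos (gR S (fun p => (∑ i, ν i p) / r) c) + η) := by
  classical
  have hr : (0 : ℝ) < r := Nat.cast_pos.2 (Nat.pos_of_ne_zero (NeZero.ne r))
  set μ : ℝ → ℝ := fun p => (∑ i, ν i p) / r with hμ
  have hμ0 : ∀ p, 0 ≤ μ p := fun p => div_nonneg (Finset.sum_nonneg fun i _ => hν i p) hr.le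
  set f := fpos (gR S μ c) with hfd
  have hf0 : 0 ≤ f := fpos_nonneg _
  set l := f / 2 + η with hl
  have hl0 : 0 < l := by positivity
  set Sn := S.filter (fun p => p ≤ 0) with hSn
  set Sp := S.filter (fun p => 0 < p) with hSp
  have hA : ∑ p ∈ Sn, μ p / (l - p) ≤ 2 * c + 4 * l := by
    by_contra h
    have h := not_le.1 h
    have h1 : Set.Ioo 0 (2 * l) ⊆ {t : ℝ | 0 < t ∧ gR Sn μ c t < 0} := by
      rintro t ⟨h1, h2⟩
      refine ⟨h1, ?_⟩
      have h3 : (∑ p ∈ Sn, μ p / (l - p)) / 2 ≤ ∑ p ∈ Sn, μ p / (t - p) := by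
        rw [Finset.sum_div]
        refine Finset.sum_le_sum fun p hp => ?_
        have hp0 := (Finset.mem_filter.1 hp).2
        rw [div_div]
        exact div_le_div_of_nonneg_left (hμ0 p) (by linarith) (by linarith)
      unfold gR
      linarith
    have h2 := ENNReal.toReal_mono (fin_pos Sn μ c) (measure_mono (μ := volume) h1)
    rw [Real.volume_Ioo, ENNReal.toReal_ofReal (by linarith)] at h2
    have h3 := fpos_filter_nonpos_le S hμ0 c
    unfold fpos at h3 hfd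
    linarith
  set A : Fin r → ℝ := fun i => ∑ p ∈ Sn, ν i p / (l - p) with hAd
  have hA0 : ∀ i, 0 ≤ A i := fun i => Finset.sum_nonneg fun p hp =>
    div_nonneg (hν i p) (by linarith [(Finset.mem_filter.1 hp).2])
  have hAs : ∑ i, A i = r * ∑ p ∈ Sn, μ p / (l - p) := by
    rw [hAd, Finset.sum_comm, Finset.mul_sum]
    refine Finset.sum_congr rfl fun p _ => ?_
    rw [← Finset.sum_div, hμ]
    field_simp
  refine ⟨Finset.univ.filter fun i => A i ≤ 17 * c, ?_, fun S' hS' hcard => ?_⟩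
  · have h1 := Finset.card_filter_add_card_filter_not (s := Finset.univ) (fun i => A i ≤ 17 * c)
    rw [Finset.card_univ, Fintype.card_fin] at h1
    have h2 : ((Finset.univ.filter fun i => ¬ A i ≤ 17 * c).card : ℝ) * (17 * c) ≤ ∑ i, A i := by
      have h3 := Finset.card_nsmul_le_sum (Finset.univ.filter fun i => ¬ A i ≤ 17 * c) A (17 * c)
        fun i hi => (not_le.1 (Finset.mem_filter.1 hi).2).le
      rw [nsmul_eq_mul] at h3
      exact h3.trans (Finset.sum_le_sum_of_subset_of_nonneg (Finset.subset_univ _)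
        fun i _ _ => hA0 i)
    have h3 : ∑ i, A i ≤ r * (17 * c / 4) := by
      rw [hAs]
      exact mul_le_mul_of_nonneg_left (by linarith) hr.le
    have h4 : 4 * ((Finset.univ.filter fun i => ¬ A i ≤ 17 * c).card : ℝ) ≤ r := by
      have : (4 * ((Finset.univ.filter fun i => ¬ A i ≤ 17 * c).card : ℝ)) * (17 * c) ≤
          r * (17 * c) := by linarith
      exact le_of_mul_le_mul_right this (by positivity)
    have h5 : 4 * (Finset.univ.filter fun i => ¬ A i ≤ 17 * c).card ≤ r := by exact_mod_cast h4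
    omega
  · have hSp0 : ∀ p ∈ Sp, 0 < p := fun p hp => (Finset.mem_filter.1 hp).2
    have h1 : ∀ i ∈ S', fpos (gR S (fun p => ν i p / 4) (25 * c / 4)) ≤
        l + ∑ p ∈ Sp, ν i p / 4 / (p + 2 * c) := by
      intro i hi
      have hi' : A i ≤ 17 * c := (Finset.mem_filter.1 (hS' hi)).2
      have h2 := fpos_le_pos hSp0 (ν := fun p => ν i p / 4) (fun p => by
        have := hν i p
        positivity) (c := 2 * c) (by positivity)
      refine le_trans (fpos_le_add (fin_pos Sp (fun p => ν i p / 4) (2 * c)) hl0.le ?_)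
        (add_le_add le_rfl h2)
      intro t ht hg
      refine ⟨hl0.trans ht, ?_⟩
      rw [gR_split S _ _ 0 t] at hg
      have h3 : ∑ p ∈ Sn, ν i p / 4 / (t - p) ≤ A i / 4 := by
        rw [hAd, Finset.sum_div]
        refine Finset.sum_le_sum fun p hp => ?_
        have hp0 := (Finset.mem_filter.1 hp).2
        rw [div_right_comm]
        refine div_le_div_of_nonneg_right ?_ (by norm_num)
        exact div_le_div_of_nonneg_left (hν i p) (by linarith) (by linarith)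
      unfold gR
      linarith
    have h2 : ∑ p ∈ Sp, μ p / (p + 2 * c) ≤ f := by
      have h3 := (min_le_fpos hSp0 hμ0 hc).trans (fpos_filter_pos_le S hμ0 c)
      rcases min_le_iff.1 h3 with h | h
      · exact h
      · linarith
    have h2' : 0 ≤ ∑ p ∈ Sp, μ p / (p + 2 * c) :=
      Finset.sum_nonneg fun p hp => div_nonneg (hμ0 p) (by linarith [hSp0 p hp])
    have h3 : ∑ i ∈ S', ∑ p ∈ Sp, ν i p / 4 / (p + 2 * c) ≤
        r / 4 * ∑ p ∈ Sp, μ p / (p + 2 * c) := by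
      rw [Finset.sum_comm, Finset.mul_sum]
      refine Finset.sum_le_sum fun p hp => ?_
      have hp0 := hSp0 p hp
      have h4 : ∑ i ∈ S', ν i p ≤ ∑ i, ν i p :=
        Finset.sum_le_sum_of_subset_of_nonneg (Finset.subset_univ _) fun i _ _ => hν i p
      rw [← Finset.sum_div, ← Finset.sum_div, ← mul_div_assoc]
      refine div_le_div_of_nonneg_right ?_ (by linarith)
      have : (r : ℝ) / 4 * μ p = (∑ i, ν i p) / 4 := by
        rw [hμ]
        field_simp
      rw [this]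
      linarith
    have h4 : (r : ℝ) ≤ 2 * S'.card := by exact_mod_cast hcard
    have h5 := Finset.sum_le_sum h1
    rw [Finset.sum_add_distrib, Finset.sum_const, nsmul_eq_mul] at h5
    have h6 : r / 4 * ∑ p ∈ Sp, μ p / (p + 2 * c) ≤ (2 * S'.card) / 4 * f :=
      mul_le_mul (by linarith) h2 h2' (by positivity)
    have h7 : (S'.card : ℝ) * (f + η) = S'.card * l + (2 * S'.card) / 4 * f := by
      rw [hl]
      ring
    linarith

/-- Put `τ = σ / 2`; for `t > σ` the poles `≤ τ` contribute at most `m / τ`; translate by `τ`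
and use `fpos_le_pos` with the constant `τ - m / τ ≥ τ / 2`. -/
theorem tail_le (S : Finset ℝ) {ν : ℝ → ℝ} (hν : ∀ p, 0 ≤ ν p) {c m σ : ℝ} (hc : 0 ≤ c)
    (hm : ∑ p ∈ S, ν p ≤ m) (hσ : 0 < σ) (h8 : 8 * m ≤ σ ^ 2) :
    (MeasureTheory.volume {t : ℝ | σ < t ∧ gR S ν c t < 0}).toReal ≤ 4 * m / σ := by
  classical
  set τ := σ / 2 with hτ
  have hτ0 : 0 < τ := by positivity
  have hm0 : 0 ≤ m := (Finset.sum_nonneg fun p _ => hν p).trans hm
  set c' := τ - m / τ with hc'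
  have hc1 : τ / 2 ≤ c' := by
    have : m / τ ≤ τ / 2 := by
      rw [div_le_iff₀ hτ0, hτ]
      nlinarith
    linarith
  set S' := (S.filter fun p => τ < p).map (Equiv.subRight τ).toEmbedding with hS'
  have hS0 : ∀ p ∈ S', 0 < p := by
    intro p hp
    obtain ⟨q, hq, rfl⟩ := Finset.mem_map.1 hp
    have := (Finset.mem_filter.1 hq).2
    simpa using this
  have h1 := fpos_le_pos hS0 (ν := fun q => ν (q + τ)) (fun p => hν _) (c := c') (by linarith)
  have h2 : ∑ p ∈ S', ν (p + τ) / (p + c') ≤ 4 * m / σ := by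
    have h3 : ∑ p ∈ S', ν (p + τ) / (p + c') ≤ ∑ p ∈ S', ν (p + τ) / (τ / 2) :=
      Finset.sum_le_sum fun p hp =>
        div_le_div_of_nonneg_left (hν _) (by positivity) (by linarith [hS0 p hp])
    refine h3.trans ?_
    rw [← Finset.sum_div, hS', Finset.sum_map]
    simp only [Equiv.coe_toEmbedding, Equiv.subRight_apply, sub_add_cancel]
    have h4 : ∑ p ∈ S.filter (fun p => τ < p), ν p ≤ m :=
      (Finset.sum_le_sum_of_subset_of_nonneg (Finset.filter_subset _ _) fun p _ _ => hν p).trans hm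
    have h5 : 4 * m / σ = m / (τ / 2) := by
      rw [hτ]
      field_simp
      ring
    rw [h5]
    exact div_le_div_of_nonneg_right h4 (by positivity)
  have h3 : {t : ℝ | σ < t ∧ gR S ν c t < 0} ⊆
      (fun t => t + -τ) ⁻¹' {u : ℝ | 0 < u ∧ gR S' (fun q => ν (q + τ)) c' u < 0} := by
    rintro t ⟨ht, hg⟩
    refine ⟨by linarith, ?_⟩
    rw [gR_split S ν c τ t] at hg
    have h4 : ∑ p ∈ S.filter (fun p => p ≤ τ), ν p / (t - p) ≤ m / τ := by
      have h5 : ∑ p ∈ S.filter (fun p => p ≤ τ), ν p / (t - p) ≤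
          ∑ p ∈ S.filter (fun p => p ≤ τ), ν p / τ :=
        Finset.sum_le_sum fun p hp =>
          div_le_div_of_nonneg_left (hν _) hτ0 (by linarith [(Finset.mem_filter.1 hp).2])
      refine h5.trans ?_
      rw [← Finset.sum_div]
      exact div_le_div_of_nonneg_right ((Finset.sum_le_sum_of_subset_of_nonneg
        (Finset.filter_subset _ _) fun p _ _ => hν p).trans hm) hτ0.le
    unfold gR
    rw [hS', Finset.sum_map]
    simp only [Equiv.coe_toEmbedding, Equiv.subRight_apply, sub_add_cancel]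
    have h6 : ∀ p : ℝ, t + -τ - (p - τ) = t - p := fun p => by ring
    simp only [h6]
    linarith
  have h4 := measure_mono (μ := volume) h3
  rw [measure_preimage_add_right] at h4
  exact (ENNReal.toReal_mono (fin_pos _ _ _) h4).trans (h1.trans h2)

theorem fpos_le (S : Finset ℝ) {ν : ℝ → ℝ} (hν : ∀ p, 0 ≤ ν p) {c m : ℝ} (hc : 0 ≤ c)
    (hm : ∑ p ∈ S, ν p ≤ m) : fpos (gR S ν c) ≤ 5 * Real.sqrt m := by
  have hm0 : 0 ≤ m := (Finset.sum_nonneg fun p _ => hν p).trans hm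
  have key : ∀ σ, 0 < σ → 8 * m ≤ σ ^ 2 → fpos (gR S ν c) ≤ σ + 4 * m / σ := by
    intro σ hσ h8
    refine le_trans (fpos_le_add (A := {t : ℝ | σ < t ∧ gR S ν c t < 0}) ?_ hσ.le
      fun t h1 h2 => ⟨h1, h2⟩) (add_le_add le_rfl (tail_le S hν hc hm hσ h8))
    exact ne_top_of_le_ne_top (fin_pos S ν c) (measure_mono fun t ht => ⟨hσ.trans ht.1, ht.2⟩)
  rcases hm0.eq_or_lt with h | h
  · subst h
    refine le_of_forall_pos_le_add fun ε hε => ?_
    simpa using key ε hε (by simpa using sq_nonneg ε)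
  · have hs : 0 < Real.sqrt m := Real.sqrt_pos.2 h
    have hs2 : Real.sqrt m ^ 2 = m := Real.sq_sqrt hm0
    have h1 := key (3 * Real.sqrt m) (by positivity) (by rw [mul_pow, hs2]; linarith)
    have h2 : 4 * m / (3 * Real.sqrt m) ≤ 2 * Real.sqrt m := by
      rw [div_le_iff₀ (by positivity)]
      nlinarith
    linarith

end Crest.Agent.R109
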