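import Crest.Agent.R109.Mtp

/-! Task 109-MAH: the skew product `X × ℝ` of a model is a net. -/

set_option autoImplicit false
set_option linter.unusedSectionVars false

open Polynomial MeasureTheory

namespace Crest.Agent.R109

variable {G X : Type*} [Fintype G] [DecidableEq G] [DecidableEq X] [MeasurableSpace X] {r : ℕ}

/-- The point over `u` in the frame of `y`. -/
noncomputable def Model.fr (𝓜 : Model G X) (y : X × ℝ) (u : X) : X × ℝ :=
  (u, y.2 + 𝓜.W u - 𝓜.W y.1)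

namespace MahAux

/-- the generators of the skew product -/
noncomputable def ph (𝓜 : Model G X) : G → X × ℝ → X × ℝ :=
  fun g y => (𝓜.φ g y.1, y.2 + 𝓜.h g y.1)

/-- the kernel of the skew product -/
noncomputable def MM (𝓜 : Model G X) : X × ℝ → X × ℝ → ℂ :=
  fun y y' => if y'.2 - 𝓜.W y'.1 = y.2 - 𝓜.W y.1 then 𝓜.M y.1 y'.1 else 0

/-- the measure on the heights -/
noncomputable def rho : Measure ℝ :=
  volume.withDensity fun τ : ℝ => ENNReal.ofReal (Real.exp (-τ))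

instance : SFinite rho := by unfold rho; infer_instance

theorem act_eq (𝓜 : Model G X) (w : List G) (y : X × ℝ) :
    act (ph 𝓜) w y = 𝓜.fr y (act 𝓜.φ w y.1) := by
  induction w with
  | nil => simp [act, Model.fr]
  | cons g w ih =>
    simp only [act, ih, ph, Model.fr, 𝓜.W_φ]
    congr 1
    ring

theorem fr_inj (𝓜 : Model G X) (y : X × ℝ) : Function.Injective (𝓜.fr y) :=
  fun _ _ h => congrArg Prod.fst h

theorem fr_self (𝓜 : Model G X) (y : X × ℝ) : 𝓜.fr y y.1 = y := by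
  simp [Model.fr]

theorem MM_fr (𝓜 : Model G X) (y : X × ℝ) (u u' : X) :
    MM 𝓜 (𝓜.fr y u) (𝓜.fr y u') = 𝓜.M u u' := by
  exact if_pos (by simp only [Model.fr]; ring)

theorem ball_eq (𝓜 : Model G X) (R : ℕ) (y : X × ℝ) :
    ball (ph 𝓜) R y = (ball 𝓜.φ R y.1).image (𝓜.fr y) := by
  unfold ball
  rw [Finset.image_image]
  exact Finset.image_congr fun w _ => act_eq 𝓜 w y

theorem invol (𝓜 : Model G X) (g : G) (y : X × ℝ) : ph 𝓜 g (ph 𝓜 g y) = y := by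
  have h1 := 𝓜.W_φ g (𝓜.φ g y.1)
  rw [𝓜.invol, 𝓜.W_φ] at h1
  refine Prod.ext (𝓜.invol g y.1) ?_
  simp only [ph]
  linarith

theorem meas (𝓜 : Model G X) (g : G) : Measurable (ph 𝓜 g) :=
  ((𝓜.meas g).comp measurable_fst).prodMk
    (measurable_snd.add ((𝓜.meas_h g).comp measurable_fst))

theorem eqm (𝓜 : Model G X) (w w' : List G) :
    MeasurableSet {y | act (ph 𝓜) w y = act (ph 𝓜) w' y} := by
  have : {y | act (ph 𝓜) w y = act (ph 𝓜) w' y} =
      Prod.fst ⁻¹' {x | act 𝓜.φ w x = act 𝓜.φ w' x} := by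
    ext y
    simp only [Set.mem_ofPred_eq, Set.mem_preimage, act_eq, (fr_inj 𝓜 y).eq_iff]
  rw [this]
  exact measurable_fst (𝓜.eqm w w')

theorem hc (𝓜 : Model G X) (U : Finset (X × ℝ)) : HC (MM 𝓜) U := by
  refine ⟨fun u _ u' _ => ?_, fun u _ => ?_, fun η => ?_⟩
  · simp only [MM]
    by_cases h : u'.2 - 𝓜.W u'.1 = u.2 - 𝓜.W u.1
    · rw [if_pos h, if_pos h.symm]
      exact (𝓜.hc {u.1, u'.1}).herm _ (by simp) _ (by simp)
    · rw [if_neg h, if_neg (Ne.symm h), map_zero]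
  · simp only [MM, if_true]
    exact (𝓜.hc {u.1}).diag _ (by simp)
  · set lam : X × ℝ → ℝ := fun y => y.2 - 𝓜.W y.1 with hlam
    have hmaps : ∀ a ∈ U, lam a ∈ U.image lam := fun a ha => Finset.mem_image_of_mem _ ha
    have h1 : form (MM 𝓜) U η = ∑ c ∈ U.image lam,
        form (fun a b : X × ℝ => 𝓜.M a.1 b.1) (U.filter fun a => lam a = c) η := by
      unfold form
      rw [← Finset.sum_fiberwise_of_maps_to hmaps]
      refine Finset.sum_congr rfl fun c _ => Finset.sum_congr rfl fun a ha => ?_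
      rw [Finset.sum_filter]
      refine Finset.sum_congr rfl fun b _ => ?_
      have hac : lam a = c := (Finset.mem_filter.1 ha).2
      by_cases h : lam b = c
      · rw [if_pos h, MM, if_pos (h.trans hac.symm)]
      · rw [if_neg h, MM, if_neg (fun h' => h (Eq.trans h' hac))]
        simp
    have h2 : nsq U η = ∑ c ∈ U.image lam, nsq (U.filter fun a => lam a = c) η := by
      unfold nsq
      rw [Finset.sum_fiberwise_of_maps_to hmaps]
    rw [h1, h2]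
    refine (norm_sum_le _ _).trans (Finset.sum_le_sum fun c _ => ?_)
    have hinj : Set.InjOn Prod.fst ((U.filter fun a => lam a = c : Finset (X × ℝ)) : Set (X × ℝ)) := by
      intro a ha b hb hab
      have h3 : lam a = c := (Finset.mem_filter.1 ha).2
      have h4 : lam b = c := (Finset.mem_filter.1 hb).2
      refine Prod.ext hab ?_
      simp only [hlam] at h3 h4
      rw [hab] at h3
      linarith
    have := (form_le_iso (Y := 𝓜.M) (y := fun a b : X × ℝ => 𝓜.M a.1 b.1) Prod.fst hinj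
      (fun _ => 1) (fun _ _ => norm_one) (fun a _ b _ => by simp) 1).1
      (fun ζ => by rw [one_mul]; exact (𝓜.hc _).bd ζ) η
    rwa [one_mul] at this

theorem edge (𝓜 : Model G X) (y y' : X × ℝ) (h : MM 𝓜 y y' ≠ 0) : ∃ g, y' = ph 𝓜 g y := by
  unfold MM at h
  split_ifs at h with h1
  · obtain ⟨g, hg⟩ := 𝓜.edge _ _ h
    refine ⟨g, Prod.ext hg ?_⟩
    rw [hg, 𝓜.W_φ] at h1
    simp only [ph]
    linarith
  · exact absurd rfl h

theorem meas_exp : Measurable fun τ : ℝ => ENNReal.ofReal (Real.exp (-τ)) := by fun_prop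

theorem rho_shift {A : Set ℝ} (hA : MeasurableSet A) (c : ℝ) :
    rho ((fun τ => τ + c) ⁻¹' A) = rho A * ENNReal.ofReal (Real.exp c) := by
  unfold rho
  rw [withDensity_apply _ hA, withDensity_apply _ (measurable_add_const c hA),
    ← lintegral_mul_const _ meas_exp,
    ← (measurePreserving_add_right volume c).setLIntegral_comp_preimage hA
      (meas_exp.mul_const _)]
  refine lintegral_congr fun τ => ?_
  rw [← ENNReal.ofReal_mul (Real.exp_nonneg _), ← Real.exp_add]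
  congr 2
  ring

theorem rho_Ici (a : ℝ) : rho (Set.Ici a) = ENNReal.ofReal (Real.exp (-a)) := by
  unfold rho
  rw [withDensity_apply _ measurableSet_Ici, ← integral_exp_neg_Ioi a,
    ofReal_integral_eq_lintegral_ofReal (integrableOn_exp_neg_Ioi a)
      (Filter.Eventually.of_forall fun _ => Real.exp_nonneg _),
    Measure.restrict_congr_set Ioi_ae_eq_Ici]

theorem rho_Icc (a b : ℝ) : rho (Set.Icc a b) ≤ ENNReal.ofReal (Real.exp (-a)) :=
  (measure_mono Set.Icc_subset_Ici_self).trans (rho_Ici a).le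

theorem mp (𝓜 : Model G X) (g : G) : MeasurePreserving (ph 𝓜 g) (𝓜.μ.prod rho) (𝓜.μ.prod rho) := by
  refine ⟨meas 𝓜 g, Measure.ext fun s hs => ?_⟩
  rw [Measure.map_apply (meas 𝓜 g) hs, Measure.prod_apply (meas 𝓜 g hs), Measure.prod_apply hs,
    𝓜.rn g _ (measurable_measure_prodMk_left hs)]
  refine lintegral_congr fun x => ?_
  rw [← rho_shift (measurable_prodMk_left hs)]
  rfl

theorem prod_Icc (𝓜 : Model G X) (V : Set X) (a b : ℝ) :
    𝓜.μ.prod rho (V ×ˢ Set.Icc a b) ≠ ⊤ := by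
  have := 𝓜.fin
  rw [Measure.prod_prod]
  exact ENNReal.mul_ne_top (measure_ne_top _ _)
    (ne_top_of_le_ne_top ENNReal.ofReal_ne_top (rho_Icc a b))

theorem slab_eq (a b : ℝ) :
    {y : X × ℝ | a ≤ y.2 ∧ y.2 ≤ b} = Set.univ ×ˢ Set.Icc a b := by
  ext y; simp

theorem sepd (𝓜 : Model G X) {R : ℕ} {V : Set X} (h : Sepd 𝓜.φ R V) :
    Sepd (ph 𝓜) R {y | y.1 ∈ V} := by
  intro x hx y hy hyV
  rw [ball_eq] at hy
  obtain ⟨u, hu, rfl⟩ := Finset.mem_image.1 hy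
  rw [h x.1 hx u hu hyV, fr_self]

theorem sep (𝓜 : Model G X) (R : ℕ) (B : Set (X × ℝ)) (hB : MeasurableSet B)
    (hB' : 𝓜.μ.prod rho B ≠ ⊤) (ε : ℝ) (hε : 0 < ε) :
    ∃ (n : ℕ) (C : Fin n → Set (X × ℝ)), (∀ i, MeasurableSet (C i) ∧ Sepd (ph 𝓜) R (C i)) ∧
      (𝓜.μ.prod rho).real (B \ ⋃ i, C i) ≤ ε := by
  have := 𝓜.fin
  have hm : ∀ n : ℕ, MeasurableSet (B ∩ {y : X × ℝ | y.2 < -n}) := fun n =>
    hB.inter (measurableSet_lt measurable_snd measurable_const)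
  have hfin : ∀ n : ℕ, 𝓜.μ.prod rho (B ∩ {y : X × ℝ | y.2 < -n}) ≠ ⊤ := fun n =>
    ne_top_of_le_ne_top hB' (measure_mono Set.inter_subset_left)
  have ht := tendsto_measure_iInter_atTop (μ := 𝓜.μ.prod rho)
    (s := fun n : ℕ => B ∩ {y : X × ℝ | y.2 < -n}) (fun n => (hm n).nullMeasurableSet)
    (fun n m hnm y hy => ⟨hy.1, by
      have h1 : y.2 < -m := hy.2
      have h2 : (n : ℝ) ≤ m := by exact_mod_cast hnm
      show y.2 < -n
      linarith⟩) ⟨0, hfin 0⟩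
  have he : (⋂ n : ℕ, B ∩ {y : X × ℝ | y.2 < -n}) = ∅ := by
    refine Set.eq_empty_of_forall_notMem fun y hy => ?_
    obtain ⟨n, hn⟩ := exists_nat_ge (-y.2)
    have h1 : y.2 < -n := (Set.mem_iInter.1 hy n).2
    linarith
  rw [he, measure_empty] at ht
  obtain ⟨n, hn⟩ := ((ENNReal.tendsto_nhds_zero.1 ht) (ENNReal.ofReal (ε / 2))
    (ENNReal.ofReal_pos.2 (half_pos hε))).exists
  obtain ⟨m, lab, hlab, hbad⟩ := 𝓜.sep R (ε / 2 * Real.exp (-n)) (by positivity)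
  have hBm := 𝓜.meas_𝓑 _ (𝓜.bad_mem hlab R)
  set Bad := {x | ∃ y ∈ ball 𝓜.φ R x, y ≠ x ∧ lab y = lab x} with hBad
  refine ⟨m, fun i => {y | y.1 ∈ lab ⁻¹' {i} \ Bad}, fun i =>
    ⟨measurable_fst ((𝓜.meas_𝓑 _ (hlab i)).diff hBm), sepd 𝓜 ?_⟩, ?_⟩
  · intro x hx y hy hy'
    by_contra hne
    exact hx.2 ⟨y, hy, hne, hy'.1.trans (Eq.symm hx.1)⟩
  · have hsub : B \ ⋃ i, {y : X × ℝ | y.1 ∈ lab ⁻¹' {i} \ Bad} ⊆
        (B ∩ {y : X × ℝ | y.2 < -n}) ∪ Bad ×ˢ Set.Ici (-(n : ℝ)) := by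
      intro y hy
      by_cases h1 : y.2 < -n
      · exact Or.inl ⟨hy.1, h1⟩
      · refine Or.inr ⟨?_, not_lt.1 h1⟩
        by_contra h2
        exact hy.2 (Set.mem_iUnion.2 ⟨lab y.1, rfl, h2⟩)
    have h3 : (𝓜.μ.prod rho) (Bad ×ˢ Set.Ici (-(n : ℝ))) ≠ ⊤ := by
      rw [Measure.prod_prod, rho_Ici]
      exact ENNReal.mul_ne_top (measure_ne_top _ _) ENNReal.ofReal_ne_top
    have h4 : (𝓜.μ.prod rho).real (Bad ×ˢ Set.Ici (-(n : ℝ))) ≤ ε / 2 := by
      rw [measureReal_def, Measure.prod_prod, rho_Ici, ENNReal.toReal_mul,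
        ENNReal.toReal_ofReal (Real.exp_nonneg _), neg_neg]
      calc 𝓜.μ.real Bad * Real.exp n ≤ ε / 2 * Real.exp (-n) * Real.exp n :=
            mul_le_mul_of_nonneg_right hbad (Real.exp_nonneg _)
        _ = ε / 2 := by rw [mul_assoc, ← Real.exp_add]; simp
    have h5 : (𝓜.μ.prod rho).real (B ∩ {y : X × ℝ | y.2 < -n}) ≤ ε / 2 :=
      ENNReal.toReal_le_of_le_ofReal (half_pos hε).le hn
    refine (measureReal_mono hsub (measure_union_ne_top (hfin n) h3)).trans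
      ((measureReal_union_le _ _).trans ?_)
    linarith

end MahAux

/-- The skew product. `hc`: split `U` along the level sets of `y.2 - W y.1`, on which `Prod.fst`
is injective. `mp`: Tonelli, translation invariance of Lebesgue measure and `rn`.
`sep`: cut `B` to `X × [-n, n]` and use the classes `({lab = i} \ Bad) × ℝ`. -/
noncomputable def Model.net (𝓜 : Model G X) : Net G (X × ℝ) where
  φ := fun g y => (𝓜.φ g y.1, y.2 + 𝓜.h g y.1)
  invol := MahAux.invol 𝓜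
  meas := MahAux.meas 𝓜
  eqm := MahAux.eqm 𝓜
  M := fun y y' => if y'.2 - 𝓜.W y'.1 = y.2 - 𝓜.W y.1 then 𝓜.M y.1 y'.1 else 0
  hc := MahAux.hc 𝓜
  edge := MahAux.edge 𝓜
  m := fun w w' y => 𝓜.m w w' y.1
  meas_m := fun w w' => (𝓜.meas_m w w').comp measurable_fst
  gauge := fun y => by
    obtain ⟨γ, h1, h2⟩ := 𝓜.gauge y.1
    refine ⟨γ, h1, fun w w' => ?_⟩
    show MahAux.MM 𝓜 (act (MahAux.ph 𝓜) w y) (act (MahAux.ph 𝓜) w' y) = _
    rw [MahAux.act_eq, MahAux.act_eq, MahAux.MM_fr, h2]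
  ν := 𝓜.μ.prod (volume.withDensity fun τ : ℝ => ENNReal.ofReal (Real.exp (-τ)))
  mp := MahAux.mp 𝓜
  τ := Prod.snd
  meas_τ := measurable_snd
  k := 𝓜.k
  k_nonneg := 𝓜.k_nonneg
  lip := fun g y => by
    rw [add_sub_cancel_left]
    exact 𝓜.h_le g y.1
  fin := fun a b => by
    rw [MahAux.slab_eq]
    exact MahAux.prod_Icc 𝓜 _ a b
  sep := MahAux.sep 𝓜

theorem Model.net_act (𝓜 : Model G X) (w : List G) (y : X × ℝ) :
    act 𝓜.net.φ w y = 𝓜.fr y (act 𝓜.φ w y.1) := by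
  exact MahAux.act_eq 𝓜 w y

theorem Model.net_ball (𝓜 : Model G X) (R : ℕ) (y : X × ℝ) :
    ball 𝓜.net.φ R y = (ball 𝓜.φ R y.1).image (𝓜.fr y) := by
  exact MahAux.ball_eq 𝓜 R y

theorem Model.fr_injective (𝓜 : Model G X) (y : X × ℝ) : Function.Injective (𝓜.fr y) := by
  exact MahAux.fr_inj 𝓜 y

theorem Model.fr_self (𝓜 : Model G X) (y : X × ℝ) : 𝓜.fr y y.1 = y := by
  exact MahAux.fr_self 𝓜 y

theorem Model.net_M_fr (𝓜 : Model G X) (y : X × ℝ) (u u' : X) :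
    𝓜.net.M (𝓜.fr y u) (𝓜.fr y u') = 𝓜.M u u' := by
  exact MahAux.MM_fr 𝓜 y u u'

theorem Model.net_M_shift (𝓜 : Model G X) (t : ℝ) (y y' : X × ℝ) :
    𝓜.net.M (y.1, y.2 + t) (y'.1, y'.2 + t) = 𝓜.net.M y y' := by
  show MahAux.MM 𝓜 _ _ = MahAux.MM 𝓜 _ _
  simp only [MahAux.MM]
  refine if_congr ⟨fun h => by linarith, fun h => by linarith⟩ rfl rfl

theorem Model.net_ball_shift (𝓜 : Model G X) (R : ℕ) (t : ℝ) (y : X × ℝ) :
    ball 𝓜.net.φ R (y.1, y.2 + t) = (ball 𝓜.net.φ R y).image fun u => (u.1, u.2 + t) := by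
  rw [𝓜.net_ball, 𝓜.net_ball, Finset.image_image]
  refine Finset.image_congr fun u _ => ?_
  simp only [Model.fr, Function.comp]
  congr 1
  ring

theorem Model.neg_net_M (𝓜 : Model G X) : 𝓜.neg.net.M = fun a b => -𝓜.net.M a b := by
  funext a b
  show (if b.2 - 𝓜.W b.1 = a.2 - 𝓜.W a.1 then -𝓜.M a.1 b.1 else 0) =
    -(if b.2 - 𝓜.W b.1 = a.2 - 𝓜.W a.1 then 𝓜.M a.1 b.1 else 0)
  split_ifs <;> simp

theorem Model.neg_net_φ (𝓜 : Model G X) : 𝓜.neg.net.φ = 𝓜.net.φ := rfl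

theorem Model.neg_net_w (𝓜 : Model G X) : 𝓜.neg.net.w = 𝓜.net.w := rfl

theorem Model.sepd_net (𝓜 : Model G X) {R : ℕ} {V : Set X} (h : Sepd 𝓜.φ R V) :
    Sepd 𝓜.net.φ R {y | y.1 ∈ V} := by
  exact MahAux.sepd 𝓜 h

/-- Fubini on `V × [a, b]`. -/
theorem Model.net_integral (𝓜 : Model G X) {V : Set X} (hV : MeasurableSet V) {a b : ℝ}
    (hab : a ≤ b) {f : X × ℝ → ℝ} (hf : Measurable f) {C : ℝ}
    (hC : ∀ y : X × ℝ, y.1 ∈ V → a ≤ y.2 → y.2 ≤ b → |f y| ≤ C) :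
    ∫ y in {y : X × ℝ | y.1 ∈ V ∧ a ≤ y.2 ∧ y.2 ≤ b}, f y ∂𝓜.net.ν =
      ∫ x in V, (∫ τ in a..b, Real.exp (-τ) * f (x, τ)) ∂𝓜.μ := by
  have := 𝓜.fin
  have he : {y : X × ℝ | y.1 ∈ V ∧ a ≤ y.2 ∧ y.2 ≤ b} = V ×ˢ Set.Icc a b := rfl
  have hi : IntegrableOn f (V ×ˢ Set.Icc a b) (𝓜.μ.prod MahAux.rho) :=
    Measure.integrableOn_of_bounded (M := C) (MahAux.prod_Icc 𝓜 V a b) hf.aestronglyMeasurable
      ((ae_restrict_iff' (hV.prod measurableSet_Icc)).2
        (Filter.Eventually.of_forall fun y hy => hC y hy.1 hy.2.1 hy.2.2))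
  rw [he]
  refine (setIntegral_prod f hi).trans ?_
  refine integral_congr_ae (Filter.Eventually.of_forall fun x => ?_)
  simp only [MahAux.rho]
  rw [setIntegral_withDensity_eq_setIntegral_toReal_smul MahAux.meas_exp
    (Filter.Eventually.of_forall fun _ => ENNReal.ofReal_lt_top) _ measurableSet_Icc,
    intervalIntegral.integral_of_le hab, integral_Icc_eq_integral_Ioc]
  refine integral_congr_ae (Filter.Eventually.of_forall fun τ => ?_)
  simp only [ENNReal.toReal_ofReal (Real.exp_nonneg _), smul_eq_mul]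

theorem Model.net_real_le (𝓜 : Model G X) (a b : ℝ) :
    𝓜.net.ν.real {y : X × ℝ | a ≤ y.2 ∧ y.2 ≤ b} ≤ Real.exp (-a) * 𝓜.μ.real Set.univ := by
  have := 𝓜.fin
  show (𝓜.μ.prod MahAux.rho).real _ ≤ _
  rw [MahAux.slab_eq, measureReal_def, Measure.prod_prod, ENNReal.toReal_mul, mul_comm]
  exact mul_le_mul_of_nonneg_right
    (ENNReal.toReal_le_of_le_ofReal (Real.exp_nonneg _) (MahAux.rho_Icc a b)) measureReal_nonneg

/-- The state `σ` seen in the slab `[a, b]`. -/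
noncomputable def sl (a b : ℝ) (σ : X → St r) : X × ℝ → St r := fun y =>
  if a ≤ y.2 ∧ y.2 ≤ b then σ y.1 else St.del

theorem Model.adm_sl (𝓜 : Model G X) {a b L : ℝ} (ha : 0 ≤ a) (hb : b ≤ L) {σ : X → St r}
    (hσ : Measurable σ) : 𝓜.net.Adm L (sl a b σ) := by
  refine ⟨Measurable.ite ((measurableSet_le measurable_const measurable_snd).inter
    (measurableSet_le measurable_snd measurable_const)) (hσ.comp measurable_fst)
    measurable_const, fun y hy => ?_⟩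
  unfold sl at hy
  split_ifs at hy with h
  · exact ⟨ha.trans h.1, h.2.trans hb⟩
  · exact absurd rfl hy

/-- A bad ball of `X` is a bad ball of the frames deep inside the slab. -/
theorem Model.bad_net (𝓜 : Model G X) {ρ : ℕ} {a L : ℝ} {σ : X → St r} {y : X × ℝ}
    (h1 : ρ * 𝓜.k ≤ y.2) (h2 : y.2 ≤ L - ρ * 𝓜.k) {η : X → ℂ}
    (h : a * nsq (ball 𝓜.φ ρ y.1) η <
      (form (Mc 𝓜.M fun x => (σ x).toOpt) (ball 𝓜.φ ρ y.1) η).re) :
    ∃ η', a * nsq (ball 𝓜.net.φ ρ y) η' <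
      (form (Mc 𝓜.net.M fun x => (sl 0 L σ x).toOpt) (ball 𝓜.net.φ ρ y) η').re := by
  refine ⟨fun u => η u.1, ?_⟩
  have hsl : ∀ u ∈ ball 𝓜.φ ρ y.1, sl 0 L σ (𝓜.fr y u) = σ u := by
    intro u hu
    have h3 := 𝓜.net.tau_ball (R := ρ) (x := y) (y := 𝓜.fr y u)
      (by rw [𝓜.net_ball]; exact Finset.mem_image_of_mem _ hu)
    have h4 : |(𝓜.fr y u).2 - y.2| ≤ ρ * 𝓜.k := h3
    rw [abs_le] at h4
    unfold sl
    rw [if_pos ⟨by linarith, by linarith⟩]
    rfl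
  have hinj := fun a (_ : a ∈ ball 𝓜.φ ρ y.1) b (_ : b ∈ ball 𝓜.φ ρ y.1) h =>
    𝓜.fr_injective y (a₁ := a) (a₂ := b) h
  rw [𝓜.net_ball]
  unfold nsq form at *
  rw [Finset.sum_image hinj, Finset.sum_image hinj]
  refine lt_of_lt_of_eq h (congrArg _ (Finset.sum_congr rfl fun u hu => ?_))
  rw [Finset.sum_image hinj]
  refine Finset.sum_congr rfl fun u' hu' => ?_
  simp only [Mc, hsl u hu, hsl u' hu', 𝓜.net_M_fr]
  rfl

end Crest.Agent.R109
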