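import Crest.Agent.R109.CE

/-! Task 109-SING: paving the singular part. -/

set_option autoImplicit false
set_option linter.deprecated false
set_option linter.unusedSectionVars false

open scoped InnerProductSpace ComplexOrder
open Filter Topology

namespace Crest.Agent.R109

variable {H : Type*} [NormedAddCommGroup H] [InnerProductSpace ℂ H] [CompleteSpace H]
variable {M A : VonNeumannAlgebra H}

/-- The conclusion of `split` for `f = 1 - e`. -/
def SingP (M A : VonNeumannAlgebra H) (e : Op H) (F : Finset H) : Prop :=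
  ∀ κ : ℝ, 0 < κ → ∃ q ∈ M, IsStarProjection q ∧ q * e = 0 ∧
    (∀ ξ ∈ F, ‖(1 - e) ξ - q ξ‖ ≤ κ) ∧
    ∃ (n : ℕ) (p : Fin n → Op H), Part A p ∧ ∀ ξ ∈ F, ∑ i, ‖q (p i ξ)‖ ^ 2 ≤ κ

namespace SingAux

theorem re_inner_proj {s : Op H} (hs : IsStarProjection s) (ξ : H) :
    (⟪ξ, s ξ⟫_ℂ).re = ‖s ξ‖ ^ 2 := by
  have h1 : s ξ = ContinuousLinearMap.adjoint s (s ξ) := by
    rw [← ContinuousLinearMap.star_eq_adjoint, hs.isSelfAdjoint.star_eq,
      ← ContinuousLinearMap.mul_apply, hs.isIdempotentElem.eq]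
  rw [h1, ContinuousLinearMap.adjoint_inner_right, ← h1, inner_self_eq_norm_sq_to_K]
  norm_cast

theorem re_inner_star_mul (D : Op H) (ξ : H) :
    (⟪ξ, (star D * D) ξ⟫_ℂ).re = ‖D ξ‖ ^ 2 := by
  rw [ContinuousLinearMap.mul_apply, ContinuousLinearMap.star_eq_adjoint,
    ContinuousLinearMap.adjoint_inner_right, inner_self_eq_norm_sq_to_K]
  norm_cast

theorem re_inner_mono {a b : Op H} (h : a ≤ b) (ξ : H) :
    (⟪ξ, a ξ⟫_ℂ).re ≤ (⟪ξ, b ξ⟫_ℂ).re := by
  have h1 : (b - a).IsPositive := h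
  have h2 := h1.re_inner_nonneg_right ξ
  rw [ContinuousLinearMap.sub_apply, inner_sub_right, map_sub] at h2
  simp only [RCLike.re_to_complex] at h2
  linarith

theorem norm_proj_apply_le {s : Op H} (hs : IsStarProjection s) (ξ : H) : ‖s ξ‖ ≤ ‖ξ‖ :=
  (s.le_opNorm ξ).trans (mul_le_of_le_one_left (norm_nonneg _) hs.norm_le)

theorem cutG {ι : Type*} [Fintype ι] {q : Op H} {D : ι → Op H} (hq : IsStarProjection q)
    (hqM : q ∈ M) (hDM : ∀ i, D i ∈ M) (hDq : ∀ i, D i * q = D i) {κ : ℝ} (hκ : 0 < κ) :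
    ∃ q' ∈ M, IsStarProjection q' ∧ q' * q = q' ∧ (∀ i, ‖D i * q'‖ ≤ κ) ∧
      ∀ ξ, ‖q ξ - q' ξ‖ ^ 2 ≤ (∑ i, ‖D i ξ‖ ^ 2) / κ ^ 2 := by
  set T : Op H := ∑ i, star (D i) * D i with hT
  have hT0 : 0 ≤ T := Finset.sum_nonneg fun i _ => star_mul_self_nonneg _
  have hTs : IsSelfAdjoint T := IsSelfAdjoint.of_nonneg hT0
  have hTM : T ∈ M := sum_mem fun i _ => mul_mem (star_mem (hDM i)) (hDM i)
  have hTq : T * q = T := by
    rw [hT, Finset.sum_mul]
    exact Finset.sum_congr rfl fun i _ => by rw [mul_assoc, hDq]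
  have hqT : q * T = T := by
    have := congrArg star hTq
    rwa [star_mul, hq.isSelfAdjoint.star_eq, hTs.star_eq] at this
  have hre : ∀ ξ, (⟪ξ, T ξ⟫_ℂ).re = ∑ i, ‖D i ξ‖ ^ 2 := by
    intro ξ
    rw [hT, ContinuousLinearMap.sum_apply, inner_sum, Complex.re_sum]
    exact Finset.sum_congr rfl fun i _ => re_inner_star_mul _ _
  set s := R124.sp T (κ ^ 2) with hs
  have hsp : IsStarProjection s := R124.sp_proj _ _
  have hsM : s ∈ M := R124.sp_mem hTs hTM _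
  have hqs : q * s = s * q := R124.sp_comm hTs (by rw [hqT, hTq]) _
  have hTc : T * s = s * T := R124.sp_comm hTs rfl _
  have hqs' : q * (1 - s) = (1 - s) * q := by rw [mul_sub, sub_mul, hqs, mul_one, one_mul]
  have hq' : IsStarProjection (q * (1 - s)) := hq.mul hsp.one_sub hqs'
  have hκ2 : 0 < κ ^ 2 := by positivity
  refine ⟨q * (1 - s), mul_mem hqM (sub_mem (one_mem _) hsM), hq', ?_, ?_, ?_⟩
  · rw [hqs', mul_assoc, hq.isIdempotentElem.eq]
  · intro i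
    refine ContinuousLinearMap.opNorm_le_bound _ hκ.le fun ξ => ?_
    rw [← mul_assoc, hDq, ContinuousLinearMap.mul_apply]
    set ζ := (1 - s) ξ with hζ
    have hζ1 : (1 - s) ζ = ζ := by
      rw [hζ, ← ContinuousLinearMap.mul_apply, hsp.one_sub.isIdempotentElem.eq]
    have h1 := re_inner_mono (R124.mul_one_sub_sp_le hTs (κ ^ 2)) ζ
    rw [← hs, ContinuousLinearMap.mul_apply, ContinuousLinearMap.smul_apply, hζ1, hre,
      ← Complex.coe_smul, inner_smul_right, Complex.re_ofReal_mul, inner_self_eq_norm_sq_to_K]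
      at h1
    have h2 : ‖D i ζ‖ ^ 2 ≤ ∑ j, ‖D j ζ‖ ^ 2 :=
      Finset.single_le_sum (f := fun j => ‖D j ζ‖ ^ 2) (fun j _ => by positivity)
        (Finset.mem_univ i)
    have h3 : ‖ζ‖ ≤ ‖ξ‖ := norm_proj_apply_le hsp.one_sub ξ
    have h4 : (((‖ζ‖ : ℝ) : ℂ) ^ 2).re = ‖ζ‖ ^ 2 := by norm_cast
    have h5 : ‖D i ζ‖ ^ 2 ≤ (κ * ‖ζ‖) ^ 2 := by
      rw [mul_pow]
      refine h2.trans (h1.trans (le_of_eq ?_))
      congr 1
    exact (le_of_sq_le_sq h5 (by positivity)).trans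
      (mul_le_mul_of_nonneg_left h3 hκ.le)
  · intro ξ
    have h0 : q ξ - (q * (1 - s)) ξ = q (s ξ) := by
      rw [mul_sub, mul_one, ContinuousLinearMap.sub_apply, sub_sub_cancel,
        ContinuousLinearMap.mul_apply]
    rw [h0, le_div_iff₀ hκ2, ← hre]
    have h1 := re_inner_mono (R124.smul_sp_le hTs (κ ^ 2)) ξ
    rw [← hs, ContinuousLinearMap.smul_apply, ← Complex.coe_smul, inner_smul_right,
      Complex.re_ofReal_mul, re_inner_proj hsp] at h1
    have h2 : T * s ≤ T := by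
      have := R124.nonneg_mul_proj hT0 hsp.one_sub
        (by rw [mul_sub, sub_mul, hTc, mul_one, one_mul])
      rw [mul_sub, mul_one] at this
      exact sub_nonneg.mp this
    have h3 := re_inner_mono h2 ξ
    have h4 : ‖q (s ξ)‖ ^ 2 ≤ ‖s ξ‖ ^ 2 :=
      pow_le_pow_left₀ (norm_nonneg _) (norm_proj_apply_le hq _) 2
    nlinarith

theorem exists_le_avg {J : Type*} [Fintype J] (c : J → ℝ) (hc : ∀ j, 0 ≤ c j)
    (h1 : ∑ j, c j = 1) (f : J → ℝ) : ∃ j, f j ≤ ∑ j, c j * f j := by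
  have hne : (Finset.univ : Finset J).Nonempty := by
    by_contra hn
    rw [Finset.not_nonempty_iff_eq_empty] at hn
    rw [hn, Finset.sum_empty] at h1
    exact zero_ne_one h1
  obtain ⟨j, -, hj⟩ := Finset.exists_min_image Finset.univ f hne
  refine ⟨j, ?_⟩
  calc f j = ∑ i, c i * f j := by rw [← Finset.sum_mul, h1, one_mul]
    _ ≤ _ := Finset.sum_le_sum fun i _ =>
      mul_le_mul_of_nonneg_left (hj i (Finset.mem_univ _)) (hc i)

theorem norm_add_sq' (x y : H) : ‖x + y‖ ^ 2 = ‖x‖ ^ 2 + 2 * (⟪x, y⟫_ℂ).re + ‖y‖ ^ 2 := by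
  simpa using norm_add_sq (𝕜 := ℂ) x y

theorem avg_id {J : Type*} [Fintype J] (c : J → ℝ) (h1 : ∑ j, c j = 1) (S : H) (u : J → H)
    (hu : ∑ j, (c j : ℂ) • u j = 0) :
    ∑ j, c j * ‖S + u j‖ ^ 2 = ‖S‖ ^ 2 + ∑ j, c j * ‖u j‖ ^ 2 := by
  have h2 : ∑ j, c j * (⟪S, u j⟫_ℂ).re = 0 := by
    have h3 : (⟪S, ∑ j, (c j : ℂ) • u j⟫_ℂ).re = 0 := by rw [hu, inner_zero_right, Complex.zero_re]
    rw [inner_sum, Complex.re_sum] at h3
    rw [← h3]
    exact Finset.sum_congr rfl fun j _ => by rw [inner_smul_right, Complex.re_ofReal_mul]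
  calc ∑ j, c j * ‖S + u j‖ ^ 2
      = ∑ j, (c j * ‖S‖ ^ 2 + 2 * (c j * (⟪S, u j⟫_ℂ).re) + c j * ‖u j‖ ^ 2) :=
        Finset.sum_congr rfl fun j _ => by rw [norm_add_sq']; ring
    _ = _ := by
        rw [Finset.sum_add_distrib, Finset.sum_add_distrib, ← Finset.sum_mul, ← Finset.mul_sum,
          h1, h2]
        ring

theorem avg_step {J : Type*} [Fintype J] (c : J → ℝ) (h1 : ∑ j, c j = 1) (S : H) (v : J → H) :
    ∑ j, c j * ‖S + (v j - ∑ l, (c l : ℂ) • v l)‖ ^ 2 ≤ ‖S‖ ^ 2 + ∑ j, c j * ‖v j‖ ^ 2 := by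
  set m := ∑ l, (c l : ℂ) • v l with hm
  have hu : ∑ j, (c j : ℂ) • (v j - m) = 0 := by
    simp only [smul_sub, Finset.sum_sub_distrib]
    rw [← Finset.sum_smul, ← Complex.ofReal_sum, h1, ← hm]
    simp
  have h2 := avg_id c h1 S _ hu
  have h3 := avg_id c h1 m _ hu
  simp only [add_sub_cancel] at h3
  rw [h2, h3]
  nlinarith [sq_nonneg ‖m‖]

/-- A good choice of independent indices. -/
theorem derand {K J I : Type*} [Fintype J] (c : J → ℝ) (hc : ∀ j, 0 ≤ c j)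
    (h1 : ∑ j, c j = 1) (G : Finset I) (v : K → J → I → H) (s : Finset K) :
    ∃ f : K → J, ∑ i ∈ G, ‖∑ k ∈ s, (v k (f k) i - ∑ l, (c l : ℂ) • v k l i)‖ ^ 2 ≤
      ∑ i ∈ G, ∑ k ∈ s, ∑ j, c j * ‖v k j i‖ ^ 2 := by
  classical
  induction s using Finset.induction_on with
  | empty =>
    obtain ⟨j, -⟩ := exists_le_avg c hc h1 fun _ => 0
    exact ⟨fun _ => j, by simp⟩
  | insert k s hk ih =>
    obtain ⟨f, hf⟩ := ih
    set S : I → H := fun i => ∑ k ∈ s, (v k (f k) i - ∑ l, (c l : ℂ) • v k l i) with hS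
    obtain ⟨j, hj⟩ := exists_le_avg c hc h1
      fun j => ∑ i ∈ G, ‖S i + (v k j i - ∑ l, (c l : ℂ) • v k l i)‖ ^ 2
    refine ⟨Function.update f k j, ?_⟩
    have e1 : ∀ i, ∑ k' ∈ insert k s, (v k' (Function.update f k j k') i -
        ∑ l, (c l : ℂ) • v k' l i) = S i + (v k j i - ∑ l, (c l : ℂ) • v k l i) := by
      intro i
      rw [Finset.sum_insert hk, Function.update_self, add_comm, hS]
      congr 1
      refine Finset.sum_congr rfl fun k' hk' => ?_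
      rw [Function.update_of_ne (ne_of_mem_of_not_mem hk' hk)]
    simp only [e1, Finset.sum_insert hk]
    refine hj.trans ?_
    simp only [Finset.mul_sum]
    rw [Finset.sum_comm, Finset.sum_add_distrib, add_comm]
    refine le_trans (Finset.sum_le_sum fun i _ => avg_step c h1 (S i) fun j => v k j i) ?_
    rw [Finset.sum_add_distrib]
    exact add_le_add hf le_rfl

theorem norm_sum_sq {α : Type*} [Fintype α] (z : α → ℝ) (w : α → H) :
    ‖∑ a, (z a : ℂ) • w a‖ ^ 2 = ∑ a, ∑ b, z a * z b * (⟪w a, w b⟫_ℂ).re := by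
  have h : ∀ x : H, ‖x‖ ^ 2 = (⟪x, x⟫_ℂ).re := fun x => by
    rw [inner_self_eq_norm_sq_to_K]; norm_cast
  rw [h, sum_inner, Complex.re_sum]
  refine Finset.sum_congr rfl fun a _ => ?_
  rw [inner_sum, Complex.re_sum]
  refine Finset.sum_congr rfl fun b _ => ?_
  rw [inner_smul_left, inner_smul_right, Complex.conj_ofReal, Complex.re_ofReal_mul,
    Complex.re_ofReal_mul, mul_assoc]

theorem orth_series {Ω α : Type*} [Fintype Ω] [Fintype α] (Z : α → Ω → ℝ)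
    (horth : ∀ a b, a ≠ b → ∑ ω, Z a ω * Z b ω = 0) (w : α → H) :
    ∑ ω, ‖∑ a, (Z a ω : ℂ) • w a‖ ^ 2 = ∑ a, (∑ ω, Z a ω * Z a ω) * ‖w a‖ ^ 2 := by
  simp only [norm_sum_sq]
  rw [Finset.sum_comm]
  refine Finset.sum_congr rfl fun a _ => ?_
  rw [Finset.sum_comm, Finset.sum_eq_single a]
  · rw [← Finset.sum_mul, inner_self_eq_norm_sq_to_K]
    norm_cast
  · intro b _ hb
    rw [← Finset.sum_mul, horth a b hb.symm, zero_mul]
  · intro h
    exact absurd (Finset.mem_univ a) h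

theorem sum_update {K J : Type*} [Fintype K] [DecidableEq K] [Fintype J] (F : (K → J) → ℝ)
    (k : K) : ∑ c : K → J, ∑ j, F (Function.update c k j) = Fintype.card J * ∑ c, F c := by
  let e : (K → J) × J → (K → J) × J := fun p => (Function.update p.1 k p.2, p.1 k)
  have he : Function.Involutive e := by
    intro p
    simp [e]
  have h := Equiv.sum_comp he.toPerm fun p => F p.1
  rw [Fintype.sum_prod_type, Fintype.sum_prod_type] at h
  simp only [Function.Involutive.coe_toPerm, e, Finset.sum_const, Finset.card_univ,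
    nsmul_eq_mul] at h
  rw [h, Finset.mul_sum]

theorem orth_of_update {K J : Type*} [Fintype K] [DecidableEq K] [Fintype J] [Nonempty J]
    (f g : (K → J) → ℝ) (k : K) (hf : ∀ c, ∑ j, f (Function.update c k j) = 0)
    (hg : ∀ c j, g (Function.update c k j) = g c) : ∑ c, f c * g c = 0 := by
  have h := sum_update (fun c => f c * g c) k
  simp only [hg, ← Finset.sum_mul, hf, zero_mul, Finset.sum_const_zero] at h
  have h2 : (Fintype.card J : ℝ) ≠ 0 := by exact_mod_cast Fintype.card_ne_zero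
  exact (mul_eq_zero.mp h.symm).resolve_left h2

/-- The centred indicator of `c k = c l`. -/
noncomputable def zz {n r : ℕ} (c : Fin n → Fin r) (k l : Fin n) : ℝ :=
  (if c k = c l then 1 else 0) - 1 / (r : ℝ)

theorem zz_symm {n r : ℕ} (c : Fin n → Fin r) (k l : Fin n) : zz c k l = zz c l k := by
  simp only [zz, eq_comm]

theorem zz_sq {n r : ℕ} [NeZero r] (c : Fin n → Fin r) (k l : Fin n) :
    zz c k l * zz c k l ≤ 1 := by
  have h1 : (1 : ℝ) ≤ r := by exact_mod_cast Nat.one_le_iff_ne_zero.mpr (NeZero.ne r)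
  have h2 : 0 ≤ 1 / (r : ℝ) := by positivity
  have h3 : 1 / (r : ℝ) ≤ 1 := by rw [div_le_one (by linarith)]; exact h1
  unfold zz
  split_ifs <;> nlinarith

theorem zz_sum {n r : ℕ} [NeZero r] (c : Fin n → Fin r) {k l : Fin n} (h : k ≠ l) :
    ∑ j, zz (Function.update c k j) k l = 0 := by
  have h1 : (r : ℝ) ≠ 0 := by exact_mod_cast NeZero.ne r
  simp only [zz, Function.update_self, Function.update_of_ne h.symm, Finset.sum_sub_distrib,
    Finset.sum_ite_eq', Finset.mem_univ, if_true, Finset.sum_const, Finset.card_univ,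
    Fintype.card_fin, nsmul_eq_mul]
  field_simp
  ring

theorem zz_orth {n r : ℕ} [NeZero r] {a b : Fin n × Fin n} (ha : a.1 < a.2) (hb : b.1 < b.2)
    (hab : a ≠ b) : ∑ c : Fin n → Fin r, zz c a.1 a.2 * zz c b.1 b.2 = 0 := by
  by_cases h1 : a.1 ≠ b.1 ∧ a.1 ≠ b.2
  · refine orth_of_update _ _ a.1 (fun c => zz_sum c ha.ne) fun c j => ?_
    simp only [zz, Function.update_of_ne h1.1.symm, Function.update_of_ne h1.2.symm]
  · have h2 : a.2 ≠ b.1 ∧ a.2 ≠ b.2 := by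
      have : a.1 ≠ b.1 ∨ a.2 ≠ b.2 := by
        by_contra hn
        push Not at hn
        exact hab (Prod.ext hn.1 hn.2)
      omega
    refine orth_of_update _ _ a.2 (fun c => ?_) fun c j => ?_
    · simp only [zz_symm _ a.1 a.2]
      exact zz_sum c ha.ne'
    · simp only [zz, Function.update_of_ne h2.1.symm, Function.update_of_ne h2.2.symm]

theorem chaos_half {n r : ℕ} [NeZero r] (w : Fin n × Fin n → H) :
    ∑ c : Fin n → Fin r, ‖∑ a : Fin n × Fin n,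
      (((if a.1 < a.2 then zz c a.1 a.2 else 0 : ℝ)) : ℂ) • w a‖ ^ 2 ≤
      Fintype.card (Fin n → Fin r) * ∑ a : Fin n × Fin n, if a.1 < a.2 then ‖w a‖ ^ 2 else 0 := by
  rw [orth_series (fun (a : Fin n × Fin n) (c : Fin n → Fin r) =>
    if a.1 < a.2 then zz c a.1 a.2 else 0), Finset.mul_sum]
  · refine Finset.sum_le_sum fun a _ => ?_
    by_cases ha : a.1 < a.2
    · simp only [if_pos ha]
      refine mul_le_mul_of_nonneg_right ?_ (by positivity)
      calc ∑ c : Fin n → Fin r, zz c a.1 a.2 * zz c a.1 a.2 ≤ ∑ _c : Fin n → Fin r, (1 : ℝ) :=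
            Finset.sum_le_sum fun c _ => zz_sq c _ _
        _ = _ := by simp
    · simp [if_neg ha]
  · intro a b hab
    by_cases ha : a.1 < a.2
    · by_cases hb : b.1 < b.2
      · simp only [if_pos ha, if_pos hb]
        exact zz_orth ha hb hab
      · simp [if_neg hb]
    · simp [if_neg ha]

theorem norm_add_sq_le (x y : H) : ‖x + y‖ ^ 2 ≤ 2 * ‖x‖ ^ 2 + 2 * ‖y‖ ^ 2 := by
  have h1 : ‖x + y‖ ^ 2 ≤ (‖x‖ + ‖y‖) ^ 2 :=
    pow_le_pow_left₀ (norm_nonneg _) (norm_add_le x y) 2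
  nlinarith [sq_nonneg (‖x‖ - ‖y‖)]

theorem chaos_one {n r : ℕ} [NeZero r] (w : Fin n × Fin n → H) :
    ∑ c : Fin n → Fin r, ‖∑ a : Fin n × Fin n,
      (((if a.1 = a.2 then 0 else zz c a.1 a.2 : ℝ)) : ℂ) • w a‖ ^ 2 ≤
      Fintype.card (Fin n → Fin r) * (2 * ∑ a : Fin n × Fin n, ‖w a‖ ^ 2) := by
  have h1 := chaos_half (r := r) w
  have h2 := chaos_half (r := r) fun a => w a.swap
  have e1 : ∀ c : Fin n → Fin r, ∑ a : Fin n × Fin n,
      (((if a.1 = a.2 then 0 else zz c a.1 a.2 : ℝ)) : ℂ) • w a =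
      ∑ a : Fin n × Fin n, (((if a.1 < a.2 then zz c a.1 a.2 else 0 : ℝ)) : ℂ) • w a +
      ∑ a : Fin n × Fin n, (((if a.1 < a.2 then zz c a.1 a.2 else 0 : ℝ)) : ℂ) • w a.swap := by
    intro c
    rw [← Equiv.sum_comp (Equiv.prodComm (Fin n) (Fin n)) fun a : Fin n × Fin n =>
      (((if a.1 < a.2 then zz c a.1 a.2 else 0 : ℝ)) : ℂ) • w a.swap, ← Finset.sum_add_distrib]
    refine Finset.sum_congr rfl fun a _ => ?_
    simp only [Equiv.prodComm_apply, Prod.fst_swap, Prod.snd_swap, Prod.swap_swap]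
    rcases lt_trichotomy a.1 a.2 with h | h | h
    · simp [h, h.ne, h.not_gt]
    · simp [h]
    · simp [h, h.ne', h.not_gt, zz_symm c a.1 a.2]
  have e2 : (∑ a : Fin n × Fin n, if a.1 < a.2 then ‖w a‖ ^ 2 else 0) +
      (∑ a : Fin n × Fin n, if a.1 < a.2 then ‖w a.swap‖ ^ 2 else 0) ≤
      ∑ a : Fin n × Fin n, ‖w a‖ ^ 2 := by
    rw [← Equiv.sum_comp (Equiv.prodComm (Fin n) (Fin n)) fun a : Fin n × Fin n =>
      if a.1 < a.2 then ‖w a.swap‖ ^ 2 else 0, ← Finset.sum_add_distrib]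
    refine Finset.sum_le_sum fun a _ => ?_
    simp only [Equiv.prodComm_apply, Prod.fst_swap, Prod.snd_swap, Prod.swap_swap]
    rcases lt_trichotomy a.1 a.2 with h | h | h
    · simp [h, h.not_gt]
    · simp [h]
    · simp [h, h.not_gt]
  simp only [e1]
  refine le_trans (Finset.sum_le_sum fun c _ => norm_add_sq_le _ _) ?_
  rw [Finset.sum_add_distrib, ← Finset.mul_sum, ← Finset.mul_sum]
  have h3 : (0 : ℝ) ≤ Fintype.card (Fin n → Fin r) := by positivity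
  nlinarith [mul_le_mul_of_nonneg_left e2 h3]

theorem chaos {n : ℕ} (r : ℕ) [NeZero r] {I : Type*} (G : Finset I) (w : I → Fin n × Fin n → H) :
    ∃ c : Fin n → Fin r, ∑ i ∈ G, ‖∑ a : Fin n × Fin n,
      (((if a.1 = a.2 then 0 else zz c a.1 a.2 : ℝ)) : ℂ) • w i a‖ ^ 2 ≤
      ∑ i ∈ G, 2 * ∑ a : Fin n × Fin n, ‖w i a‖ ^ 2 := by
  refine (Finset.exists_le_of_sum_le (s := Finset.univ) Finset.univ_nonempty ?_).imp
    fun c hc => hc.2
  rw [Finset.sum_comm, Finset.sum_const, Finset.card_univ, nsmul_eq_mul, Finset.mul_sum]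
  exact Finset.sum_le_sum fun i _ => chaos_one (w i)

theorem pyth {ι : Type*} [Fintype ι] {p : ι → Op H} (hp : Part0 p) (ξ : H) :
    ∑ i, ‖p i ξ‖ ^ 2 = ‖ξ‖ ^ 2 := by
  rw [← CE_norm_sq_sum p (fun i j hij => by
    rw [(hp.proj i).isSelfAdjoint.star_eq, hp.orth i j hij]), hp.sum]
  rfl

theorem norm_conj_proj {P q : Op H} (hP : IsStarProjection P) (hq : IsStarProjection q) :
    ‖P * q * P‖ = ‖q * P‖ * ‖q * P‖ := by
  rw [← CStarRing.norm_star_mul_self, star_mul, hP.isSelfAdjoint.star_eq,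
    hq.isSelfAdjoint.star_eq, mul_assoc P q (q * P), ← mul_assoc q q, hq.isIdempotentElem.eq,
    mul_assoc]

theorem norm_conj_comm {P q : Op H} (hP : IsStarProjection P) (hq : IsStarProjection q) :
    ‖P * q * P‖ = ‖q * P * q‖ := by
  rw [norm_conj_proj hP hq, norm_conj_proj hq hP, ← norm_star (P * q), star_mul,
    hP.isSelfAdjoint.star_eq, hq.isSelfAdjoint.star_eq]

theorem left_of_right {q q' : Op H} (hq : IsStarProjection q) (hq' : IsStarProjection q')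
    (h : q' * q = q') : q * q' = q' := by
  have := congrArg star h
  rwa [star_mul, hq.isSelfAdjoint.star_eq, hq'.isSelfAdjoint.star_eq] at this

theorem EP_fiber {ι κ : Type*} [Fintype ι] [Fintype κ] [DecidableEq κ] (p : ι → Op H) (c : ι → κ)
    (x : Op H) : EP (fun k => ∑ i ∈ Finset.univ.filter (fun i => c i = k), p i) x =
      ∑ a, ∑ b, if c a = c b then p a * x * p b else 0 := by
  unfold EP
  simp only [Finset.sum_filter, Finset.sum_mul, Finset.mul_sum]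
  rw [Finset.sum_comm]
  simp only [Finset.sum_comm (s := (Finset.univ : Finset κ))]
  rw [Finset.sum_comm]
  refine Finset.sum_congr rfl fun a _ => Finset.sum_congr rfl fun b _ => ?_
  rw [Finset.sum_eq_single (c a)]
  · by_cases h : c a = c b
    · simp [h]
    · simp [h, Ne.symm h]
  · intro k _ hk
    simp [Ne.symm hk]
  · intro h
    exact absurd (Finset.mem_univ _) h

theorem le_of_sum_sq_le {I : Type*} {G : Finset I} {f : I → H} {δ : ℝ} (hδ : 0 ≤ δ)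
    (h : ∑ i ∈ G, ‖f i‖ ^ 2 ≤ δ ^ 2) {i : I} (hi : i ∈ G) : ‖f i‖ ≤ δ :=
  le_of_sq_le_sq ((Finset.single_le_sum (f := fun i => ‖f i‖ ^ 2)
    (fun _ _ => by positivity) hi).trans h) hδ

theorem sum_small {ι : Type*} [Fintype ι] {q : Op H} {p : ι → Op H} (hp : Part0 p) {η : ℝ}
    (hqp : ∀ k ζ, ‖q (p k ζ)‖ ^ 2 ≤ η * ‖ζ‖ ^ 2) (ζ : H) :
    ∑ k, ‖q (p k ζ)‖ ^ 2 ≤ η * ‖ζ‖ ^ 2 := by
  rw [← pyth hp ζ, Finset.mul_sum]
  refine Finset.sum_le_sum fun k _ => ?_
  have := hqp k (p k ζ)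
  rwa [← ContinuousLinearMap.mul_apply (p k) (p k), (hp.proj k).isIdempotentElem.eq] at this

theorem norm_apply_sq_le {y : Op H} {C : ℝ} (hy : ‖y‖ ≤ C) (ζ : H) :
    ‖y ζ‖ ^ 2 ≤ C ^ 2 * ‖ζ‖ ^ 2 := by
  rw [← mul_pow]
  exact pow_le_pow_left₀ (norm_nonneg _) (y.le_of_opNorm_le hy ζ) 2

theorem step2 (h : Masa M A) {q x : Op H} (hq : IsStarProjection q) {R : ℕ} {Q : Fin R → Op H}
    (hQ : Part A Q) {η : ℝ} (hη : 0 ≤ η) (hqQ : ∀ k ζ, ‖q (Q k ζ)‖ ^ 2 ≤ η * ‖ζ‖ ^ 2)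
    (hxM : x ∈ M) (hx : IsSelfAdjoint x) (F : Finset H) {δ : ℝ} (hδ : 0 < δ)
    (hsm : η * (‖x‖ ^ 2 * ∑ ξ ∈ F, ‖ξ‖ ^ 2) ≤ δ ^ 2) :
    ∃ a ∈ A, IsSelfAdjoint a ∧ ‖a‖ ≤ ‖x‖ ∧ ∃ (m : ℕ) (p : Fin m → Op H), Part A p ∧
      (∀ k ζ, ‖q (p k ζ)‖ ^ 2 ≤ η * ‖ζ‖ ^ 2) ∧
      ∀ ξ ∈ F, ‖q (EP p x (q ξ)) - q (a (q ξ))‖ ≤ 2 * δ := by
  classical
  obtain ⟨E, U, hE, hU, hW⟩ := exists_ce h
  obtain ⟨n, c, i, hci, hc1, hap⟩ := mazur (hW x) (hU ⟨R, Q, hQ⟩) (F.image q) hδ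
  have hip : ∀ j, Part A (i j).2.1 := fun j => (i j).2.2
  have hir : ∀ j, Ref Q (i j).2.1 := fun j => (hci j).2
  obtain ⟨f, hf⟩ := derand c (fun j => (hci j).1) hc1 F
    (fun (k : Fin R) (j : Fin n) (ξ : H) => q (Q k (EP (i j).2.1 x (q ξ)))) Finset.univ
  set p : (Σ k : Fin R, Fin (i (f k)).1) → Op H := fun a => Q a.1 * (i (f a.1)).2.1 a.2 with hp
  have hcm : ∀ k j l, Q k * (i j).2.1 l = (i j).2.1 l * Q k := fun k j l =>
    h.comm _ (hQ.mem k) _ ((hip j).mem l)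
  have hpp : Part A p := by
    refine ⟨⟨fun a => (hQ.proj _).mul ((hip _).proj _) (hcm _ _ _), ?_, ?_⟩,
      fun a => mul_mem (hQ.mem _) ((hip _).mem _)⟩
    · rintro ⟨k, l⟩ ⟨k', l'⟩ hne
      simp only [hp]
      by_cases hk : k = k'
      · subst hk
        have hl : l ≠ l' := fun hl => hne (by rw [hl])
        rw [hcm k (f k) l', mul_assoc, ← mul_assoc _ _ (Q k), (hip _).orth l l' hl, zero_mul,
          mul_zero]
      · rw [hcm k (f k) l, mul_assoc, ← mul_assoc (Q k), hQ.orth k k' hk, zero_mul, mul_zero]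
    · rw [Fintype.sum_sigma]
      simp only [hp, ← Finset.mul_sum, (hip _).sum, mul_one, hQ.sum]
  have hEP : EP p x = ∑ k, Q k * EP (i (f k)).2.1 x := by
    unfold EP
    rw [Fintype.sum_sigma]
    refine Finset.sum_congr rfl fun k _ => ?_
    have h1 := EP_comm hQ.toPart0 (hip (f k)).toPart0 (hir (f k)) x k
    have h2 : Q k * EP (i (f k)).2.1 x = Q k * EP (i (f k)).2.1 x * Q k := by
      rw [mul_assoc, ← h1, ← mul_assoc, (hQ.proj k).isIdempotentElem.eq]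
    unfold EP at h2
    rw [h2, Finset.mul_sum, Finset.sum_mul]
    refine Finset.sum_congr rfl fun l _ => ?_
    simp only [hp]
    simp only [mul_assoc]
    rw [← hcm k (f k) l]
  have hid : ∀ ξ, ∑ k, (q (Q k (EP (i (f k)).2.1 x (q ξ))) -
      ∑ l, (c l : ℂ) • q (Q k (EP (i l).2.1 x (q ξ)))) =
      q (EP p x (q ξ)) - q ((∑ l, c l • EP (i l).2.1 x) (q ξ)) := by
    intro ξ
    rw [Finset.sum_sub_distrib, hEP, Finset.sum_comm]
    congr 1
    · simp only [ContinuousLinearMap.sum_apply, map_sum, ContinuousLinearMap.mul_apply]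
    · simp only [ContinuousLinearMap.sum_apply, map_sum, ContinuousLinearMap.smul_apply]
      refine Finset.sum_congr rfl fun l _ => ?_
      rw [← Finset.smul_sum, ← map_sum, ← ContinuousLinearMap.sum_apply, hQ.sum,
        ← Complex.coe_smul, map_smul, ContinuousLinearMap.one_apply]
  have hvar : ∑ ξ ∈ F, ‖q (EP p x (q ξ)) - q ((∑ l, c l • EP (i l).2.1 x) (q ξ))‖ ^ 2 ≤
      δ ^ 2 := by
    simp only [hid] at hf
    refine hf.trans (le_trans ?_ hsm)
    rw [Finset.mul_sum, Finset.mul_sum]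
    refine Finset.sum_le_sum fun ξ _ => ?_
    rw [Finset.sum_comm]
    calc ∑ j, ∑ k, c j * ‖q (Q k (EP (i j).2.1 x (q ξ)))‖ ^ 2
        ≤ ∑ j, c j * (η * (‖x‖ ^ 2 * ‖ξ‖ ^ 2)) := by
          refine Finset.sum_le_sum fun j _ => ?_
          rw [← Finset.mul_sum]
          refine mul_le_mul_of_nonneg_left ((sum_small hQ.toPart0 hqQ _).trans
            (mul_le_mul_of_nonneg_left ((norm_apply_sq_le (norm_EP_le (hip j).toPart0 x) _).trans
              (mul_le_mul_of_nonneg_left ?_ (by positivity))) hη)) (hci j).1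
          exact pow_le_pow_left₀ (norm_nonneg _) (norm_proj_apply_le hq _) 2
      _ = _ := by rw [← Finset.sum_mul, hc1, one_mul]
  refine ⟨E x, hE.mem x hxM, ?_, hE.norm_le x hxM, _, p ∘ (Fintype.equivFin _).symm,
    hpp.equiv _, fun k ζ => ?_, fun ξ hξ => ?_⟩
  · rw [IsSelfAdjoint, ← hE.map_star x hxM, hx.star_eq]
  · simp only [Function.comp, hp, ContinuousLinearMap.mul_apply]
    exact (hqQ _ _).trans (mul_le_mul_of_nonneg_left
      (pow_le_pow_left₀ (norm_nonneg _) (norm_proj_apply_le ((hip _).proj _) _) 2) hη)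
  · rw [EP_equiv]
    have h1 := le_of_sum_sq_le hδ.le hvar hξ
    have h2 := hap (q ξ) (Finset.mem_image_of_mem q hξ)
    have h3 : ‖q ((∑ l, c l • EP (i l).2.1 x) (q ξ)) - q (E x (q ξ))‖ ≤ δ := by
      rw [← map_sub]
      exact (norm_proj_apply_le hq _).trans h2
    linarith [norm_sub_le_norm_sub_add_norm_sub (q (EP p x (q ξ)))
      (q ((∑ l, c l • EP (i l).2.1 x) (q ξ))) (q (E x (q ξ)))]

theorem step3 {q x : Op H} (hq : IsStarProjection q) {m : ℕ} {p : Fin m → Op H}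
    (hp : Part A p) {η : ℝ} (hη : 0 ≤ η) (hqp : ∀ k ζ, ‖q (p k ζ)‖ ^ 2 ≤ η * ‖ζ‖ ^ 2)
    (F : Finset H) {δ : ℝ} (hδ : 0 < δ)
    (hsm : 2 * (η * (‖x‖ ^ 2 * ∑ ξ ∈ F, ‖ξ‖ ^ 2)) ≤ δ ^ 2) (r : ℕ) [NeZero r] :
    ∃ P : Fin r → Op H, Part A P ∧ ∀ ξ ∈ F,
      ‖q ((EP P x - ((1 / r : ℝ) : ℂ) • x - ((1 - 1 / r : ℝ) : ℂ) • EP p x) (q ξ))‖ ≤ δ := by
  obtain ⟨c, hc⟩ := chaos r F fun ξ (a : Fin m × Fin m) => q (p a.1 (x (p a.2 (q ξ))))
  refine ⟨_, hp.fiber c, fun ξ hξ => ?_⟩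
  have hid : EP (fun k => ∑ i ∈ Finset.univ.filter (fun i => c i = k), p i) x -
      ((1 / r : ℝ) : ℂ) • x - ((1 - 1 / r : ℝ) : ℂ) • EP p x =
      ∑ a : Fin m × Fin m, (((if a.1 = a.2 then 0 else zz c a.1 a.2 : ℝ)) : ℂ) •
        (p a.1 * x * p a.2) := by
    have h1 : x = ∑ a, ∑ b, p a * x * p b := by
      simp only [← Finset.mul_sum, ← Finset.sum_mul, hp.sum, one_mul, mul_one]
    have h2 : EP p x = ∑ a, ∑ b, if a = b then p a * x * p b else 0 := by
      simp only [Finset.sum_ite_eq, Finset.mem_univ, if_true, EP]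
    rw [EP_fiber, h2, Fintype.sum_prod_type]
    conv_lhs => enter [1, 2, 2]; rw [h1]
    simp only [Finset.smul_sum, ← Finset.sum_sub_distrib]
    refine Finset.sum_congr rfl fun a _ => Finset.sum_congr rfl fun b _ => ?_
    by_cases hab : a = b
    · subst hab
      simp only [if_true, Complex.ofReal_zero, zero_smul, Complex.ofReal_sub, Complex.ofReal_one,
        sub_smul, one_smul]
      abel
    · by_cases hc' : c a = c b
      · simp only [if_neg hab, zz, if_pos hc', Complex.ofReal_sub, Complex.ofReal_one,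
          sub_smul, one_smul, smul_zero, sub_zero]
      · simp only [if_neg hab, zz, if_neg hc', Complex.ofReal_sub, Complex.ofReal_zero,
          sub_smul, zero_smul, smul_zero, sub_zero]
  have hid2 : ∀ ξ, q ((∑ a : Fin m × Fin m,
      (((if a.1 = a.2 then 0 else zz c a.1 a.2 : ℝ)) : ℂ) • (p a.1 * x * p a.2)) (q ξ)) =
      ∑ a : Fin m × Fin m, (((if a.1 = a.2 then 0 else zz c a.1 a.2 : ℝ)) : ℂ) •
        q (p a.1 (x (p a.2 (q ξ)))) := by
    intro ξ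
    simp only [ContinuousLinearMap.sum_apply, map_sum, ContinuousLinearMap.smul_apply, map_smul,
      ContinuousLinearMap.mul_apply]
  rw [hid, hid2]
  refine le_of_sum_sq_le hδ.le (hc.trans (le_trans ?_ hsm)) hξ
  rw [Finset.mul_sum, Finset.mul_sum, Finset.mul_sum]
  refine Finset.sum_le_sum fun ξ _ => mul_le_mul_of_nonneg_left ?_ zero_le_two
  rw [Fintype.sum_prod_type_right]
  calc ∑ b, ∑ a, ‖q (p a (x (p b (q ξ))))‖ ^ 2 ≤ ∑ b, η * (‖x‖ ^ 2 * ‖p b (q ξ)‖ ^ 2) :=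
        Finset.sum_le_sum fun b _ => (sum_small hp.toPart0 hqp _).trans
          (mul_le_mul_of_nonneg_left (norm_apply_sq_le le_rfl _) hη)
    _ = η * (‖x‖ ^ 2 * ‖q ξ‖ ^ 2) := by
        rw [← Finset.mul_sum, ← Finset.mul_sum, pyth hp.toPart0]
    _ ≤ _ := mul_le_mul_of_nonneg_left (mul_le_mul_of_nonneg_left
        (pow_le_pow_left₀ (norm_nonneg _) (norm_proj_apply_le hq _) 2) (by positivity)) hη

end SingAux

open SingAux

/-- Cutting: `D = q Z q` self-adjoint, `q' = q * (1 - sp (D * D) (κ ^ 2))`. -/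
theorem exists_cut {q D : Op H} (hq : IsStarProjection q) (hqM : q ∈ M) (hD : IsSelfAdjoint D)
    (hDM : D ∈ M) (hqD : q * D = D) {κ : ℝ} (hκ : 0 < κ) :
    ∃ q' ∈ M, IsStarProjection q' ∧ q' * q = q' ∧ ‖q' * D * q'‖ ≤ κ ∧
      ∀ ξ, ‖q ξ - q' ξ‖ ≤ ‖D ξ‖ / κ := by
  have hDq : D * q = D := by
    have := congrArg star hqD
    rwa [star_mul, hq.isSelfAdjoint.star_eq, hD.star_eq] at this
  obtain ⟨q', hM, hp, hqq, h1, h2⟩ := cutG (ι := Unit) (D := fun _ => D) hq hqM (fun _ => hDM)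
    (fun _ => hDq) hκ
  refine ⟨q', hM, hp, hqq, ?_, fun ξ => ?_⟩
  · rw [mul_assoc]
    exact (norm_mul_le _ _).trans
      ((mul_le_of_le_one_left (norm_nonneg _) hp.norm_le).trans (h1 ()))
  · refine le_of_sq_le_sq ?_ (by positivity)
    rw [div_pow]
    simpa using h2 ξ

/-- Colour the atoms `p k` independently and uniformly. For `D i = q P_i q - r⁻¹ q` the average of
`‖D i ξ‖²` is at most `∑_k ‖q (p k) q ξ‖² ≤ 2 ∑_k ‖q (p k) (1 - e) ξ‖² + 2 ‖q ξ - (1 - e) ξ‖²`, and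
`q (p k) (1 - e) = q (p k)` as `q e = 0`. Cut with the positive operator `∑_i (D i)²` (one spectral
projection for all `i`). -/
theorem sing144 (h : Masa M A) {e : Op H} (he : IsStarProjection e) (heA : e ∈ A) {F : Finset H}
    (hS : SingP M A e F) (r : ℕ) [NeZero r] {κ : ℝ} (hκ : 0 < κ) :
    ∃ q ∈ M, IsStarProjection q ∧ q * e = 0 ∧ (∀ ξ ∈ F, ‖(1 - e) ξ - q ξ‖ ≤ κ) ∧
      ∃ P : Fin r → Op H, Part A P ∧ ∀ i, ‖P i * q * P i‖ ≤ 1 / r + κ := by
  classical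
  have hr : (0 : ℝ) < r := by exact_mod_cast Nat.pos_of_ne_zero (NeZero.ne r)
  set κ₀ : ℝ := min (min 1 (κ / 2)) (κ ^ 4 / (16 * (F.card + 1))) with hκ₀
  have hκ₀0 : 0 < κ₀ := lt_min (lt_min one_pos (by positivity)) (by positivity)
  have hκ₀1 : κ₀ ≤ 1 := (min_le_left _ _).trans (min_le_left _ _)
  have hκ₀2 : κ₀ ≤ κ / 2 := (min_le_left _ _).trans (min_le_right _ _)
  have hκ₀3 : κ₀ * (16 * (F.card + 1)) ≤ κ ^ 4 := by
    rw [← le_div_iff₀ (by positivity)]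
    exact min_le_right _ _
  obtain ⟨q, hqM, hq, hqe, hqF, n, p, hp, hpF⟩ := hS κ₀ hκ₀0
  have hc1 : ∑ _j : Fin r, (1 / r : ℝ) = 1 := by
    rw [Finset.sum_const, Finset.card_univ, Fintype.card_fin, nsmul_eq_mul]
    field_simp
  obtain ⟨c, hc⟩ := derand (fun _ : Fin r => (1 / r : ℝ)) (fun _ => by positivity) hc1
    (Finset.univ ×ˢ F)
    (fun (k : Fin n) (j : Fin r) (i : Fin r × H) => if j = i.1 then q (p k (q i.2)) else 0)
    Finset.univ
  set P : Fin r → Op H := fun i => ∑ k ∈ Finset.univ.filter (fun k => c k = i), p k with hP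
  have hPp : Part A P := hp.fiber c
  set D : Fin r → Op H := fun i => q * P i * q - ((1 / r : ℝ) : ℂ) • q with hD
  have hDξ : ∀ (i : Fin r) (ξ : H), ∑ k, ((if c k = i then q (p k (q ξ)) else 0) -
      ∑ l : Fin r, ((1 / r : ℝ) : ℂ) • (if l = i then q (p k (q ξ)) else 0)) = D i ξ := by
    intro i ξ
    have h1 : ∑ k, q (p k (q ξ)) = q ξ := by
      rw [← map_sum, ← ContinuousLinearMap.sum_apply, hp.sum, ContinuousLinearMap.one_apply,
        ← ContinuousLinearMap.mul_apply, hq.isIdempotentElem.eq]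
    simp only [smul_ite, smul_zero, Finset.sum_ite_eq', Finset.mem_univ, if_true,
      Finset.sum_sub_distrib]
    rw [← Finset.smul_sum, h1, ← Finset.sum_filter]
    simp only [hD, hP, ContinuousLinearMap.sub_apply, ContinuousLinearMap.smul_apply,
      ContinuousLinearMap.mul_apply, ContinuousLinearMap.sum_apply, map_sum]
  have hb : ∀ ξ ∈ F, ∑ k, ‖q (p k (q ξ))‖ ^ 2 ≤ 4 * κ₀ := by
    intro ξ hξ
    have h1 : ∀ k, q (p k (q ξ)) = q (p k ξ) + q (p k (q ξ - (1 - e) ξ)) := by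
      intro k
      have h2 : q (p k (e ξ)) = 0 := by
        rw [← ContinuousLinearMap.mul_apply (p k), h.comm _ (hp.mem k) _ heA,
          ← ContinuousLinearMap.mul_apply, ← mul_assoc, hqe, zero_mul,
          ContinuousLinearMap.zero_apply]
      simp only [ContinuousLinearMap.sub_apply, ContinuousLinearMap.one_apply, map_sub, h2]
      abel
    have h3 : ∑ k, ‖q (p k (q ξ - (1 - e) ξ))‖ ^ 2 ≤ κ₀ ^ 2 := by
      calc ∑ k, ‖q (p k (q ξ - (1 - e) ξ))‖ ^ 2 ≤ ∑ k, ‖p k (q ξ - (1 - e) ξ)‖ ^ 2 :=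
            Finset.sum_le_sum fun k _ =>
              pow_le_pow_left₀ (norm_nonneg _) (norm_proj_apply_le hq _) 2
        _ = ‖(1 - e) ξ - q ξ‖ ^ 2 := by rw [pyth hp.toPart0, norm_sub_rev]
        _ ≤ κ₀ ^ 2 := pow_le_pow_left₀ (norm_nonneg _) (hqF ξ hξ) 2
    have h4 := hpF ξ hξ
    calc ∑ k, ‖q (p k (q ξ))‖ ^ 2
        ≤ ∑ k, (2 * ‖q (p k ξ)‖ ^ 2 + 2 * ‖q (p k (q ξ - (1 - e) ξ))‖ ^ 2) :=
          Finset.sum_le_sum fun k _ => by rw [h1 k]; exact norm_add_sq_le _ _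
      _ ≤ 4 * κ₀ := by
          rw [Finset.sum_add_distrib, ← Finset.mul_sum, ← Finset.mul_sum]
          nlinarith
  have hsum : ∑ ξ ∈ F, ∑ i, ‖D i ξ‖ ^ 2 ≤ F.card * (4 * κ₀) := by
    simp only [hDξ] at hc
    rw [Finset.sum_product_right, Finset.sum_product_right] at hc
    refine hc.trans ?_
    rw [← nsmul_eq_mul, ← Finset.sum_const]
    refine Finset.sum_le_sum fun ξ hξ => le_trans (le_of_eq ?_) (hb ξ hξ)
    rw [Finset.sum_comm]
    refine Finset.sum_congr rfl fun k _ => ?_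
    have h5 : ∀ i : Fin r, ∑ j : Fin r, (1 / r : ℝ) *
        ‖if j = i then q (p k (q ξ)) else 0‖ ^ 2 = (1 / r : ℝ) * ‖q (p k (q ξ))‖ ^ 2 := by
      intro i
      rw [Finset.sum_eq_single i]
      · rw [if_pos rfl]
      · intro j _ hj
        simp [hj]
      · intro hi
        exact absurd (Finset.mem_univ i) hi
    simp only [h5]
    rw [← Finset.sum_mul, hc1, one_mul]
  have hDM : ∀ i, D i ∈ M := fun i =>
    sub_mem (mul_mem (mul_mem hqM (h.le _ (hPp.mem i))) hqM) (R124.csmul_mem _ hqM)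
  have hDq : ∀ i, D i * q = D i := fun i => by
    simp only [hD, sub_mul, smul_mul_assoc, mul_assoc, hq.isIdempotentElem.eq]
  obtain ⟨q', hM, hq', hqq, h1, h2⟩ := cutG hq hqM hDM hDq hκ
  have hqq' := left_of_right hq hq' hqq
  refine ⟨q', hM, hq', by rw [← hqq, mul_assoc, hqe, mul_zero], fun ξ hξ => ?_, P, hPp,
    fun i => ?_⟩
  · have h3 : ‖q ξ - q' ξ‖ ≤ κ / 2 := by
      refine le_of_sq_le_sq ((h2 ξ).trans ?_) (by positivity)
      rw [div_le_iff₀ (by positivity)]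
      have h4 : ∑ i, ‖D i ξ‖ ^ 2 ≤ ∑ ξ ∈ F, ∑ i, ‖D i ξ‖ ^ 2 :=
        Finset.single_le_sum (f := fun ξ => ∑ i, ‖D i ξ‖ ^ 2)
          (fun _ _ => Finset.sum_nonneg fun _ _ => by positivity) hξ
      nlinarith
    calc ‖(1 - e) ξ - q' ξ‖ ≤ ‖(1 - e) ξ - q ξ‖ + ‖q ξ - q' ξ‖ := norm_sub_le_norm_sub_add_norm_sub _ _ _
      _ ≤ κ := by linarith [hqF ξ hξ]
  · rw [norm_conj_comm (hPp.proj i) hq']
    have h3 : q' * P i * q' = ((1 / r : ℝ) : ℂ) • q' + q' * (D i * q') := by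
      simp only [hD, sub_mul, mul_sub, smul_mul_assoc, mul_smul_comm, mul_assoc, hqq',
        hq'.isIdempotentElem.eq]
      rw [← mul_assoc q' q, hqq]
      abel
    rw [h3]
    refine (norm_add_le _ _).trans (add_le_add ?_ ?_)
    · rw [norm_smul, Complex.norm_real, Real.norm_of_nonneg (by positivity)]
      exact mul_le_of_le_one_right (by positivity) hq'.norm_le
    · exact (norm_mul_le _ _).trans
        ((mul_le_of_le_one_left (norm_nonneg _) hq'.norm_le).trans (h1 i))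

/-- First `sing144` with many colours: `q`, `Q` with `‖q Q_k‖² ≤ κ'`; the same holds for every
refinement. `exists_ce` and `mazur` (vectors `(1 - e) ξ`): `∑_j c_j EP (p_j) x ≈ a = E x`, all
`p_j` refining `Q`. Give each `Q_k` an independent index `j` with law `c`; the partition
`{Q_k p_{j(k), i}}` has `EP = ∑_k Q_k EP (p_{j(k)}) x` with mean `∑ c_j EP (p_j) x` and variance
(after multiplying by `q`) at most `κ' ‖x‖² ‖ξ‖²`. Fix a good choice `p'`. Colour the atoms of `p'`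
uniformly: `EP P x` has mean `r⁻¹ x + (1 - r⁻¹) EP p' x`, and the events `c k = c k'` are pairwise
independent, so the variance is at most `2 ∑_{k ≠ k'} ‖q p'_k x p'_{k'} ξ‖² ≤ 2 κ' ‖x‖² ‖ξ‖²`.
Then `exists_cut` for `D = q (EP P x - r⁻¹ x - (1 - r⁻¹) a) q`. -/
theorem sing143 (h : Masa M A) {e : Op H} (he : IsStarProjection e) (heA : e ∈ A) {F : Finset H}
    (hS : SingP M A e F) (r : ℕ) [NeZero r] {κ : ℝ} (hκ : 0 < κ) {x : Op H} (hxM : x ∈ M)
    (hx : IsSelfAdjoint x) :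
    ∃ q ∈ M, IsStarProjection q ∧ q * e = 0 ∧ (∀ ξ ∈ F, ‖(1 - e) ξ - q ξ‖ ≤ κ) ∧
      ∃ P : Fin r → Op H, Part A P ∧ ∃ a ∈ A, IsSelfAdjoint a ∧ ‖a‖ ≤ ‖x‖ ∧
        ‖q * (EP P x - a) * q‖ ≤ 2 * ‖x‖ / r + κ := by
  have hr1 : (1 : ℝ) ≤ r := by exact_mod_cast Nat.one_le_iff_ne_zero.mpr (NeZero.ne r)
  have hr : (0 : ℝ) < r := by linarith
  set δ : ℝ := κ ^ 2 / 8 with hδ
  have hδ0 : 0 < δ := by positivity
  set Φ : ℝ := ‖x‖ ^ 2 * ∑ ξ ∈ F, ‖ξ‖ ^ 2 with hΦ
  have hΦ0 : 0 ≤ Φ := mul_nonneg (by positivity) (Finset.sum_nonneg fun _ _ => by positivity)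
  set η : ℝ := δ ^ 2 / (2 * (Φ + 1)) with hη
  have hη0 : 0 < η := by positivity
  have hηΦ : 2 * (η * Φ) ≤ δ ^ 2 := by
    have : η * (2 * (Φ + 1)) = δ ^ 2 := by rw [hη]; field_simp
    nlinarith
  obtain ⟨R, hR⟩ := exists_nat_one_div_lt (half_pos hη0)
  obtain ⟨q, hqM, hq, hqe, hqF, Q, hQ, hQq⟩ := sing144 h he heA hS (R + 1)
    (lt_min (half_pos hκ) (half_pos hη0))
  have hqQ : ∀ k ζ, ‖q (Q k ζ)‖ ^ 2 ≤ η * ‖ζ‖ ^ 2 := by
    intro k ζ
    have h1 := hQq k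
    rw [norm_conj_proj (hQ.proj k) hq] at h1
    have h2 := norm_apply_sq_le (le_refl ‖q * Q k‖) ζ
    rw [ContinuousLinearMap.mul_apply] at h2
    refine h2.trans (mul_le_mul_of_nonneg_right ?_ (by positivity))
    have h3 := min_le_right (κ / 2) (η / 2)
    push_cast at h1
    nlinarith
  obtain ⟨a, haA, has, han, m, p, hp, hqp, hpF⟩ := step2 h hq hQ hη0.le hqQ hxM hx F hδ0
    (by nlinarith [mul_nonneg hη0.le hΦ0])
  obtain ⟨P, hP, hPF⟩ := step3 hq hp hη0.le hqp F hδ0 hηΦ r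
  set Y : Op H := EP P x - ((1 / r : ℝ) : ℂ) • x - ((1 - 1 / r : ℝ) : ℂ) • a with hY
  have hYM : Y ∈ M := sub_mem (sub_mem (EP_mem h hP hxM) (R124.csmul_mem _ hxM))
    (R124.csmul_mem _ (h.le _ haA))
  obtain ⟨q', hM, hq', hqq, h1, h2⟩ := cutG (ι := Unit) (D := fun _ => q * Y * q) hq hqM
    (fun _ => mul_mem (mul_mem hqM hYM) hqM)
    (fun _ => by rw [mul_assoc, hq.isIdempotentElem.eq]) hκ
  have hqq' := left_of_right hq hq' hqq
  have h01 : 0 ≤ 1 / (r : ℝ) := by positivity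
  have h02 : 1 / (r : ℝ) ≤ 1 := by rw [div_le_one hr]; exact hr1
  refine ⟨q', hM, hq', by rw [← hqq, mul_assoc, hqe, mul_zero], fun ξ hξ => ?_, P, hP, a, haA,
    has, han, ?_⟩
  · have h3 : ‖(q * Y * q) ξ‖ ≤ 3 * δ := by
      have h4 : (q * Y * q) ξ =
          q ((EP P x - ((1 / r : ℝ) : ℂ) • x - ((1 - 1 / r : ℝ) : ℂ) • EP p x) (q ξ)) +
          ((1 - 1 / r : ℝ) : ℂ) • (q (EP p x (q ξ)) - q (a (q ξ))) := by
        simp only [hY, ContinuousLinearMap.mul_apply, ContinuousLinearMap.sub_apply,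
          ContinuousLinearMap.smul_apply, map_sub, map_smul, smul_sub]
        abel
      rw [h4]
      refine (norm_add_le _ _).trans ?_
      rw [norm_smul, Complex.norm_real, Real.norm_of_nonneg (by linarith)]
      have h5 := hPF ξ hξ
      have h6 := hpF ξ hξ
      nlinarith [norm_nonneg (q (EP p x (q ξ)) - q (a (q ξ)))]
    have h4 : ‖q ξ - q' ξ‖ ≤ κ / 2 := by
      refine le_of_sq_le_sq ((h2 ξ).trans ?_) (by positivity)
      rw [div_le_iff₀ (by positivity), Fintype.sum_unique]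
      refine (pow_le_pow_left₀ (norm_nonneg _) h3 2).trans ?_
      rw [hδ]
      nlinarith [pow_pos hκ 4]
    have h5 := (hqF ξ hξ).trans (min_le_left _ _)
    linarith [norm_sub_le_norm_sub_add_norm_sub ((1 - e) ξ) (q ξ) (q' ξ)]
  · have h3 : q' * (EP P x - a) * q' =
        ((1 / r : ℝ) : ℂ) • (q' * (x - a) * q') + q' * (q * Y * q * q') := by
      rw [mul_assoc (q * Y), hqq', ← mul_assoc, ← mul_assoc, hqq, ← smul_mul_assoc,
        ← mul_smul_comm, ← add_mul, ← mul_add]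
      congr 2
      simp only [hY, Complex.ofReal_sub, Complex.ofReal_one, sub_smul, smul_sub, one_smul]
      abel
    rw [h3]
    refine (norm_add_le _ _).trans (add_le_add ?_ ?_)
    · rw [norm_smul, Complex.norm_real, Real.norm_of_nonneg h01]
      have h4 : ‖q' * (x - a) * q'‖ ≤ 2 * ‖x‖ := by
        refine (norm_mul_le _ _).trans ((mul_le_of_le_one_right (norm_nonneg _) hq'.norm_le).trans
          ((norm_mul_le _ _).trans ((mul_le_of_le_one_left (norm_nonneg _) hq'.norm_le).trans ?_)))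
        linarith [norm_sub_le x a]
      calc 1 / (r : ℝ) * ‖q' * (x - a) * q'‖ ≤ 1 / (r : ℝ) * (2 * ‖x‖) :=
            mul_le_mul_of_nonneg_left h4 h01
        _ = _ := by ring
    · exact (norm_mul_le _ _).trans
        ((mul_le_of_le_one_left (norm_nonneg _) hq'.norm_le).trans (h1 ()))

end Crest.Agent.R109
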