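import Crest.Agent.R109.Wm

/-! Task 109-TAME: multi-resolution partitions; absolute continuity along words. -/

set_option autoImplicit false

open scoped InnerProductSpace ComplexOrder
open Filter Topology

namespace Crest.Agent.R109

variable {H : Type*} [NormedAddCommGroup H] [InnerProductSpace ℂ H] [CompleteSpace H]
variable {M A : VonNeumannAlgebra H} (𝓔 : Nce M A)

namespace Nce

theorem ac_word' {x : Op H} (hx : x ∈ M) (k : ℕ) : ∀ (C ε : ℝ), 0 < ε →
    ∃ δ : ℝ, 0 < δ ∧ ∀ y ∈ M, ‖y‖ ≤ C → 𝓔.n2 y ≤ δ → ∀ p ∈ A, IsStarProjection p →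
      ∀ j ≤ k, 𝓔.n2 (y * ((p * x * p) ^ j * p)) ≤ ε := by
  have h0 : ∀ y ∈ M, ∀ p ∈ A, IsStarProjection p → 𝓔.n2 (y * p) ≤ 𝓔.n2 y := fun y hy p hpA hp =>
    (𝓔.n2_mul_right hpA hy).trans (mul_le_of_le_one_left (𝓔.n2_nonneg _) hp.norm_le)
  induction k with
  | zero =>
    intro C ε hε
    refine ⟨ε, hε, fun y hy _ h p hpA hp j hj => ?_⟩
    obtain rfl : j = 0 := by omega
    rw [pow_zero, one_mul]
    exact (h0 y hy p hpA hp).trans h
  | succ k ih =>
    intro C ε hε
    obtain ⟨δ₁, hδ₁, h1⟩ := ih (C * ‖x‖) ε hε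
    obtain ⟨δ₂, hδ₂, h2⟩ := 𝓔.ac_mul hx C hδ₁
    refine ⟨min δ₂ ε, lt_min hδ₂ hε, fun y hy hC h p hpA hp j hj => ?_⟩
    have hpM := 𝓔.masa.le p hpA
    cases j with
    | zero =>
      rw [pow_zero, one_mul]
      exact (h0 y hy p hpA hp).trans (h.trans (min_le_right _ _))
    | succ j =>
      have e1 : p * ((p * x * p) ^ j * p) = (p * x * p) ^ j * p := by
        cases j with
        | zero => rw [pow_zero, one_mul, hp.isIdempotentElem.eq]
        | succ j => simp only [pow_succ', ← mul_assoc, hp.isIdempotentElem.eq]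
      have e2 : y * ((p * x * p) ^ (j + 1) * p) = y * p * x * ((p * x * p) ^ j * p) := by
        rw [pow_succ', mul_assoc (p * x * p), mul_assoc (p * x) p, e1]
        simp only [mul_assoc]
      have hyp : ‖y * p‖ ≤ C := (norm_mul_le _ _).trans
        ((mul_le_of_le_one_right (norm_nonneg _) hp.norm_le).trans hC)
      rw [e2]
      exact h1 _ (mul_mem (mul_mem hy hpM) hx) ((norm_mul_le _ _).trans
        (mul_le_mul_of_nonneg_right hyp (norm_nonneg _)))
        (h2 _ (mul_mem hy hpM) hyp ((h0 y hy p hpA hp).trans (h.trans (min_le_left _ _))))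
        p hpA hp j (by omega)

/-- Induction on `k` with `ac_mul`, `n2_mul_right`. -/
theorem ac_word {x : Op H} (hx : x ∈ M) (k : ℕ) {ε : ℝ} (hε : 0 < ε) :
    ∃ δ : ℝ, 0 < δ ∧ ∀ g ∈ M, IsStarProjection g → (𝓔.ψ g).re ≤ δ → ∀ p ∈ A, IsStarProjection p →
      ∀ j ≤ k, 𝓔.n2 (g * ((p * x * p) ^ j * p)) ≤ ε := by
  obtain ⟨δ, hδ, h⟩ := 𝓔.ac_word' hx k 1 ε hε
  refine ⟨δ ^ 2, by positivity, fun g hgM hg hψ => h g hgM hg.norm_le (le_of_sq hδ.le ?_)⟩
  rwa [𝓔.n2_sq hgM, hg.isSelfAdjoint.star_eq, hg.isIdempotentElem.eq]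

theorem EP_approx_fin {α : Type*} (s : Finset α) {y : α → Op H} (hy : ∀ a, y a ∈ M) {ε : ℝ}
    (hε : 0 < ε) (P : PT A) : ∃ Q : PT A, Ref P.2.1 Q.2.1 ∧ ∀ R : PT A, Ref Q.2.1 R.2.1 →
      ∀ a ∈ s, 𝓔.n2 (EP R.2.1 (y a) - 𝓔.E (y a)) ≤ ε := by
  classical
  induction s using Finset.induction_on with
  | empty => exact ⟨P, Ref.refl _ P.2.2.proj, fun _ _ a ha => absurd ha (Finset.notMem_empty a)⟩
  | insert a s _ ih =>
    obtain ⟨Q, hQ, h⟩ := ih
    obtain ⟨n, p, hp, h'⟩ := 𝓔.EP_approx (hy a) hε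
    obtain ⟨m, q, hq, h1, h2⟩ := Q.2.2.exists_ref 𝓔.masa hp
    refine ⟨⟨m, q, hq⟩, hQ.trans h1, fun R hR b hb => ?_⟩
    rcases Finset.mem_insert.1 hb with rfl | hb
    · exact h' _ _ R.2.2 (h2.trans hR)
    · exact h R (h1.trans hR) b hb

omit 𝓔 in
theorem le_add_sq {D : Op H} (hD : IsSelfAdjoint D) {t : ℝ} (ht : 0 < t) :
    D ≤ t • (1 : Op H) + t⁻¹ • (D * D) := by
  have h1 : IsSelfAdjoint (D - t • (1 : Op H)) :=
    hD.sub ((IsSelfAdjoint.all t).smul (IsSelfAdjoint.one _))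
  have h2 := star_mul_self_nonneg (D - t • (1 : Op H))
  have h3 := star_mul_self_nonneg D
  rw [h1.star_eq] at h2
  rw [hD.star_eq] at h3
  have h4 := smul_nonneg (inv_nonneg.2 ht.le) h2
  have h5 := smul_nonneg (inv_nonneg.2 ht.le) h3
  have h6 := smul_nonneg ht.le (zero_le_one (α := Op H))
  have e : (2 : ℝ) • (t • (1 : Op H) + t⁻¹ • (D * D) - D) =
      t⁻¹ • ((D - t • 1) * (D - t • 1)) + t⁻¹ • (D * D) + t • 1 := by
    simp only [mul_sub, sub_mul, mul_smul_comm, smul_mul_assoc, mul_one, one_mul, smul_sub,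
      smul_smul, inv_mul_cancel₀ ht.ne', one_smul, inv_mul_cancel_left₀ ht.ne']
    module
  have h7 : 0 ≤ (2 : ℝ) • (t • (1 : Op H) + t⁻¹ • (D * D) - D) := by
    rw [e]; exact add_nonneg (add_nonneg h4 h5) h6
  have h8 := smul_nonneg (by norm_num : (0 : ℝ) ≤ 2⁻¹) h7
  rwa [smul_smul, inv_mul_cancel₀ two_ne_zero, one_smul, sub_nonneg] at h8

omit 𝓔 in
theorem cut_le {Y T : Op H} (hY : 0 ≤ Y) (hT : IsSelfAdjoint T) {s t c : ℝ} (hs : 0 ≤ s)
    (ht : 0 ≤ t) (h1 : Y ≤ s • (1 : Op H) + T) (h2 : Y ≤ c • (1 : Op H)) :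
    Y ≤ (2 * (s + t)) • (1 : Op H) + (2 * c) • R124.sp T t := by
  set h := R124.sp T t with hh
  have hp : IsStarProjection h := R124.sp_proj _ _
  have hq := hp.one_sub
  have a1 : Y ≤ (2 : ℝ) • ((1 - h) * Y * (1 - h)) + (2 : ℝ) • (h * Y * h) := by
    have := (hq.isSelfAdjoint.sub hp.isSelfAdjoint).conjugate_nonneg hY
    rw [← sub_nonneg]
    convert this using 1
    simp only [mul_sub, sub_mul, mul_one, one_mul]
    module
  have a2 : (1 - h) * Y * (1 - h) ≤ (s + t) • (1 : Op H) := by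
    refine (hq.isSelfAdjoint.conjugate_le_conjugate h1).trans ?_
    have e1 : (1 - h) * T = T * (1 - h) := by
      rw [mul_sub, sub_mul, mul_one, one_mul, hh, R124.sp_comm hT rfl t]
    rw [mul_add, add_mul, mul_smul_comm, smul_mul_assoc, mul_one, hq.isIdempotentElem.eq, e1,
      mul_assoc, hq.isIdempotentElem.eq, add_smul]
    have h3 : 1 - h ≤ 1 := sub_le_self _ hp.nonneg
    exact add_le_add (smul_le_smul_of_nonneg_left h3 hs)
      ((R124.mul_one_sub_sp_le hT t).trans (smul_le_smul_of_nonneg_left h3 ht))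
  have a3 : h * Y * h ≤ c • h := by
    refine (hp.isSelfAdjoint.conjugate_le_conjugate h2).trans (le_of_eq ?_)
    rw [mul_smul_comm, smul_mul_assoc, mul_one, hp.isIdempotentElem.eq]
  refine a1.trans ?_
  rw [mul_smul, mul_smul]
  exact add_le_add (smul_le_smul_of_nonneg_left a2 zero_le_two)
    (smul_le_smul_of_nonneg_left a3 zero_le_two)

omit 𝓔 in
theorem sq_le_norm {x : Op H} (hx : IsSelfAdjoint x) : x * x ≤ (‖x‖ ^ 2) • (1 : Op H) := by
  have := (IsSelfAdjoint.star_mul_self x).le_algebraMap_norm_self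
  rwa [CStarRing.norm_star_mul_self, hx.star_eq, Algebra.algebraMap_eq_smul_one, ← sq ‖x‖] at this

/-- `E x = 0` (`Perp` for `v = 1`): take a partition `f_j`, `j < N`, refining `p₀` and the partition of
`wm`, with `n2 (EP f x)` small. By induction on `j` choose a partition `P_j` with
`n2 (EP P_j (x a x) - E (x a x))` tiny for all atoms `a` of level `< j`; the atoms of level `j` are
the `f_j p`, `p ∈ P_j`; `ρ a b` means `lev a ≤ lev b`. With `D_{a,j} = f_j (EP P_j (x a x) - E (x a x)) f_j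
≤ κ' + D_{a,j}² / κ'`, `T = EP e ((EP f x)²) + ∑_{a,j} D_{a,j}² / κ' + d ‖x‖² (1 - g)` one gets
`Ysum ≤ 2 d κ' + T` and `Ysum ≤ ‖x‖²`. Let `h = sp T κ''`; use
`Y ≤ 2 (1 - h) Y (1 - h) + 2 h Y h` for `Y ≥ 0` and `markov`. -/
theorem tame {x : Op H} (hx : x ∈ M) (hsa : IsSelfAdjoint x) (h : 𝓔.Perp x) (d : ℕ) {κ : ℝ}
    (hκ : 0 < κ) {n₀ : ℕ} {p₀ : Fin n₀ → Op H} (hp₀ : Part A p₀) :
    ∃ (n : ℕ) (e : Fin n → Op H) (lev : Fin n → ℕ), Part A e ∧ Ref p₀ e ∧
      ∃ g ∈ M, IsStarProjection g ∧ (𝓔.ψ g).re ≤ κ ∧ ∀ S : Finset (Fin n), S.card ≤ d →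
        Ysum e (fun a b => lev a ≤ lev b) x S ≤ κ • (1 : Op H) + (2 * ‖x‖ ^ 2) • g := by
  classical
  have hm := 𝓔.masa
  set c : ℝ := ‖x‖ ^ 2 with hc
  have hc0 : 0 ≤ c := sq_nonneg _
  set κ' : ℝ := κ / (8 * (d + 1)) with hκ'
  have hκ'0 : 0 < κ' := by positivity
  obtain ⟨nw, pw, hpw, g, hgA, hg, hgψ, hgE⟩ := 𝓔.wm hx h
    (lt_min hκ'0 (by positivity : 0 < κ ^ 2 / (12 * (d * c + 1))))
  have hE0 : 𝓔.E x = 0 := by
    have := h 1 (nor_of_mem hm (one_mem A) (by simp [R124.PI]))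
    rwa [star_one, one_mul] at this
  obtain ⟨n₁, f₁, hf₁, hf₁'⟩ := 𝓔.EP_approx hx (by positivity : 0 < κ / 4)
  obtain ⟨n₂, f₂, hf₂, r₁, r₂⟩ := hp₀.exists_ref hm hpw
  obtain ⟨N, f, hf, r₃, r₄⟩ := hf₁.exists_ref hm hf₂
  have hfx : 𝓔.n2 (EP f x) ≤ κ / 4 := by simpa [hE0] using hf₁' N f hf r₃
  have hfM : ∀ i, f i ∈ M := fun i => hm.le _ (hf.mem i)
  set η : ℝ := Real.sqrt (κ' * κ ^ 2 / 12) / (N + 1) with hη
  have hη0 : 0 < η := by positivity
  have hyM : ∀ (P : PT A) (ik : Fin N × Fin P.1), x * (f ik.1 * P.2.1 ik.2) * x ∈ M :=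
    fun P ik => mul_mem (mul_mem hx (mul_mem (hfM _) (hm.le _ (P.2.2.mem _)))) hx
  choose Nx hNx hNx' using fun P : PT A => 𝓔.EP_approx_fin Finset.univ (hyM P)
    (by positivity : 0 < η / (P.1 + 1)) P
  let P : ℕ → PT A := fun j => Nx^[j] ⟨1, _, part_one A⟩
  have hPs : ∀ j, P (j + 1) = Nx (P j) := fun j => Function.iterate_succ_apply' _ _ _
  have hPr : ∀ j j', j ≤ j' → Ref (P j).2.1 (P j').2.1 := fun j j' hj => by
    induction j', hj using Nat.le_induction with
    | base => exact Ref.refl _ (P j).2.2.proj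
    | succ j' _ ih => rw [hPs]; exact ih.trans (hNx _)
  let ι := Σ j : Fin N, Fin (P j).1
  let e : ι → Op H := fun a => f a.1 * (P a.1).2.1 a.2
  have hfP : ∀ i j k, f i * (P j).2.1 k = (P j).2.1 k * f i := fun i j k =>
    hm.comm _ (hf.mem i) _ ((P j).2.2.mem k)
  have hef : ∀ a : ι, e a * f a.1 = e a := fun a => by
    simp only [e]
    rw [mul_assoc, ← hfP, ← mul_assoc, (hf.proj _).isIdempotentElem.eq]
  have heP : ∀ a : ι, e a * (P a.1).2.1 a.2 = e a := fun a => by
    simp only [e]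
    rw [mul_assoc, ((P _).2.2.proj _).isIdempotentElem.eq]
  have hsum : ∀ j : Fin N, ∑ k, e ⟨j, k⟩ = f j := fun j => by
    simp only [e]
    rw [← Finset.mul_sum, (P j).2.2.sum, mul_one]
  have he : Part A e := by
    refine ⟨⟨fun a => (hf.proj _).mul ((P _).2.2.proj _) (hfP _ _ _), ?_, ?_⟩,
      fun a => mul_mem (hf.mem _) ((P _).2.2.mem _)⟩
    · rintro ⟨j, k⟩ ⟨j', k'⟩ hne
      by_cases hj : j = j'
      · subst hj
        have hk : k ≠ k' := fun hk => hne (by rw [hk])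
        simp only [e]
        rw [hfP j j k', mul_assoc, ← mul_assoc _ _ (f j), (P j).2.2.orth k k' hk, zero_mul, mul_zero]
      · simp only [e]
        rw [hfP j j k, mul_assoc, ← mul_assoc (f j), hf.orth j j' hj, zero_mul, mul_zero]
    · rw [Fintype.sum_sigma]
      simp only [hsum]
      exact hf.sum
  have hedef : ∀ a : ι, e a = f a.1 * (P a.1).2.1 a.2 := fun _ => rfl
  clear_value e
  have heM : ∀ a, e a ∈ M := fun a => hm.le _ (he.mem a)
  have hes : ∀ a, IsSelfAdjoint (e a) := fun a => (he.proj a).isSelfAdjoint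
  have href : Ref f e := fun a => ⟨a.1, hef a⟩
  let D : ι → Fin N → Op H := fun a j => EP (P j).2.1 (x * e a * x) - 𝓔.E (x * e a * x)
  have hxa : ∀ a, x * e a * x ∈ M := fun a => mul_mem (mul_mem hx (heM a)) hx
  have hxa0 : ∀ a, 0 ≤ x * e a * x := fun a => hsa.conjugate_nonneg (he.proj a).nonneg
  have hDM : ∀ a j, D a j ∈ M := fun a j =>
    sub_mem (EP_mem hm (P j).2.2 (hxa a)) (𝓔.E_mem (hxa a))
  have hDs : ∀ a j, IsSelfAdjoint (D a j) := fun a j =>
    (IsSelfAdjoint.of_nonneg (EP_nonneg (P j).2.2.toPart0 (hxa0 a))).sub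
      (IsSelfAdjoint.of_nonneg (𝓔.ce.nonneg _ (hxa a) (hxa0 a)))
  have hD0 : ∀ a j, 0 ≤ D a j * D a j := fun a j => by
    have := star_mul_self_nonneg (D a j)
    rwa [(hDs a j).star_eq] at this
  have hD2 : ∀ (a : ι) (j : Fin N), a.1 < j → 𝓔.n2 (D a j) ≤ η / ((P a.1).1 + 1) := fun a j hj => by
    simp only [D, hedef a]
    exact hNx' (P a.1) (P j) (by rw [← hPs]; exact hPr _ _ hj) (a.1, a.2) (Finset.mem_univ _)
  let T₂ : ι → Op H := fun a => ∑ j ∈ Finset.univ.filter (fun j => a.1 < j), EP e (D a j * D a j)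
  have hT₂0 : ∀ a, 0 ≤ T₂ a := fun a =>
    Finset.sum_nonneg fun j _ => EP_nonneg he.toPart0 (hD0 a j)
  have hT₂M : ∀ a, T₂ a ∈ M := fun a =>
    sum_mem fun j _ => EP_mem hm he (mul_mem (hDM a j) (hDM a j))
  have hx₀M : EP f x ∈ M := EP_mem hm hf hx
  have hx₀s : star (EP f x) = EP f x := by rw [star_EP hf.toPart0, hsa.star_eq]
  have hx₀0 : 0 ≤ EP f x * EP f x := by
    have := star_mul_self_nonneg (EP f x)
    rwa [hx₀s] at this
  set T : Op H := (d * c) • (1 - g) + κ'⁻¹ • ∑ a, T₂ a + EP e (EP f x * EP f x) with hT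
  have hgM : 1 - g ∈ M := sub_mem (one_mem M) (hm.le g hgA)
  have hTM : T ∈ M := add_mem (add_mem (R124.rsmul_mem _ hgM)
    (R124.rsmul_mem _ (sum_mem fun a _ => hT₂M a))) (EP_mem hm he (mul_mem hx₀M hx₀M))
  have hT0 : 0 ≤ T := add_nonneg (add_nonneg (smul_nonneg (by positivity) hg.one_sub.nonneg)
    (smul_nonneg (by positivity) (Finset.sum_nonneg fun a _ => hT₂0 a)))
    (EP_nonneg he.toPart0 hx₀0)
  have hTψ : (𝓔.ψ T).re ≤ κ ^ 2 / 4 := by
    have b1 : d * c * (𝓔.ψ (1 - g)).re ≤ κ ^ 2 / 12 := by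
      refine (mul_le_mul_of_nonneg_left (hgψ.trans (min_le_right _ _)) (by positivity)).trans ?_
      rw [mul_div_assoc', div_le_div_iff₀ (by positivity) (by positivity)]
      nlinarith [sq_nonneg κ]
    have b2 : ∀ a, (𝓔.ψ (T₂ a)).re ≤ N * (η / ((P a.1).1 + 1)) ^ 2 := fun a => by
      simp only [T₂, map_sum, Complex.re_sum]
      refine (Finset.sum_le_card_nsmul _ _ ((η / ((P a.1).1 + 1)) ^ 2) fun j hj => ?_).trans ?_
      · rw [𝓔.ψ_EP he (mul_mem (hDM a j) (hDM a j))]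
        have := 𝓔.n2_sq (hDM a j)
        rw [(hDs a j).star_eq] at this
        rw [← this]
        exact pow_le_pow_left₀ (𝓔.n2_nonneg _) (hD2 a j (Finset.mem_filter.1 hj).2) 2
      · rw [nsmul_eq_mul]
        refine mul_le_mul_of_nonneg_right ?_ (sq_nonneg _)
        exact_mod_cast (Finset.card_filter_le _ _).trans (by simp)
    have b3 : ∑ a, (𝓔.ψ (T₂ a)).re ≤ κ' * κ ^ 2 / 12 := by
      refine (Finset.sum_le_sum fun a _ => b2 a).trans ?_
      rw [Fintype.sum_sigma]
      have : ∀ j : Fin N, ∑ _k : Fin (P j).1, (N : ℝ) * (η / ((P j).1 + 1)) ^ 2 ≤ N * η ^ 2 :=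
        fun j => by
          rw [Finset.sum_const, Finset.card_univ, Fintype.card_fin, nsmul_eq_mul, mul_left_comm]
          refine mul_le_mul_of_nonneg_left ?_ (Nat.cast_nonneg _)
          rw [div_pow, mul_div_assoc', div_le_iff₀ (by positivity), mul_comm]
          refine mul_le_mul_of_nonneg_left ?_ (sq_nonneg _)
          have : (0 : ℝ) ≤ (P j).1 := Nat.cast_nonneg _
          nlinarith
      refine (Finset.sum_le_sum fun j _ => this j).trans ?_
      rw [Finset.sum_const, Finset.card_univ, Fintype.card_fin, nsmul_eq_mul, hη, div_pow,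
        Real.sq_sqrt (by positivity), ← mul_assoc, mul_div_assoc', div_le_iff₀ (by positivity),
        mul_comm]
      refine mul_le_mul_of_nonneg_left ?_ (by positivity)
      have : (0 : ℝ) ≤ N := Nat.cast_nonneg _
      nlinarith
    have b4 : (𝓔.ψ (EP e (EP f x * EP f x))).re ≤ κ ^ 2 / 16 := by
      rw [𝓔.ψ_EP he (mul_mem hx₀M hx₀M)]
      have := 𝓔.n2_sq hx₀M
      rw [hx₀s] at this
      rw [← this]
      refine (pow_le_pow_left₀ (𝓔.n2_nonneg _) hfx 2).trans (le_of_eq (by ring))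
    rw [hT, map_add, map_add, 𝓔.ψ_rsmul, 𝓔.ψ_rsmul, Complex.add_re, Complex.add_re,
      Complex.re_ofReal_mul, Complex.re_ofReal_mul, map_sum, Complex.re_sum]
    have b5 : κ'⁻¹ * ∑ a, (𝓔.ψ (T₂ a)).re ≤ κ ^ 2 / 12 := by
      refine (mul_le_mul_of_nonneg_left b3 (by positivity)).trans (le_of_eq ?_)
      field_simp
    nlinarith [sq_nonneg κ]
  have ht0 : ∀ a b, 0 ≤ e b * x * e a * x * e b := fun a b => by
    have := (hes b).conjugate_nonneg (hxa0 a)
    simpa only [mul_assoc] using this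
  have hEa : ∀ a, 𝓔.E (x * e a * x) ≤ κ' • (1 : Op H) + c • (1 - g) := fun a => by
    obtain ⟨i, hi⟩ := (r₂.trans (r₄.trans href)) a
    have hle : e a ≤ pw i := ((he.proj a).le_iff_mul_eq_left (hpw.proj i)).2 hi
    have hiM : x * pw i * x ∈ M := mul_mem (mul_mem hx (hm.le _ (hpw.mem i))) hx
    refine (𝓔.E_mono (hxa a) hiM (hsa.conjugate_le_conjugate hle)).trans ?_
    have h1 := hgE i
    rw [hsa.star_eq] at h1
    have h2 : 𝓔.E (x * pw i * x) ≤ c • (1 : Op H) := by
      have a1 : x * pw i * x ≤ c • (1 : Op H) := by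
        refine (hsa.conjugate_le_conjugate (hpw.proj i).le_one).trans ?_
        rw [mul_one]; exact sq_le_norm hsa
      have := 𝓔.E_mono hiM (R124.rsmul_mem c (one_mem M)) a1
      rwa [𝓔.E_of_mem (R124.rsmul_mem c (one_mem A))] at this
    have h3 := 𝓔.Wm_le (𝓔.ce.mem _ hiM) (R124.rsmul_mem c (one_mem A))
      (sub_mem (one_mem A) hgA) h2 hg.one_sub.nonneg
    have e1 : 𝓔.E (x * pw i * x) = g * 𝓔.E (x * pw i * x) + 𝓔.E (x * pw i * x) * (1 - g) := by
      rw [hm.comm g hgA _ (𝓔.ce.mem _ hiM), ← mul_add, add_sub_cancel, mul_one]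
    rw [e1]
    refine add_le_add (h1.trans (smul_le_smul_of_nonneg_right (min_le_left _ _) zero_le_one)) ?_
    simpa using h3
  have key : ∀ S : Finset ι, S.card ≤ d → Ysum e (fun a b => (a.1 : ℕ) ≤ b.1) x S ≤
      κ • (1 : Op H) + (2 * c) • R124.sp T (κ / 4) := fun S hS => by
    have hW : EP e ((2 * κ') • (1 : Op H) + c • (1 - g)) = (2 * κ') • (1 : Op H) + c • (1 - g) :=
      EP_of_mem hm he (add_mem (R124.rsmul_mem _ (one_mem A))
        (R124.rsmul_mem _ (sub_mem (one_mem A) hgA)))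
    have hW0 : 0 ≤ (2 * κ') • (1 : Op H) + c • (1 - g) :=
      add_nonneg (smul_nonneg (by positivity) zero_le_one) (smul_nonneg hc0 hg.one_sub.nonneg)
    have k1 : ∀ a : ι, ∑ b ∈ S.filter (fun b => (a.1 : ℕ) ≤ b.1), e b * x * e a * x * e b ≤
        ((2 * κ') • (1 : Op H) + c • (1 - g)) + κ'⁻¹ • T₂ a +
          ∑ b, if a.1 = b.1 then e b * x * e a * x * e b else 0 := fun a => by
      have hT₂ : T₂ a = ∑ b, ∑ j ∈ Finset.univ.filter (fun j => a.1 < j),
          e b * (D a j * D a j) * e b := Finset.sum_comm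
      conv_rhs => rw [← hW, EP, hT₂, Finset.smul_sum, ← Finset.sum_add_distrib,
        ← Finset.sum_add_distrib]
      have hnn : ∀ b, 0 ≤ κ'⁻¹ • ∑ j ∈ Finset.univ.filter (fun j => a.1 < j),
          e b * (D a j * D a j) * e b := fun b => smul_nonneg (by positivity)
        (Finset.sum_nonneg fun j _ => (hes b).conjugate_nonneg (hD0 a j))
      have hnn' : ∀ b, 0 ≤ if a.1 = b.1 then e b * x * e a * x * e b else 0 := fun b => by
        split_ifs
        exacts [ht0 a b, le_rfl]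
      refine (Finset.sum_le_sum fun b hb => ?_).trans
        (Finset.sum_le_sum_of_subset_of_nonneg (Finset.subset_univ _) fun b _ _ =>
          add_nonneg (add_nonneg ((hes b).conjugate_nonneg hW0) (hnn b)) (hnn' b))
      rcases (Fin.le_def.2 (Finset.mem_filter.1 hb).2).eq_or_lt with hab | hab
      · rw [if_pos hab]
        exact le_add_of_nonneg_left (add_nonneg ((hes b).conjugate_nonneg hW0) (hnn b))
      · refine le_add_of_le_of_nonneg ?_ (hnn' b)
        have e1 : e b * EP (P b.1).2.1 (x * e a * x) * e b = e b * x * e a * x * e b := by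
          have a1 : ∀ k, k ≠ b.2 → e b * (P b.1).2.1 k = 0 := fun k hk => by
            rw [← heP b, mul_assoc, (P b.1).2.2.orth _ _ hk.symm, mul_zero]
          have a2 : (P b.1).2.1 b.2 * e b = e b := by
            rw [hm.comm _ ((P b.1).2.2.mem _) _ (he.mem b), heP]
          rw [EP, Finset.mul_sum, Finset.sum_mul, Finset.sum_eq_single b.2
            (fun k _ hk => by rw [mul_assoc ((P b.1).2.1 k), ← mul_assoc (e b), a1 k hk, zero_mul,
              zero_mul]) (by simp), mul_assoc ((P b.1).2.1 b.2), ← mul_assoc (e b), heP,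
            mul_assoc, mul_assoc, a2]
          simp only [mul_assoc]
        have e2 : EP (P b.1).2.1 (x * e a * x) ≤
            ((2 * κ') • (1 : Op H) + c • (1 - g)) + κ'⁻¹ • (D a b.1 * D a b.1) := by
          have := add_le_add (le_add_sq (hDs a b.1) hκ'0) (hEa a)
          rw [sub_add_cancel] at this
          refine this.trans (le_of_eq ?_)
          module
        rw [← e1]
        refine ((hes b).conjugate_le_conjugate e2).trans ?_
        rw [mul_add (e b), add_mul, mul_smul_comm, smul_mul_assoc]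
        refine add_le_add le_rfl (smul_le_smul_of_nonneg_left ?_ (by positivity))
        exact Finset.single_le_sum (f := fun j => e b * (D a j * D a j) * e b)
          (fun j _ => (hes b).conjugate_nonneg (hD0 a j)) (by simpa using hab)
    have k2 : ∑ a, ∑ b, (if a.1 = b.1 then e b * x * e a * x * e b else 0) =
        EP e (EP f x * EP f x) := by
      rw [Finset.sum_comm, EP]
      refine Finset.sum_congr rfl fun b _ => ?_
      rw [Fintype.sum_sigma, Finset.sum_eq_single b.1 (fun j _ hj => by simp [hj]) (by simp)]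
      simp only [if_true]
      rw [← Finset.sum_mul, ← Finset.sum_mul, ← Finset.mul_sum, hsum]
      have a1 : e b * EP f x = e b * x * f b.1 := by
        rw [EP, Finset.mul_sum, Finset.sum_eq_single b.1 (fun j _ hj => by
          rw [← hef b, mul_assoc (e b), ← mul_assoc (f b.1), ← mul_assoc (f b.1),
            hf.orth _ _ hj.symm, zero_mul, zero_mul, mul_zero]) (by simp), ← mul_assoc,
          ← mul_assoc, hef]
      have a2 : EP f x * e b = f b.1 * x * e b := by
        have := congrArg star a1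
        rwa [star_mul, star_mul, star_mul, hx₀s, (hes b).star_eq, hsa.star_eq,
          (hf.proj _).isSelfAdjoint.star_eq, ← mul_assoc] at this
      rw [← mul_assoc, a1, mul_assoc _ (EP f x), a2]
      simp only [← mul_assoc]
      rw [mul_assoc _ (f b.1) (f b.1), (hf.proj _).isIdempotentElem.eq]
    have hY0 : 0 ≤ Ysum e (fun a b => (a.1 : ℕ) ≤ b.1) x S :=
      Finset.sum_nonneg fun a _ => Finset.sum_nonneg fun b _ => ht0 a b
    have hY1 : Ysum e (fun a b => (a.1 : ℕ) ≤ b.1) x S ≤ (d * (2 * κ')) • (1 : Op H) + T := by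
      refine (Finset.sum_le_sum fun a _ => k1 a).trans ?_
      rw [Finset.sum_add_distrib, Finset.sum_add_distrib, Finset.sum_const, ← Finset.smul_sum, hT,
        ← k2, ← add_assoc, ← add_assoc]
      refine add_le_add (add_le_add ?_ (smul_le_smul_of_nonneg_left
        (Finset.sum_le_sum_of_subset_of_nonneg (Finset.subset_univ _) fun a _ _ => hT₂0 a)
        (by positivity))) (Finset.sum_le_sum_of_subset_of_nonneg (Finset.subset_univ _)
          fun a _ _ => Finset.sum_nonneg fun b _ => by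
            split_ifs
            exacts [ht0 a b, le_rfl])
      rw [mul_smul (d : ℝ), mul_smul (d : ℝ), ← smul_add, ← Nat.cast_smul_eq_nsmul ℝ]
      exact smul_le_smul_of_nonneg_right (by exact_mod_cast hS) hW0
    have hY2 : Ysum e (fun a b => (a.1 : ℕ) ≤ b.1) x S ≤ c • (1 : Op H) := by
      have a1 : Ysum e (fun a b => (a.1 : ℕ) ≤ b.1) x S ≤ ∑ a, ∑ b, e b * x * e a * x * e b :=
        (Finset.sum_le_sum fun a _ => Finset.sum_le_sum_of_subset_of_nonneg (Finset.subset_univ _)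
          fun b _ _ => ht0 a b).trans (Finset.sum_le_sum_of_subset_of_nonneg
            (Finset.subset_univ _) fun a _ _ => Finset.sum_nonneg fun b _ => ht0 a b)
      refine a1.trans ?_
      rw [Finset.sum_comm, ← EP_of_mem hm he (R124.rsmul_mem c (one_mem A)), EP]
      refine Finset.sum_le_sum fun b _ => ?_
      rw [← Finset.sum_mul, ← Finset.sum_mul, ← Finset.mul_sum, he.sum, mul_one, mul_assoc (e b)]
      exact (hes b).conjugate_le_conjugate (sq_le_norm hsa)
    refine (cut_le hY0 (IsSelfAdjoint.of_nonneg hT0) (by positivity) (by positivity : 0 ≤ κ / 4)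
      hY1 hY2).trans (add_le_add (smul_le_smul_of_nonneg_right ?_ zero_le_one) le_rfl)
    have : d * (2 * κ') ≤ κ / 4 := by
      rw [hκ', ← mul_assoc, mul_div_assoc', div_le_div_iff₀ (by positivity) (by positivity)]
      nlinarith
    linarith
  let σ := (Fintype.equivFin ι).symm
  refine ⟨_, e ∘ σ, fun a => (σ a).1, he.equiv σ, fun k => (r₁.trans (r₄.trans href)) (σ k),
    R124.sp T (κ / 4), R124.sp_mem (IsSelfAdjoint.of_nonneg hT0) hTM _, R124.sp_proj _ _, ?_,
    fun S hS => ?_⟩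
  · refine (𝓔.markov hTM hT0 (by positivity)).trans ?_
    rw [div_le_iff₀ (by positivity)]
    nlinarith
  · refine le_trans (le_of_eq ?_) (key (S.map σ.toEmbedding) (by rwa [Finset.card_map]))
    simp only [Ysum, Finset.sum_map, Finset.filter_map, Function.comp, Equiv.coe_toEmbedding]

end Nce

end Crest.Agent.R109
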