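import Crest.Agent.R109.SmAbs
import Crest.Agent.R109.Tame
import Crest.Agent.R109.Gns

/-! Task 109-SINGM: moments of the compression of an element orthogonal to the normalisers;
truncation. -/

set_option autoImplicit false

open scoped InnerProductSpace ComplexOrder

namespace Crest.Agent.R109

open R124 (av)

variable {H : Type*} [NormedAddCommGroup H] [InnerProductSpace ℂ H] [CompleteSpace H]
variable {M A : VonNeumannAlgebra H} (𝓔 : Nce M A)

section Rep
variable {ψ : Op H →ₗ[ℂ] ℂ} {K : Type*} [NormedAddCommGroup K] [InnerProductSpace ℂ K]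
  [CompleteSpace K] {π : Op H → Op K} {ξ : K} (h : IsRep M ψ π ξ)
include h

theorem IsRep.zero : π 0 = 0 := by
  have := h.smul 0 0 (zero_mem M)
  rwa [zero_smul, zero_smul] at this

theorem IsRep.proj {p : Op H} (hp : IsStarProjection p) (hM : p ∈ M) : IsStarProjection (π p) :=
  ⟨by rw [IsIdempotentElem, ← h.mul p hM p hM, hp.isIdempotentElem.eq],
    by rw [IsSelfAdjoint, ← h.map_star p hM, hp.isSelfAdjoint.star_eq]⟩

theorem IsRep.pow {x : Op H} (hx : x ∈ M) (k : ℕ) : π (x ^ k) = π x ^ k := by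
  induction k with
  | zero => rw [pow_zero, pow_zero, h.one]
  | succ k ih => rw [pow_succ, pow_succ, h.mul _ (pow_mem hx k) x hx, ih]

theorem IsRep.part {ι : Type*} [Fintype ι] {p : ι → Op H} (hp : Part0 p) (hM : ∀ i, p i ∈ M) :
    Part0 fun i => π (p i) :=
  ⟨fun i => h.proj (hp.proj i) (hM i), fun i j hij => by
    rw [← h.mul _ (hM i) _ (hM j), hp.orth i j hij, h.zero], by
    rw [← h.sum _ fun i _ => hM i, hp.sum, h.one]⟩

end Rep

namespace Nce

/-- `gns`, `smabs`, `ac_word`, `tame` with `d = (m + 1) * D`; transport everything by `π`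
(`π (qq af) ≠ 0 → qq af ≠ 0`), `T = π (κ + 8 g)`. -/
theorem singm {x : Op H} (hx : x ∈ M) (hsa : IsSelfAdjoint x) (h2 : ‖x‖ ≤ 2) (h : 𝓔.Perp x)
    (r : ℕ) [NeZero r] (D m : ℕ) {δ : ℝ} (hδ : 0 < δ) {n₀ : ℕ} {p₀ : Fin n₀ → Op H}
    (hp₀ : Part A p₀) : ∃ (n : ℕ) (e : Fin n → Op H), Part A e ∧ Ref p₀ e ∧
      ∀ qq : Fin n × ((Fin n → Lab r) → Option (Fin r)) → Op H, IsRC e D qq → (∀ af, qq af ∈ A) →
        av (fun ω => (𝓔.ψ (Zc qq ω x ^ (2 * m))).re) ≤
          (6 / Real.sqrt r) ^ (2 * m) * (𝓔.ψ 1).re + δ := by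
  classical
  haveI : Nonempty (Lab r) := ⟨⟨0, by have := NeZero.pos r; omega⟩⟩
  obtain ⟨K, _, _, _, π, ξ, hπ⟩ := 𝓔.gns
  obtain ⟨ε, hε, hsm⟩ := smabs ξ r D m hδ
  have hψ1 := 𝓔.re_ψ_nonneg (one_mem M) zero_le_one
  obtain ⟨δ₁, hδ₁, hac⟩ := 𝓔.ac_word hx m (ε := Real.sqrt (ε / 16)) (by positivity)
  set B : ℝ := (4 : ℝ) ^ m * (𝓔.ψ 1).re + 1 with hB
  have hB0 : 0 < B := by positivity
  have hκ : 0 < min δ₁ (ε / (2 * B)) := lt_min hδ₁ (by positivity)
  obtain ⟨n, e, lev, he, hr, g, hgM, hg, hgψ, hY⟩ := 𝓔.tame hx hsa h ((m + 1) * D) hκ hp₀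
  set κ := min δ₁ (ε / (2 * B)) with hκd
  refine ⟨n, e, he, hr, fun qq hqq hqA => ?_⟩
  have heM : ∀ i, e i ∈ M := fun i => 𝓔.masa.le _ (he.mem i)
  have hqM : ∀ af, qq af ∈ M := fun af => 𝓔.masa.le _ (hqA af)
  have hpcA : ∀ ω o, pc qq ω o ∈ A := fun ω o => sum_mem fun af _ => hqA af
  have hpcM : ∀ ω o, pc qq ω o ∈ M := fun ω o => 𝓔.masa.le _ (hpcA ω o)
  have hpc : ∀ ω o, pc (fun af => π (qq af)) ω o = π (pc qq ω o) := fun ω o =>
    (hπ.sum _ fun af _ => hqM af).symm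
  have hZM : ∀ ω, Zc qq ω x ∈ M := fun ω =>
    sum_mem fun i _ => mul_mem (mul_mem (hpcM _ _) hx) (hpcM _ _)
  have hZ : ∀ ω, Zc (fun af => π (qq af)) ω (π x) = π (Zc qq ω x) := fun ω => by
    rw [Zc, Zc, hπ.sum _ fun i _ => mul_mem (mul_mem (hpcM _ _) hx) (hpcM _ _)]
    refine Finset.sum_congr rfl fun i _ => ?_
    rw [hπ.mul _ (mul_mem (hpcM _ _) hx) _ (hpcM _ _), hπ.mul _ (hpcM _ _) _ hx, hpc]
  have hTM : κ • (1 : Op H) + (8 : ℝ) • g ∈ M :=
    add_mem (R124.rsmul_mem _ (one_mem M)) (R124.rsmul_mem _ hgM)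
  have hT0 : 0 ≤ κ • (1 : Op H) + (8 : ℝ) • g :=
    add_nonneg (smul_nonneg hκ.le zero_le_one) (smul_nonneg (by norm_num) hg.nonneg)
  have hne : ∀ af, π (qq af) ≠ 0 → qq af ≠ 0 := fun af h1 h2 => h1 (by rw [h2, hπ.zero])
  have main := hsm n (fun i => π (e i)) (fun af => π (qq af)) (π x)
    (π (κ • (1 : Op H) + (8 : ℝ) • g)) lev (hπ.part he.toPart0 heM)
    ⟨hπ.part hqq.part hqM, fun a f => by rw [← hπ.mul _ (hqM _) _ (heM _), hqq.le],
      fun a f h1 => hqq.junta a f (hne _ h1), fun a f h1 => hqq.own a f (hne _ h1)⟩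
    (by rw [IsSelfAdjoint, ← hπ.map_star x hx, hsa.star_eq]) ((hπ.norm_le x hx).trans h2)
    (by rw [← hπ.zero]; exact hπ.mono _ (zero_mem M) _ hTM hT0) (fun S hS => by
      have hm : ∀ a b, e b * x * e a * x * e b ∈ M := fun a b =>
        mul_mem (mul_mem (mul_mem (mul_mem (heM b) hx) (heM a)) hx) (heM b)
      have h1 : Ysum (fun i => π (e i)) (fun a b => lev a ≤ lev b) (π x) S =
          π (Ysum e (fun a b => lev a ≤ lev b) x S) := by
        rw [Ysum, Ysum, hπ.sum _ fun a _ => sum_mem fun b _ => hm a b]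
        refine Finset.sum_congr rfl fun a _ => ?_
        rw [hπ.sum _ fun b _ => hm a b]
        refine Finset.sum_congr rfl fun b _ => ?_
        rw [hπ.mul _ (mul_mem (mul_mem (mul_mem (heM b) hx) (heM a)) hx) _ (heM b),
          hπ.mul _ (mul_mem (mul_mem (heM b) hx) (heM a)) _ hx,
          hπ.mul _ (mul_mem (heM b) hx) _ (heM a), hπ.mul _ (heM b) _ hx]
      rw [h1]
      refine hπ.mono _ (sum_mem fun a _ => sum_mem fun b _ => hm a b) _ hTM ((hY S hS).trans ?_)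
      refine add_le_add le_rfl (smul_le_smul_of_nonneg_right ?_ hg.nonneg)
      nlinarith [norm_nonneg x]) (fun k hk ω i => by
      have hp := (hqq.part_pc ω).proj (some i)
      set p := pc qq ω (some i) with hpd
      have hpM : p ∈ M := hpcM _ _
      have hwM : (p * x * p) ^ k * p ∈ M := mul_mem (pow_mem (mul_mem (mul_mem hpM hx) hpM) k) hpM
      have h1 : (pc (fun af => π (qq af)) ω (some i) * π x * pc (fun af => π (qq af)) ω (some i)) ^ k *
          pc (fun af => π (qq af)) ω (some i) = π ((p * x * p) ^ k * p) := by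
        rw [hpc, hπ.mul _ (pow_mem (mul_mem (mul_mem hpM hx) hpM) k) _ hpM,
          hπ.pow (mul_mem (mul_mem hpM hx) hpM), hπ.mul _ (mul_mem hpM hx) _ hpM, hπ.mul _ hpM _ hx]
      rw [h1]
      set w := (p * x * p) ^ k * p with hw
      have h3 : π (κ • (1 : Op H) + (8 : ℝ) • g) (π w ξ) =
          π ((κ • (1 : Op H) + (8 : ℝ) • g) * w) ξ := by rw [hπ.mul _ hTM _ hwM]; rfl
      rw [h3, hπ.norm_sq hwM (mul_mem hTM hwM)]
      have h4 : star w * ((κ • (1 : Op H) + (8 : ℝ) • g) * w) =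
          κ • (star w * w) + (8 : ℝ) • (star (g * w) * (g * w)) := by
        rw [star_mul g w, hg.isSelfAdjoint.star_eq, mul_assoc (star w) g, ← mul_assoc g g,
          hg.isIdempotentElem.eq, add_mul, mul_add, smul_mul_assoc, smul_mul_assoc, one_mul,
          mul_smul_comm, mul_smul_comm]
      rw [h4, map_add, 𝓔.ψ_rsmul, 𝓔.ψ_rsmul, Complex.add_re, Complex.re_ofReal_mul,
        Complex.re_ofReal_mul, ← 𝓔.n2_sq hwM, ← 𝓔.n2_sq (mul_mem hgM hwM)]
      have h5 := hac g hgM hg (hgψ.trans (min_le_left _ _)) p (hpcA _ _) hp k hk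
      have h6 : 𝓔.n2 (g * w) ^ 2 ≤ ε / 16 := by
        rw [← Real.sq_sqrt (by positivity : 0 ≤ ε / 16)]
        exact pow_le_pow_left₀ (𝓔.n2_nonneg _) h5 2
      have hp1 : ‖p‖ ≤ 1 := hp.norm_le
      have h7 : ‖w‖ ≤ 2 ^ m := by
        have a1 : ‖p * x * p‖ ≤ 2 := by
          refine (norm_mul_le _ _).trans ?_
          have := (norm_mul_le p x).trans (mul_le_mul hp1 h2 (norm_nonneg _) zero_le_one)
          nlinarith [norm_nonneg (p * x), norm_nonneg p]
        have a2 : ‖(p * x * p) ^ k‖ ≤ 2 ^ k := by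
          rcases k.eq_zero_or_pos with rfl | hk0
          · rw [pow_zero, pow_zero]; exact ContinuousLinearMap.norm_id_le
          · exact (norm_pow_le' _ hk0).trans (pow_le_pow_left₀ (norm_nonneg _) a1 k)
        refine (norm_mul_le _ _).trans ?_
        have a3 : (2 : ℝ) ^ k ≤ 2 ^ m := pow_le_pow_right₀ one_le_two hk
        nlinarith [norm_nonneg ((p * x * p) ^ k), norm_nonneg p]
      have h8 : 𝓔.n2 w ^ 2 ≤ B := by
        have a1 := pow_le_pow_left₀ (𝓔.n2_nonneg _) ((𝓔.n2_le_norm hwM).trans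
          (mul_le_mul_of_nonneg_right h7 (Real.sqrt_nonneg _))) 2
        rw [mul_pow, Real.sq_sqrt hψ1, ← pow_mul, mul_comm m 2, pow_mul] at a1
        norm_num at a1
        linarith
      have h9 : κ * 𝓔.n2 w ^ 2 ≤ ε / 2 := by
        calc κ * 𝓔.n2 w ^ 2 ≤ ε / (2 * B) * B :=
              mul_le_mul (min_le_right _ _) h8 (sq_nonneg _) (by positivity)
          _ = ε / 2 := by field_simp
      linarith)
  have hξ : ‖ξ‖ ^ 2 = (𝓔.ψ 1).re := by
    have := hπ.inner 1 (one_mem M)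
    rw [hπ.one, ContinuousLinearMap.one_apply, inner_self_eq_norm_sq_to_K] at this
    rw [← this]; norm_cast
  rw [hξ] at main
  refine le_trans (le_of_eq ?_) main
  congr 1
  funext ω
  have hZs : IsSelfAdjoint (Zc qq ω x) := by
    rw [IsSelfAdjoint, Zc, star_sum]
    refine Finset.sum_congr rfl fun i _ => ?_
    rw [star_mul, star_mul, hsa.star_eq, ((hqq.part_pc ω).proj _).isSelfAdjoint.star_eq, mul_assoc]
  have := hπ.norm_sq (pow_mem (hZM ω) m) (pow_mem (hZM ω) m)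
  rw [inner_self_eq_norm_sq_to_K, (hZs.pow m).star_eq, ← pow_add, ← two_mul] at this
  rw [hZ, ← hπ.pow (hZM ω), ← this]
  norm_cast

/-- `d = Z * sp (Z * Z) (t ^ 2)`; `t ^ (2 m) sp ≤ Z ^ (2 m)`. -/
theorem trunc {Z : Op H} (hZ : Z ∈ M) (hsa : IsSelfAdjoint Z) {t : ℝ} (ht : 0 < t) (m : ℕ) :
    ∃ d ∈ M, IsSelfAdjoint d ∧ ‖Z - d‖ ≤ t ∧
      𝓔.n2 d ^ 2 ≤ ‖Z‖ ^ 2 * (𝓔.ψ (Z ^ (2 * m))).re / t ^ (2 * m) := by
  have hZZ : IsSelfAdjoint (Z * Z) := by rw [IsSelfAdjoint, star_mul, hsa.star_eq]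
  have hZM : Z * Z ∈ M := mul_mem hZ hZ
  set g := R124.sp (Z * Z) (t ^ 2) with hgd
  have hg : IsStarProjection g := R124.sp_proj _ _
  have hgM : g ∈ M := R124.sp_mem hZZ hZM _
  have hc : Z * g = g * Z := R124.sp_comm hZZ (mul_assoc _ _ _).symm _
  have hZ0 : 0 ≤ Z * Z := by
    have := star_mul_self_nonneg Z
    rwa [hsa.star_eq] at this
  refine ⟨Z * g, mul_mem hZ hgM, ?_, ?_, ?_⟩
  · rw [IsSelfAdjoint, star_mul, hsa.star_eq, hg.isSelfAdjoint.star_eq, hc]
  · have h1 : star (Z - Z * g) * (Z - Z * g) = Z * Z * (1 - g) := by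
      have e1 : Z - Z * g = Z * (1 - g) := by rw [mul_sub, mul_one]
      have e2 : (1 - g) * Z = Z * (1 - g) := by rw [mul_sub, sub_mul, mul_one, one_mul, hc]
      rw [e1, star_mul, hsa.star_eq, hg.one_sub.isSelfAdjoint.star_eq, e2, mul_assoc, ← mul_assoc (1 - g),
        e2, mul_assoc, hg.one_sub.isIdempotentElem.eq, mul_assoc]
    have h2 : star (Z - Z * g) * (Z - Z * g) ≤ algebraMap ℝ (Op H) (t ^ 2) := by
      rw [h1, Algebra.algebraMap_eq_smul_one]
      refine (R124.mul_one_sub_sp_le hZZ _).trans (smul_le_smul_of_nonneg_left ?_ (sq_nonneg t))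
      exact sub_le_self _ hg.nonneg
    rw [← CStarAlgebra.norm_le_iff_le_algebraMap _ (sq_nonneg t) (star_mul_self_nonneg _),
      CStarRing.norm_star_mul_self, ← sq] at h2
    exact le_of_sq ht.le h2
  · have h1 : ∀ k : ℕ, (t ^ 2) ^ k • g ≤ (Z * Z) ^ k * g := fun k => by
      induction k with
      | zero => simp
      | succ k ih =>
        have hk : Commute ((Z * Z) ^ k * g) (Z * Z * g - t ^ 2 • g) := by
          have c1 : Commute (Z * Z) g := (Commute.mul_left hc hc)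
          have c2 : Commute ((Z * Z) ^ k * g) (Z * Z) :=
            ((Commute.refl _).pow_left k).mul_left c1.symm
          have c3 : Commute ((Z * Z) ^ k * g) g := (c1.pow_left k).mul_left (Commute.refl _)
          exact (c2.mul_right c3).sub_right (c3.smul_right _)
        have a0 : 0 ≤ (Z * Z) ^ k * g :=
          (smul_nonneg (by positivity) hg.nonneg).trans ih
        have a1 := hk.mul_nonneg a0 (sub_nonneg.2 (R124.smul_sp_le hZZ _))
        have c1 : Commute (Z * Z) g := (Commute.mul_left hc hc)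
        have e1 : (Z * Z) ^ k * g * (Z * Z * g - t ^ 2 • g) =
            (Z * Z) ^ (k + 1) * g - t ^ 2 • ((Z * Z) ^ k * g) := by
          have e0 : g * (Z * Z * g) = Z * Z * g := by
            rw [← mul_assoc, ← c1.eq, mul_assoc _ g g, hg.isIdempotentElem.eq]
          rw [mul_sub, mul_smul_comm, mul_assoc _ g g, hg.isIdempotentElem.eq, mul_assoc _ g, e0,
            pow_succ (Z * Z), mul_assoc _ (Z * Z) g]
        rw [← hgd, e1, sub_nonneg] at a1
        refine le_trans ?_ a1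
        rw [pow_succ', mul_smul]
        exact smul_le_smul_of_nonneg_left ih (sq_nonneg t)
    have h2 : (Z * Z) ^ m * g ≤ (Z * Z) ^ m := by
      have c1 : Commute (Z * Z) g := (Commute.mul_left hc hc)
      have := R124.nonneg_mul_proj (CStarAlgebra.pow_nonneg hZ0 m) hg.one_sub (by
        rw [mul_sub, sub_mul, mul_one, one_mul, (c1.pow_left m).eq])
      rwa [mul_sub, mul_one, sub_nonneg] at this
    have h3 := 𝓔.re_ψ_mono (R124.rsmul_mem _ hgM) (pow_mem hZM m) ((h1 m).trans h2)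
    rw [𝓔.ψ_rsmul, Complex.re_ofReal_mul, ← pow_mul, ← sq, ← pow_mul] at h3
    have h4 := pow_le_pow_left₀ (𝓔.n2_nonneg _) (𝓔.n2_mul_left hZ hgM) 2
    rw [mul_pow, 𝓔.n2_sq hgM, hg.isSelfAdjoint.star_eq, hg.isIdempotentElem.eq] at h4
    refine h4.trans ?_
    rw [mul_div_assoc]
    refine mul_le_mul_of_nonneg_left ?_ (sq_nonneg _)
    rw [le_div_iff₀ (by positivity)]
    linarith

/-- `n2 (p x p) ≤ ‖x‖ √(ψ p)` for a projection `p` of `A`. -/
theorem n2_corner {x p : Op H} (hx : x ∈ M) (hp : IsStarProjection p) (hpA : p ∈ A) :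
    𝓔.n2 (p * x * p) ≤ ‖x‖ * Real.sqrt (𝓔.ψ p).re := by
  have hpM := 𝓔.masa.le p hpA
  have h1 := 𝓔.n2_mul_left (mul_mem hpM hx) hpM
  have h2 : 𝓔.n2 p = Real.sqrt (𝓔.ψ p).re := by
    rw [n2, hp.isSelfAdjoint.star_eq, hp.isIdempotentElem.eq]
  rw [h2] at h1
  refine h1.trans (mul_le_mul_of_nonneg_right ((norm_mul_le _ _).trans ?_) (Real.sqrt_nonneg _))
  exact mul_le_of_le_one_left (norm_nonneg _) hp.norm_le

end Nce

end Crest.Agent.R109
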