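import Crest.Agent.R109.Cart
import Crest.Agent.R109.Singm
import Crest.Agent.R109.Dec
import Crest.Agent.R109.Sing

/-! Task 109-MAINE: paving when there is a normal expectation. -/

set_option autoImplicit false
set_option linter.deprecated false
set_option linter.unusedSectionVars false

open scoped InnerProductSpace ComplexOrder

namespace Crest.Agent.R109

open R124 (av)

variable {H : Type*} [NormedAddCommGroup H] [InnerProductSpace ℂ H] [CompleteSpace H]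
variable {M A : VonNeumannAlgebra H}

namespace MaineAux

variable {ι : Type*} [Fintype ι]

theorem EP_add (p : ι → Op H) (x y : Op H) : EP p (x + y) = EP p x + EP p y := by
  simp only [EP, mul_add, add_mul, Finset.sum_add_distrib]

theorem EP_sub (p : ι → Op H) (x y : Op H) : EP p (x - y) = EP p x - EP p y := by
  simp only [EP, mul_sub, sub_mul, Finset.sum_sub_distrib]

theorem EP_smul (p : ι → Op H) (c : ℂ) (x : Op H) : EP p (c • x) = c • EP p x := by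
  simp only [EP, mul_smul_comm, smul_mul_assoc, Finset.smul_sum]

theorem exists_le_av {Ω : Type*} [Fintype Ω] [Nonempty Ω] (f : Ω → ℝ) : ∃ ω, f ω ≤ av f := by
  refine (Finset.exists_le_of_sum_le (s := Finset.univ) Finset.univ_nonempty ?_).imp
    fun c hc => hc.2
  have h : (Fintype.card Ω : ℝ) ≠ 0 := by exact_mod_cast Fintype.card_ne_zero
  rw [Finset.sum_const, Finset.card_univ, nsmul_eq_mul, av, smul_eq_mul, ← mul_assoc,
    mul_inv_cancel₀ h, one_mul]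

theorem conj_sa {p x : Op H} (hp : IsStarProjection p) (hx : IsSelfAdjoint x) :
    IsSelfAdjoint (p * x * p) := by
  rw [IsSelfAdjoint, star_mul, star_mul, hp.isSelfAdjoint.star_eq, hx.star_eq, mul_assoc]

theorem EP_sa {p : ι → Op H} (hp : Part0 p) {x : Op H} (hx : IsSelfAdjoint x) :
    IsSelfAdjoint (EP p x) := by
  rw [IsSelfAdjoint, star_EP hp, hx.star_eq]

theorem even_pow_nonneg {Z : Op H} (hZ : IsSelfAdjoint Z) (m : ℕ) : 0 ≤ Z ^ (2 * m) := by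
  have h := star_mul_self_nonneg (Z ^ m)
  rwa [star_pow, hZ.star_eq, ← pow_add, ← two_mul] at h

/-- The coloured part of a compression. -/
noncomputable def Zp {r : ℕ} (p : Option (Fin r) → Op H) (x : Op H) : Op H :=
  ∑ i : Fin r, p (some i) * x * p (some i)

theorem EP_option {r : ℕ} (p : Option (Fin r) → Op H) (x : Op H) :
    EP p x = p none * x * p none + Zp p x := by
  rw [EP, Fintype.sum_option, Zp]

theorem Zp_mem (h : Masa M A) {r : ℕ} {p : Option (Fin r) → Op H} (hp : Part A p) {x : Op H}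
    (hx : x ∈ M) : Zp p x ∈ M :=
  sum_mem fun i _ => mul_mem (mul_mem (h.le _ (hp.mem _)) hx) (h.le _ (hp.mem _))

theorem Zp_sa {r : ℕ} {p : Option (Fin r) → Op H} (hp : Part0 p) {x : Op H}
    (hx : IsSelfAdjoint x) : IsSelfAdjoint (Zp p x) := by
  rw [IsSelfAdjoint, Zp, star_sum]
  exact Finset.sum_congr rfl fun i _ => (conj_sa (hp.proj _) hx).star_eq

theorem norm_Zp_le {r : ℕ} {p : Option (Fin r) → Op H} (hp : Part0 p) (x : Op H) :
    ‖Zp p x‖ ≤ ‖x‖ := by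
  have ho : ∀ i j : Fin r, i ≠ j → p (some i) * p (some j) = 0 := fun i j hij =>
    hp.orth _ _ fun h => hij (Option.some_injective _ h)
  refine norm_sum_orth_le (p := fun i => p (some i)) (q := fun i => p (some i))
    (y := fun _ => x) (fun _ => hp.proj _) ho (fun _ => hp.proj _) ho (norm_nonneg _) fun i => ?_
  exact (norm_mul_le _ _).trans ((mul_le_of_le_one_right (norm_nonneg _) (hp.proj _).norm_le).trans
    ((norm_mul_le _ _).trans (mul_le_of_le_one_left (norm_nonneg _) (hp.proj _).norm_le)))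

theorem exists_delta (𝓔 : Nce M A) {I : Type*} (G : Finset I) (v : I → H) (C : ℝ) {ε : ℝ}
    (hε : 0 < ε) : ∃ δ : ℝ, 0 < δ ∧ ∀ i ∈ G, ∀ x ∈ M, ‖x‖ ≤ C → 𝓔.n2 x ≤ δ → ‖x (v i)‖ ≤ ε := by
  classical
  induction G using Finset.induction_on with
  | empty => exact ⟨1, one_pos, by simp⟩
  | insert i G _ ih =>
    obtain ⟨δ, hδ, h⟩ := ih
    obtain ⟨δ', hδ', h'⟩ := 𝓔.ac_vec (v i) C hε
    refine ⟨min δ δ', lt_min hδ hδ', fun j hj x hx hC hn => ?_⟩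
    rcases Finset.mem_insert.mp hj with rfl | hj
    · exact h' x hx hC (hn.trans (min_le_right _ _))
    · exact h j hj x hx hC (hn.trans (min_le_left _ _))

end MaineAux

open MaineAux

/-- `dec`; choose `m` with `(6/10)^(2m)` and `(234/240)^(2m)` small; `cart` for `x₁ / 3`, then
`singm` for `x'`; pick `ω` for which the sum of the three normalised error terms is at most its
average; `trunc` with `t = 10 / √r` and `t = 240 / √r`. Finally replace `d` by `EP p d`. -/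
theorem Nce.maine (𝓔 : Nce M A) {x : Op H} (hx : x ∈ M) (hsa : IsSelfAdjoint x) (h1 : ‖x‖ ≤ 1)
    (r : ℕ) [NeZero r] {δ : ℝ} (hδ : 0 < δ) :
    ∃ p : Option (Fin r) → Op H, Part A p ∧ ∃ d ∈ M, IsSelfAdjoint d ∧ 𝓔.n2 d ≤ δ ∧ EP p d = d ∧
      ‖EP p x - 𝓔.E x - d‖ ≤ 250 / Real.sqrt r := by
  classical
  have hm := 𝓔.masa
  have hr : (0 : ℝ) < r := by exact_mod_cast Nat.pos_of_ne_zero (NeZero.ne r)
  have hs : 0 < Real.sqrt r := Real.sqrt_pos.mpr hr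
  set σ : ℝ := δ / 11 with hσ
  have hσ0 : 0 < σ := by positivity
  obtain ⟨x', x₁, d₀, hdec, ⟨hx'M, hx's, hx'n, hx'p⟩, ⟨hd₀M, hd₀s, hd₀n⟩, hx₁s, hx₁n, hx₁E,
    n₁, u, a, K, hK, hu, ha, hx₁⟩ := 𝓔.dec hx hsa h1 hσ0
  have hx₁M : x₁ ∈ M := by
    rw [hx₁]
    exact sum_mem fun g _ => mul_mem (hm.le _ (ha g)) (hu g).mem
  set y : Op H := ((1 / 3 : ℝ) : ℂ) • x₁ with hy
  have hyM : y ∈ M := R124.csmul_mem _ hx₁M
  have hys : IsSelfAdjoint y := by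
    rw [IsSelfAdjoint, hy, star_smul, hx₁s.star_eq, Complex.star_def, Complex.conj_ofReal]
  have hyn : ‖y‖ ≤ 1 := by
    rw [hy, norm_smul, Complex.norm_real, Real.norm_of_nonneg (by norm_num)]
    linarith
  have hxy : x₁ = (3 : ℂ) • y := by
    rw [hy, smul_smul]
    norm_num
  set Ψ : ℝ := (𝓔.ψ 1).re with hΨ
  have hΨ0 : 0 ≤ Ψ := 𝓔.re_ψ_nonneg (one_mem _) zero_le_one
  obtain ⟨m, hmm⟩ := exists_pow_lt_of_lt_one (x := σ ^ 2 / (4 * (Ψ + 1))) (y := (78 / 80 : ℝ))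
    (by positivity) (by norm_num)
  have hm1 : (78 / 80 : ℝ) ^ (2 * m) * Ψ ≤ σ ^ 2 / 4 := by
    have h2 : (78 / 80 : ℝ) ^ (2 * m) ≤ (78 / 80 : ℝ) ^ m :=
      pow_le_pow_of_le_one (by norm_num) (by norm_num) (by omega)
    rw [lt_div_iff₀ (by positivity)] at hmm
    have h3 : (0 : ℝ) ≤ (78 / 80 : ℝ) ^ m := by positivity
    nlinarith [mul_le_mul_of_nonneg_right h2 hΨ0]
  have hm2 : (6 / 10 : ℝ) ^ (2 * m) * Ψ ≤ σ ^ 2 / 4 :=
    (mul_le_mul_of_nonneg_right (pow_le_pow_left₀ (by norm_num) (by norm_num) _) hΨ0).trans hm1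
  set t' : ℝ := 10 / Real.sqrt r with ht'
  set t₁ : ℝ := 80 / Real.sqrt r with ht₁
  have ht'0 : 0 < t' := by positivity
  have ht₁0 : 0 < t₁ := by positivity
  set δ₁ : ℝ := σ ^ 2 / (2 * (1 + 1 / t' ^ (2 * m) + 1 / t₁ ^ (2 * m))) with hδ₁
  have hδ₁0 : 0 < δ₁ := by positivity
  obtain ⟨D, n₀, p₀, hp₀, hcart⟩ := 𝓔.cart hK hu
    (a := fun g => ((1 / 3 : ℝ) : ℂ) • a g) (fun g => R124.csmul_mem _ (ha g)) (x := y)
    (by rw [hy, hx₁, Finset.smul_sum]; simp only [smul_mul_assoc]) hys hyn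
    (by rw [hy, map_smul, hx₁E, smul_zero]) r m hδ₁0
  obtain ⟨n, e, he, hre, hsing⟩ := 𝓔.singm hx'M hx's hx'n hx'p r D m hδ₁0 hp₀
  obtain ⟨qq, hRC, hqA, hc1, hc2⟩ := hcart n e he hre
  have hc3 := hsing qq hRC hqA
  haveI : Nonempty (Lab r) := ⟨⟨0, by have := Nat.pos_of_ne_zero (NeZero.ne r); omega⟩⟩
  obtain ⟨ω, hω⟩ := exists_le_av fun ω : Fin n → Lab r => (𝓔.ψ (pc qq ω none)).re +
    (1 / t' ^ (2 * m)) • (𝓔.ψ (Zc qq ω x' ^ (2 * m))).re +
    (1 / t₁ ^ (2 * m)) • (𝓔.ψ (Zc qq ω y ^ (2 * m))).re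
  rw [R124.av_add, R124.av_add, R124.av_rsmul, R124.av_rsmul] at hω
  simp only [smul_eq_mul] at hω
  have hp : Part A (pc qq ω) := Part.fiber (p := qq) ⟨hRC.part, hqA⟩ fun af => af.2 ω
  set p := pc qq ω with hpd
  have hZ : ∀ z, Zc qq ω z = Zp p z := fun z => rfl
  rw [hZ, hZ] at hω
  have hb : (𝓔.ψ (p none)).re + 1 / t' ^ (2 * m) * (𝓔.ψ (Zp p x' ^ (2 * m))).re +
      1 / t₁ ^ (2 * m) * (𝓔.ψ (Zp p y ^ (2 * m))).re ≤ σ ^ 2 := by
    have e1 : 1 / t' ^ (2 * m) * ((6 / Real.sqrt r) ^ (2 * m) * Ψ) =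
        (6 / 10 : ℝ) ^ (2 * m) * Ψ := by
      rw [← mul_assoc, one_div, inv_mul_eq_div, ← div_pow, ht']
      congr 2
      field_simp
    have e2 : 1 / t₁ ^ (2 * m) * ((78 / Real.sqrt r) ^ (2 * m) * Ψ) =
        (78 / 80 : ℝ) ^ (2 * m) * Ψ := by
      rw [← mul_assoc, one_div, inv_mul_eq_div, ← div_pow, ht₁]
      congr 2
      field_simp
    have e3 : δ₁ * (1 + 1 / t' ^ (2 * m) + 1 / t₁ ^ (2 * m)) = σ ^ 2 / 2 := by
      rw [hδ₁]
      have : (1 + 1 / t' ^ (2 * m) + 1 / t₁ ^ (2 * m)) ≠ 0 := by positivity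
      generalize (1 + 1 / t' ^ (2 * m) + 1 / t₁ ^ (2 * m)) = w at this ⊢
      field_simp
    have i1 := mul_le_mul_of_nonneg_left hc3 (show 0 ≤ 1 / t' ^ (2 * m) by positivity)
    have i2 := mul_le_mul_of_nonneg_left hc2 (show 0 ≤ 1 / t₁ ^ (2 * m) by positivity)
    rw [mul_add, e1] at i1
    rw [mul_add, e2] at i2
    nlinarith
  have hZ'M := Zp_mem hm hp hx'M
  have hZyM := Zp_mem hm hp hyM
  have hZ's := Zp_sa hp.toPart0 hx's
  have hZys := Zp_sa hp.toPart0 hys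
  have hpM : ∀ o, p o ∈ M := fun o => hm.le _ (hp.mem o)
  have j0 : 0 ≤ (𝓔.ψ (p none)).re := 𝓔.re_ψ_nonneg (hpM _) (hp.proj _).nonneg
  have j1 : 0 ≤ 1 / t' ^ (2 * m) * (𝓔.ψ (Zp p x' ^ (2 * m))).re :=
    mul_nonneg (by positivity) (𝓔.re_ψ_nonneg (pow_mem hZ'M _) (even_pow_nonneg hZ's m))
  have j2 : 0 ≤ 1 / t₁ ^ (2 * m) * (𝓔.ψ (Zp p y ^ (2 * m))).re :=
    mul_nonneg (by positivity) (𝓔.re_ψ_nonneg (pow_mem hZyM _) (even_pow_nonneg hZys m))
  obtain ⟨d', hd'M, hd's, hd'n, hd'2⟩ := 𝓔.trunc hZ'M hZ's ht'0 m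
  obtain ⟨d₁, hd₁M, hd₁s, hd₁n, hd₁2⟩ := 𝓔.trunc hZyM hZys ht₁0 m
  have k1 : 𝓔.n2 d' ≤ 2 * σ := by
    refine le_of_sq_le_sq (hd'2.trans ?_) (by positivity)
    have h2 : ‖Zp p x'‖ ^ 2 ≤ 2 ^ 2 :=
      pow_le_pow_left₀ (norm_nonneg _) ((norm_Zp_le hp.toPart0 _).trans hx'n) 2
    rw [mul_div_assoc, div_eq_inv_mul, ← one_div]
    nlinarith [mul_le_mul_of_nonneg_right h2 j1]
  have k2 : 𝓔.n2 d₁ ≤ σ := by
    refine le_of_sq_le_sq (hd₁2.trans ?_) (by positivity)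
    have h2 : ‖Zp p y‖ ^ 2 ≤ 1 ^ 2 :=
      pow_le_pow_left₀ (norm_nonneg _) ((norm_Zp_le hp.toPart0 _).trans hyn) 2
    rw [mul_div_assoc, div_eq_inv_mul, ← one_div]
    nlinarith [mul_le_mul_of_nonneg_right h2 j2]
  have k3 : Real.sqrt (𝓔.ψ (p none)).re ≤ σ := Real.sqrt_le_iff.mpr ⟨hσ0.le, by linarith⟩
  have k4 : 𝓔.n2 (p none * x' * p none) ≤ 2 * σ :=
    (𝓔.n2_corner hx'M (hp.proj _) (hp.mem _)).trans
      (mul_le_mul hx'n k3 (Real.sqrt_nonneg _) zero_le_two)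
  have k5 : 𝓔.n2 (p none * x₁ * p none) ≤ 3 * σ :=
    (𝓔.n2_corner hx₁M (hp.proj _) (hp.mem _)).trans
      (mul_le_mul hx₁n k3 (Real.sqrt_nonneg _) (by norm_num))
  have k6 : 𝓔.n2 ((3 : ℂ) • d₁) ≤ 3 * σ := by
    rw [𝓔.n2_smul]
    have : ‖(3 : ℂ)‖ = 3 := by simp
    rw [this]
    linarith
  have k7 : 𝓔.n2 (EP p d₀) ≤ σ := (𝓔.n2_EP_le hp hd₀M).trans hd₀n
  have m1 : (3 : ℂ) • d₁ ∈ M := R124.csmul_mem _ hd₁M
  have m2 : p none * x' * p none ∈ M := mul_mem (mul_mem (hpM _) hx'M) (hpM _)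
  have m3 : p none * x₁ * p none ∈ M := mul_mem (mul_mem (hpM _) hx₁M) (hpM _)
  have m4 : EP p d₀ ∈ M := EP_mem hm hp hd₀M
  set d : Op H := d' + (3 : ℂ) • d₁ + p none * x' * p none + p none * x₁ * p none + EP p d₀
    with hd
  have hdM : d ∈ M := add_mem (add_mem (add_mem (add_mem hd'M m1) m2) m3) m4
  have hds : IsSelfAdjoint d := by
    refine (((hd's.add ?_).add (conj_sa (hp.proj _) hx's)).add (conj_sa (hp.proj _) hx₁s)).add
      (EP_sa hp.toPart0 hd₀s)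
    rw [IsSelfAdjoint, star_smul, hd₁s.star_eq]
    simp
  have hdn : 𝓔.n2 d ≤ δ := by
    have a1 := 𝓔.n2_add_le hd'M m1
    have a2 := 𝓔.n2_add_le (add_mem hd'M m1) m2
    have a3 := 𝓔.n2_add_le (add_mem (add_mem hd'M m1) m2) m3
    have a4 := 𝓔.n2_add_le (add_mem (add_mem (add_mem hd'M m1) m2) m3) m4
    rw [← hd] at a4
    linarith
  have hEA : 𝓔.E x ∈ A := 𝓔.ce.mem x hx
  have hEE : ∀ z, EP p (EP p z) = EP p z :=
    EP_EP hp.toPart0 hp.toPart0 (Ref.refl p hp.proj)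
  have hW : EP p x - 𝓔.E x - d = (Zp p x' - d') + (3 : ℂ) • (Zp p y - d₁) := by
    have b1 : EP p x = EP p x' + 𝓔.E x + EP p x₁ + EP p d₀ := by
      conv_lhs => rw [hdec]
      rw [EP_add, EP_add, EP_add, EP_of_mem hm hp hEA]
    have b2 : Zp p x₁ = (3 : ℂ) • Zp p y := by
      rw [hxy]
      simp only [Zp, mul_smul_comm, smul_mul_assoc, Finset.smul_sum]
    rw [b1, EP_option p x', EP_option p x₁, b2, hd, smul_sub]
    abel
  refine ⟨p, hp, EP p d, EP_mem hm hp hdM, EP_sa hp.toPart0 hds,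
    (𝓔.n2_EP_le hp hdM).trans hdn, hEE d, ?_⟩
  have hfin : EP p x - 𝓔.E x - EP p d = EP p (EP p x - 𝓔.E x - d) := by
    rw [EP_sub, EP_sub, hEE, EP_of_mem hm hp hEA]
  rw [hfin, hW]
  refine (norm_EP_le hp.toPart0 _).trans ((norm_add_le _ _).trans ?_)
  rw [norm_smul]
  have : ‖(3 : ℂ)‖ = 3 := by simp
  rw [this]
  calc ‖Zp p x' - d'‖ + 3 * ‖Zp p y - d₁‖ ≤ t' + 3 * t₁ := by linarith
    _ = 250 / Real.sqrt r := by rw [ht', ht₁]; ring

/-- `maine` in the corner, lifted (`R124.lift`); `‖d‖ ≤ 252`, so `ac_vec` applies to the vectors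
`adjoint (inc e) ξ`. -/
theorem mainc (h : Masa M A) {e : Op H} (he : IsStarProjection e) (heA : e ∈ A)
    (𝓔 : Nce (R124.corner M e) (R124.corner A e)) {x : Op H} (hx : x ∈ M) (hsa : IsSelfAdjoint x)
    (h1 : ‖x‖ ≤ 1) (r : ℕ) [NeZero r] (F : Finset H) {κ : ℝ} (hκ : 0 < κ) :
    ∃ p : Option (Fin r) → Op H, (∀ o, p o ∈ A ∧ IsStarProjection (p o)) ∧
      (∀ o o', o ≠ o' → p o * p o' = 0) ∧ ∑ o, p o = e ∧
      ∃ a ∈ A, IsSelfAdjoint a ∧ ‖a‖ ≤ ‖x‖ ∧ a * e = a ∧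
        ∃ d ∈ M, IsSelfAdjoint d ∧ EP p d = d ∧ (∀ ξ ∈ F, ‖d ξ‖ ≤ κ) ∧
          ‖EP p x - a - d‖ ≤ 250 / Real.sqrt r := by
  have heM : e ∈ M := h.le _ heA
  have hr : (1 : ℝ) ≤ r := by exact_mod_cast Nat.one_le_iff_ne_zero.mpr (NeZero.ne r)
  have hs : 1 ≤ Real.sqrt r := Real.one_le_sqrt.mpr hr
  obtain ⟨δ, hδ, hac⟩ := exists_delta 𝓔 F
    (fun ξ => ContinuousLinearMap.adjoint (R124.inc e) ξ) 252 hκ
  have hx' : R124.cmp e x ∈ R124.corner M e := R124.cmp_mem_corner he heM hx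
  have hsa' : IsSelfAdjoint (R124.cmp e x) := by
    rw [IsSelfAdjoint, ← R124.cmp_star, hsa.star_eq]
  have hn' : ‖R124.cmp e x‖ ≤ ‖x‖ := R124.norm_cmp_le x
  obtain ⟨p, hp, d, hdM, hds, hdn, hdE, hb⟩ := 𝓔.maine hx' hsa' (hn'.trans h1) r hδ
  have hEn := 𝓔.ce.norm_le _ hx'
  have hlsa : ∀ T : Op (R124.cS e), IsSelfAdjoint T → IsSelfAdjoint (R124.lift e T) :=
    fun T hT => by rw [IsSelfAdjoint, ← R124.lift_star, hT.star_eq]
  have hEP : ∀ z : Op H, EP (fun o => R124.lift e (p o)) z =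
      R124.lift e (EP p (R124.cmp e z)) := by
    intro z
    unfold EP
    rw [R124.lift_sum]
    refine Finset.sum_congr rfl fun o _ => ?_
    rw [R124.lift_mul, R124.lift_mul, R124.lift_cmp he, ← mul_assoc, ← mul_assoc,
      R124.lift_mul_self he, mul_assoc _ e, R124.mul_lift he]
  refine ⟨fun o => R124.lift e (p o), fun o => ⟨(R124.mem_corner he heA).1 (hp.mem o),
    ⟨?_, hlsa _ (hp.proj o).isSelfAdjoint⟩⟩, fun o o' hoo => ?_, ?_,
    R124.lift e (𝓔.E (R124.cmp e x)), (R124.mem_corner he heA).1 (𝓔.ce.mem _ hx'),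
    hlsa _ ?_, ?_, R124.lift_mul_self he _, R124.lift e d, (R124.mem_corner he heM).1 hdM,
    hlsa _ hds, ?_, fun ξ hξ => ?_, ?_⟩
  · show R124.lift e (p o) * R124.lift e (p o) = R124.lift e (p o)
    rw [← R124.lift_mul, (hp.proj o).isIdempotentElem.eq]
  · show R124.lift e (p o) * R124.lift e (p o') = 0
    rw [← R124.lift_mul, hp.orth o o' hoo, R124.lift_zero]
  · rw [← R124.lift_sum, hp.sum, R124.lift_one he]
  · rw [IsSelfAdjoint, ← 𝓔.ce.map_star _ hx', hsa'.star_eq]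
  · rw [R124.norm_lift]
    exact hEn.trans hn'
  · rw [hEP, R124.cmp_lift, hdE]
  · have hd : ‖d‖ ≤ 252 := by
      have e1 : d = EP p (R124.cmp e x) - 𝓔.E (R124.cmp e x) -
          (EP p (R124.cmp e x) - 𝓔.E (R124.cmp e x) - d) := by abel
      have e2 := norm_EP_le hp.toPart0 (R124.cmp e x)
      have e3 : 250 / Real.sqrt r ≤ 250 := div_le_self (by norm_num) hs
      have e4 := norm_sub_le (EP p (R124.cmp e x)) (𝓔.E (R124.cmp e x))
      have e5 := norm_sub_le (EP p (R124.cmp e x) - 𝓔.E (R124.cmp e x))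
        (EP p (R124.cmp e x) - 𝓔.E (R124.cmp e x) - d)
      rw [← e1] at e5
      linarith
    exact hac ξ hξ d hdM hd hdn
  · rw [hEP, ← R124.lift_sub, ← R124.lift_sub, R124.norm_lift]
    exact hb

end Crest.Agent.R109
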