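import Crest.Agent.R109.Gr

/-! Task 109-MEAS: local observables are measurable.

Plan. Fix `R`. For `y` let `rep y ⊆ words G R` contain `[]` and exactly one word for each point of
`ball φ R y`, chosen as a function of the pattern `{(w, w') | act w y = act w' y}` (a finite-valued
function with measurable fibres, `eqm`). On a set where `rep y` and the states
`w ↦ s (act w y)`, `w ∈ words G R`, are constant, transport the observable to `List G` along
`e w = act w y` (injective on `rep y`, image `ball φ R y`) with the gauge (`PP_iso`, `Ic_iso`,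
`dg_iso`, `pw_iso`, `form_le_iso`, `dens_image`) and use `measurable_sumC_PP`, `measurable_dg`, ...
A function that is measurable on the pieces of a finite measurable partition is measurable. -/

set_option autoImplicit false

open Polynomial MeasureTheory

namespace Crest.Agent.R109

variable {G Y : Type*} [Fintype G] [DecidableEq G] [DecidableEq Y] [MeasurableSpace Y] {r : ℕ}

theorem Kern.exists_rep (N : Kern G Y) (R : ℕ) : ∃ rep : Y → Finset (List G),
    (∀ F, MeasurableSet (rep ⁻¹' {F})) ∧ ∀ y, rep y ⊆ words G R ∧ [] ∈ rep y ∧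
      Set.InjOn (fun w => act N.φ w y) (rep y) ∧
      (rep y).image (fun w => act N.φ w y) = ball N.φ R y := by
  classical
  obtain ⟨e, he⟩ := exists_injective_nat (List G)
  let enc : List G → ℕ := fun w => if w = [] then 0 else e w + 1
  have henc : Function.Injective enc := by
    intro a b hab
    simp only [enc] at hab
    split_ifs at hab with h1 h2 h2
    · rw [h1, h2]
    · exact he (by omega)
  refine ⟨fun y => (words G R).filter fun w =>
    ∀ w' ∈ words G R, act N.φ w' y = act N.φ w y → enc w ≤ enc w', fun F => ?_, fun y =>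
      ⟨Finset.filter_subset _ _, ?_, ?_, ?_⟩⟩
  · have : (fun y => (words G R).filter fun w =>
        ∀ w' ∈ words G R, act N.φ w' y = act N.φ w y → enc w ≤ enc w') ⁻¹' {F} =
        {y | ∀ w, (w ∈ words G R ∧ ∀ w', w' ∈ words G R → act N.φ w' y = act N.φ w y →
          enc w ≤ enc w') ↔ w ∈ F} := by
      ext y
      simp only [Set.mem_preimage, Set.mem_singleton_iff, Finset.ext_iff, Finset.mem_filter,
        Set.mem_ofPred_eq]
    rw [this, measurableSet_setOf]
    refine Measurable.forall fun w => Measurable.iff (Measurable.and measurable_const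
      (Measurable.forall fun w' => Measurable.imp measurable_const
        (Measurable.imp ?_ measurable_const))) measurable_const
    exact measurableSet_setOf.1 (N.eqm w' w)
  · exact Finset.mem_filter.2 ⟨mem_words.2 (Nat.zero_le _), fun w' _ _ => by simp [enc]⟩
  · intro a ha b hb hab
    have ha' := Finset.mem_filter.1 ha
    have hb' := Finset.mem_filter.1 hb
    exact henc (le_antisymm (ha'.2 b hb'.1 hab.symm) (hb'.2 a ha'.1 hab))
  · refine Finset.Subset.antisymm (Finset.image_subset_image (Finset.filter_subset _ _))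
      fun u hu => ?_
    obtain ⟨w, hw, rfl⟩ := Finset.mem_image.1 hu
    obtain ⟨v, hv, hmin⟩ := Finset.exists_min_image
      ((words G R).filter fun w' => act N.φ w' y = act N.φ w y) enc
      ⟨w, Finset.mem_filter.2 ⟨hw, rfl⟩⟩
    have hv' := Finset.mem_filter.1 hv
    exact Finset.mem_image.2 ⟨v, Finset.mem_filter.2 ⟨hv'.1, fun w' hw' h =>
      hmin w' (Finset.mem_filter.2 ⟨hw', h.trans hv'.2⟩)⟩, hv'.2⟩

/-- A function that is measurable on the pieces of a countable measurable partition. -/
theorem Meas_pieces {α E : Type*} [Countable α] [MeasurableSpace E] {c : Y → α}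
    (hc : ∀ a, MeasurableSet (c ⁻¹' {a})) {g : α → Y → E} (hg : ∀ a, Measurable (g a)) :
    Measurable fun y => g (c y) y := by
  intro S hS
  have : (fun y => g (c y) y) ⁻¹' S = ⋃ a, c ⁻¹' {a} ∩ g a ⁻¹' S := by
    ext y
    simp
  rw [this]
  exact MeasurableSet.iUnion fun a => (hc a).inter (hg a hS)

/-- The general principle for local observables. -/
theorem Kern.meas_local (N : Kern G Y) (R : ℕ) {β E : Type*} [Countable β] [Nonempty β]
    [MeasurableSpace E] {s : Y → β} (hs : ∀ b, MeasurableSet (s ⁻¹' {b})) {f : Y → E}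
    (g : Finset (List G) → (List G → β) → Y → E) (hg : ∀ F σ, Measurable (g F σ))
    (h : ∀ (y : Y) (F : Finset (List G)) (σ : List G → β), [] ∈ F → Set.InjOn (fun w => act N.φ w y) (F : Set (List G)) →
      F.image (fun w => act N.φ w y) = ball N.φ R y → (∀ w ∈ F, σ w = s (act N.φ w y)) →
      f y = g F σ y) : Measurable f := by
  classical
  obtain ⟨rep, h1, h2⟩ := N.exists_rep R
  let ex : (words G R → β) → List G → β := fun τ w =>
    if hw : w ∈ words G R then τ ⟨w, hw⟩ else Classical.arbitrary β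
  let c : Y → Finset (List G) × (words G R → β) := fun y =>
    (rep y, fun w => s (act N.φ w y))
  have hc : ∀ a, MeasurableSet (c ⁻¹' {a}) := by
    intro a
    have : c ⁻¹' {a} = rep ⁻¹' {a.1} ∩
        ⋂ w : words G R, act N.φ (w : List G) ⁻¹' (s ⁻¹' {a.2 w}) := by
      ext y
      simp [c, Prod.ext_iff, funext_iff]
    rw [this]
    exact (h1 _).inter (MeasurableSet.iInter fun w => measurable_act N.meas _ (hs _))
  have := Meas_pieces hc (g := fun a y => g a.1 (ex a.2) y) fun a => hg _ _
  convert this using 2 with y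
  obtain ⟨a1, a2, a3, a4⟩ := h2 y
  exact h y _ _ a2 a3 a4 fun w hw => by simp [c, ex, a1 hw]

theorem Meas_fib {s : Y → St r} (hs : Measurable s) (b : St r) : MeasurableSet (s ⁻¹' {b}) :=
  hs MeasurableSpace.measurableSet_top

instance Meas_ne : Nonempty (St r) := ⟨St.del⟩

theorem Meas_Mc {V V' : Type*} {M : V → V → ℂ} {m : V' → V' → ℂ} {e : V' → V} {γ : V' → ℂ}
    {c : V → Option (Fin r)} {σ : V' → Option (Fin r)} {a b : V'} (ha : σ a = c (e a))
    (hb : σ b = c (e b)) (hM : M (e a) (e b) = (starRingEnd ℂ) (γ a) * m a b * γ b) :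
    Mc M c (e a) (e b) = (starRingEnd ℂ) (γ a) * Mc m σ a b * γ b := by
  unfold Mc
  rw [ha, hb]
  split_ifs
  · exact hM
  · simp

theorem Meas_meas_Mc {V : Type*} {m : Y → V → V → ℂ} (hm : ∀ a b, Measurable fun y => m y a b)
    (σ : V → Option (Fin r)) (a b : V) : Measurable fun y => Mc (m y) σ a b := by
  unfold Mc
  split_ifs
  · exact hm a b
  · exact measurable_const

theorem Meas_form_iso {V V' : Type*} [DecidableEq V] [DecidableEq V'] {B : V → V → ℂ}
    {y : V' → V' → ℂ} (e : V' → V) {U : Finset V'}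
    (he : Set.InjOn e U) (γ : V' → ℂ) (hγ : ∀ a ∈ U, ‖γ a‖ = 1)
    (hY : ∀ a ∈ U, ∀ b ∈ U, B (e a) (e b) = (starRingEnd ℂ) (γ a) * y a b * γ b)
    (p : ℂ → ℝ → Prop) :
    (∀ η : V → ℂ, p (form B (U.image e) η) (nsq (U.image e) η)) ↔
      ∀ η : V' → ℂ, p (form y U η) (nsq U η) := by
  have k1 : ∀ η : V → ℂ, form B (U.image e) η = form y U (fun a => γ a * η (e a)) := by
    intro η
    unfold form
    rw [Finset.sum_image he]
    refine Finset.sum_congr rfl fun a ha => ?_
    rw [Finset.sum_image he]
    refine Finset.sum_congr rfl fun b hb => ?_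
    rw [hY a ha b hb, map_mul]
    ring
  have k2 : ∀ η : V → ℂ, nsq (U.image e) η = nsq U (fun a => γ a * η (e a)) := by
    intro η
    unfold nsq
    rw [Finset.sum_image he]
    refine Finset.sum_congr rfl fun a ha => ?_
    rw [norm_mul, hγ a ha, one_mul]
  refine ⟨fun H η' => ?_, fun H η => by rw [k1, k2]; exact H _⟩
  have := H fun v => ∑ a ∈ U, if e a = v then (starRingEnd ℂ) (γ a) * η' a else 0
  rw [k1, k2] at this
  have k3 : ∀ a ∈ U, γ a * (∑ b ∈ U, if e b = e a then (starRingEnd ℂ) (γ b) * η' b else 0) =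
      η' a := by
    intro a ha
    rw [Finset.sum_eq_single_of_mem a ha (fun b hb hne => if_neg fun h => hne (he hb ha h)),
      if_pos rfl, ← mul_assoc, Complex.mul_conj', hγ a ha]
    simp
  have k4 : form y U (fun a => γ a * ∑ b ∈ U,
      if e b = e a then (starRingEnd ℂ) (γ b) * η' b else 0) = form y U η' := by
    unfold form
    exact Finset.sum_congr rfl fun a ha => Finset.sum_congr rfl fun b hb => by
      beta_reduce
      rw [k3 a ha, k3 b hb]
  have k5 : nsq U (fun a => γ a * ∑ b ∈ U,
      if e b = e a then (starRingEnd ℂ) (γ b) * η' b else 0) = nsq U η' := by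
    unfold nsq
    exact Finset.sum_congr rfl fun a ha => by beta_reduce; rw [k3 a ha]
  rwa [k4, k5] at this

theorem Meas_form_re {V : Type*} {y : Y → V → V → ℂ}
    (hy : ∀ a b, Measurable fun t => y t a b) (U : Finset V) (c : ℝ) :
    MeasurableSet {t | ∀ η : V → ℂ, (form (y t) U η).re ≤ c * nsq U η} := by
  have hm : Measurable fun t => (fun a b : U => y t a b) :=
    measurable_pi_lambda _ fun a => measurable_pi_lambda _ fun b => hy a b
  have hc : IsClosed {m : U → U → ℂ | ∀ η : V → ℂ,
      (∑ a : U, ∑ b : U, (starRingEnd ℂ) (η a) * m a b * η b).re ≤ c * nsq U η} := by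
    rw [Set.ofPred_forall]
    exact isClosed_iInter fun η => isClosed_le (by fun_prop) continuous_const
  have := hm hc.measurableSet
  convert this using 1
  ext t
  simp only [Set.mem_preimage, Set.mem_ofPred_eq]
  refine forall_congr' fun η => ?_
  unfold form
  rw [← Finset.sum_coe_sort U]
  simp only [← Finset.sum_coe_sort U (fun b => (starRingEnd ℂ) (η _) * y t _ b * η b)]

theorem Kern.measurable_ball_sum (N : Kern G Y) (R : ℕ) {E : Type*} [AddCommMonoid E]
    [MeasurableSpace E] [MeasurableAdd₂ E] {f : Y → E} (hf : Measurable f) :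
    Measurable fun y => ∑ u ∈ ball N.φ R y, f u := by
  refine N.meas_local R (s := fun _ => ()) (fun _ => by simp)
    (fun F _ y => ∑ w ∈ F, f (act N.φ w y))
    (fun F _ => Finset.measurable_sum _ fun w _ => hf.comp (measurable_act N.meas w))
    fun y F _ _ h2 h3 _ => ?_
  rw [← h3, Finset.sum_image h2]

theorem Kern.measurableSet_nbhd (N : Kern G Y) (R : ℕ) {V : Set Y} (hV : MeasurableSet V) :
    MeasurableSet {y | ∃ u ∈ ball N.φ R y, u ∈ V} := by
  have : {y | ∃ u ∈ ball N.φ R y, u ∈ V} = ⋃ w ∈ words G R, act N.φ w ⁻¹' V := by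
    ext y
    simp [ball]
  rw [this]
  exact Finset.measurableSet_biUnion _ fun w _ => measurable_act N.meas w hV

theorem Kern.measurable_dens [NeZero r] (N : Kern G Y) (χ : ℂ[X]) (z : ℝ) (R : ℕ) {w : Y → ℝ}
    (hw : Measurable w) {s : Y → St r} (hs : Measurable s) :
    Measurable fun y => dens (fun S => (sumC χ (PP z N.M w s S)).re) (ball N.φ R y) y := by
  refine N.meas_local R (Meas_fib hs) (fun F σ y => dens (fun S =>
    (sumC χ (PP z (fun a b => N.m a b y) (fun a => w (act N.φ a y)) σ S)).re) F [])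
    (fun F σ => R109.measurable_dens (fun S => Complex.measurable_re.comp
      (measurable_sumC_PP χ z (fun a b => N.meas_m a b)
        (fun a => hw.comp (measurable_act N.meas a)) σ S)) F []) fun y F σ h1 h2 h3 h4 => ?_
  obtain ⟨γ, g1, g2⟩ := N.gauge y
  rw [← h3]
  refine (dens_image _ (fun w => act N.φ w y) h2 h1).trans (dens_congr (fun S hS => ?_) _)
  rw [PP_iso z w s (fun w => act N.φ w y) (h2.mono hS) γ (fun a _ => g1 a)
    (m := fun a b => N.m a b y) fun a _ b _ => g2 a b]
  rw [PP_congr z (s := s ∘ fun w => act N.φ w y) (s' := σ) (fun u hu => (h4 u (hS hu)).symm)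
    (fun _ _ _ => rfl) fun _ _ _ _ _ _ _ => rfl]
  rfl

theorem Kern.measurable_Ic [NeZero r] (N : Kern G Y) (χ : ℂ[X]) (z : ℝ) (R : ℕ) {w : Y → ℝ}
    (hw : Measurable w) {s : Y → St r} (hs : Measurable s) (o : St r) :
    Measurable fun y => Ic χ z N.M w s (ball N.φ R y) y o := by
  refine N.meas_local R (Meas_fib hs) (fun F σ y =>
    Ic χ z (fun a b => N.m a b y) (fun a => w (act N.φ a y)) σ F [] o)
    (fun F σ => ?_) fun y F σ h1 h2 h3 h4 => ?_
  · unfold Ic
    exact (measurable_sumC_PP χ z (fun a b => N.meas_m a b)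
        (fun a => hw.comp (measurable_act N.meas a)) _ F).sub
      (measurable_sumC_PP χ z (fun a b => N.meas_m a b)
        (fun a => hw.comp (measurable_act N.meas a)) _ F)
  · obtain ⟨γ, g1, g2⟩ := N.gauge y
    rw [← h3]
    refine (Ic_iso χ z w s (fun w => act N.φ w y) h2 γ (fun a _ => g1 a)
      (m := fun a b => N.m a b y) (fun a _ b _ => g2 a b) h1 o).trans ?_
    exact Ic_congr χ z _ _ (fun u hu => (h4 u hu).symm) _ _

theorem Kern.measurable_dg (N : Kern G Y) (χ : ℂ[X]) (z : ℝ) (R : ℕ) {w : Y → ℝ}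
    (hw : Measurable w) {s : Y → St r} (hs : Measurable s) :
    Measurable fun y => if s y = St.del then 0 else
      (dg χ (live s (ball N.φ R y)) (Yc z N.M w s) y).re := by
  refine N.meas_local R (Meas_fib hs) (fun F σ y => if σ [] = St.del then 0 else
    (dg χ (live σ F) (Yc z (fun a b => N.m a b y) (fun a => w (act N.φ a y)) σ) []).re)
    (fun F σ => ?_) fun y F σ h1 h2 h3 h4 => ?_
  · split_ifs
    · exact measurable_const
    · refine Complex.measurable_re.comp (R109.measurable_dg χ (fun a b => ?_) _ _)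
      unfold Yc
      exact (Complex.measurable_ofReal.comp ((hw.comp (measurable_act N.meas a)).div_const _)).mul
        ((Meas_meas_Mc (fun a b => N.meas_m a b) _ a b).sub_const _)
  · obtain ⟨γ, g1, g2⟩ := N.gauge y
    have h0 : σ [] = s y := h4 [] h1
    rw [h0]
    split_ifs with hd
    · rfl
    have hl : live s (ball N.φ R y) = (live σ F).image fun w => act N.φ w y := by
      rw [← h3]
      unfold live
      rw [Finset.filter_image]
      congr 1
      exact Finset.filter_congr fun u hu => by rw [h4 u hu]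
    have hsub : live σ F ⊆ F := Finset.filter_subset _ _
    rw [hl]
    congr 1
    refine dg_iso χ (fun w => act N.φ w y) (h2.mono hsub) γ (fun a _ => g1 a) (fun a ha b hb => ?_)
      (a := []) (Finset.mem_filter.2 ⟨h1, by rw [h0]; exact hd⟩)
    unfold Yc
    rw [Meas_Mc (e := fun w => act N.φ w y) (γ := γ) (m := fun a b => N.m a b y)
      (σ := fun x => (σ x).toOpt) (by rw [h4 a (hsub ha)]) (by rw [h4 b (hsub hb)]) (g2 a b)]
    by_cases hab : a = b
    · subst hab
      have hg : γ a * (starRingEnd ℂ) (γ a) = 1 := by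
        rw [Complex.mul_conj', g1 a]
        simp
      rw [if_pos rfl, if_pos rfl]
      linear_combination ((w (act N.φ a y) / 4 : ℝ) : ℂ) * ((25 * z : ℝ) : ℂ) * hg
    · rw [if_neg hab, if_neg fun h => hab (h2 (hsub ha) (hsub hb) h)]
      ring

theorem Kern.measurable_pw (N : Kern G Y) (R k : ℕ) {c : Y → Option (Fin r)}
    (hc : ∀ o, MeasurableSet (c ⁻¹' {o})) :
    Measurable fun y => pw (ball N.φ R y) (Mc N.M c) k y y := by
  refine N.meas_local R hc (fun F σ y => pw F (Mc (fun a b => N.m a b y) σ) k [] [])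
    (fun F σ => R109.measurable_pw (Meas_meas_Mc (fun a b => N.meas_m a b) σ) F k [] [])
    fun y F σ h1 h2 h3 h4 => ?_
  obtain ⟨γ, g1, g2⟩ := N.gauge y
  rw [← h3]
  refine (pw_iso (fun w => act N.φ w y) h2 γ (fun a _ => g1 a)
    (y := Mc (fun a b => N.m a b y) σ)
    (fun a ha b hb => Meas_Mc (e := fun w => act N.φ w y) (h4 a ha) (h4 b hb) (g2 a b)) k h1 h1).trans ?_
  have hg : γ [] * (starRingEnd ℂ) (γ []) = 1 := by
    rw [Complex.mul_conj', g1]
    simp
  linear_combination (pw F (Mc (fun a b => N.m a b y) σ) k [] []) * hg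

theorem Kern.measurableSet_good (N : Kern G Y) (ρ : ℕ) (a : ℝ) {c : Y → Option (Fin r)}
    (hc : ∀ o, MeasurableSet (c ⁻¹' {o})) : MeasurableSet {y | Good N ρ a c y} := by
  rw [measurableSet_setOf]
  refine N.meas_local ρ hc (fun F σ y =>
      ∀ η : List G → ℂ, ‖form (Mc (fun a b => N.m a b y) σ) F η‖ ≤ a * nsq F η)
    (fun F σ => measurableSet_setOf.1
      (measurableSet_form_le (Meas_meas_Mc (fun a b => N.meas_m a b) σ) F a))
    fun y F σ _ h2 h3 h4 => ?_
  obtain ⟨γ, g1, g2⟩ := N.gauge y
  unfold Good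
  rw [← h3]
  exact propext (form_le_iso (fun w => act N.φ w y) h2 γ (fun a _ => g1 a)
    (fun a ha b hb => Meas_Mc (e := fun w => act N.φ w y) (h4 a ha) (h4 b hb) (g2 a b)) a)

/-- One-sided version (prove one-sided analogues of `measurableSet_form_le`, `form_le_iso`). -/
theorem Kern.measurableSet_good' (N : Kern G Y) (ρ : ℕ) (a : ℝ) {c : Y → Option (Fin r)}
    (hc : ∀ o, MeasurableSet (c ⁻¹' {o})) :
    MeasurableSet {y | ∀ η : Y → ℂ,
      (form (Mc N.M c) (ball N.φ ρ y) η).re ≤ a * nsq (ball N.φ ρ y) η} := by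
  rw [measurableSet_setOf]
  refine N.meas_local ρ hc (fun F σ y =>
      ∀ η : List G → ℂ, (form (Mc (fun a b => N.m a b y) σ) F η).re ≤ a * nsq F η)
    (fun F σ => measurableSet_setOf.1
      (Meas_form_re (Meas_meas_Mc (fun a b => N.meas_m a b) σ) F a))
    fun y F σ _ h2 h3 h4 => ?_
  obtain ⟨γ, g1, g2⟩ := N.gauge y
  rw [← h3]
  exact propext (Meas_form_iso (fun w => act N.φ w y) h2 γ (fun a _ => g1 a)
    (fun a ha b hb => Meas_Mc (e := fun w => act N.φ w y) (h4 a ha) (h4 b hb) (g2 a b)) fun x t => x.re ≤ a * t)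

end Crest.Agent.R109
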