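import Crest.Agent.R109.Fin0

/-! Task 109-MOB: Möbius densities of set functions. -/

set_option autoImplicit false

namespace Crest.Agent.R109

variable {V V' : Type*} [DecidableEq V] [DecidableEq V']

/-- Möbius transform. -/
noncomputable def mob (F : Finset V → ℝ) (S : Finset V) : ℝ :=
  ∑ S' ∈ S.powerset, (-1) ^ (S \ S').card * F S'

/-- The share of the vertex `x` in `F`, computed inside `U`. -/
noncomputable def dens (F : Finset V → ℝ) (U : Finset V) (x : V) : ℝ :=
  ∑ S ∈ U.powerset.filter (fun S => x ∈ S), mob F S / S.card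

theorem Mob_insert (F : Finset V → ℝ) {S : Finset V} {a : V} (ha : a ∉ S) :
    mob F (insert a S) = mob (fun T => F (insert a T)) S - mob F S := by
  unfold mob
  rw [Finset.sum_powerset_insert ha, ← Finset.sum_add_distrib, ← Finset.sum_sub_distrib]
  refine Finset.sum_congr rfl fun T hT => ?_
  have hT := Finset.mem_powerset.1 hT
  have haT : a ∉ T := fun h => ha (hT h)
  have h1 : insert a S \ T = insert a (S \ T) := Finset.insert_sdiff_of_notMem _ haT
  have h2 : insert a S \ insert a T = S \ T := by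
    rw [Finset.insert_sdiff_insert, Finset.sdiff_insert_of_notMem ha]
  rw [h1, h2, Finset.card_insert_of_notMem (fun h => ha (Finset.mem_sdiff.1 h).1), pow_succ]
  ring

theorem Mob_empty (F : Finset V → ℝ) : mob F ∅ = F ∅ := by
  simp [mob]

theorem Mob_congr {F F' : Finset V → ℝ} {S : Finset V} (h : ∀ T ⊆ S, F T = F' T) :
    mob F S = mob F' S :=
  Finset.sum_congr rfl fun T hT => by rw [h T (Finset.mem_powerset.1 hT)]

theorem Mob_sub (F F' : Finset V → ℝ) (S : Finset V) :
    mob F' S - mob F S = mob (fun T => F' T - F T) S := by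
  unfold mob
  rw [← Finset.sum_sub_distrib]
  exact Finset.sum_congr rfl fun T _ => by ring

theorem Mob_image (e : V' → V) (S : Finset V') (he : Set.InjOn e S) (F : Finset V → ℝ) :
    mob F (S.image e) = mob (fun T => F (T.image e)) S := by
  induction S using Finset.induction_on generalizing F with
  | empty => simp [Mob_empty]
  | insert a S ha ih =>
    have he' : Set.InjOn e S := he.mono (by simp)
    have ha' : e a ∉ S.image e := by
      intro h
      obtain ⟨b, hb, hb'⟩ := Finset.mem_image.1 h
      have := he (by simp [hb]) (by simp) hb'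
      exact ha (this ▸ hb)
    rw [Finset.image_insert, Mob_insert _ ha', Mob_insert _ ha, ih he', ih he']
    simp only [Finset.image_insert]

theorem Mob_abs {F : Finset V → ℝ} {S : Finset V} {C : ℝ} (h : ∀ T ⊆ S, |F T| ≤ C) :
    |mob F S| ≤ 2 ^ S.card * C := by
  refine (Finset.abs_sum_le_sum_abs _ _).trans ?_
  have := Finset.sum_le_card_nsmul S.powerset (fun T => |(-1) ^ (S \ T).card * F T|) C
    fun T hT => by
      rw [abs_mul, abs_pow, abs_neg, abs_one, one_pow, one_mul]
      exact h T (Finset.mem_powerset.1 hT)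
  rw [Finset.card_powerset, nsmul_eq_mul] at this
  exact_mod_cast this

theorem sum_mob (F : Finset V → ℝ) (S : Finset V) : ∑ S' ∈ S.powerset, mob F S' = F S := by
  induction S using Finset.induction_on generalizing F with
  | empty => simp [Mob_empty]
  | insert a S ha ih =>
    rw [Finset.sum_powerset_insert ha, ← ih fun T => F (insert a T), ← Finset.sum_add_distrib]
    refine Finset.sum_congr rfl fun T hT => ?_
    rw [Mob_insert F fun h => ha (Finset.mem_powerset.1 hT h)]
    ring

/-- Toggle `y`. -/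
theorem mob_eq_zero {F : Finset V → ℝ} {S : Finset V} {y : V} (hy : y ∈ S)
    (h : ∀ S' ⊆ S, F (S'.erase y) = F S') : mob F S = 0 := by
  rw [← Finset.insert_erase hy, Mob_insert F (Finset.notMem_erase y S), sub_eq_zero]
  refine Mob_congr fun T hT => ?_
  have hyT : y ∉ T := fun h => Finset.notMem_erase y S (hT h)
  rw [← h (insert y T) (Finset.insert_subset hy (hT.trans (Finset.erase_subset _ _))),
    Finset.erase_insert hyT]

theorem dens_congr {F F' : Finset V → ℝ} {U : Finset V} (h : ∀ S ⊆ U, F S = F' S) (x : V) :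
    dens F U x = dens F' U x := by
  refine Finset.sum_congr rfl fun S hS => ?_
  rw [Mob_congr fun T hT => h T (hT.trans (Finset.mem_powerset.1 (Finset.mem_filter.1 hS).1))]

theorem dens_eq_zero {F : Finset V → ℝ} {U : Finset V} {x : V}
    (h : ∀ S ⊆ U, F (S.erase x) = F S) : dens F U x = 0 := by
  refine Finset.sum_eq_zero fun S hS => ?_
  have hS := Finset.mem_filter.1 hS
  rw [mob_eq_zero hS.2 fun T hT => h T (hT.trans (Finset.mem_powerset.1 hS.1)), zero_div]

theorem dens_image (F : Finset V → ℝ) (e : V' → V) {U : Finset V'} (he : Set.InjOn e U) {x : V'}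
    (hx : x ∈ U) : dens F (U.image e) (e x) = dens (fun S => F (S.image e)) U x := by
  unfold dens
  symm
  refine Finset.sum_bij (fun S _ => S.image e) ?_ ?_ ?_ ?_
  · intro S hS
    have hS := Finset.mem_filter.1 hS
    exact Finset.mem_filter.2 ⟨Finset.mem_powerset.2
      (Finset.image_subset_image (Finset.mem_powerset.1 hS.1)), Finset.mem_image_of_mem e hS.2⟩
  · intro S hS S' hS' h
    have hS := Finset.mem_powerset.1 (Finset.mem_filter.1 hS).1
    have hS' := Finset.mem_powerset.1 (Finset.mem_filter.1 hS').1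
    ext y
    constructor
    · intro hy
      obtain ⟨b, hb, hb'⟩ := Finset.mem_image.1 (h ▸ Finset.mem_image_of_mem e hy)
      exact he (hS' hb) (hS hy) hb' ▸ hb
    · intro hy
      obtain ⟨b, hb, hb'⟩ := Finset.mem_image.1 (h.symm ▸ Finset.mem_image_of_mem e hy)
      exact he (hS hb) (hS' hy) hb' ▸ hb
  · intro T hT
    have hT := Finset.mem_filter.1 hT
    obtain ⟨S, hS, rfl⟩ := Finset.subset_image_iff.1 (Finset.mem_powerset.1 hT.1)
    refine ⟨S, Finset.mem_filter.2 ⟨Finset.mem_powerset.2 hS, ?_⟩, rfl⟩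
    obtain ⟨b, hb, hb'⟩ := Finset.mem_image.1 hT.2
    exact he (hS hb) hx hb' ▸ hb
  · intro S hS
    have hS := Finset.mem_powerset.1 (Finset.mem_filter.1 hS).1
    have he' : Set.InjOn e S := he.mono hS
    rw [Mob_image e S he', Finset.card_image_of_injOn he']

theorem abs_dens_le {F : Finset V → ℝ} {U : Finset V} {C : ℝ} (hC : 0 ≤ C)
    (h : ∀ S ⊆ U, |F S| ≤ C) (x : V) : |dens F U x| ≤ 4 ^ U.card * C := by
  refine (Finset.abs_sum_le_sum_abs _ _).trans ?_
  have h1 := Finset.sum_le_card_nsmul (U.powerset.filter fun S => x ∈ S)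
    (fun S => |mob F S / S.card|) (2 ^ U.card * C) fun S hS => by
      have hS := Finset.mem_filter.1 hS
      have hS1 := Finset.mem_powerset.1 hS.1
      have h2 : (1 : ℝ) ≤ S.card := by exact_mod_cast Finset.card_pos.2 ⟨x, hS.2⟩
      rw [abs_div, Nat.abs_cast]
      refine (div_le_self (abs_nonneg _) h2).trans ((Mob_abs fun T hT => h T (hT.trans hS1)).trans ?_)
      exact mul_le_mul_of_nonneg_right
        (pow_le_pow_right₀ one_le_two (Finset.card_le_card hS1)) hC
  refine h1.trans ?_
  have h2 : ((U.powerset.filter fun S => x ∈ S).card : ℝ) ≤ 2 ^ U.card := by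
    have := Finset.card_filter_le U.powerset fun S => x ∈ S
    rw [Finset.card_powerset] at this
    exact_mod_cast this
  rw [nsmul_eq_mul, show (4 : ℝ) = 2 * 2 by norm_num, mul_pow, mul_assoc]
  exact mul_le_mul_of_nonneg_right h2 (by positivity)

theorem measurable_dens {Z : Type*} [MeasurableSpace Z] {F : Z → Finset V → ℝ}
    (hF : ∀ S, Measurable fun t => F t S) (U : Finset V) (x : V) :
    Measurable fun t => dens (F t) U x := by
  unfold dens mob
  exact Finset.measurable_sum _ fun S _ =>
    (Finset.measurable_sum _ fun T _ => (hF T).const_mul _).div_const _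

/-- `D = F' - F` only sees `N₀`. Then `mob D S = 0` unless `S ⊆ N₀` (`mob_eq_zero`), so for
`x ∈ N₀` the difference of the densities is `∑_{x ∈ S ⊆ N₀} mob D S / #S`, it vanishes for
`x ∉ N₀`, and the sum over `x` is `∑_{∅ ≠ S ⊆ N₀} mob D S = D N₀` (`mob D ∅ = D ∅ = 0`). -/
theorem sum_dens_sub {F F' : Finset V → ℝ} {N₀ N : Finset V} (nb : V → Finset V) (hN : N₀ ⊆ N)
    (hnb : ∀ x ∈ N₀, N₀ ⊆ nb x) (h0 : F' ∅ = F ∅)
    (hD : ∀ S, F' S - F S = F' (S ∩ N₀) - F (S ∩ N₀)) :
    ∑ x ∈ N, (dens F' (nb x) x - dens F (nb x) x) = F' N₀ - F N₀ := by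
  set D : Finset V → ℝ := fun T => F' T - F T with hDd
  have hz : ∀ S, ¬ S ⊆ N₀ → mob D S = 0 := by
    intro S hS
    obtain ⟨y, hy, hy'⟩ := Finset.not_subset.1 hS
    refine mob_eq_zero hy fun T _ => ?_
    simp only [hDd]
    rw [hD T, hD (T.erase y), Finset.erase_inter, Finset.erase_eq_of_notMem
      fun h => hy' (Finset.mem_inter.1 h).2]
  have h1 : ∀ x, dens F' (nb x) x - dens F (nb x) x =
      ∑ S ∈ N₀.powerset, if x ∈ S then mob D S / S.card else 0 := by
    intro x
    unfold dens
    rw [← Finset.sum_sub_distrib, ← Finset.sum_filter]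
    simp only [← sub_div, Mob_sub]
    symm
    refine Finset.sum_subset (fun S hS => ?_) (fun S hS hS' => ?_)
    · have hS := Finset.mem_filter.1 hS
      have hS1 := Finset.mem_powerset.1 hS.1
      exact Finset.mem_filter.2 ⟨Finset.mem_powerset.2 (hS1.trans (hnb x (hS1 hS.2))), hS.2⟩
    · rw [hz S fun h => hS' (Finset.mem_filter.2
        ⟨Finset.mem_powerset.2 h, (Finset.mem_filter.1 hS).2⟩), zero_div]
  simp only [h1]
  rw [Finset.sum_comm]
  change _ = D N₀
  rw [← sum_mob D N₀]
  refine Finset.sum_congr rfl fun S hS => ?_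
  have hS := (Finset.mem_powerset.1 hS).trans hN
  rw [← Finset.sum_filter, Finset.filter_mem_eq_inter, Finset.inter_eq_right.2 hS,
    Finset.sum_const, nsmul_eq_mul]
  rcases S.eq_empty_or_nonempty with rfl | hne
  · simp [Mob_empty, hDd, h0]
  · have : (S.card : ℝ) ≠ 0 := by exact_mod_cast hne.card_pos.ne'
    field_simp

end Crest.Agent.R109
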