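import Crest.Agent.R109.Meas

/-! Task 109-MTP: mass transport, and changes of a local functional along separated sets. -/

set_option autoImplicit false

open Polynomial MeasureTheory

namespace Crest.Agent.R109

variable {G Y : Type*} [Fintype G] [DecidableEq G] [DecidableEq Y] [MeasurableSpace Y] {r : ℕ}

theorem Net.mp_act (N : Net G Y) (w : List G) : MeasurePreserving (act N.φ w) N.ν N.ν := by
  induction w with
  | nil => exact MeasurePreserving.id _
  | cons g w ih => exact (N.mp g).comp ih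

/-- Number of words from `y` to `u`. -/
def Mtp_n (φ : G → Y → Y) (R : ℕ) (y u : Y) : ℕ :=
  ((words G R).filter fun w => act φ w y = u).card

omit [MeasurableSpace Y] in
theorem Mtp_n_symm {φ : G → Y → Y} (h : ∀ g y, φ g (φ g y) = y) (R : ℕ) (y u : Y) :
    Mtp_n φ R y u = Mtp_n φ R u y := by
  unfold Mtp_n
  refine Finset.card_bij' (fun w _ => w.reverse) (fun w _ => w.reverse) ?_ ?_ ?_ ?_
  · intro w hw
    rw [Finset.mem_filter, mem_words] at hw ⊢
    exact ⟨by simpa using hw.1, by rw [← hw.2, act_reverse_act h]⟩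
  · intro w hw
    rw [Finset.mem_filter, mem_words] at hw ⊢
    exact ⟨by simpa using hw.1, by rw [← hw.2, act_reverse_act h]⟩
  · intro w _
    simp
  · intro w _
    simp

omit [MeasurableSpace Y] in
theorem Mtp_sum (φ : G → Y → Y) (R : ℕ) (y : Y) (g : Y → ENNReal) :
    ∑ u ∈ ball φ R y, g u =
      ∑ w ∈ words G R, g (act φ w y) * ((Mtp_n φ R y (act φ w y) : ℕ) : ENNReal)⁻¹ := by
  rw [ball, Finset.sum_comp (fun u => g u * ((Mtp_n φ R y u : ℕ) : ENNReal)⁻¹)
    (fun w => act φ w y)]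
  refine Finset.sum_congr rfl fun u hu => ?_
  have h0 : Mtp_n φ R y u ≠ 0 := by
    obtain ⟨w, hw, rfl⟩ := Finset.mem_image.1 hu
    exact Finset.card_ne_zero.2 ⟨w, Finset.mem_filter.2 ⟨hw, rfl⟩⟩
  change g u = Mtp_n φ R y u • _
  rw [nsmul_eq_mul, mul_left_comm, ENNReal.mul_inv_cancel (by exact_mod_cast h0) (by simp),
    mul_one]

theorem Mtp_meas (N : Kern G Y) (R : ℕ) (w : List G) :
    Measurable fun y => ((Mtp_n N.φ R y (act N.φ w y) : ℕ) : ENNReal)⁻¹ := by
  refine Measurable.inv ?_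
  simp only [Mtp_n, Finset.card_filter, Nat.cast_sum]
  refine Finset.measurable_sum _ fun w' _ => ?_
  simp only [Nat.cast_ite, Nat.cast_one, Nat.cast_zero]
  exact Measurable.ite (N.eqm w' w) measurable_const measurable_const

/-- Mass transport, two-variable form. -/
theorem Net.mtp2 (N : Net G Y) (R : ℕ) {F : Y → Y → ENNReal}
    (hF : ∀ w, Measurable fun y => F y (act N.φ w y)) :
    ∫⁻ y, ∑ u ∈ ball N.φ R y, F y u ∂N.ν = ∫⁻ y, ∑ u ∈ ball N.φ R y, F u y ∂N.ν := by
  have hF' : ∀ w, Measurable fun y => F (act N.φ w y) y := by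
    intro w
    have := (hF w.reverse).comp (measurable_act N.meas w)
    simpa only [Function.comp_def, act_reverse_act N.invol] using this
  simp only [Mtp_sum N.φ R]
  rw [lintegral_finsetSum _ fun w _ => (hF w).fun_mul (Mtp_meas N.toKern R w),
    lintegral_finsetSum _ fun w _ => (hF' w).fun_mul (Mtp_meas N.toKern R w)]
  refine Finset.sum_bij' (fun w _ => w.reverse) (fun w _ => w.reverse) ?_ ?_ ?_ ?_ ?_
  · intro w hw
    rw [mem_words] at hw ⊢
    simpa using hw
  · intro w hw
    rw [mem_words] at hw ⊢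
    simpa using hw
  · intro w _
    simp
  · intro w _
    simp
  · intro w _
    rw [← (N.mp_act w.reverse).lintegral_comp ((hF w).fun_mul (Mtp_meas N.toKern R w))]
    refine lintegral_congr fun y => ?_
    simp only [act_act_reverse N.invol]
    rw [Mtp_n_symm N.invol]

open Classical in
/-- `∑_{u ∈ ball y} f u = ∑_{w ∈ words} f (act w y) / n w y` with
`n w y = #{w' ∈ words | act w' y = act w y}`; substitute `y = act w.reverse u`; reversal of words
gives `n w (act w.reverse u) = n w.reverse u`. -/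
theorem Net.mtp (N : Net G Y) (R : ℕ) {V : Set Y} (hV : MeasurableSet V) {f : Y → ENNReal}
    (hf : Measurable f) :
    ∫⁻ y in V, ∑ u ∈ ball N.φ R y, f u ∂N.ν =
      ∫⁻ y, (((ball N.φ R y).filter fun u => u ∈ V).card : ENNReal) * f y ∂N.ν := by
  have h := N.mtp2 R (F := fun y u => V.indicator 1 y * f u) fun w =>
    (measurable_one.indicator hV).mul (hf.comp (measurable_act N.meas w))
  rw [← lintegral_indicator hV]
  convert h using 3 with y y
  · by_cases hy : y ∈ V <;> simp [hy]
  · rw [← Finset.sum_mul, Finset.card_filter]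
    congr 1
    push_cast
    refine Finset.sum_congr rfl fun u _ => ?_
    by_cases hu : u ∈ V <;> simp [hu]

open Classical in
theorem Mtp_card_meas (N : Kern G Y) (R : ℕ) {V : Set Y} (hV : MeasurableSet V) :
    Measurable fun y => (((ball N.φ R y).filter fun u => u ∈ V).card : ℝ) := by
  simp only [Finset.card_filter, Nat.cast_sum, Nat.cast_ite, Nat.cast_one, Nat.cast_zero]
  exact N.measurable_ball_sum R (Measurable.ite hV measurable_const measurable_const)

open Classical in
theorem Mtp_card_int (N : Net G Y) (R : ℕ) {V : Set Y} (hV : MeasurableSet V) {f : Y → ℝ}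
    (hf : Integrable f N.ν) :
    Integrable (fun y => (((ball N.φ R y).filter fun u => u ∈ V).card : ℝ) * f y) N.ν := by
  refine hf.bdd_mul (c := (words G R).card) (Mtp_card_meas N.toKern R hV).aestronglyMeasurable
    (Filter.Eventually.of_forall fun y => ?_)
  rw [Real.norm_natCast]
  exact Nat.cast_le.2 ((Finset.card_filter_le _ _).trans (card_ball_le N.φ R y))

open Classical in
theorem Mtp_nonneg (N : Net G Y) (R : ℕ) {V : Set Y} (hV : MeasurableSet V) {f : Y → ℝ}
    (hm : Measurable f) (hf : Integrable f N.ν) (h0 : ∀ y, 0 ≤ f y) :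
    IntegrableOn (fun y => ∑ u ∈ ball N.φ R y, f u) V N.ν ∧
      ∫ y in V, ∑ u ∈ ball N.φ R y, f u ∂N.ν =
        ∫ y, (((ball N.φ R y).filter fun u => u ∈ V).card : ℝ) * f y ∂N.ν := by
  have h1 := N.mtp R hV (f := fun y => ENNReal.ofReal (f y)) hm.ennreal_ofReal
  have h2 := Mtp_card_int N R hV hf
  have hm2 : Measurable fun y => ∑ u ∈ ball N.φ R y, f u := N.measurable_ball_sum R hm
  have hn1 : ∀ y, 0 ≤ ∑ u ∈ ball N.φ R y, f u := fun y => Finset.sum_nonneg fun u _ => h0 u
  have hn2 : ∀ y, 0 ≤ (((ball N.φ R y).filter fun u => u ∈ V).card : ℝ) * f y :=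
    fun y => mul_nonneg (Nat.cast_nonneg _) (h0 y)
  have e1 : ∀ y, ∑ u ∈ ball N.φ R y, ENNReal.ofReal (f u) =
      ENNReal.ofReal (∑ u ∈ ball N.φ R y, f u) :=
    fun y => (ENNReal.ofReal_sum_of_nonneg fun u _ => h0 u).symm
  have e2 : ∀ y, (((ball N.φ R y).filter fun u => u ∈ V).card : ENNReal) * ENNReal.ofReal (f y) =
      ENNReal.ofReal ((((ball N.φ R y).filter fun u => u ∈ V).card : ℝ) * f y) := fun y => by
    rw [ENNReal.ofReal_mul (Nat.cast_nonneg _), ENNReal.ofReal_natCast]
  simp only [e1, e2] at h1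
  constructor
  · refine ⟨hm2.aestronglyMeasurable, ?_⟩
    rw [hasFiniteIntegral_iff_ofReal (Filter.Eventually.of_forall hn1), h1]
    exact (hasFiniteIntegral_iff_ofReal (Filter.Eventually.of_forall hn2)).1 h2.2
  · rw [integral_eq_lintegral_of_nonneg_ae (Filter.Eventually.of_forall hn1)
      hm2.aestronglyMeasurable, h1,
      integral_eq_lintegral_of_nonneg_ae (Filter.Eventually.of_forall hn2) h2.1]

open Classical in
theorem Net.mtp_real (N : Net G Y) (R : ℕ) {V : Set Y} (hV : MeasurableSet V) {f : Y → ℝ}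
    (hm : Measurable f) (hf : Integrable f N.ν) :
    IntegrableOn (fun y => ∑ u ∈ ball N.φ R y, f u) V N.ν ∧
      ∫ y in V, ∑ u ∈ ball N.φ R y, f u ∂N.ν =
        ∫ y, (((ball N.φ R y).filter fun u => u ∈ V).card : ℝ) * f y ∂N.ν := by
  obtain ⟨a1, a2⟩ := Mtp_nonneg N R hV (f := fun y => max (f y) 0) (hm.max measurable_const)
    hf.pos_part fun y => le_max_right _ _
  obtain ⟨b1, b2⟩ := Mtp_nonneg N R hV (f := fun y => max (-f y) 0) (hm.neg.max measurable_const)
    hf.neg_part fun y => le_max_right _ _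
  have e : ∀ y, f y = max (f y) 0 - max (-f y) 0 := fun y => (max_zero_sub_max_neg_zero_eq_self _).symm
  have e1 : (fun y => ∑ u ∈ ball N.φ R y, f u) = fun y =>
      ∑ u ∈ ball N.φ R y, max (f u) 0 - ∑ u ∈ ball N.φ R y, max (-f u) 0 := by
    funext y
    rw [← Finset.sum_sub_distrib]
    exact Finset.sum_congr rfl fun u _ => e u
  rw [e1]
  refine ⟨a1.sub b1, ?_⟩
  rw [integral_sub a1 b1, a2, b2,
    ← integral_sub (Mtp_card_int N R hV hf.pos_part) (Mtp_card_int N R hV hf.neg_part)]
  refine integral_congr_ae (Filter.Eventually.of_forall fun y => ?_)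
  simp only
  rw [← mul_sub, ← e]

theorem Net.nbhd_le (N : Net G Y) (R : ℕ) {V : Set Y} (hV : MeasurableSet V) :
    N.ν {y | ∃ u ∈ ball N.φ R y, u ∈ V} ≤ (words G R).card * N.ν V := by
  have h1 : {y | ∃ u ∈ ball N.φ R y, u ∈ V} ⊆ ⋃ w ∈ words G R, act N.φ w ⁻¹' V := by
    rintro y ⟨u, hu, hV⟩
    obtain ⟨w, hw, rfl⟩ := Finset.mem_image.1 hu
    exact Set.mem_biUnion hw hV
  refine (measure_mono h1).trans ((measure_biUnion_finset_le _ _).trans (le_of_eq ?_))
  rw [Finset.sum_congr rfl fun w _ => (N.mp_act w).measure_preimage hV.nullMeasurableSet,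
    Finset.sum_const, nsmul_eq_mul]

/-- `f = Φ s' - Φ s` vanishes at `y` unless `ball R y` meets `V`, in exactly one point. -/
theorem Net.chg (N : Net G Y) (Φ : (Y → St r) → Y → ℝ) (R : ℕ)
    (hloc : ∀ s s' y, (∀ u ∈ ball N.φ R y, s u = s' u) → Φ s y = Φ s' y) {s s' : Y → St r}
    {V : Set Y} (hV : MeasurableSet V) (hsep : Sepd N.φ (2 * R) V) (hs : ∀ y ∉ V, s' y = s y)
    (hm : Measurable (Φ s)) (hm' : Measurable (Φ s')) (hi : Integrable (Φ s) N.ν)
    (hi' : Integrable (Φ s') N.ν) :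
    IntegrableOn (fun u => ∑ y ∈ ball N.φ R u, (Φ (Function.update s u (s' u)) y - Φ s y)) V N.ν ∧
      ∫ y, Φ s' y ∂N.ν - ∫ y, Φ s y ∂N.ν =
        ∫ u in V, ∑ y ∈ ball N.φ R u, (Φ (Function.update s u (s' u)) y - Φ s y) ∂N.ν := by
  classical
  obtain ⟨h1, h2⟩ := N.mtp_real R hV (f := fun y => Φ s' y - Φ s y) (hm'.sub hm) (hi'.sub hi)
  have huniq : ∀ y, ∀ u ∈ ball N.φ R y, u ∈ V → ∀ x ∈ ball N.φ R y, x ∈ V → x = u := by
    intro y u hu huV x hx hxV
    exact hsep u huV x (two_mul R ▸ ball_trans (ball_symm N.invol hu) hx) hxV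
  have e1 : ∀ u ∈ V, ∑ y ∈ ball N.φ R u, (Φ s' y - Φ s y) =
      ∑ y ∈ ball N.φ R u, (Φ (Function.update s u (s' u)) y - Φ s y) := by
    intro u hu
    refine Finset.sum_congr rfl fun y hy => ?_
    congr 1
    refine hloc _ _ y fun x hx => ?_
    by_cases hxu : x = u
    · rw [hxu, Function.update_self]
    · rw [Function.update_of_ne hxu]
      exact hs x fun hxV => hxu (huniq y u (ball_symm N.invol hy) hu x hx hxV)
  refine ⟨h1.congr_fun e1 hV, ?_⟩
  rw [← setIntegral_congr_fun hV e1, h2, ← integral_sub hi' hi]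
  refine integral_congr_ae (Filter.Eventually.of_forall fun y => ?_)
  simp only
  by_cases h : ∃ u ∈ ball N.φ R y, u ∈ V
  · obtain ⟨u, hu, huV⟩ := h
    have : ((ball N.φ R y).filter fun u => u ∈ V) = {u} := by
      ext x
      simp only [Finset.mem_filter, Finset.mem_singleton]
      exact ⟨fun hx => huniq y u hu huV x hx.1 hx.2, fun hx => hx ▸ ⟨hu, huV⟩⟩
    rw [this]
    simp
  · have : Φ s' y = Φ s y := hloc _ _ y fun x hx => hs x fun hxV => h ⟨x, hx, hxV⟩
    simp [this]

/-- Cover `B` up to `ε` by separated sets (`sep`), disjointify, delete them one after the other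
(`chg`); the rest changes the integral by at most `2 C * #words * ε` (`nbhd_le`). -/
theorem Net.iter (N : Net G Y) (Φ : (Y → St r) → Y → ℝ) (R : ℕ)
    (hloc : ∀ s s' y, (∀ u ∈ ball N.φ R y, s u = s' u) → Φ s y = Φ s' y) (s : Y → St r)
    {B A : Set Y} (hB : MeasurableSet B) (hB' : N.ν B ≠ ⊤) (hA : MeasurableSet A)
    (hA' : N.ν A ≠ ⊤) {C b : ℝ} (hb : 0 ≤ b)
    (hm : ∀ B' ⊆ B, MeasurableSet B' → Measurable (Φ (delS B' s)))
    (hbd : ∀ B' ⊆ B, ∀ y, |Φ (delS B' s) y| ≤ C) (hsupp : ∀ B' ⊆ B, ∀ y ∉ A, Φ (delS B' s) y = 0)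
    (hstep : ∀ B' ⊆ B, ∀ u ∈ B, ∑ y ∈ ball N.φ R u,
      (Φ (Function.update (delS B' s) u St.del) y - Φ (delS B' s) y) ≤ b) :
    ∫ y, Φ (delS B s) y ∂N.ν - ∫ y, Φ s y ∂N.ν ≤ b * N.ν.real B := by
  classical
  have _ := hA
  have hint : ∀ B' ⊆ B, MeasurableSet B' → Integrable (Φ (delS B' s)) N.ν := by
    intro B' h1 h2
    have h3 : IntegrableOn (Φ (delS B' s)) A N.ν :=
      Measure.integrableOn_of_bounded (M := C) hA' (hm B' h1 h2).aestronglyMeasurable
        (Filter.Eventually.of_forall fun y => hbd B' h1 y)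
    refine (integrableOn_iff_integrable_of_support_subset fun y hy => ?_).1 h3
    by_contra h
    exact hy (hsupp B' h1 y h)
  have hs0 : delS ∅ s = s := by
    funext y
    simp [delS]
  refine le_of_forall_pos_le_add fun δ hδ => ?_
  set c : ℝ := 2 * |C| * (words G R).card + 1 with hc
  have hc0 : 0 < c := by positivity
  obtain ⟨n, D, hD, hε⟩ := N.sep (2 * R) B hB hB' (δ / c) (by positivity)
  have key : ∀ T : Finset (Fin n), ∫ y, Φ (delS (B ∩ ⋃ i ∈ T, D i) s) y ∂N.ν - ∫ y, Φ s y ∂N.ν ≤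
      b * N.ν.real (B ∩ ⋃ i ∈ T, D i) := by
    intro T
    induction T using Finset.induction_on with
    | empty => simp [hs0]
    | insert i T hi ih =>
      set B₁ := B ∩ ⋃ j ∈ T, D j with hB₁
      set B₂ := B ∩ ⋃ j ∈ insert i T, D j with hB₂
      have m1 : MeasurableSet B₁ := hB.inter (Finset.measurableSet_biUnion _ fun j _ => (hD j).1)
      have m2 : MeasurableSet B₂ := hB.inter (Finset.measurableSet_biUnion _ fun j _ => (hD j).1)
      have s12 : B₁ ⊆ B₂ := Set.inter_subset_inter_right _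
        (Set.biUnion_subset_biUnion_left fun j hj => by simp at hj ⊢; exact Or.inr hj)
      have hsub : B₂ \ B₁ ⊆ D i := by
        rintro y ⟨⟨h1, h2⟩, h3⟩
        simp only [Finset.mem_insert, Set.iUnion_iUnion_eq_or_left, Set.mem_union] at h2
        exact h2.resolve_right fun h => h3 ⟨h1, h⟩
      have f2 : N.ν B₂ ≠ ⊤ := ne_top_of_le_ne_top hB' (measure_mono Set.inter_subset_left)
      have fV : N.ν (B₂ \ B₁) ≠ ⊤ := ne_top_of_le_ne_top f2 (measure_mono Set.sdiff_subset)
      obtain ⟨c1, c2⟩ := N.chg Φ R hloc (s := delS B₁ s) (s' := delS B₂ s) (m2.diff m1)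
        ((hD i).2.mono le_rfl hsub) (fun y hy => by
          by_cases h : y ∈ B₁
          · simp [delS, h, s12 h]
          · have : y ∉ B₂ := fun h' => hy ⟨h', h⟩
            simp [delS, h, this])
        (hm _ Set.inter_subset_left m1) (hm _ Set.inter_subset_left m2)
        (hint _ Set.inter_subset_left m1) (hint _ Set.inter_subset_left m2)
      have c3 := setIntegral_mono_on c1 (integrableOn_const (C := b) fV) (m2.diff m1)
        fun u hu => by
          have : delS B₂ s u = St.del := by simp [delS, hu.1]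
          rw [this]
          exact hstep B₁ Set.inter_subset_left u hu.1.1
      rw [setIntegral_const, smul_eq_mul, ← c2, measureReal_sdiff s12 m1 f2] at c3
      nlinarith
  have k1 := key Finset.univ
  set B₁ := B ∩ ⋃ j ∈ (Finset.univ : Finset (Fin n)), D j with hB₁
  have m1 : MeasurableSet B₁ := hB.inter (Finset.measurableSet_biUnion _ fun j _ => (hD j).1)
  have e1 : B \ B₁ = B \ ⋃ i, D i := by
    ext y
    simp [hB₁]
  set W := {y | ∃ u ∈ ball N.φ R y, u ∈ B \ B₁} with hW
  have mW : MeasurableSet W := N.measurableSet_nbhd R (hB.diff m1)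
  have fD : N.ν (B \ B₁) ≠ ⊤ := ne_top_of_le_ne_top hB' (measure_mono Set.sdiff_subset)
  have lW := N.nbhd_le R (hB.diff m1)
  have fW : N.ν W ≠ ⊤ := ne_top_of_le_ne_top (ENNReal.mul_ne_top (by simp) fD) lW
  have lW' : N.ν.real W ≤ (words G R).card * (δ / c) := by
    have := ENNReal.toReal_mono (ENNReal.mul_ne_top (by simp) fD) lW
    rw [ENNReal.toReal_mul, ENNReal.toReal_natCast] at this
    refine this.trans (mul_le_mul_of_nonneg_left ?_ (Nat.cast_nonneg _))
    rw [e1]
    exact hε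
  have i1 := hint B subset_rfl hB
  have i2 := hint B₁ Set.inter_subset_left m1
  have k2 : ∫ y, Φ (delS B s) y ∂N.ν - ∫ y, Φ (delS B₁ s) y ∂N.ν ≤ 2 * |C| * N.ν.real W := by
    rw [← integral_sub i1 i2, mul_comm, ← smul_eq_mul, ← setIntegral_const,
      ← integral_indicator mW]
    refine integral_mono (i1.sub i2) ((integrable_indicator_iff mW).2 (integrableOn_const fW))
      fun y => ?_
    by_cases hy : y ∈ W
    · rw [Set.indicator_of_mem hy]
      have a1 := abs_le.1 (hbd B subset_rfl y)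
      have a2 := abs_le.1 (hbd B₁ Set.inter_subset_left y)
      simp only
      linarith [le_abs_self C]
    · rw [Set.indicator_of_notMem hy]
      refine le_of_eq (sub_eq_zero.2 (hloc _ _ y fun u hu => ?_))
      by_cases h : u ∈ B₁
      · simp [delS, h, h.1]
      · have : u ∉ B := fun h' => hy ⟨u, hu, h', h⟩
        simp [delS, h, this]
  have k3 : N.ν.real B₁ ≤ N.ν.real B := measureReal_mono Set.inter_subset_left hB'
  have k4 : 2 * |C| * N.ν.real W ≤ δ := by
    refine (mul_le_mul_of_nonneg_left lW' (by positivity)).trans ?_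
    rw [← mul_assoc, mul_div_assoc', div_le_iff₀ hc0, hc]
    nlinarith
  nlinarith [mul_le_mul_of_nonneg_left k3 hb]

end Crest.Agent.R109
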