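import Crest.Agent.R109.Reg
import Crest.Agent.R109.Key

/-! Task 109-NEV: the increments `Dp` and the one-step inequality. -/

set_option autoImplicit false

open Polynomial

namespace Crest.Agent.R109

variable {V : Type*} [DecidableEq V] {r : ℕ}

theorem Nev_Uu_unc (s : V → St r) {U : Finset V} {v : V} (hv : v ∈ U) :
    Uu (Function.update s v St.unc) U = insert v (Uu (Function.update s v St.del) U) := by
  ext u
  by_cases h : u = v
  · subst h
    simp [PfB_mem_Uu, hv]
  · simp [PfB_mem_Uu, h]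

theorem Nev_Tc_unc (s : V → St r) (U : Finset V) (v : V) :
    Tc (Function.update s v St.unc) U = Tc (Function.update s v St.del) U := by
  ext a
  by_cases h : a.1 = v
  · simp [PfB_mem_Tc, h]
  · simp [PfB_mem_Tc, h]

theorem Nev_Uu_col (s : V → St r) (U : Finset V) (v : V) (i : Fin r) :
    Uu (Function.update s v (St.col i)) U = Uu (Function.update s v St.del) U := by
  ext u
  by_cases h : u = v
  · subst h
    simp [PfB_mem_Uu]
  · simp [PfB_mem_Uu, h]

theorem Nev_Tc_col (s : V → St r) {U : Finset V} {v : V} (hv : v ∈ U) (i : Fin r) :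
    Tc (Function.update s v (St.col i)) U = insert (v, i) (Tc (Function.update s v St.del) U) := by
  ext ⟨u, j⟩
  by_cases h : u = v
  · subst h
    simp [PfB_mem_Tc, hv, eq_comm]
  · simp [PfB_mem_Tc, h]

theorem Nev_live (s : V → St r) {U : Finset V} {v : V} (hv : v ∈ U) {o : St r} (ho : o ≠ St.del) :
    live (Function.update s v o) U = insert v (live (Function.update s v St.del) U) := by
  ext u
  by_cases h : u = v
  · subst h
    simp [PfB_mem_live, hv, ho]
  · simp [PfB_mem_live, h]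

theorem Nev_supp {s : V → St r} {U : Finset V} {v : V} {a : V × Fin r}
    (h : a ∈ supp (Uu (Function.update s v St.del) U) (Tc (Function.update s v St.del) U)) :
    a.1 ≠ v := by
  intro h'
  have := (PfB_supp_live h).2
  simp [h'] at this

theorem Nev_prod (w : V → ℝ) (s : V → St r) {U : Finset V} {v : V} (hv : v ∈ U) {o : St r}
    (ho : o ≠ St.del) :
    ∏ u ∈ live (Function.update s v o) U, (ws w (Function.update s v o) u : ℂ) =
      (ws w (Function.update s v o) v : ℂ) *
        ∏ u ∈ live (Function.update s v St.del) U, (ws w (Function.update s v St.del) u : ℂ) := by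
  have h1 : v ∉ live (Function.update s v St.del) U := by simp [PfB_mem_live]
  rw [Nev_live s hv ho, Finset.prod_insert h1]
  congr 1
  refine Finset.prod_congr rfl fun u hu => ?_
  have : u ≠ v := fun h => h1 (h ▸ hu)
  simp [ws, this]

theorem Nev_aff (z : ℝ) (M : V → V → ℂ) (w : V → ℝ) (s : V → St r) (U : Finset V) (v : V)
    (o : St r) (π : V × Fin r → ℂ) (t : ℂ) (i : Fin r) :
    Pf (Bz (Zt z w (Function.update s v o) t) M) π (Uu (Function.update s v St.del) U)
        (insert (v, i) (Tc (Function.update s v St.del) U)) =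
      Zt z w (Function.update s v o) t (v, i) *
        Pf (Bz (Zt z w (Function.update s v St.del) t) M) π (Uu (Function.update s v St.del) U)
          (Tc (Function.update s v St.del) U) +
      Pf (zeroAt (Bz (Zt z w (Function.update s v St.del) t) M) (v, i)) π
        (Uu (Function.update s v St.del) U) (insert (v, i) (Tc (Function.update s v St.del) U)) := by
  have hZ : ∀ a : V × Fin r, a.1 ≠ v →
      Zt z w (Function.update s v o) t a = Zt z w (Function.update s v St.del) t a := by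
    intro a ha
    simp [Zt, zs, ws, ha]
  rw [Pf_aff _ _ (by simp [PfB_mem_Tc]) (by simp [PfB_mem_Uu])]
  congr 1
  · congr 1
    · simp [Bz]
    · refine Pf_congr (fun a ha b _ => ?_) fun _ _ _ => rfl
      unfold Bz
      rw [hZ a (Nev_supp ha)]
  · refine Pf_congr (fun a ha b _ => ?_) fun _ _ _ => rfl
    unfold zeroAt Bz
    by_cases h1 : a = (v, i)
    · by_cases h2 : b = (v, i)
      · simp [h1, h2]
      · have : a ≠ b := fun h => h2 (h ▸ h1)
        simp [this, h2]
    · have : a ∈ supp (Uu (Function.update s v St.del) U) (Tc (Function.update s v St.del) U) := by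
        rw [PfB_mem_supp] at ha ⊢
        rcases ha with ha | ha
        · exact Or.inl ((Finset.mem_insert.1 ha).resolve_left h1)
        · exact Or.inr ha
      rw [hZ a (Nev_supp this)]

/-- With `Q = PP (update s v del)`, `U' = Uu (update s v del) U`, `T = Tc (update s v del) U`:
`Uu (update s v unc) U = insert v U'`, `Tc (update s v (col i)) U = insert (v, i) T`. By `PP_eval`,
`Pf_insert`, `Pf_aff`: `PP (col i) / Q = t + 25 z w / 4 - (w / 4) α_i` and
`PP unc / Q = t + z w - w * avg α_i`, where `α_i = -Pf (zeroAt B (v,i)) / Pf` does not depend on the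
diagonal entry at `(v, i)` (prove this as an identity of polynomials or for `t.im ≠ 0`; an identity
of polynomials true on the upper half plane is true everywhere). Apply `frac` to
`N = 4 * ((X + 25 z w / 4) Q - PP (col i))`, `selfEnergy` with `η = y / (K * w v)`. -/
theorem nev [NeZero r] {K : ℝ} (hK : 0 < K) (z : ℝ) {M : V → V → ℂ} {w : V → ℝ} (s : V → St r)
    {U : Finset V} (h : Env K M w U) {v : V} (hv : v ∈ U) :
    ∃ (lq : Multiset ℝ) (ν : Fin r → ℝ → ℝ),
      RR (PP z M w (Function.update s v St.del) U) lq ∧ (∀ i p, 0 ≤ ν i p) ∧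
      (∀ i, ∑ p ∈ lq.toFinset, ν i p ≤ K * w v ^ 2) ∧
      Rel (PP z M w (Function.update s v St.unc) U) (PP z M w (Function.update s v St.del) U)
        lq.toFinset (fun p => (∑ i, ν i p) / r) (z * w v) ∧
      ∀ i, Rel (PP z M w (Function.update s v (St.col i)) U)
        (PP z M w (Function.update s v St.del) U) lq.toFinset (fun p => ν i p / 4)
        (25 * (z * w v) / 4) := by
  classical
  have hw : ∀ u ∈ U, w u ≠ 0 := fun u hu => (h.pos u hu).ne'
  have hwv : 0 < w v := h.pos v hv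
  have hwv' : (w v : ℂ) ≠ 0 := Complex.ofReal_ne_zero.2 hwv.ne'
  have hr : (r : ℂ) ≠ 0 := Nat.cast_ne_zero.2 (NeZero.ne r)
  have hr' : (0 : ℝ) < r := Nat.cast_pos.2 (Nat.pos_of_ne_zero (NeZero.ne r))
  set s₀ := Function.update s v St.del with hs₀
  obtain ⟨lq, hlq⟩ := PP_rr z s₀ h
  set Q := PP z M w s₀ U with hQ
  set W : ℂ := ∏ u ∈ live s₀ U, (ws w s₀ u : ℂ) with hW
  set P₀ : ℂ → ℂ := fun t => Pf (Bz (Zt z w s₀ t) M) (fun _ => (r : ℂ)⁻¹) (Uu s₀ U) (Tc s₀ U)
    with hP₀
  set A : Fin r → ℂ → ℂ := fun i t => Pf (zeroAt (Bz (Zt z w s₀ t) M) (v, i))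
    (fun _ => (r : ℂ)⁻¹) (Uu s₀ U) (insert (v, i) (Tc s₀ U)) with hA
  have e0 : ∀ t, Q.eval t = W * P₀ t := fun t => PP_eval z M s₀ hw t
  have e1 : ∀ i t, (PP z M w (Function.update s v (St.col i)) U).eval t =
      (t + (25 * (z * w v) / 4 : ℝ)) * Q.eval t + w v / 4 * (W * A i t) := by
    intro i t
    rw [PP_eval z M _ hw, Nev_prod w s hv (by simp), Nev_Uu_col, Nev_Tc_col s hv, Nev_aff, e0]
    change _ * W * (_ * P₀ t + A i t) = _
    simp only [ws, Zt, zs, Function.update_self, reduceCtorEq, if_false]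
    push_cast
    field_simp
    ring
  have e2 : ∀ t, (PP z M w (Function.update s v St.unc) U).eval t =
      (t + (z * w v : ℝ)) * Q.eval t + w v * (∑ i, W * A i t) / r := by
    intro t
    rw [PP_eval z M _ hw, Nev_prod w s hv (by simp), Nev_Uu_unc s hv, Nev_Tc_unc,
      Pf_insert _ _ (by simp [PfB_mem_Uu]), e0]
    simp only [Nev_aff]
    change _ * W * (∑ i, (r : ℂ)⁻¹ * (_ * P₀ t + A i t)) = _
    simp only [ws, Zt, zs, Function.update_self, if_true, mul_add, Finset.sum_add_distrib,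
      Finset.sum_const, Finset.card_univ, Fintype.card_fin, nsmul_eq_mul, ← Finset.mul_sum]
    push_cast
    field_simp
    ring
  set N : Fin r → ℂ[X] := fun i => C 4 * ((X + C ((25 * (z * w v) / 4 : ℝ) : ℂ)) * Q -
    PP z M w (Function.update s v (St.col i)) U) with hN
  have e3 : ∀ i t, (N i).eval t = -(w v * (W * A i t)) := by
    intro i t
    simp only [hN, eval_mul, eval_sub, eval_add, eval_X, eval_C, e1]
    ring
  have key : ∀ i (t : ℂ), 0 < t.im → ((N i).eval t / Q.eval t).im ≤ 0 ∧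
      ‖(N i).eval t / Q.eval t‖ ≤ K * w v ^ 2 / t.im := by
    intro i t ht
    have hQ0 : Q.eval t ≠ 0 := PP_eval_ne z s₀ h ht.ne'
    rw [e0] at hQ0
    have hW0 := left_ne_zero_of_mul hQ0
    have hP0 := right_ne_zero_of_mul hQ0
    have hZ : ∀ b : V × Fin r, (Zt z w s₀ t b).im = t.im / ws w s₀ b.1 := by
      intro b
      simp [Zt, Complex.div_ofReal_im]
    have hws : ∀ u ∈ U, 0 < ws w s₀ u ∧ ws w s₀ u ≤ w u := by
      intro u hu
      have := h.pos u hu
      unfold ws
      split_ifs <;> constructor <;> linarith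
    have hse := selfEnergy (M := M) (W := U) h.toHC (Z := Zt z w s₀ t)
      (π := fun _ => (r : ℝ)⁻¹) (U := Uu s₀ U) (T := Tc s₀ U) (a := (v, i)) (dis_state s₀ U)
      (by simp [PfB_mem_Tc, hs₀]) (by simp [PfB_mem_Uu, hs₀]) (fun _ _ _ => inv_pos.2 hr') hv
      (fun b hb => (PfB_supp_live hb).1)
      (fun b hb => by rw [hZ]; exact div_pos ht (hws _ (PfB_supp_live hb).1).1)
      (η := t.im / (K * w v)) (by positivity) (fun b hb _ hM => by
        rw [hZ]
        have hb' := (PfB_supp_live hb).1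
        exact div_le_div_of_nonneg_left ht.le (hws _ hb').1
          ((hws _ hb').2.trans (h.lip v hv b.1 hb' hM)))
    simp only [Complex.ofReal_inv, Complex.ofReal_natCast] at hse
    have haff := Nev_aff z M w s U v St.del (fun _ => (r : ℂ)⁻¹) t i
    rw [← hs₀] at haff
    rw [haff] at hse
    change (_ - (_ * P₀ t + A i t) / P₀ t).im ≤ 0 ∧ ‖_ - (_ * P₀ t + A i t) / P₀ t‖ ≤ _ at hse
    have e4 : (N i).eval t / Q.eval t =
        w v * (Zt z w s₀ t (v, i) - (Zt z w s₀ t (v, i) * P₀ t + A i t) / P₀ t) := by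
      rw [e3, e0]
      field_simp
      ring
    rw [e4]
    constructor
    · rw [Complex.im_ofReal_mul]
      exact mul_nonpos_of_nonneg_of_nonpos hwv.le hse.1
    · rw [norm_mul, Complex.norm_real, Real.norm_of_nonneg hwv.le]
      refine (mul_le_mul_of_nonneg_left hse.2 hwv.le).trans (le_of_eq ?_)
      field_simp
  have hfr : ∀ i, ∃ ν : ℝ → ℝ, (∀ p, 0 ≤ ν p) ∧ ∑ p ∈ lq.toFinset, ν p ≤ K * w v ^ 2 ∧
      ∀ t : ℂ, Q.eval t ≠ 0 →
        (N i).eval t / Q.eval t = ∑ p ∈ lq.toFinset, (ν p : ℂ) / (t - p) := by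
    intro i
    refine frac (N i) Q hlq (fun t ht => (key i t ht).1) ?_
    filter_upwards [Filter.eventually_gt_atTop 0] with y hy
    simpa using (key i (y * Complex.I) (by simpa using hy)).2
  choose ν hν0 hν1 hν2 using hfr
  refine ⟨lq, ν, hlq, hν0, hν1, fun t ht => ?_, fun i t ht => ?_⟩
  · have h1 : ∀ i, w v * (W * A i t) = -(∑ p ∈ lq.toFinset, (ν i p : ℂ) / (t - p)) * Q.eval t := by
      intro i
      rw [← hν2 i t ht, e3]
      field_simp
    have h2 : ∑ p ∈ lq.toFinset, (((∑ i, ν i p) / r : ℝ) : ℂ) / (t - p) =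
        (∑ i, ∑ p ∈ lq.toFinset, (ν i p : ℂ) / (t - p)) / r := by
      rw [Finset.sum_comm, Finset.sum_div]
      refine Finset.sum_congr rfl fun p _ => ?_
      push_cast
      rw [← Finset.sum_div, div_right_comm]
    rw [e2, gC, h2, Finset.mul_sum]
    simp only [h1]
    rw [← Finset.sum_mul, Finset.sum_neg_distrib]
    ring
  · have h1 : w v * (W * A i t) = -(∑ p ∈ lq.toFinset, (ν i p : ℂ) / (t - p)) * Q.eval t := by
      rw [← hν2 i t ht, e3]
      field_simp
    have h2 : ∑ p ∈ lq.toFinset, ((ν i p / 4 : ℝ) : ℂ) / (t - p) =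
        (∑ p ∈ lq.toFinset, (ν i p : ℂ) / (t - p)) / 4 := by
      rw [Finset.sum_div]
      refine Finset.sum_congr rfl fun p _ => ?_
      push_cast
      rw [div_right_comm]
    rw [e1, gC, h2, div_mul_eq_mul_div, h1]
    ring

/-- The same for one live state `o`. -/
theorem nev' [NeZero r] {K z : ℝ} (hK : 0 < K) (hz : 0 ≤ z) {M : V → V → ℂ} {w : V → ℝ}
    (s : V → St r) {U : Finset V} (h : Env K M w U) {v : V} (hv : v ∈ U) {o : St r}
    (ho : o ≠ St.del) :
    ∃ (lq : Multiset ℝ) (ν : ℝ → ℝ) (c : ℝ),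
      RR (PP z M w (Function.update s v St.del) U) lq ∧ (∀ p, 0 ≤ ν p) ∧ 0 ≤ c ∧
      ∑ p ∈ lq.toFinset, ν p ≤ K * w v ^ 2 ∧
      Rel (PP z M w (Function.update s v o) U) (PP z M w (Function.update s v St.del) U)
        lq.toFinset ν c := by
  obtain ⟨lq, ν, h1, h2, h3, h4, h5⟩ := nev hK z s h hv
  have hr' : (0 : ℝ) < r := Nat.cast_pos.2 (Nat.pos_of_ne_zero (NeZero.ne r))
  have hwv : 0 < w v := h.pos v hv
  cases o with
  | del => exact absurd rfl ho
  | unc =>
    refine ⟨lq, _, _, h1, fun p => div_nonneg (Finset.sum_nonneg fun i _ => h2 i p) hr'.le,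
      by positivity, ?_, h4⟩
    rw [← Finset.sum_div, Finset.sum_comm, div_le_iff₀ hr']
    have := Finset.sum_le_card_nsmul Finset.univ _ _ fun i _ => h3 i
    rwa [Finset.card_univ, Fintype.card_fin, nsmul_eq_mul, mul_comm] at this
  | col i =>
    refine ⟨lq, _, _, h1, fun p => div_nonneg (h2 i p) (by norm_num), by positivity, ?_, h5 i⟩
    rw [← Finset.sum_div]
    have : 0 ≤ K * w v ^ 2 := by positivity
    linarith [h3 i]

theorem Dp_del (z : ℝ) (M : V → V → ℂ) (w : V → ℝ) (s : V → St r) (U : Finset V) (v : V) :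
    Dp z M w s U v St.del = 0 := by
  simp [Dp]

theorem Dp_nonneg [NeZero r] {K z : ℝ} (hK : 0 < K) (hz : 0 ≤ z) {M : V → V → ℂ} {w : V → ℝ}
    (s : V → St r) {U : Finset V} (h : Env K M w U) {v : V} (hv : v ∈ U) (o : St r) :
    0 ≤ Dp z M w s U v o := by
  by_cases ho : o = St.del
  · rw [ho, Dp_del]
  · obtain ⟨lq, ν, c, h1, h2, -, -, h5⟩ := nev' hK hz s h hv ho
    rw [Dp, sum_pos_eq h1 subset_rfl h2 h5]
    exact KeyAux.fpos_nonneg _

theorem Dp_le [NeZero r] {K z : ℝ} (hK : 1 ≤ K) (hz : 0 ≤ z) {M : V → V → ℂ} {w : V → ℝ}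
    (s : V → St r) {U : Finset V} (h : Env K M w U) {v : V} (hv : v ∈ U) (o : St r) :
    Dp z M w s U v o ≤ 5 * K * w v := by
  have hwv : 0 < w v := h.pos v hv
  by_cases ho : o = St.del
  · rw [ho, Dp_del]
    positivity
  · obtain ⟨lq, ν, c, h1, h2, h3, h4, h5⟩ := nev' (by linarith) hz s h hv ho
    rw [Dp, sum_pos_eq h1 subset_rfl h2 h5]
    refine (fpos_le _ h2 h3 h4).trans ?_
    have : Real.sqrt (K * w v ^ 2) ≤ K * w v := by
      refine Real.sqrt_le_iff.2 ⟨by positivity, ?_⟩
      rw [mul_pow]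
      exact mul_le_mul_of_nonneg_right (by nlinarith) (by positivity)
    linarith

/-- `chi_approx` twice (`s = update s v (s v)`), `PP_root_le`. -/
theorem Dp_chi [NeZero r] {K z lo hi T β : ℝ} (hK : 0 < K) (hz : 0 ≤ z) {M : V → V → ℂ}
    {w : V → ℝ} {s : V → St r} {U : Finset V} (h : Env K M w U) (hR : Rng lo hi w s U) {v : V}
    (hv : v ∈ U) (hw : lo ≤ w v ∧ w v ≤ hi) (hT : hi * (25 * z + 1) ≤ T) {χ : ℝ[X]}
    (hχ : Chi T β χ) (o : St r) :
    |(Ic (cx χ) z M w s U v o).re - (Dp z M w s U v o - Dp z M w s U v (s v))| ≤ 4 * β := by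
  have hwv : 0 < w v := h.pos v hv
  have hT0 : 0 ≤ T := le_trans (mul_nonneg (by linarith [hw.2]) (by linarith)) hT
  have hβ : 0 ≤ β := (abs_nonneg _).trans hχ.left
  have hR' : ∀ o : St r, Rng lo hi w (Function.update s v o) U := by
    intro o u hu hs
    by_cases huv : u = v
    · rw [huv]
      exact hw
    · exact hR u hu (by simpa [huv] using hs)
  have key : ∀ o : St r, |(sumC (cx χ) (PP z M w (Function.update s v o) U) -
      sumC (cx χ) (PP z M w (Function.update s v St.del) U)).re - Dp z M w s U v o| ≤ 2 * β := by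
    intro o
    by_cases ho : o = St.del
    · rw [ho, Dp_del]
      simpa using hβ
    · obtain ⟨lq, ν, c, h1, h2, -, -, h5⟩ := nev' hK hz s h hv ho
      rw [Dp, sum_pos_eq h1 subset_rfl h2 h5]
      exact chi_approx h1 subset_rfl h2 h5 hT0 hχ
        (fun x hx => (PP_root_le hz h (hR' _) hx).trans hT)
        (fun x hx => (PP_root_le hz h (hR' _) hx).trans hT)
  have h1 := abs_le.1 (key o)
  have h2 := abs_le.1 (key (s v))
  rw [Function.update_eq_self] at h2
  simp only [Ic, Complex.sub_re] at h1 h2 ⊢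
  rw [abs_le]
  constructor <;> linarith [h1.1, h1.2, h2.1, h2.2]

/-- `key` for `M` and for `-M` with `min (η / 2) (c / 16)`, `c = z * w v`; the two sets of good
colours meet in at least `(r + 1) / 2` colours. -/
theorem step [NeZero r] {K z η : ℝ} (hK : 0 < K) (hz : 0 < z) (hη : 0 < η) {M : V → V → ℂ}
    {w : V → ℝ} (s : V → St r) {U : Finset V} (h : Env K M w U) {v : V} (hv : v ∈ U) :
    (z * w v ≤ Dp z M w s U v St.unc ∨ z * w v ≤ Dp z (fun a b => -M a b) w s U v St.unc) ∨
      ∃ ρ : Lab r ↪ Fin r,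
        ∑ l, (Dp z M w s U v (St.col (ρ l)) + Dp z (fun a b => -M a b) w s U v (St.col (ρ l))) ≤
          (Fintype.card (Lab r) : ℝ) *
            (Dp z M w s U v St.unc + Dp z (fun a b => -M a b) w s U v St.unc + η) := by
  classical
  have hwv : 0 < w v := h.pos v hv
  have hc : 0 < z * w v := mul_pos hz hwv
  have hr' : (0 : ℝ) < r := Nat.cast_pos.2 (Nat.pos_of_ne_zero (NeZero.ne r))
  set η' := min (η / 2) (z * w v / 16) with hη'
  have one : ∀ M : V → V → ℂ, Env K M w U → Dp z M w s U v St.unc < z * w v →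
      ∃ S₀ : Finset (Fin r), 3 * r ≤ 4 * S₀.card ∧ ∀ S' ⊆ S₀, r ≤ 2 * S'.card →
        ∑ i ∈ S', Dp z M w s U v (St.col i) ≤ S'.card * (Dp z M w s U v St.unc + η') := by
    intro M h hlt
    obtain ⟨lq, ν, h1, h2, -, h4, h5⟩ := nev hK z s h hv
    have e1 : Dp z M w s U v St.unc = _ := sum_pos_eq h1 subset_rfl
      (fun p => div_nonneg (Finset.sum_nonneg fun i _ => h2 i p) hr'.le) h4
    have e2 : ∀ i, Dp z M w s U v (St.col i) = _ := fun i => sum_pos_eq h1 subset_rfl
      (fun p => div_nonneg (h2 i p) (by norm_num)) (h5 i)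
    rw [e1] at hlt
    simp only [e1, e2]
    exact key lq.toFinset h2 hc (lt_min (by positivity) (by positivity)) (min_le_right _ _) hlt
  by_cases hl : z * w v ≤ Dp z M w s U v St.unc ∨ z * w v ≤ Dp z (fun a b => -M a b) w s U v St.unc
  · exact Or.inl hl
  right
  rw [not_or, not_le, not_le] at hl
  obtain ⟨S₀, h0, h0'⟩ := one M h hl.1
  obtain ⟨S₁, h1, h1'⟩ := one _ h.neg hl.2
  have h2 := Finset.card_union_add_card_inter S₀ S₁
  have h3 : (S₀ ∪ S₁).card ≤ r := by simpa using Finset.card_le_univ (S₀ ∪ S₁)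
  obtain ⟨S', hS', hc'⟩ := Finset.exists_subset_card_eq (s := S₀ ∩ S₁) (n := (r + 1) / 2)
    (by omega)
  refine ⟨(S'.orderEmbOfFin hc').toEmbedding, ?_⟩
  have h4 := h0' S' (hS'.trans Finset.inter_subset_left) (by omega)
  have h5 := h1' S' (hS'.trans Finset.inter_subset_right) (by omega)
  have h6 : ∀ f : Fin r → ℝ, ∑ l : Lab r, f ((S'.orderEmbOfFin hc').toEmbedding l) =
      ∑ i ∈ S', f i := by
    intro f
    rw [← Finset.sum_map Finset.univ (S'.orderEmbOfFin hc').toEmbedding f,
      Finset.map_orderEmbOfFin_univ]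
  rw [h6 fun i => Dp z M w s U v (St.col i) + Dp z (fun a b => -M a b) w s U v (St.col i),
    Finset.sum_add_distrib, Fintype.card_fin, ← hc']
  have h7 : η' ≤ η / 2 := min_le_left _ _
  have h8 : (0 : ℝ) ≤ S'.card := Nat.cast_nonneg _
  nlinarith [mul_le_mul_of_nonneg_left h7 h8]

end Crest.Agent.R109
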