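import Crest.Agent.R109.VB

/-! Task 109-NOR: normalisers. -/

set_option autoImplicit false

open scoped InnerProductSpace ComplexOrder
open Filter Topology

namespace Crest.Agent.R109

variable {H : Type*} [NormedAddCommGroup H] [InnerProductSpace ℂ H] [CompleteSpace H]
variable {M A : VonNeumannAlgebra H}

theorem Nor.star {v : Op H} (h : Nor M A v) : Nor M A (star v) := by
  exact ⟨star_mem h.mem, h.pi.star, fun a ha => by simpa using h.inn a ha,
    fun a ha => by simpa using h.out a ha⟩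

theorem Nor.init {v : Op H} (h : Nor M A v) : Star.star v * v ∈ A := by
  simpa using h.inn 1 (one_mem A)

theorem Nor.fin {v : Op H} (h : Nor M A v) : v * Star.star v ∈ A := by
  simpa using h.out 1 (one_mem A)

theorem Nor.mul (hm : Masa M A) {v w : Op H} (hv : Nor M A v) (hw : Nor M A w) :
    Nor M A (v * w) := by
  refine ⟨mul_mem hv.mem hw.mem, ?_, fun a ha => ?_, fun a ha => ?_⟩
  · have h1 := hm.comm _ hw.fin _ hv.init
    have h2 : v * w * Star.star (v * w) * (v * w) =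
        v * (w * Star.star w * (Star.star v * v)) * w := by
      simp only [star_mul, mul_assoc]
    have h3 : v * (Star.star v * v * (w * Star.star w)) * w =
        (v * Star.star v * v) * (w * Star.star w * w) := by simp only [mul_assoc]
    unfold R124.PI
    rw [h2, h1, h3, hv.pi, hw.pi]
  · have := hv.out _ (hw.out a ha)
    simpa only [star_mul, mul_assoc] using this
  · have := hw.inn _ (hv.inn a ha)
    simpa only [star_mul, mul_assoc] using this

/-- Partial isometries of `A` (projections, unitaries) are normalisers. -/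
theorem nor_of_mem (hm : Masa M A) {a : Op H} (ha : a ∈ A) (h : R124.PI a) : Nor M A a := by
  exact ⟨hm.le a ha, h, fun b hb => mul_mem (mul_mem ha hb) (star_mem ha),
    fun b hb => mul_mem (mul_mem (star_mem ha) hb) ha⟩

/-- Moving an element of `A` through a normaliser. -/
theorem Nor.mul_comm (hm : Masa M A) {v a : Op H} (hv : Nor M A v) (ha : a ∈ A) :
    v * a = (v * a * Star.star v) * v ∧ a * v = v * (Star.star v * a * v) := by
  constructor
  · calc v * a = v * (Star.star v * v * a) := by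
          rw [← mul_assoc, hv.pi.mul_init]
      _ = v * (a * (Star.star v * v)) := by rw [hm.comm _ hv.init _ ha]
      _ = _ := by simp only [mul_assoc]
  · calc a * v = a * (v * Star.star v) * v := by
          rw [mul_assoc, hv.pi]
      _ = v * Star.star v * a * v := by rw [hm.comm _ hv.fin _ ha]
      _ = _ := by simp only [mul_assoc]

namespace Nce
variable (𝓔 : Nce M A)

theorem NOR_E_EP_conj {ι : Type*} [Fintype ι] {q : ι → Op H} (hq : Part A q) {v T : Op H}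
    (hv : Nor M A v) (hT : T ∈ M) :
    𝓔.E (star v * EP q T * v) = 𝓔.E (star v * T * v) := by
  have hm := 𝓔.masa
  have hS : star v * T * v ∈ M := mul_mem (mul_mem (star_mem hv.mem) hT) hv.mem
  have hc := 𝓔.ce.mem _ hS
  have key : ∀ k, 𝓔.E (star v * (q k * T * q k) * v) =
      star v * q k * v * 𝓔.E (star v * T * v) := by
    intro k
    have ha := hv.inn _ (hq.mem k)
    have h1 : q k * v = v * (star v * q k * v) := (hv.mul_comm hm (hq.mem k)).2
    have h2 : star v * q k = (star v * q k * v) * star v := by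
      simpa using (hv.star.mul_comm hm (hq.mem k)).1
    have h3 : star v * (q k * T * q k) * v =
        (star v * q k * v) * ((star v * T * v) * (star v * q k * v)) := by
      calc star v * (q k * T * q k) * v = (star v * q k) * T * (q k * v) := by
            simp only [mul_assoc]
        _ = ((star v * q k * v) * star v) * T * (v * (star v * q k * v)) := by
            rw [← h1, ← h2]
        _ = _ := by simp only [mul_assoc]
    have h4 : (star v * q k * v) * (star v * q k * v) = star v * q k * v := by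
      calc (star v * q k * v) * (star v * q k * v) = star v * q k * (v * (star v * q k * v)) := by
            simp only [mul_assoc]
        _ = star v * (q k * q k) * v := by rw [← h1]; simp only [mul_assoc]
        _ = _ := by rw [(hq.proj k).isIdempotentElem.eq]
    rw [h3, 𝓔.ce.left _ ha _ (mul_mem hS (hm.le _ ha)), 𝓔.ce.right _ ha _ hS,
      hm.comm _ hc _ ha, ← mul_assoc, h4]
  rw [EP, Finset.mul_sum, Finset.sum_mul, map_sum]
  simp only [key]
  rw [← Finset.sum_mul, ← Finset.sum_mul, ← Finset.mul_sum, hq.sum, mul_one,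
    ← 𝓔.ce.left _ hv.init _ hS]
  congr 1
  rw [← mul_assoc, ← mul_assoc, hv.pi.init_mul]

/-- If `q` is a partition then the `v* q_k v` and `1 - v* v` form a partition `p` with
`EP p (v* T v) = v* (EP q T) v`; use `EP_approx` for `T` and `v* T v`, `ac_mul`. -/
theorem E_conj {v T : Op H} (hv : Nor M A v) (hT : T ∈ M) :
    𝓔.E (star v * T * v) = star v * 𝓔.E T * v := by
  have hm := 𝓔.masa
  have hc := 𝓔.ce.mem _ hT
  have hS : star v * T * v ∈ M := mul_mem (mul_mem (star_mem hv.mem) hT) hv.mem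
  have hd := hv.inn _ hc
  rw [← sub_eq_zero]
  refine 𝓔.n2_eq_zero (sub_mem (𝓔.E_mem hS) (hm.le _ hd)) (le_antisymm ?_ (𝓔.n2_nonneg _))
  refine le_of_forall_pos_le_add fun ε hε => ?_
  obtain ⟨δ, hδ, h1⟩ := 𝓔.ac_mul hv.mem (‖T‖ + ‖T‖) hε
  obtain ⟨n, p, hp, h2⟩ := 𝓔.EP_approx hT hδ
  have h3 := h2 n p hp (Ref.refl p hp.proj)
  have hx : EP p T - 𝓔.E T ∈ M := sub_mem (EP_mem hm hp hT) (𝓔.E_mem hT)
  have h4 := h1 _ hx ((norm_sub_le _ _).trans
    (add_le_add (norm_EP_le hp.toPart0 T) (𝓔.ce.norm_le _ hT))) h3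
  have h5 : 𝓔.E (star v * T * v) - star v * 𝓔.E T * v =
      𝓔.E (star v * ((EP p T - 𝓔.E T) * v)) := by
    rw [sub_mul, mul_sub, map_sub, ← mul_assoc, ← mul_assoc, 𝓔.NOR_E_EP_conj hp hv hT,
      𝓔.E_of_mem hd]
  rw [h5, zero_add]
  have h6 := 𝓔.n2_mul_left (star_mem hv.mem) (mul_mem hx hv.mem)
  have h7 := hv.pi.star.norm_le
  have h8 := 𝓔.n2_nonneg ((EP p T - 𝓔.E T) * v)
  refine (𝓔.n2_E_le (mul_mem (star_mem hv.mem) (mul_mem hx hv.mem))).trans (h6.trans ?_)
  nlinarith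

/-- `c = E v` satisfies `c a = (v a v*) c`, so `v* c` commutes with `A`, `v* c = E (v* c) = c* c`,
`c = v v* c = v c* c`, and `c* c` is a projection below `v* v`. -/
theorem E_nor {v : Op H} (hv : Nor M A v) :
    IsStarProjection (star (𝓔.E v) * 𝓔.E v) ∧ 𝓔.E v = v * (star (𝓔.E v) * 𝓔.E v) := by
  have hm := 𝓔.masa
  have hc := 𝓔.ce.mem _ hv.mem
  have h1 : ∀ a ∈ A, a * (star v * 𝓔.E v) = star v * 𝓔.E v * a := by
    intro a ha
    have h2 : 𝓔.E v * a = v * a * star v * 𝓔.E v := by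
      rw [← 𝓔.ce.right _ ha _ hv.mem, ← 𝓔.ce.left _ (hv.out a ha) _ hv.mem,
        ← (hv.mul_comm hm ha).1]
    have h3 : a * star v = star v * (v * a * star v) := by
      simpa using (hv.star.mul_comm hm ha).2
    rw [mul_assoc (star v), h2, ← mul_assoc, h3]
    simp only [mul_assoc]
  have h2 : star v * 𝓔.E v ∈ A := hm.max _ (mul_mem (star_mem hv.mem) (hm.le _ hc)) h1
  have h3 : star v * 𝓔.E v = star (𝓔.E v) * 𝓔.E v := by
    rw [← 𝓔.E_of_mem h2, 𝓔.ce.right _ hc _ (star_mem hv.mem), 𝓔.ce.map_star _ hv.mem]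
  have h4 : 𝓔.E v = v * (star (𝓔.E v) * 𝓔.E v) := by
    rw [← h3, ← mul_assoc, ← 𝓔.ce.left _ hv.fin _ hv.mem, hv.pi]
  have h5 : 𝓔.E v * (star v * v) = 𝓔.E v := by
    rw [← 𝓔.ce.right _ hv.init _ hv.mem, hv.pi.mul_init]
  refine ⟨isStarProjection_iff'.2 ⟨?_, by simp⟩, h4⟩
  have h6 : star (𝓔.E v) * 𝓔.E v =
      star (v * (star (𝓔.E v) * 𝓔.E v)) * (v * (star (𝓔.E v) * 𝓔.E v)) := by rw [← h4]
  conv_rhs => rw [h6]
  have h7 : star (v * (star (𝓔.E v) * 𝓔.E v)) * (v * (star (𝓔.E v) * 𝓔.E v)) =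
      star (𝓔.E v) * (𝓔.E v * (star v * v)) * (star (𝓔.E v) * 𝓔.E v) := by
    simp only [star_mul, star_star, mul_assoc]
  rw [h7, h5]

theorem E_mul_star_eq_zero {v b : Op H} (hv : Nor M A v) (hb : b ∈ M)
    (h : 𝓔.E (star v * b) = 0) : 𝓔.E (b * star v) = 0 := by
  have h1 := 𝓔.E_conj hv.star (mul_mem (star_mem hv.mem) hb)
  have hbv : b * star v ∈ M := mul_mem hb (star_mem hv.mem)
  rw [h, star_star, mul_zero, zero_mul] at h1
  have h2 : v * (star v * b) * star v = v * star v * (b * star v) := by simp only [mul_assoc]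
  rw [h2, 𝓔.ce.left _ hv.fin _ hbv, 𝓔.masa.comm _ hv.fin _ (𝓔.ce.mem _ hbv),
    ← 𝓔.ce.right _ hv.fin _ hbv] at h1
  rwa [mul_assoc, ← mul_assoc (star v), hv.pi.init_mul] at h1

variable {𝓔}

theorem BN.star {K : ℝ} {v : Op H} (h : 𝓔.BN K v) : 𝓔.BN K (star v) := by
  exact ⟨h.toNor.star, fun a ha h0 => by simpa using h.inn_le a ha h0,
    fun a ha h0 => by simpa using h.out_le a ha h0⟩

theorem BN.mul {K K' : ℝ} (hK : 0 ≤ K) (hK' : 0 ≤ K') {v w : Op H} (hv : 𝓔.BN K v)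
    (hw : 𝓔.BN K' w) : 𝓔.BN (K * K') (v * w) := by
  refine ⟨hv.toNor.mul 𝓔.masa hw.toNor, fun a ha h0 => ?_, fun a ha h0 => ?_⟩
  · have h1 := hv.out_le _ (hw.out a ha) (star_right_conjugate_nonneg h0 w)
    have h2 := mul_le_mul_of_nonneg_left (hw.out_le a ha h0) hK
    have h3 : v * w * a * Star.star (v * w) = v * (w * a * Star.star w) * Star.star v := by
      simp only [star_mul, mul_assoc]
    rw [h3, mul_assoc K]
    exact h1.trans h2
  · have h1 := hw.inn_le _ (hv.inn a ha) (star_left_conjugate_nonneg h0 v)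
    have h2 := mul_le_mul_of_nonneg_left (hv.inn_le a ha h0) hK'
    have h3 : Star.star (v * w) * a * (v * w) = Star.star w * (Star.star v * a * v) * w := by
      simp only [star_mul, mul_assoc]
    rw [h3, _root_.mul_comm K, mul_assoc K']
    exact h1.trans h2

theorem BN.mono {K K' : ℝ} (hK : K ≤ K') {v : Op H} (hv : 𝓔.BN K v) : 𝓔.BN K' v := by
  exact ⟨hv.toNor, fun a ha h0 => (hv.out_le a ha h0).trans
      (mul_le_mul_of_nonneg_right hK (𝓔.re_ψ_nonneg (𝓔.masa.le a ha) h0)),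
    fun a ha h0 => (hv.inn_le a ha h0).trans
      (mul_le_mul_of_nonneg_right hK (𝓔.re_ψ_nonneg (𝓔.masa.le a ha) h0))⟩

theorem NOR_mul_proj_le {p b : Op H} (hp : IsStarProjection p) (hpA : p ∈ A) (hb : b ∈ A)
    (h0 : 0 ≤ b) : (𝓔.ψ (b * p)).re ≤ (𝓔.ψ b).re := by
  have hm := 𝓔.masa
  refine 𝓔.re_ψ_mono (hm.le _ (mul_mem hb hpA)) (hm.le _ hb) ?_
  have := R124.nonneg_mul_proj h0 hp.one_sub (hm.comm _ hb _ (sub_mem (one_mem A) hpA))
  rwa [mul_sub, mul_one, sub_nonneg] at this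

theorem bn_of_mem {a : Op H} (ha : a ∈ A) (h : R124.PI a) : 𝓔.BN 1 a := by
  have hm := 𝓔.masa
  refine ⟨nor_of_mem hm ha h, fun b hb h0 => ?_, fun b hb h0 => ?_⟩
  · rw [hm.comm _ ha _ hb, mul_assoc, one_mul]
    exact NOR_mul_proj_le h.fin (mul_mem ha (star_mem ha)) hb h0
  · rw [hm.comm _ (star_mem ha) _ hb, mul_assoc, one_mul]
    exact NOR_mul_proj_le h.init (mul_mem (star_mem ha) ha) hb h0

/-- Right multiplication by a bounded normaliser is bounded (`E_conj`). -/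
theorem BN.n2_mul {K : ℝ} (hK : 0 ≤ K) {v x : Op H} (hv : 𝓔.BN K v) (hx : x ∈ M) :
    𝓔.n2 (x * v) ≤ Real.sqrt K * 𝓔.n2 x := by
  have hxx : Star.star x * x ∈ M := mul_mem (star_mem hx) hx
  have h1 : Star.star (x * v) * (x * v) = Star.star v * (Star.star x * x) * v := by
    simp only [star_mul, mul_assoc]
  have h2 := hv.inn_le _ (𝓔.ce.mem _ hxx) (𝓔.ce.nonneg _ hxx (star_mul_self_nonneg x))
  rw [← 𝓔.E_conj hv.toNor hxx, 𝓔.ψ_E _ hxx,
    𝓔.ψ_E _ (mul_mem (mul_mem (star_mem hv.mem) hxx) hv.mem)] at h2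
  rw [n2, n2, ← Real.sqrt_mul hK, h1]
  exact Real.sqrt_le_sqrt h2

variable (𝓔)

theorem NOR_exists_max {v : Op H} (hv : Nor M A v) (K : ℝ) (hK : 0 ≤ K) :
    ∃ a₀ ∈ A, 0 ≤ a₀ ∧ a₀ ≤ 1 ∧ ∀ a ∈ A, 0 ≤ a → a ≤ 1 →
      (𝓔.ψ (v * a * star v)).re - K * (𝓔.ψ a).re ≤
        (𝓔.ψ (v * a₀ * star v)).re - K * (𝓔.ψ a₀).re := by
  have hm := 𝓔.masa
  set S : Set ℝ := {r | ∃ a ∈ A, 0 ≤ a ∧ a ≤ 1 ∧
    r = (𝓔.ψ (v * a * star v)).re - K * (𝓔.ψ a).re} with hS
  have hnorm : ∀ a : Op H, 0 ≤ a → a ≤ 1 → ‖a‖ ≤ 1 := fun a h0 h1 =>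
    (CStarAlgebra.norm_le_one_iff_of_nonneg a h0).2 h1
  have hnorm' : ∀ a : Op H, 0 ≤ a → a ≤ 1 → ‖v * a * star v‖ ≤ 1 := fun a h0 h1 => by
    calc ‖v * a * star v‖ ≤ ‖v‖ * ‖a‖ * ‖star v‖ := norm_mul₃_le
      _ ≤ 1 * 1 * 1 := by
        gcongr
        exacts [hv.pi.norm_le, hnorm a h0 h1, hv.pi.star.norm_le]
      _ = 1 := by norm_num
  have hbdd : BddAbove S := by
    refine ⟨(𝓔.ψ 1).re, ?_⟩
    rintro _ ⟨a, ha, h0, h1, rfl⟩
    have h2 := 𝓔.re_ψ_mono (hm.le _ (hv.out a ha)) (one_mem M)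
      ((CStarAlgebra.norm_le_one_iff_of_nonneg _ (star_right_conjugate_nonneg h0 v)).1
        (hnorm' a h0 h1))
    have h3 := mul_nonneg hK (𝓔.re_ψ_nonneg (hm.le a ha) h0)
    linarith
  have hne : S.Nonempty := ⟨_, 0, zero_mem A, le_rfl, zero_le_one, rfl⟩
  obtain ⟨u, -, hu, huS⟩ := exists_seq_tendsto_sSup hne hbdd
  choose a haA ha0 ha1 hua using huS
  obtain ⟨a₀, h₀⟩ := exists_wLim (Filter.hyperfilter ℕ) a (C := 1) fun n => hnorm _ (ha0 n) (ha1 n)
  have hA : a₀ ∈ A := h₀.mem (Eventually.of_forall haA)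
  refine ⟨a₀, hA, h₀.nonneg (Eventually.of_forall ha0), ?_, fun b hb h0 h1 => ?_⟩
  · have h2 := ((wLim_const _ (1 : Op H)).add (h₀.smul (-1))).nonneg
      (Eventually.of_forall fun n => by
        rw [neg_one_smul, ← sub_eq_add_neg, sub_nonneg]; exact ha1 n)
    rwa [neg_one_smul, ← sub_eq_add_neg, sub_nonneg] at h2
  · have h2 := 𝓔.normal.tendsto (C := 1) (Eventually.of_forall fun n =>
      ⟨hm.le _ (haA n), hnorm _ (ha0 n) (ha1 n)⟩) (hm.le _ hA) h₀
    have h3 := 𝓔.normal.tendsto (C := 1) (Eventually.of_forall fun n =>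
      ⟨hm.le _ (hv.out _ (haA n)), hnorm' _ (ha0 n) (ha1 n)⟩) (hm.le _ (hv.out _ hA))
      ((h₀.mul_left v).mul_right (star v))
    have h4 := ((Complex.continuous_re.tendsto _).comp h3).sub
      (((Complex.continuous_re.tendsto _).comp h2).const_mul K)
    have h5 : Tendsto u (Filter.hyperfilter ℕ : Filter ℕ) (𝓝 (sSup S)) :=
      hu.mono_left (Nat.hyperfilter_le_atTop)
    have h6 := tendsto_nhds_unique h5 (h4.congr fun n => (hua n).symm)
    rw [← h6]
    exact le_csSup hbdd ⟨b, hb, h0, h1, rfl⟩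

theorem NOR_hahn {v : Op H} (hv : Nor M A v) {ε : ℝ} (hε : 0 < ε) :
    ∃ g ∈ A, IsStarProjection g ∧ (𝓔.ψ (1 - g)).re ≤ ε ∧ ∃ K : ℝ, 0 ≤ K ∧ ∀ a ∈ A, 0 ≤ a →
      (𝓔.ψ (v * (a * g) * star v)).re ≤ K * (𝓔.ψ a).re := by
  have hm := 𝓔.masa
  have hψ1 : 0 ≤ (𝓔.ψ 1).re := 𝓔.re_ψ_nonneg (one_mem M) zero_le_one
  set K : ℝ := 2 * ((𝓔.ψ 1).re + 1) / ε with hKdef
  have hK : 0 < K := by positivity
  obtain ⟨a₀, hA, h0, h1, hmax⟩ := 𝓔.NOR_exists_max hv K hK.le
  have hsa : IsSelfAdjoint a₀ := IsSelfAdjoint.of_nonneg h0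
  have h1A : 1 - a₀ ∈ A := sub_mem (one_mem A) hA
  have P0 : ∀ b ∈ A, 0 ≤ b → b ≤ 1 →
      (𝓔.ψ (v * (b * (1 - a₀)) * star v)).re ≤ K * (𝓔.ψ (b * (1 - a₀))).re := by
    intro b hb hb0 hb1
    have h2 : 0 ≤ b * (1 - a₀) :=
      Commute.mul_nonneg hb0 (sub_nonneg.2 h1) (hm.comm _ hb _ h1A)
    have h3 : 0 ≤ (1 - b) * (1 - a₀) := Commute.mul_nonneg (sub_nonneg.2 hb1) (sub_nonneg.2 h1)
      (hm.comm _ (sub_mem (one_mem A) hb) _ h1A)
    have h4 := hmax (a₀ + b * (1 - a₀)) (add_mem hA (mul_mem hb h1A)) (add_nonneg h0 h2) (by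
      rw [← sub_nonneg]
      convert h3 using 1
      noncomm_ring)
    rw [mul_add, add_mul, map_add, map_add, Complex.add_re, Complex.add_re] at h4
    linarith
  have P1 : ∀ b ∈ A, 0 ≤ b →
      (𝓔.ψ (v * (b * (1 - a₀)) * star v)).re ≤ K * (𝓔.ψ (b * (1 - a₀))).re := by
    intro b hb hb0
    have hc : 0 < (‖b‖ + 1)⁻¹ := by positivity
    have hb0' : 0 ≤ (‖b‖ + 1)⁻¹ • b := smul_nonneg hc.le hb0
    have h2 := P0 ((‖b‖ + 1)⁻¹ • b) (R124.rsmul_mem _ hb) hb0'
      ((CStarAlgebra.norm_le_one_iff_of_nonneg _ hb0').1 (by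
        rw [norm_smul, Real.norm_eq_abs, abs_of_pos hc, inv_mul_le_iff₀ (by positivity)]
        linarith))
    rw [← Complex.coe_smul, smul_mul_assoc, mul_smul_comm, smul_mul_assoc, map_smul, map_smul,
      smul_eq_mul, smul_eq_mul, Complex.re_ofReal_mul, Complex.re_ofReal_mul, mul_left_comm] at h2
    exact le_of_mul_le_mul_left h2 hc
  have hg := (R124.sp_proj a₀ (1 / 2)).one_sub
  have hgA : 1 - R124.sp a₀ (1 / 2) ∈ A := sub_mem (one_mem A) (R124.sp_mem hsa hA _)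
  refine ⟨1 - R124.sp a₀ (1 / 2), hgA, hg, ?_, K, hK.le, fun a ha ha0 => ?_⟩
  · rw [sub_sub_cancel]
    have h2 := 𝓔.markov (hm.le _ hA) h0 (t := 1 / 2) (by norm_num)
    have h3 := hmax 0 (zero_mem A) le_rfl zero_le_one
    have h4 : v * a₀ * star v ≤ 1 := by
      refine (star_right_conjugate_le_conjugate h1 v).trans ?_
      rw [mul_one]
      exact hv.pi.fin.le_one
    have h5 := 𝓔.re_ψ_mono (hm.le _ (hv.out _ hA)) (one_mem M) h4
    simp only [mul_zero, zero_mul, map_zero, Complex.zero_re, sub_zero] at h3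
    have h6 : K * ε = 2 * ((𝓔.ψ 1).re + 1) := by rw [hKdef]; field_simp
    refine h2.trans ?_
    refine le_of_mul_le_mul_left ?_ hK
    rw [h6, ← mul_div_assoc]
    linarith
  · set f : ℝ → ℝ := fun s => (1 - min s (1 / 2))⁻¹ with hf
    have hpos : ∀ s : ℝ, 0 < 1 - min s (1 / 2) := fun s => by
      have := min_le_right s (1 / 2); linarith
    have hfc : Continuous f := Continuous.inv₀ (by fun_prop) fun s => (hpos s).ne'
    have h2 := R124.cfc_mul_one_sub_sp hsa (1 / 2) (f := fun s => f s * (1 - s) - 1) (by fun_prop)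
      fun s hs => by
        have h3 := hpos s
        rw [min_eq_left hs] at h3
        simp only [hf, min_eq_left hs]
        rw [inv_mul_cancel₀ h3.ne', sub_self]
    rw [cfc_sub (fun s => f s * (1 - s)) (fun _ => 1) a₀ (by fun_prop) (by fun_prop),
      cfc_mul f (fun s => 1 - s) a₀ (by fun_prop) (by fun_prop),
      cfc_sub (fun _ => 1) (fun s : ℝ => s) a₀ (by fun_prop) (by fun_prop),
      cfc_const_one ℝ a₀ hsa, cfc_id' ℝ a₀ hsa, sub_mul, one_mul, sub_eq_zero] at h2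
    have hfA : cfc f a₀ ∈ A := R124.cfc_mem f hA
    have h3 : 0 ≤ a * (1 - R124.sp a₀ (1 / 2)) :=
      R124.nonneg_mul_proj ha0 hg (hm.comm _ ha _ hgA)
    have h4 := P1 (a * (1 - R124.sp a₀ (1 / 2)) * cfc f a₀) (mul_mem (mul_mem ha hgA) hfA)
      (Commute.mul_nonneg h3 (cfc_nonneg fun s _ => (inv_pos.2 (hpos s)).le)
        (hm.comm _ (mul_mem ha hgA) _ hfA))
    have h5 : a * (1 - R124.sp a₀ (1 / 2)) * cfc f a₀ * (1 - a₀) =
        a * (1 - R124.sp a₀ (1 / 2)) := by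
      rw [mul_assoc, mul_assoc, hm.comm _ hgA _ (mul_mem hfA h1A), h2]
    rw [h5] at h4
    exact h4.trans (mul_le_mul_of_nonneg_left (NOR_mul_proj_le hg hgA ha ha0) hK.le)

/-- Hahn decomposition. The functional `λ a = Re ψ (v a v*) - K Re ψ a` attains its maximum on
`{a ∈ A | 0 ≤ a ≤ 1}` at some `a₀` (weak compactness, normality). Put `g = 1 - sp a₀ (1/2)`:
`λ (b (1 - a₀)) ≤ 0` for `0 ≤ b ≤ 1` gives `λ ≤ 0` below `g`, and
`ψ (1 - g) ≤ 2 ψ a₀ ≤ 2 ψ 1 / K`. Do the same for `v*` (projection `g'`) and take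
`g * (v* g' v + 1 - v* v)` (`ac_mul`). -/
theorem exists_bn {v : Op H} (hv : Nor M A v) {ε : ℝ} (hε : 0 < ε) :
    ∃ g ∈ A, IsStarProjection g ∧ (𝓔.ψ (1 - g)).re ≤ ε ∧ ∃ K, 𝓔.BN K (v * g) := by
  have hm := 𝓔.masa
  obtain ⟨g₁, hg₁A, hg₁, h₁, K₁, hK₁, hb₁⟩ := 𝓔.NOR_hahn hv (half_pos hε)
  obtain ⟨δ, hδ, hac⟩ := 𝓔.ac_mul hv.mem 1 (Real.sqrt_pos.2 (half_pos hε))
  obtain ⟨g₂, hg₂A, hg₂, h₂, K₂, hK₂, hb₂⟩ := 𝓔.NOR_hahn hv.star (pow_pos hδ 2)
  simp only [star_star] at hb₂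
  have hkA : star v * (1 - g₂) * v ∈ A := hv.inn _ (sub_mem (one_mem A) hg₂A)
  have hk1 : v * (star v * (1 - g₂) * v) = (1 - g₂) * v :=
    (hv.mul_comm hm (sub_mem (one_mem A) hg₂A)).2.symm
  have hk2 : star ((1 - g₂) * v) * ((1 - g₂) * v) = star v * (1 - g₂) * v := by
    rw [star_mul, hg₂.one_sub.isSelfAdjoint.star_eq, mul_assoc, ← mul_assoc (1 - g₂),
      hg₂.one_sub.isIdempotentElem.eq, mul_assoc]
  have hk : IsStarProjection (star v * (1 - g₂) * v) := by
    rw [← hk2]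
    exact ((nor_of_mem hm (sub_mem (one_mem A) hg₂A) (R124.pi_of_proj hg₂.one_sub)).mul hm
      hv).pi.init
  set k := star v * (1 - g₂) * v with hkdef
  have hhA : 1 - k ∈ A := sub_mem (one_mem A) hkA
  have hvh : v * (1 - k) = g₂ * v := by
    rw [mul_sub, hk1, mul_one, sub_mul, one_mul, sub_sub_cancel]
  have hg : IsStarProjection ((1 - k) * g₁) := hk.one_sub.mul hg₁ (hm.comm _ hhA _ hg₁A)
  refine ⟨(1 - k) * g₁, mul_mem hhA hg₁A, hg, ?_, max K₁ K₂,
    hv.mul hm (nor_of_mem hm (mul_mem hhA hg₁A) (R124.pi_of_proj hg)), fun a ha h0 => ?_,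
    fun a ha h0 => ?_⟩
  · have h3 : 1 - (1 - k) * g₁ = (1 - g₁) + k * g₁ := by noncomm_ring
    have h4 := NOR_mul_proj_le (𝓔 := 𝓔) hg₁ hg₁A hkA hk.nonneg
    have hg₂M : 1 - g₂ ∈ M := hm.le _ (sub_mem (one_mem A) hg₂A)
    have h5 := hac (1 - g₂) hg₂M hg₂.one_sub.norm_le (by
      rw [n2, hg₂.one_sub.isSelfAdjoint.star_eq, hg₂.one_sub.isIdempotentElem.eq]
      exact Real.sqrt_le_iff.2 ⟨hδ.le, h₂⟩)
    rw [n2, hk2, Real.sqrt_le_sqrt_iff (half_pos hε).le] at h5
    rw [h3, map_add, Complex.add_re]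
    linarith
  · have h3 : v * ((1 - k) * g₁) * a * star (v * ((1 - k) * g₁)) =
        v * (a * (1 - k) * g₁) * star v := by
      rw [star_mul, hg.isSelfAdjoint.star_eq, mul_assoc v, hm.comm _ (mul_mem hhA hg₁A) _ ha,
        mul_assoc v, mul_assoc a, ← mul_assoc ((1 - k) * g₁), hg.isIdempotentElem.eq]
      simp only [mul_assoc]
    rw [h3]
    have h4 := hb₁ _ (mul_mem ha hhA) (R124.nonneg_mul_proj h0 hk.one_sub (hm.comm _ ha _ hhA))
    have h5 := NOR_mul_proj_le (𝓔 := 𝓔) hk.one_sub hhA ha h0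
    refine h4.trans ((mul_le_mul_of_nonneg_left h5 hK₁).trans ?_)
    exact mul_le_mul_of_nonneg_right (le_max_left _ _) (𝓔.re_ψ_nonneg (hm.le _ ha) h0)
  · have hag : a * g₂ ∈ A := mul_mem ha hg₂A
    have h3 : star (v * ((1 - k) * g₁)) * a * (v * ((1 - k) * g₁)) =
        star v * (a * g₂) * v * g₁ := by
      rw [← mul_assoc v, hvh, star_mul, star_mul, hg₁.isSelfAdjoint.star_eq,
        hg₂.isSelfAdjoint.star_eq]
      calc g₁ * (star v * g₂) * a * (g₂ * v * g₁) = g₁ * (star v * (g₂ * a * g₂) * v) * g₁ := by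
            simp only [mul_assoc]
        _ = g₁ * (star v * (a * g₂) * v) * g₁ := by
            rw [hm.comm _ hg₂A _ ha, mul_assoc a, hg₂.isIdempotentElem.eq]
        _ = _ := by
            rw [hm.comm _ hg₁A _ (hv.inn _ hag), mul_assoc _ g₁, hg₁.isIdempotentElem.eq]
    rw [h3]
    have h4 := NOR_mul_proj_le (𝓔 := 𝓔) hg₁ hg₁A (hv.inn _ hag)
      (star_left_conjugate_nonneg (R124.nonneg_mul_proj h0 hg₂ (hm.comm _ ha _ hg₂A)) v)
    refine h4.trans ((hb₂ a ha h0).trans ?_)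
    exact mul_le_mul_of_nonneg_right (le_max_right _ _) (𝓔.re_ψ_nonneg (hm.le _ ha) h0)

theorem perp_of_bn {b : Op H} (hb : b ∈ M)
    (h : ∀ K v, 𝓔.BN K v → 𝓔.E (star v * b) = 0) : 𝓔.Perp b := by
  intro v hv
  have hm := 𝓔.masa
  have hx : star v * b ∈ M := mul_mem (star_mem hv.mem) hb
  have hc := 𝓔.ce.mem _ hx
  refine 𝓔.n2_eq_zero (hm.le _ hc) (le_antisymm ?_ (𝓔.n2_nonneg _))
  refine le_of_forall_pos_le_add fun ε hε => ?_
  set c := 𝓔.E (star v * b) with hcdef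
  have hδ : 0 < ε / (‖c‖ + 1) := by positivity
  obtain ⟨g, hgA, hg, h1, K, hK⟩ := 𝓔.exists_bn hv (pow_pos hδ 2)
  have h2 := h K _ hK
  rw [star_mul, hg.isSelfAdjoint.star_eq, mul_assoc, 𝓔.ce.left _ hgA _ hx, ← hcdef,
    hm.comm _ hgA _ hc] at h2
  have h3 : c = c * (1 - g) := by rw [mul_sub, h2, mul_one, sub_zero]
  have hg' : 1 - g ∈ M := hm.le _ (sub_mem (one_mem A) hgA)
  have h4 : 𝓔.n2 (1 - g) ≤ ε / (‖c‖ + 1) := by
    rw [n2, hg.one_sub.isSelfAdjoint.star_eq, hg.one_sub.isIdempotentElem.eq]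
    exact Real.sqrt_le_iff.2 ⟨hδ.le, h1⟩
  have h5 := 𝓔.n2_mul_left (hm.le _ hc) hg'
  rw [← h3] at h5
  have h6 : ‖c‖ * (ε / (‖c‖ + 1)) ≤ ε := by
    rw [← mul_div_assoc, div_le_iff₀ (by positivity)]
    nlinarith [norm_nonneg c]
  have h7 := mul_le_mul_of_nonneg_left h4 (norm_nonneg c)
  linarith

theorem N0_mem {x : Op H} (hx : x ∈ 𝓔.N0) : x ∈ M := by
  induction hx using Submodule.span_induction with
  | mem v hv => obtain ⟨K, hK⟩ := hv; exact hK.mem
  | zero => exact zero_mem M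
  | add x y _ _ hx hy => exact add_mem hx hy
  | smul c x _ hx => exact R124.csmul_mem c hx

/-- An element of `A` is a combination of unitaries (or use `R124.exists_step`-free argument:
`a = (u + u*) / 2`, `u = a + i √(1 - a²)`). -/
theorem mem_N0_of_mem {a : Op H} (ha : a ∈ A) : a ∈ 𝓔.N0 := by
  have : IsClosed (A.toStarSubalgebra : Set (Op H)) := R124.isClosed_vn A
  obtain ⟨u, c, h, -⟩ := CStarAlgebra.exists_sum_four_unitary (⟨a, ha⟩ : A.toStarSubalgebra)
  have h1 : a = ∑ i, c i • (((u i : A.toStarSubalgebra)) : Op H) := by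
    simpa using congrArg Subtype.val h
  rw [h1]
  refine sum_mem fun i _ => Submodule.smul_mem _ _ (Submodule.subset_span ⟨1, ?_⟩)
  refine bn_of_mem (u i).1.2 ?_
  have h2 : (((u i : A.toStarSubalgebra)) : Op H) * star (((u i : A.toStarSubalgebra)) : Op H) = 1 :=
    congrArg Subtype.val (u i).2.2
  rw [R124.PI, h2, one_mul]

theorem N0_star {x : Op H} (hx : x ∈ 𝓔.N0) : star x ∈ 𝓔.N0 := by
  induction hx using Submodule.span_induction with
  | mem v hv => obtain ⟨K, hK⟩ := hv; exact Submodule.subset_span ⟨K, hK.star⟩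
  | zero => rw [star_zero]; exact zero_mem _
  | add x y _ _ hx hy => rw [star_add]; exact add_mem hx hy
  | smul c x _ hx => rw [star_smul]; exact Submodule.smul_mem _ _ hx

theorem N0_mul {x y : Op H} (hx : x ∈ 𝓔.N0) (hy : y ∈ 𝓔.N0) : x * y ∈ 𝓔.N0 := by
  induction hx using Submodule.span_induction with
  | mem v hv =>
    obtain ⟨K, hK⟩ := hv
    induction hy using Submodule.span_induction with
    | mem w hw =>
      obtain ⟨K', hK'⟩ := hw
      exact Submodule.subset_span ⟨_, (hK.mono (le_max_left K 0)).mul (le_max_right _ _)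
        (le_max_right _ _) (hK'.mono (le_max_left K' 0))⟩
    | zero => rw [mul_zero]; exact zero_mem _
    | add x y _ _ hx hy => rw [mul_add]; exact add_mem hx hy
    | smul c x _ hx => rw [mul_smul_comm]; exact Submodule.smul_mem _ _ hx
  | zero => rw [zero_mul]; exact zero_mem _
  | add x y _ _ hx hy => rw [add_mul]; exact add_mem hx hy
  | smul c x _ hx => rw [smul_mul_assoc]; exact Submodule.smul_mem _ _ hx

theorem N0_right {b : Op H} (hb : b ∈ 𝓔.N0) :
    ∃ C : ℝ, 0 ≤ C ∧ ∀ x ∈ M, 𝓔.n2 (x * b) ≤ C * 𝓔.n2 x := by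
  induction hb using Submodule.span_induction with
  | mem v hv =>
    obtain ⟨K, hK⟩ := hv
    exact ⟨_, Real.sqrt_nonneg _, fun x hx =>
      (hK.mono (le_max_left K 0)).n2_mul (le_max_right _ _) hx⟩
  | zero => exact ⟨0, le_rfl, fun x _ => by simp [n2]⟩
  | add a b ha hb iha ihb =>
    obtain ⟨C, hC, h⟩ := iha
    obtain ⟨C', hC', h'⟩ := ihb
    refine ⟨C + C', add_nonneg hC hC', fun x hx => ?_⟩
    rw [mul_add, add_mul]
    exact (𝓔.n2_add_le (mul_mem hx (𝓔.N0_mem ha)) (mul_mem hx (𝓔.N0_mem hb))).trans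
      (add_le_add (h x hx) (h' x hx))
  | smul c a _ iha =>
    obtain ⟨C, hC, h⟩ := iha
    refine ⟨‖c‖ * C, mul_nonneg (norm_nonneg c) hC, fun x hx => ?_⟩
    rw [mul_smul_comm, 𝓔.n2_smul, mul_assoc]
    exact mul_le_mul_of_nonneg_left (h x hx) (norm_nonneg c)

theorem NOR_inv_of_sq {K : ℝ} {w : Op H} (hw : 𝓔.BN K w) (h : w * w = 0) :
    ∃ u, 𝓔.Inv (2 * K + 1) u ∧ w = (w * star w) * u := by
  have hm := 𝓔.masa
  have h' : star w * star w = 0 := by simpa using congrArg star h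
  have p1 : w * star w * w = w := hw.pi
  have p2 : star w * w * star w = star w := hw.pi.init_mul
  have hrA : 1 - star w * w - w * star w ∈ A :=
    sub_mem (sub_mem (one_mem A) hw.toNor.init) hw.toNor.fin
  set r := 1 - star w * w - w * star w with hr
  have r1 : w * r = 0 := by
    rw [hr, mul_sub, mul_sub, mul_one, ← mul_assoc, ← mul_assoc, p1, h]; simp
  have r2 : star w * r = 0 := by
    rw [hr, mul_sub, mul_sub, mul_one, ← mul_assoc, ← mul_assoc, p2, h']; simp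
  have r3 : star r = r := by simp [hr]
  have r4 : r * w = 0 := by simpa [r3] using congrArg star r2
  have r5 : r * star w = 0 := by simpa [r3] using congrArg star r1
  have r6 : r * r = r := by
    calc r * r = (1 - star w * w - w * star w) * r := rfl
      _ = r := by rw [sub_mul, sub_mul, one_mul, mul_assoc, mul_assoc, r1, r2]; simp
  have hrp : IsStarProjection r := isStarProjection_iff'.2 ⟨r6, r3⟩
  have u1 : w * (w + star w + r) = w * star w := by rw [mul_add, mul_add, h, r1]; simp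
  have u2 : star w * (w + star w + r) = star w * w := by rw [mul_add, mul_add, h', r2]; simp
  have u3 : r * (w + star w + r) = r := by rw [mul_add, mul_add, r4, r5, r6]; simp
  have key : ∀ a ∈ A, (w + star w + r) * a * (w + star w + r) =
      w * a * star w + star w * a * w + a * r := by
    intro a ha
    have h1 := (hw.toNor.mul_comm hm ha).1
    have h2 := (hw.toNor.star.mul_comm hm ha).1
    rw [star_star] at h2
    have e1 : w * a * (w + star w + r) = w * a * star w := by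
      calc w * a * (w + star w + r) = w * a * star w * w * (w + star w + r) := by rw [← h1]
        _ = w * a * star w * w * star w := by rw [mul_assoc _ w, u1, ← mul_assoc]
        _ = _ := by rw [← h1]
    have e2 : star w * a * (w + star w + r) = star w * a * w := by
      calc star w * a * (w + star w + r) = star w * a * w * star w * (w + star w + r) := by
            rw [← h2]
        _ = star w * a * w * star w * w := by rw [mul_assoc _ (star w), u2, ← mul_assoc]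
        _ = _ := by rw [← h2]
    rw [add_mul, add_mul, add_mul, add_mul, e1, e2, hm.comm _ hrA _ ha, mul_assoc a, u3]
  refine ⟨w + star w + r, ⟨add_mem (add_mem hw.mem (star_mem hw.mem)) (hm.le _ hrA), ?_, ?_,
    fun a ha => ?_, fun a ha h0 => ?_⟩, ?_⟩
  · rw [star_add, star_add, star_star, r3, add_comm (star w)]
  · have := key 1 (one_mem A)
    simp only [mul_one, one_mul] at this
    rw [this, hr]; abel
  · rw [key a ha]
    exact add_mem (add_mem (hw.out a ha) (hw.inn a ha)) (mul_mem ha hrA)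
  · rw [key a ha, map_add, map_add, Complex.add_re, Complex.add_re]
    have h1 := hw.out_le a ha h0
    have h2 := hw.inn_le a ha h0
    have h3 := NOR_mul_proj_le (𝓔 := 𝓔) hrp hrA ha h0
    linarith
  · rw [mul_assoc, u2, ← mul_assoc, p1]

/-- The span of the products `a * u`. -/
def NOR_G (K : ℝ) : Submodule ℂ (Op H) :=
  Submodule.span ℂ {x | ∃ a ∈ A, ∃ u, 𝓔.Inv K u ∧ x = a * u}

theorem NOR_G_mono {K K' : ℝ} (h : K ≤ K') : 𝓔.NOR_G K ≤ 𝓔.NOR_G K' := by
  refine Submodule.span_mono ?_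
  rintro _ ⟨a, ha, u, hu, rfl⟩
  exact ⟨a, ha, u, ⟨hu.mem, hu.sa, hu.sq, hu.nor, fun b hb h0 => (hu.le b hb h0).trans
    (mul_le_mul_of_nonneg_right h (𝓔.re_ψ_nonneg (𝓔.masa.le b hb) h0))⟩, rfl⟩

theorem NOR_mem_G {ι : Type*} [Fintype ι] {p : ι → Op H} (hp : Part A p) {t : Op H}
    (ht : t ∈ 𝓔.N0) : ∃ K : ℝ, 1 ≤ K ∧ t - EP p t ∈ 𝓔.NOR_G K := by
  classical
  induction ht using Submodule.span_induction with
  | mem v hv =>
    obtain ⟨K, hK⟩ := hv
    have hK' := hK.mono (le_max_left K 0)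
    have h0 : 0 ≤ max K 0 := le_max_right _ _
    refine ⟨2 * (1 * max K 0 * 1) + 1, by linarith, ?_⟩
    have h1 : v - EP p v = ∑ i, ∑ j ∈ Finset.univ.erase i, p i * v * p j := by
      have h2 : v = ∑ i, ∑ j, p i * v * p j := by
        simp only [← Finset.mul_sum, hp.sum, mul_one]
        rw [← Finset.sum_mul, hp.sum, one_mul]
      rw [sub_eq_iff_eq_add, EP, ← Finset.sum_add_distrib]
      refine h2.trans (Finset.sum_congr rfl fun i _ => ?_)
      rw [Finset.sum_erase_add _ _ (Finset.mem_univ i)]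
    rw [h1]
    refine sum_mem fun i _ => sum_mem fun j hj => ?_
    have hw : 𝓔.BN (1 * max K 0 * 1) (p i * v * p j) :=
      ((bn_of_mem (hp.mem i) (R124.pi_of_proj (hp.proj i))).mul zero_le_one h0 hK').mul
        (by linarith) zero_le_one (bn_of_mem (hp.mem j) (R124.pi_of_proj (hp.proj j)))
    obtain ⟨u, hu, h3⟩ := 𝓔.NOR_inv_of_sq hw (by
      have h4 := hp.orth j i (Finset.ne_of_mem_erase hj)
      calc p i * v * p j * (p i * v * p j) = p i * v * (p j * p i) * (v * p j) := by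
            simp only [mul_assoc]
        _ = 0 := by rw [h4, mul_zero, zero_mul])
    exact Submodule.subset_span ⟨_, hw.toNor.fin, u, hu, h3⟩
  | zero => exact ⟨1, le_rfl, by simp [EP]⟩
  | add x y _ _ hx hy =>
    obtain ⟨K, hK, hx⟩ := hx
    obtain ⟨K', -, hy⟩ := hy
    refine ⟨max K K', hK.trans (le_max_left _ _), ?_⟩
    have h1 : x + y - EP p (x + y) = (x - EP p x) + (y - EP p y) := by
      simp only [EP, mul_add, add_mul, Finset.sum_add_distrib]; abel
    rw [h1]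
    exact add_mem (𝓔.NOR_G_mono (le_max_left _ _) hx) (𝓔.NOR_G_mono (le_max_right _ _) hy)
  | smul c x _ hx =>
    obtain ⟨K, hK, hx⟩ := hx
    refine ⟨K, hK, ?_⟩
    have h1 : c • x - EP p (c • x) = c • (x - EP p x) := by
      simp only [EP, mul_smul_comm, smul_mul_assoc, smul_sub, Finset.smul_sum]
    rw [h1]
    exact Submodule.smul_mem _ _ hx

/-- Let `p` be a partition. For `i ≠ j` and `v` in `BN K`, `w = p i * v * p j` equals
`(w w*) * u` for the symmetry `u = w + w* + 1 - w* w - w w*`, which is in `Inv (2 K + 1)`. -/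
theorem exists_inv {ι : Type*} [Fintype ι] {p : ι → Op H} (hp : Part A p) {t : Op H}
    (ht : t ∈ 𝓔.N0) : ∃ (n : ℕ) (u a : Fin n → Op H) (K : ℝ), 1 ≤ K ∧ (∀ g, 𝓔.Inv K (u g)) ∧
      (∀ g, a g ∈ A) ∧ t - EP p t = ∑ g, a g * u g := by
  obtain ⟨K, hK, h⟩ := 𝓔.NOR_mem_G hp ht
  obtain ⟨n, c, x, hx⟩ := Submodule.mem_span_set'.1 h
  choose a ha u hu hxa using fun g => (x g).2
  refine ⟨n, u, fun g => c g • a g, K, hK, hu, fun g => R124.csmul_mem _ (ha g), ?_⟩
  rw [← hx]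
  exact Finset.sum_congr rfl fun g _ => by rw [hxa g, smul_mul_assoc]

end Nce

end Crest.Agent.R109
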