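import Crest.Agent.R109.Mtp
import Crest.Agent.R109.Nev
import Crest.Agent.R109.Init

/-! Task 109-POT: the potential on a net. -/

set_option autoImplicit false

open Polynomial MeasureTheory

namespace Crest.Agent.R109

variable {G Y : Type*} [Fintype G] [DecidableEq G] [DecidableEq Y] [MeasurableSpace Y] {r : ℕ}

theorem Pot_sumC [NeZero r] (N : Net G Y) (χ : ℂ[X]) {z : ℝ} (hz : 0 ≤ z) (L : ℝ) (n : ℕ) :
    ∃ C : ℝ, 0 ≤ C ∧ ∀ s : Y → St r, (∀ y, s y ≠ St.del → y ∈ N.slab L) → ∀ S : Finset Y,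
      S.card ≤ n → ‖sumC χ (PP z N.M N.w s S)‖ ≤ C := by
  obtain ⟨C, h0, hC⟩ := sumC_bdd χ n (Real.exp L * (25 * z + 1))
  refine ⟨C, h0, fun s hs S hS => hC _ ?_ fun x hx => PP_root_le hz (N.env S) (N.rng hs S) hx⟩
  rw [(PP_monic z N.M N.w s S).2]
  exact (Finset.card_filter_le _ _).trans hS

omit [Fintype G] [DecidableEq G] [DecidableEq Y] in
theorem Pot_int {ν : Measure Y} {f : Y → ℝ} (hm : Measurable f) {C : ℝ} (hb : ∀ y, |f y| ≤ C)
    {A : Set Y} (hA : ν A ≠ ⊤) (hs : ∀ y ∉ A, f y = 0) : Integrable f ν := by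
  rw [← integrableOn_iff_integrable_of_support_subset (s := A)
    fun y hy => not_not.1 fun h => hy (hs y h)]
  exact Measure.integrableOn_of_bounded hA hm.aestronglyMeasurable
    (Filter.Eventually.of_forall fun y => hb y)

theorem Pot_w (N : Net G Y) : Measurable N.w := Real.measurable_exp.comp N.meas_τ

theorem Pot_slab (N : Net G Y) (L : ℝ) : N.ν (N.slab L) ≠ ⊤ := N.fin 0 L

theorem Pot_wt (N : Net G Y) {L : ℝ} {y : Y} (hy : y ∈ N.slab L) :
    1 ≤ N.w y ∧ N.w y ≤ Real.exp L := ⟨Real.one_le_exp hy.1, Real.exp_le_exp.2 hy.2⟩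

omit [MeasurableSpace Y] [DecidableEq Y] in
theorem Pot_delS (B : Set Y) (s : Y → St r) (y : Y) : delS B s y = s y ∨ delS B s y = St.del := by
  unfold delS
  split_ifs
  · exact Or.inr rfl
  · exact Or.inl rfl

theorem Pot_all (N : Net G Y) {L : ℝ} {s : Y → St r} (hs : N.Adm L s) (y : Y) :
    delS (N.slab L) s y = St.del := by
  unfold delS
  split_ifs with h
  · rfl
  · exact not_not.1 fun h' => h (hs.2 y h')

theorem Net.pd_loc (N : Net G Y) (χ : ℝ[X]) (z : ℝ) (R : ℕ) {s s' : Y → St r} {y : Y}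
    (h : ∀ u ∈ ball N.φ (2 * R) y, s u = s' u) : N.pd χ z R s y = N.pd χ z R s' y := by
  refine dens_congr (fun S hS => ?_) y
  rw [PP_congr z (fun u hu => h u (hS hu)) (fun _ _ _ => rfl) fun _ _ _ _ _ _ _ => rfl]

/-- `dens_eq_zero`, `PP_of_live`. -/
theorem Net.pd_del (N : Net G Y) (χ : ℝ[X]) (z : ℝ) (R : ℕ) {s : Y → St r} {y : Y}
    (h : s y = St.del) : N.pd χ z R s y = 0 := by
  refine dens_eq_zero fun S _ => ?_
  rw [PP_of_live z N.M N.w (s' := s) (U' := S) _ fun _ _ => rfl]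
  ext x
  simp only [PfB_mem_live, Finset.mem_erase]
  exact ⟨fun hx => ⟨hx.1.2, hx.2⟩, fun hx => ⟨⟨fun e => hx.2 (e ▸ h), hx.1⟩, hx.2⟩⟩

/-- `abs_dens_le`, `sumC_bdd`, `PP_monic`, `PP_root_le`. -/
theorem Net.pd_bdd [NeZero r] (N : Net G Y) (χ : ℝ[X]) {z : ℝ} (hz : 0 ≤ z) (R : ℕ) (L : ℝ) :
    ∃ C : ℝ, ∀ s : Y → St r, (∀ y, s y ≠ St.del → y ∈ N.slab L) → ∀ y, |N.pd χ z R s y| ≤ C := by
  obtain ⟨C, h0, hC⟩ := Pot_sumC (r := r) N (cx χ) hz L (words G (2 * R)).card
  refine ⟨4 ^ (words G (2 * R)).card * C, fun s hs y => ?_⟩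
  refine (abs_dens_le h0 (fun S hS => (Complex.abs_re_le_norm _).trans (hC s hs S
    ((Finset.card_le_card hS).trans (card_ball_le _ _ _)))) y).trans ?_
  exact mul_le_mul_of_nonneg_right (pow_le_pow_right₀ (by norm_num) (card_ball_le _ _ _)) h0

theorem Net.inc_bdd [NeZero r] (N : Net G Y) (χ : ℂ[X]) {z : ℝ} (hz : 0 ≤ z) (R : ℕ) (L : ℝ) :
    ∃ C : ℝ, ∀ s : Y → St r, (∀ y, s y ≠ St.del → y ∈ N.slab L) → ∀ y ∈ N.slab L, ∀ o,
      ‖N.inc χ z R s y o‖ ≤ C := by
  obtain ⟨C, -, hC⟩ := Pot_sumC (r := r) N χ hz L (words G R).card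
  refine ⟨C + C, fun s hs y hy o => (norm_sub_le _ _).trans (add_le_add
    (hC _ (fun x hx => ?_) _ (card_ball_le _ _ _)) (hC s hs _ (card_ball_le _ _ _)))⟩
  by_cases h : x = y
  · rwa [h]
  · rw [Function.update_of_ne h] at hx
    exact hs x hx

/-- `sum_dens_sub` with `N₀ = ball R u`, `Kern.Ic_inter`. -/
theorem Net.sum_pd [NeZero r] (N : Net G Y) {χ : ℝ[X]} {R : ℕ} (hχ : χ.natDegree ≤ R) (z : ℝ)
    (s : Y → St r) (u : Y) (o : St r) :
    ∑ y ∈ ball N.φ (2 * R) u, (N.pd χ z R (Function.update s u o) y - N.pd χ z R s y) =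
      (N.inc (cx χ) z R s u o).re := by
  refine (sum_dens_sub (N₀ := ball N.φ R u) (fun x => ball N.φ (2 * R) x)
    (ball_mono _ (by omega) u) (fun x hx y hy => ?_) (by simp only [PP_empty]) fun S => ?_).trans
    (Complex.sub_re _ _).symm
  · rw [two_mul]
    exact ball_trans (ball_symm N.invol hx) hy
  · have := congrArg Complex.re (N.toKern.Ic_inter (natDegree_map_le.trans hχ :
      (cx χ).natDegree ≤ R) z N.w s S u o)
    simpa only [Ic, Complex.sub_re] using this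

theorem Pot_meas [NeZero r] (N : Net G Y) (χ : ℝ[X]) (z : ℝ) (R : ℕ) {s : Y → St r}
    (hs : Measurable s) : Measurable (N.pd χ z R s) :=
  N.toKern.measurable_dens (cx χ) z (2 * R) (Pot_w N) hs

theorem Pot_supp (N : Net G Y) (χ : ℝ[X]) (z : ℝ) (R : ℕ) {L : ℝ} {s : Y → St r}
    (hs : N.Adm L s) : ∀ y ∉ N.slab L, N.pd χ z R s y = 0 := fun y hy =>
  N.pd_del χ z R (not_not.1 fun h => hy (hs.2 y h))

theorem Pot_pd_int [NeZero r] (N : Net G Y) (χ : ℝ[X]) {z : ℝ} (hz : 0 ≤ z) (R : ℕ) {L : ℝ}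
    {s : Y → St r} (hs : N.Adm L s) : Integrable (N.pd χ z R s) N.ν := by
  obtain ⟨C, hC⟩ := N.pd_bdd (r := r) χ hz R L
  exact Pot_int (Pot_meas N χ z R hs.1) (hC s hs.2) (Pot_slab N L) (Pot_supp N χ z R hs)

theorem Pot_chi [NeZero r] (N : Net G Y) {χ : ℝ[X]} (R : ℕ) {z L β : ℝ} (hz : 0 ≤ z)
    (hc : Chi (Real.exp L * (25 * z + 1)) β χ) {s : Y → St r} (hs : N.Adm L s) {u : Y}
    (hu : u ∈ N.slab L) :
    |(N.inc (cx χ) z R s u St.del).re + Dp z N.M N.w s (ball N.φ R u) u (s u)| ≤ 4 * β := by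
  have := Dp_chi (Real.exp_pos N.k) hz (N.env (ball N.φ R u)) (N.rng hs.2 _)
    (self_mem_ball N.φ R u) (Pot_wt N hu) le_rfl hc St.del
  rwa [Dp_del, zero_sub, sub_neg_eq_add] at this

theorem Net.pot_change [NeZero r] (N : Net G Y) {χ : ℝ[X]} {R : ℕ} (hχ : χ.natDegree ≤ R) {z : ℝ}
    (hz : 0 ≤ z) {L : ℝ} {s s' : Y → St r} (hs : N.Adm L s) (hs' : N.Adm L s') {V : Set Y}
    (hV : MeasurableSet V) (hsep : Sepd N.φ (4 * R) V) (h : ∀ y ∉ V, s' y = s y) :
    N.pot χ z R s' - N.pot χ z R s = ∫ u in V, (N.inc (cx χ) z R s u (s' u)).re ∂N.ν := by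
  have := (N.chg (N.pd χ z R) (2 * R) (fun s s' y h => N.pd_loc χ z R h) hV
    (hsep.mono (by omega) subset_rfl) h (Pot_meas N χ z R hs.1) (Pot_meas N χ z R hs'.1)
    (Pot_pd_int N χ hz R hs) (Pot_pd_int N χ hz R hs')).2
  simp only [N.sum_pd hχ] at this
  exact this

/-- `iter` for `-pd` with `B` the slab; `Dp_chi`, `init_Dp`. -/
theorem Net.pot_init [NeZero r] (N : Net G Y) {χ : ℝ[X]} {R : ℕ} (hχ : χ.natDegree ≤ R)
    {z L β : ℝ} (hz : 3 / Real.sqrt r ≤ z) (hβ : 0 ≤ β) (hc : Chi (Real.exp L * (25 * z + 1)) β χ)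
    {s : Y → St r} (hs : N.Adm L s) (h : ∀ y, s y = St.unc ∨ s y = St.del) :
    N.pot χ z R s ≤ 4 * β * N.ν.real (N.slab L) := by
  have hz0 : 0 ≤ z := le_trans (by positivity) hz
  obtain ⟨C, hC⟩ := N.pd_bdd (r := r) χ hz0 R L
  have hm := N.measurableSet_slab L
  have := N.iter (fun s y => -N.pd χ z R s y) (2 * R)
    (fun s s' y h => by rw [N.pd_loc χ z R h]) s hm (Pot_slab N L) hm (Pot_slab N L)
    (C := C) (b := 4 * β) (by positivity)
    (fun B' _ hB' => (Pot_meas N χ z R (measurable_delS hB' hs.1)).neg)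
    (fun B' _ y => by
      rw [abs_neg]
      exact hC _ (fun x hx => hs.2 x fun e => hx ((Pot_delS B' s x).elim (·.trans e) id)) y)
    (fun B' _ y hy => by
      rw [N.pd_del χ z R, neg_zero]
      exact (Pot_delS B' s y).elim (·.trans (not_not.1 fun h => hy (hs.2 y h))) id)
    (fun B' _ u hu => by
      have h1 : ∀ x, delS B' s x ≠ St.del → x ∈ N.slab L := fun x hx =>
        hs.2 x fun e => hx ((Pot_delS B' s x).elim (·.trans e) id)
      have h2 : ∀ x, delS B' s x = St.unc ∨ delS B' s x = St.del := fun x =>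
        (Pot_delS B' s x).elim (fun e => e ▸ h x) Or.inr
      have h3 := Dp_chi (Real.exp_pos N.k) hz0 (N.env (ball N.φ R u)) (N.rng h1 _)
        (self_mem_ball N.φ R u) (Pot_wt N hu) le_rfl hc St.del
      have h4 : Dp z N.M N.w (delS B' s) (ball N.φ R u) u (delS B' s u) = 0 := by
        rcases h2 u with e | e <;> rw [e]
        · exact init_Dp hz (N.env _) (fun x _ => h2 x) u
        · exact Dp_del _ _ _ _ _ _
      rw [h4, Dp_del, sub_zero, sub_zero] at h3
      have h5 := N.sum_pd hχ z (delS B' s) u St.del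
      rw [Finset.sum_sub_distrib] at h5 ⊢
      simp only [Finset.sum_neg_distrib]
      linarith [(abs_le.1 h3).1, show (N.inc (cx χ) z R (delS B' s) u St.del).re =
        (Ic (cx χ) z N.M N.w (delS B' s) (ball N.φ R u) u St.del).re from rfl])
  simp only [N.pd_del χ z R (Pot_all N hs _), neg_zero, integral_zero, integral_neg, zero_sub,
    neg_neg] at this
  exact this

/-- `iter` with `B = {s = unc}`; `Dp_chi`, `Dp_nonneg`. -/
theorem Net.pot_del_unc [NeZero r] (N : Net G Y) {χ : ℝ[X]} {R : ℕ} (hχ : χ.natDegree ≤ R)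
    {z L β : ℝ} (hz : 0 ≤ z) (hβ : 0 ≤ β) (hc : Chi (Real.exp L * (25 * z + 1)) β χ)
    {s : Y → St r} (hs : N.Adm L s) :
    N.pot χ z R (delS {y | s y = St.unc} s) ≤ N.pot χ z R s + 4 * β * N.ν.real (N.slab L) := by
  obtain ⟨C, hC⟩ := N.pd_bdd (r := r) χ hz R L
  have hB : MeasurableSet {y | s y = St.unc} := hs.1 (t := {St.unc}) trivial
  have hBL : {y | s y = St.unc} ⊆ N.slab L := fun y hy => hs.2 y (by rw [hy]; simp)
  have := N.iter (N.pd χ z R) (2 * R) (fun s s' y h => N.pd_loc χ z R h) s hB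
    (measure_ne_top_of_subset hBL (Pot_slab N L)) (N.measurableSet_slab L) (Pot_slab N L)
    (C := C) (b := 4 * β) (by positivity)
    (fun B' _ hB' => Pot_meas N χ z R (measurable_delS hB' hs.1))
    (fun B' _ y =>
      hC _ (fun x hx => hs.2 x fun e => hx ((Pot_delS B' s x).elim (·.trans e) id)) y)
    (fun B' _ y hy => N.pd_del χ z R
      ((Pot_delS B' s y).elim (·.trans (not_not.1 fun h => hy (hs.2 y h))) id))
    (fun B' _ u hu => by
      have h1 : ∀ x, delS B' s x ≠ St.del → x ∈ N.slab L := fun x hx =>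
        hs.2 x fun e => hx ((Pot_delS B' s x).elim (·.trans e) id)
      have h3 := Dp_chi (Real.exp_pos N.k) hz (N.env (ball N.φ R u)) (N.rng h1 _)
        (self_mem_ball N.φ R u) (Pot_wt N (hBL hu)) le_rfl hc St.del
      have h4 := Dp_nonneg (Real.exp_pos N.k) hz (delS B' s) (N.env (ball N.φ R u))
        (self_mem_ball N.φ R u) (delS B' s u)
      rw [Dp_del] at h3
      rw [N.sum_pd hχ]
      linarith [(abs_le.1 h3).2, show (N.inc (cx χ) z R (delS B' s) u St.del).re =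
        (Ic (cx χ) z N.M N.w (delS B' s) (ball N.φ R u) u St.del).re from rfl])
  have h2 := mul_le_mul_of_nonneg_left (measureReal_mono hBL (Pot_slab N L))
    (show 0 ≤ 4 * β by positivity)
  unfold Net.pot
  linarith

/-- `dd` computed in `U`. -/
noncomputable def Pot_dU (N : Net G Y) (χ : ℝ[X]) (z : ℝ) (s : Y → St r) (U : Finset Y)
    (y : Y) : ℝ :=
  if s y = St.del then 0 else (dg (cx χ) (live s U) (Yc z N.M N.w s) y).re

theorem Pot_deg {χ : ℝ[X]} {R : ℕ} (hχ : χ.natDegree ≤ R) : (cx χ).natDegree ≤ R :=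
  natDegree_map_le.trans hχ

theorem Pot_dU_inter (N : Net G Y) {χ : ℝ[X]} {R : ℕ} (hχ : χ.natDegree ≤ R) (z : ℝ)
    (s : Y → St r) {U : Finset Y} {y : Y} (hy : y ∈ U) :
    Pot_dU N χ z s U y = Pot_dU N χ z s (U ∩ ball N.φ R y) y := by
  unfold Pot_dU
  split_ifs with h
  · rfl
  · rw [N.toKern.dg_inter (Pot_deg hχ) z N.w s (PfB_mem_live.2 ⟨hy, h⟩)]
    congr 2
    ext x
    simp only [Finset.mem_inter, PfB_mem_live]
    tauto

theorem Pot_dU_ball (N : Net G Y) {χ : ℝ[X]} {R : ℕ} (hχ : χ.natDegree ≤ R) (z : ℝ)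
    (s : Y → St r) {U : Finset Y} {y : Y} (hy : ball N.φ R y ⊆ U) :
    Pot_dU N χ z s U y = N.dd χ z R s y := by
  rw [Pot_dU_inter N hχ z s (hy (self_mem_ball _ _ _)), Finset.inter_eq_right.2 hy]
  rfl

theorem Pot_dU_congr (N : Net G Y) (χ : ℝ[X]) (z : ℝ) {s s' : Y → St r} {U : Finset Y}
    (h : ∀ u ∈ U, s u = s' u) {y : Y} (hy : y ∈ U) : Pot_dU N χ z s U y = Pot_dU N χ z s' U y := by
  unfold Pot_dU
  rw [← h y hy]
  split_ifs with h'
  · rfl
  · have e : live s' U = live s U := Finset.filter_congr fun x hx => by rw [h x hx]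
    have hy' : y ∈ live s U := PfB_mem_live.2 ⟨hy, h'⟩
    rw [e, dg_congr (cx χ) (Y := Yc z N.M N.w s) (Y' := Yc z N.M N.w s') _ hy']
    intro a ha b hb
    simp only [Yc, Mc, h a (PfB_mem_live.1 ha).1, h b (PfB_mem_live.1 hb).1]

theorem Pot_dU_sum [NeZero r] (N : Net G Y) (χ : ℝ[X]) (z : ℝ) {s : Y → St r}
    (h : ∀ y, s y ≠ St.unc) (U : Finset Y) :
    ∑ y ∈ U, Pot_dU N χ z s U y = (sumC (cx χ) (PP z N.M N.w s U)).re := by
  rw [← sum_dg (cx χ) z (N.env U) fun u _ => h u, Complex.re_sum]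
  conv_rhs => rw [live, Finset.sum_filter]
  refine Finset.sum_congr rfl fun y _ => ?_
  unfold Pot_dU live
  by_cases h' : s y = St.del <;> simp [h']

/-- One deletion changes the sum of the diagonal entries by the increment: compute everything in
`U = ball (3 R) u` (`Kern.dg_inter`), use `sum_dg` and `Kern.Ic_ball`. -/
theorem Net.sum_dd [NeZero r] (N : Net G Y) {χ : ℝ[X]} {R : ℕ} (hχ : χ.natDegree ≤ R) (z : ℝ)
    {s : Y → St r} (h : ∀ y, s y ≠ St.unc) (u : Y) :
    ∑ y ∈ ball N.φ (2 * R) u, (N.dd χ z R (Function.update s u St.del) y - N.dd χ z R s y) =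
      (N.inc (cx χ) z R s u St.del).re := by
  have h' : ∀ y, Function.update s u St.del y ≠ St.unc := fun y => by
    by_cases e : y = u
    · rw [e, Function.update_self]; simp
    · rw [Function.update_of_ne e]; exact h y
  have e1 : ∑ y ∈ ball N.φ (2 * R) u, (N.dd χ z R (Function.update s u St.del) y - N.dd χ z R s y) =
      ∑ y ∈ ball N.φ (2 * R) u, (Pot_dU N χ z (Function.update s u St.del) (ball N.φ (2 * R + R) u) y
        - Pot_dU N χ z s (ball N.φ (2 * R + R) u) y) := Finset.sum_congr rfl fun y hy => by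
    rw [Pot_dU_ball N hχ z _ fun x hx => ball_trans hy hx,
      Pot_dU_ball N hχ z _ fun x hx => ball_trans hy hx]
  rw [e1, Finset.sum_subset (ball_mono N.φ (Nat.le_add_right (2 * R) R) u), Finset.sum_sub_distrib,
    Pot_dU_sum N χ z h', Pot_dU_sum N χ z h, Net.inc,
    ← N.toKern.Ic_ball (Pot_deg hχ) z N.w s (ball_mono N.φ (Nat.le_add_left R (2 * R)) u), Ic,
    Complex.sub_re]
  intro y hy hy'
  rw [Pot_dU_inter N hχ z _ hy, Pot_dU_inter N hχ z s hy, sub_eq_zero]
  refine Pot_dU_congr N χ z (fun x hx => ?_) (Finset.mem_inter.2 ⟨hy, self_mem_ball _ _ _⟩)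
  refine Function.update_of_ne ?_ _ _
  rintro rfl
  exact hy' (ball_mono _ (by omega) _ (ball_symm N.invol (Finset.mem_inter.1 hx).2))

theorem Pot_dd_bd [NeZero r] (N : Net G Y) {χ : ℝ[X]} (R : ℕ) {z L β : ℝ} (hz : 0 ≤ z)
    (hc : Chi (Real.exp L * (25 * z + 1)) β χ) {s : Y → St r} (hs : N.Adm L s)
    (h : ∀ y, s y ≠ St.unc) {y : Y} (hy : s y ≠ St.del) :
    -(2 * β) ≤ N.dd χ z R s y ∧ N.dd χ z R s y ≤ Real.exp L * (25 * z + 1) + 2 * β := by
  rw [Net.dd, if_neg hy]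
  exact dg_bd hz (N.env _) (fun u _ => h u) (N.rng hs.2 _) le_rfl hc
    (PfB_mem_live.2 ⟨self_mem_ball _ _ _, hy⟩)

theorem Pot_dd_abs [NeZero r] (N : Net G Y) {χ : ℝ[X]} (R : ℕ) {z L β : ℝ} (hz : 0 ≤ z)
    (hc : Chi (Real.exp L * (25 * z + 1)) β χ) {s : Y → St r} (hs : N.Adm L s)
    (h : ∀ y, s y ≠ St.unc) (y : Y) :
    |N.dd χ z R s y| ≤ |Real.exp L * (25 * z + 1)| + |2 * β| := by
  by_cases hy : s y = St.del
  · rw [Net.dd, if_pos hy, abs_zero]; positivity
  · have := Pot_dd_bd N R hz hc hs h hy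
    rw [abs_le]
    constructor
    · linarith [this.1, le_abs_self (2 * β), abs_nonneg (Real.exp L * (25 * z + 1))]
    · linarith [this.2, le_abs_self (2 * β), le_abs_self (Real.exp L * (25 * z + 1))]

theorem Pot_dd_meas (N : Net G Y) (χ : ℝ[X]) (z : ℝ) (R : ℕ) {s : Y → St r}
    (hs : Measurable s) : Measurable (N.dd χ z R s) :=
  N.toKern.measurable_dg (cx χ) z R (Pot_w N) hs

theorem Pot_dd_supp (N : Net G Y) (χ : ℝ[X]) (z : ℝ) (R : ℕ) {L : ℝ} {s : Y → St r}
    (hs : N.Adm L s) : ∀ y ∉ N.slab L, N.dd χ z R s y = 0 := fun y hy =>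
  if_pos (not_not.1 fun h => hy (hs.2 y h))

theorem Pot_dd_int [NeZero r] (N : Net G Y) {χ : ℝ[X]} (R : ℕ) {z L β : ℝ} (hz : 0 ≤ z)
    (hc : Chi (Real.exp L * (25 * z + 1)) β χ) {s : Y → St r} (hs : N.Adm L s)
    (h : ∀ y, s y ≠ St.unc) : Integrable (N.dd χ z R s) N.ν :=
  Pot_int (Pot_dd_meas N χ z R hs.1) (Pot_dd_abs N R hz hc hs h) (Pot_slab N L)
    (Pot_dd_supp N χ z R hs)

/-- `iter` with `b = 0` for `± (pd - dd)`. -/
theorem Net.pot_eq_dd [NeZero r] (N : Net G Y) {χ : ℝ[X]} {R : ℕ} (hχ : χ.natDegree ≤ R)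
    {z L β : ℝ} (hz : 0 ≤ z) (hc : Chi (Real.exp L * (25 * z + 1)) β χ)
    {s : Y → St r} (hs : N.Adm L s) (h : ∀ y, s y ≠ St.unc) :
    N.pot χ z R s = ∫ y, N.dd χ z R s y ∂N.ν := by
  obtain ⟨C, hC⟩ := N.pd_bdd (r := r) χ hz R L
  have hm := N.measurableSet_slab L
  have key : ∀ e : ℝ, |e| = 1 → 0 ≤ e * (N.pot χ z R s - ∫ y, N.dd χ z R s y ∂N.ν) := by
    intro e he
    have h1 : ∀ B' x, delS B' s x ≠ St.del → x ∈ N.slab L := fun B' x hx =>
      hs.2 x fun e => hx ((Pot_delS B' s x).elim (·.trans e) id)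
    have h2 : ∀ B' x, delS B' s x ≠ St.unc := fun B' x =>
      (Pot_delS B' s x).elim (fun e => e ▸ h x) fun e => by rw [e]; simp
    have := N.iter (fun s y => e * (N.pd χ z R s y - N.dd χ z R s y)) (2 * R)
      (fun s s' y h => by
        rw [N.pd_loc χ z R h]
        congr 2
        exact Pot_dU_congr N χ z (fun u hu => h u (ball_mono _ (by omega) _ hu))
          (self_mem_ball _ _ _)) s hm (Pot_slab N L) hm (Pot_slab N L)
      (C := C + (|Real.exp L * (25 * z + 1)| + |2 * β|)) (b := 0) le_rfl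
      (fun B' _ hB' => ((Pot_meas N χ z R (measurable_delS hB' hs.1)).sub
        (Pot_dd_meas N χ z R (measurable_delS hB' hs.1))).const_mul e)
      (fun B' _ y => by
        rw [abs_mul, he, one_mul]
        refine (abs_sub _ _).trans (add_le_add (hC _ (h1 B') y) ?_)
        by_cases hy : delS B' s y = St.del
        · rw [Net.dd, if_pos hy, abs_zero]; positivity
        · have := dg_bd hz (N.env (ball N.φ R y)) (fun u _ => h2 B' u) (N.rng (h1 B') _) le_rfl hc
            (PfB_mem_live.2 ⟨self_mem_ball _ _ _, hy⟩)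
          rw [Net.dd, if_neg hy, abs_le]
          constructor
          · linarith [this.1, le_abs_self (2 * β), abs_nonneg (Real.exp L * (25 * z + 1))]
          · linarith [this.2, le_abs_self (2 * β), le_abs_self (Real.exp L * (25 * z + 1))])
      (fun B' _ y hy => by
        have : delS B' s y = St.del := not_not.1 fun h => hy (h1 B' y h)
        rw [N.pd_del χ z R this, Net.dd, if_pos this, sub_zero, mul_zero])
      (fun B' _ u _ => by
        have h5 := N.sum_pd hχ z (delS B' s) u St.del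
        have h6 := N.sum_dd hχ z (h2 B') u
        rw [Finset.sum_sub_distrib] at h5 h6 ⊢
        simp only [← Finset.mul_sum, Finset.sum_sub_distrib]
        rw [← mul_sub]
        exact (mul_eq_zero_of_right _ (by linarith)).le)
    have e0 : ∀ y, N.dd χ z R (delS (N.slab L) s) y = 0 := fun y => if_pos (Pot_all N hs y)
    simp only [N.pd_del χ z R (Pot_all N hs _), e0, sub_zero, mul_zero,
      integral_zero, zero_mul, zero_sub, neg_nonpos] at this
    rwa [integral_const_mul, integral_sub (Pot_pd_int N χ hz R hs) (Pot_dd_int N R hz hc hs h)]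
      at this
  linarith [key 1 (by simp), key (-1) (by simp)]

/-- `f = dd + 2 β` on the live vertices is nonnegative (`dg_bd`); `mtp_real` with radius `ρ`;
`dg_bad` with `U = ball (ρ + R) y`, `lo' = exp (τ y - ρ k)`. -/
theorem Net.pot_final [NeZero r] (N : Net G Y) {χ : ℝ[X]} {R : ℕ} (hχ : χ.natDegree ≤ R)
    {z L β : ℝ} (hz : 0 ≤ z) (hβ : 0 ≤ β) (hc : Chi (Real.exp L * (25 * z + 1)) β χ)
    {s : Y → St r} (hs : N.Adm L s) (h : ∀ y, s y ≠ St.unc) (ρ : ℕ) {A : Set Y}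
    (hA : MeasurableSet A) (hAL : A ⊆ N.slab L)
    (hbad : ∀ y ∈ A, ∃ η, 26 * z * nsq (ball N.φ ρ y) η <
      (form (Mc N.M fun x => (s x).toOpt) (ball N.φ ρ y) η).re) :
    z * Real.exp (-(ρ * N.k)) / 4 * ∫ y in A, N.w y ∂N.ν ≤
      (words G ρ).card * (N.pot χ z R s + 2 * β * N.ν.real (N.slab L)) := by
  classical
  set f : Y → ℝ := fun y => N.dd χ z R s y + {y | s y ≠ St.del}.indicator (fun _ => 2 * β) y
    with hf
  have hL : MeasurableSet {y | s y ≠ St.del} := hs.1 (t := {o | o ≠ St.del}) trivial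
  have hLs : {y | s y ≠ St.del} ⊆ N.slab L := hs.2
  have hfin := measure_ne_top_of_subset hLs (Pot_slab N L)
  have hi2 : Integrable ({y | s y ≠ St.del}.indicator fun _ => 2 * β) N.ν :=
    (integrable_indicator_iff hL).2 (integrableOn_const hfin)
  have hi := Pot_dd_int N R hz hc hs h
  have hfi : Integrable f N.ν := hi.add hi2
  have hfm : Measurable f := (Pot_dd_meas N χ z R hs.1).add (measurable_const.indicator hL)
  have hf0 : ∀ y, s y = St.del → f y = 0 := fun y hy => by simp [hf, Net.dd, hy]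
  have hf1 : ∀ y, s y ≠ St.del → f y = N.dd χ z R s y + 2 * β := fun y hy => by simp [hf, hy]
  have hfn : ∀ y, 0 ≤ f y := fun y => by
    by_cases hy : s y = St.del
    · rw [hf0 y hy]
    · rw [hf1 y hy]; linarith [(Pot_dd_bd N R hz hc hs h hy).1]
  have e1 : ∫ y, f y ∂N.ν ≤ N.pot χ z R s + 2 * β * N.ν.real (N.slab L) := by
    rw [hf, integral_add hi hi2, N.pot_eq_dd hχ hz hc hs h, integral_indicator_const _ hL,
      smul_eq_mul, mul_comm]
    exact add_le_add le_rfl (mul_le_mul_of_nonneg_left (measureReal_mono hLs (Pot_slab N L))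
      (by positivity))
  obtain ⟨m1, m2⟩ := N.mtp_real ρ hA hfm hfi
  have hwi : IntegrableOn N.w A N.ν :=
    Measure.integrableOn_of_bounded (M := Real.exp L) (measure_ne_top_of_subset hAL (Pot_slab N L))
      (Pot_w N).aestronglyMeasurable ((ae_restrict_iff' hA).2 (Filter.Eventually.of_forall
        fun y hy => (Real.norm_of_nonneg (Real.exp_pos _).le).trans_le (Pot_wt N (hAL hy)).2))
  rw [← integral_const_mul]
  refine (setIntegral_mono_on (hwi.const_mul _) m1 hA fun y hy => ?_).trans (m2.trans_le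
    (le_trans ?_ (mul_le_mul_of_nonneg_left e1 (Nat.cast_nonneg _))))
  · obtain ⟨η, hη⟩ := hbad y hy
    have := dg_bad hz (N.env (ball N.φ (ρ + R) y)) (fun u _ => h u) (N.rng hs.2 _) le_rfl hc
      (ball_mono N.φ (Nat.le_add_right ρ R) y) (Real.exp_pos (N.τ y - ρ * N.k))
      (fun u hu => Real.exp_le_exp.2 (by linarith [(abs_le.1 (N.tau_ball hu)).1])) hη
    refine le_trans (le_of_eq ?_) (this.trans (le_of_eq ?_))
    · rw [Net.w, sub_eq_add_neg, Real.exp_add]; ring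
    · conv_lhs => rw [live, Finset.sum_filter]
      refine Finset.sum_congr rfl fun x hx => ?_
      split_ifs with hx'
      · rw [hf1 x hx', ← Pot_dU_ball N hχ z s fun u hu => ball_trans hx hu, Pot_dU, if_neg hx']
      · rw [hf0 x (not_not.1 hx')]
  · rw [← integral_const_mul]
    refine integral_mono_of_nonneg (Filter.Eventually.of_forall fun y =>
      mul_nonneg (Nat.cast_nonneg _) (hfn y)) (hfi.const_mul _)
      (Filter.Eventually.of_forall fun y => mul_le_mul_of_nonneg_right ?_ (hfn y))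
    exact Nat.cast_le.2 ((Finset.card_filter_le _ _).trans (card_ball_le N.φ ρ y))

/-- `iter` for `Φ s' y = 1_A y * ε y * Im (inc s' y o)`, `ε` the sign of the integrand; the
one-step bound is `top3` in `U = ball (2 R) u` (`Kern.Ic_ball`). -/
theorem Net.top_iter [NeZero r] (N : Net G Y) {z β L s₀ CT : ℝ} {R : ℕ} {χ : ℝ[X]}
    {χt : ℕ → ℂ[X]} {ct : ℕ → St r → ℝ} (hz : 0 ≤ z) (hCT : 0 ≤ CT)
    (hP : Par Y r (Real.exp N.k) z β L s₀ CT R χ χt ct) {s : Y → St r} (hs : N.Adm L s)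
    {A B : Set Y} (hA : MeasurableSet A) (hB : MeasurableSet B) (hBL : B ⊆ N.slab L) (j : ℕ)
    (hAB : ∀ y ∈ A, y ∉ B ∧ s y = St.unc ∧ (j : ℝ) ≤ N.τ y ∧ N.τ y ≤ j + 1) (o : St r) :
    ∫ y in A, |(N.inc (χt j) z R (delS B s) y o).im - (N.inc (χt j) z R s y o).im| ∂N.ν ≤
      CT * Real.exp (j + 1) * N.ν.real B := by
  classical
  obtain ⟨C, hC⟩ := N.inc_bdd (r := r) (χt j) hz R L
  have hAL : A ⊆ N.slab L := fun y hy => hs.2 y (by rw [(hAB y hy).2.1]; simp)
  have hAf := measure_ne_top_of_subset hAL (Pot_slab N L)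
  have h1 : ∀ B' x, delS B' s x ≠ St.del → x ∈ N.slab L := fun B' x hx =>
    hs.2 x fun e => hx ((Pot_delS B' s x).elim (·.trans e) id)
  have hm : ∀ s' : Y → St r, Measurable s' → Measurable fun y => (N.inc (χt j) z R s' y o).im :=
    fun s' h => Complex.measurable_im.comp (N.toKern.measurable_Ic (χt j) z R (Pot_w N) h o)
  set ε : Y → ℝ := fun y =>
    if (N.inc (χt j) z R s y o).im ≤ (N.inc (χt j) z R (delS B s) y o).im then 1 else -1 with hε
  have hε1 : ∀ y, |ε y| = 1 := fun y => by simp only [hε]; split_ifs <;> simp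
  have hεm : Measurable ε := Measurable.ite (measurableSet_le (hm s hs.1)
    (hm _ (measurable_delS hB hs.1))) measurable_const measurable_const
  set Φ : (Y → St r) → Y → ℝ := fun s' y =>
    if y ∈ A then ε y * (N.inc (χt j) z R s' y o).im else 0 with hΦ
  have hΦm : ∀ s', Measurable s' → Measurable (Φ s') := fun s' h =>
    Measurable.ite hA (hεm.mul (hm s' h)) measurable_const
  have hΦb : ∀ s' : Y → St r, (∀ x, s' x ≠ St.del → x ∈ N.slab L) → ∀ y, |Φ s' y| ≤ |C| :=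
    fun s' h y => by
      simp only [hΦ]
      split_ifs with hy
      · rw [abs_mul, hε1, one_mul]
        exact (Complex.abs_im_le_norm _).trans ((hC s' h y (hAL hy) o).trans (le_abs_self _))
      · simp
  have := N.iter Φ R (fun s s' y h => by simp only [hΦ, Net.inc, Ic_congr _ _ _ _ h]) s hB
    (measure_ne_top_of_subset hBL (Pot_slab N L)) hA hAf (C := |C|)
    (b := CT * Real.exp (j + 1)) (by positivity)
    (fun B' _ hB' => hΦm _ (measurable_delS hB' hs.1)) (fun B' _ => hΦb _ (h1 B'))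
    (fun B' _ y hy => if_neg hy)
    (fun B' hB' u hu => by
      refine le_trans (le_of_eq ?_) (hP.top3 j N.M N.w (delS B' s) (ball N.φ (R + R) u)
        ((ball N.φ R u).filter (· ∈ A)) u o ε (N.env _) (N.rng (h1 B') _) (self_mem_ball _ _ _)
        ((Finset.filter_subset _ _).trans (ball_mono _ (by omega) _))
        (fun h => (hAB u (Finset.mem_filter.1 h).2).1 hu) fun v hv => ?_)
      · rw [Finset.sum_filter]
        refine Finset.sum_congr rfl fun y hy => ?_
        simp only [hΦ, Net.inc]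
        split_ifs
        · rw [N.toKern.Ic_ball (hP.degt j) z N.w _ fun x hx => ball_trans hy hx,
            N.toKern.Ic_ball (hP.degt j) z N.w _ fun x hx => ball_trans hy hx, mul_sub]
        · simp
      · obtain ⟨a1, a2, a3, a4⟩ := hAB v (Finset.mem_filter.1 hv).2
        refine ⟨?_, Real.exp_le_exp.2 a3, Real.exp_le_exp.2 a4, (hε1 v).le⟩
        rw [delS, if_neg fun h => a1 (hB' h), a2])
  rw [← integral_sub (Pot_int (hΦm _ (measurable_delS hB hs.1)) (hΦb _ (h1 B)) hAf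
    fun y hy => if_neg hy) (Pot_int (hΦm _ hs.1) (hΦb _ hs.2) hAf fun y hy => if_neg hy)] at this
  refine le_trans (le_of_eq ?_) this
  rw [← integral_indicator hA]
  refine integral_congr_ae (Filter.Eventually.of_forall fun y => ?_)
  simp only [hΦ, hε, Set.indicator]
  split_ifs with h2 h3
  · rw [abs_of_nonneg (sub_nonneg.2 h3)]; ring
  · rw [abs_of_neg (sub_neg.2 (not_le.1 h3))]; ring
  · simp

end Crest.Agent.R109
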