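import Crest.Agent.R109.Mah
import Crest.Agent.R109.Pot

/-! Task 109-POTE: the increments seen from different heights agree on average. -/

set_option autoImplicit false
set_option linter.unusedSectionVars false

open Polynomial MeasureTheory

namespace Crest.Agent.R109

variable {G X : Type*} [Fintype G] [DecidableEq G] [DecidableEq X] [MeasurableSpace X] {r : ℕ}

/-- Normalised increment at height `τ`. -/
noncomputable def Model.jj (𝓜 : Model G X) (χ : ℝ[X]) (z : ℝ) (R : ℕ) (L : ℝ) (σ : X → St r)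
    (x : X) (τ : ℝ) (o : St r) : ℝ :=
  Real.exp (-τ) * (𝓜.net.inc (cx χ) z R (sl 0 L σ) (x, τ) o).re

theorem PotE_slab (𝓜 : Model G X) {a b L : ℝ} (ha : 0 ≤ a) (hb : b ≤ L) (σ : X → St r) :
    ∀ y, sl a b σ y ≠ St.del → y ∈ 𝓜.net.slab L := by
  intro y hy
  unfold sl at hy
  split_ifs at hy with h
  · exact ⟨ha.trans h.1, h.2.trans hb⟩
  · exact absurd rfl hy

theorem PotE_sl {a b τ : ℝ} (ha : a ≤ τ) (hb : τ ≤ b) (σ : X → St r) (x : X) :
    sl a b σ (x, τ) = σ x := if_pos ⟨ha, hb⟩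

theorem PotE_w (𝓜 : Model G X) (y : X × ℝ) : 𝓜.net.w y = Real.exp y.2 := rfl

theorem PotE_env (𝓜 : Model G X) (U : Finset (X × ℝ)) :
    Env (Real.exp 𝓜.k) 𝓜.net.M 𝓜.net.w U := 𝓜.net.env U

theorem PotE_meas_inc [NeZero r] (𝓜 : Model G X) (χ : ℂ[X]) (z : ℝ) (R : ℕ) {s : X × ℝ → St r}
    (hs : Measurable s) (o : St r) : Measurable fun y => 𝓜.net.inc χ z R s y o :=
  𝓜.net.toKern.measurable_Ic χ z R (Real.measurable_exp.comp measurable_snd) hs o

theorem Model.jj_loc (𝓜 : Model G X) (χ : ℝ[X]) (z : ℝ) (R : ℕ) (L : ℝ) {σ σ' : X → St r} {x : X}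
    (h : ∀ y ∈ ball 𝓜.φ R x, σ y = σ' y) : 𝓜.jj χ z R L σ x = 𝓜.jj χ z R L σ' x := by
  funext τ o
  unfold Model.jj Net.inc
  rw [Ic_congr _ _ _ _ (s' := sl 0 L σ') fun u hu => ?_]
  rw [𝓜.net_ball] at hu
  obtain ⟨u', hu', rfl⟩ := Finset.mem_image.1 hu
  unfold sl
  rw [show σ (𝓜.fr (x, τ) u').1 = σ' (𝓜.fr (x, τ) u').1 from h u' hu']

theorem Model.measurable_jj [NeZero r] (𝓜 : Model G X) (χ : ℝ[X]) (z : ℝ) (R : ℕ) (L : ℝ)
    {σ : X → St r} (hσ : Measurable σ) (o : St r) :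
    Measurable fun y : X × ℝ => 𝓜.jj χ z R L σ y.1 y.2 o := by
  exact (Real.measurable_exp.comp measurable_snd.neg).mul (Complex.measurable_re.comp
    (PotE_meas_inc 𝓜 (cx χ) z R (𝓜.adm_sl le_rfl le_rfl hσ).1 o))

/-- `Dp_chi`. -/
theorem Model.jj_Dp [NeZero r] (𝓜 : Model G X) {χ : ℝ[X]} {z β L : ℝ} (hz : 0 ≤ z) (hβ : 0 ≤ β)
    (hc : Chi (Real.exp L * (25 * z + 1)) β χ) (R : ℕ) (σ : X → St r) (x : X) {τ : ℝ}
    (h0 : 0 ≤ τ) (hL : τ ≤ L) (o : St r) :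
    |𝓜.jj χ z R L σ x τ o - Real.exp (-τ) *
      (Dp z 𝓜.net.M 𝓜.net.w (sl 0 L σ) (ball 𝓜.net.φ R (x, τ)) (x, τ) o -
        Dp z 𝓜.net.M 𝓜.net.w (sl 0 L σ) (ball 𝓜.net.φ R (x, τ)) (x, τ) (σ x))| ≤ 4 * β := by
  have h1 := Dp_chi (Real.exp_pos 𝓜.k) hz (PotE_env 𝓜 (ball 𝓜.net.φ R (x, τ)))
    (𝓜.net.rng (PotE_slab 𝓜 le_rfl le_rfl σ) _) (self_mem_ball _ R (x, τ))
    ⟨Real.one_le_exp h0, Real.exp_le_exp.2 hL⟩ le_rfl hc o
  rw [PotE_sl h0 hL] at h1
  unfold Model.jj Net.inc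
  rw [← mul_sub, abs_mul, abs_of_pos (Real.exp_pos _)]
  calc _ ≤ 1 * (4 * β) := mul_le_mul (Real.exp_le_one_iff.2 (by linarith)) h1 (abs_nonneg _)
        zero_le_one
    _ = 4 * β := one_mul _

theorem Model.jj_le [NeZero r] (𝓜 : Model G X) {χ : ℝ[X]} {z β L : ℝ} (hz : 0 ≤ z) (hβ : 0 ≤ β)
    (hc : Chi (Real.exp L * (25 * z + 1)) β χ) (R : ℕ) (σ : X → St r) (x : X) {τ : ℝ}
    (h0 : 0 ≤ τ) (hL : τ ≤ L) (o : St r) :
    |𝓜.jj χ z R L σ x τ o| ≤ 5 * Real.exp 𝓜.k + 4 * β := by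
  have h1 := 𝓜.jj_Dp hz hβ hc R σ x h0 hL o
  have hK : 1 ≤ Real.exp 𝓜.k := Real.one_le_exp 𝓜.k_nonneg
  have hE := PotE_env 𝓜 (ball 𝓜.net.φ R (x, τ))
  have hv := self_mem_ball 𝓜.net.φ R (x, τ)
  have a1 := Dp_nonneg (Real.exp_pos 𝓜.k) hz (sl 0 L σ) hE hv o
  have a2 := Dp_nonneg (Real.exp_pos 𝓜.k) hz (sl 0 L σ) hE hv (σ x)
  have a3 := Dp_le hK hz (sl 0 L σ) hE hv o
  have a4 := Dp_le hK hz (sl 0 L σ) hE hv (σ x)
  rw [PotE_w] at a3 a4
  generalize Dp z 𝓜.net.M 𝓜.net.w (sl 0 L σ) (ball 𝓜.net.φ R (x, τ)) (x, τ) o = A at *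
  generalize Dp z 𝓜.net.M 𝓜.net.w (sl 0 L σ) (ball 𝓜.net.φ R (x, τ)) (x, τ) (σ x) = B at *
  have h2 : |Real.exp (-τ) * (A - B)| ≤ 5 * Real.exp 𝓜.k := by
    rw [abs_mul, abs_of_pos (Real.exp_pos _)]
    calc _ ≤ Real.exp (-τ) * (5 * Real.exp 𝓜.k * Real.exp τ) :=
          mul_le_mul_of_nonneg_left (abs_le.2 ⟨by linarith, by linarith⟩) (Real.exp_nonneg _)
      _ = 5 * Real.exp 𝓜.k := by rw [Real.exp_neg]; field_simp
  rw [abs_le] at *
  constructor <;> linarith [h1.1, h1.2, h2.1, h2.2]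

theorem PotE_Dp_shift [NeZero r] (𝓜 : Model G X) {z β L s₀ CT : ℝ} {R : ℕ} {χ : ℝ[X]}
    {χt : ℕ → ℂ[X]} {ct : ℕ → St r → ℝ}
    (hP : Par (X × ℝ) r (Real.exp 𝓜.k) z β L s₀ CT R χ χt ct) (σ : X → St r) (x : X)
    {τ t : ℝ} (h0 : 0 ≤ τ) (hτ : s₀ ≤ τ) (ht : 0 ≤ t) (o : St r) :
    |Real.exp (-(τ + t)) *
        Dp z 𝓜.net.M 𝓜.net.w (sl 0 L σ) (ball 𝓜.net.φ R (x, τ + t)) (x, τ + t) o -
      Real.exp (-τ) *
        Dp z 𝓜.net.M 𝓜.net.w (sl 0 (L - t) σ) (ball 𝓜.net.φ R (x, τ)) (x, τ) o| ≤ β := by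
  have h1 := hP.bot 𝓜.net.M 𝓜.net.w (sl 0 L σ) (ball 𝓜.net.φ R (x, τ + t))
    ((ball 𝓜.net.φ R (x, τ + t)).filter fun u => u.2 < t) (x, τ + t) o (PotE_env 𝓜 _)
    (self_mem_ball _ _ _) (fun h => by
      have := (Finset.mem_filter.1 h).2
      simp only at this
      linarith) (fun u hu => by
      have := (Finset.mem_filter.1 hu).2
      rw [PotE_w, PotE_w, ← Real.exp_add]
      exact Real.exp_le_exp.2 (by simp only; linarith))
  rw [Dp_congr z _ _ (s := delOn _ _) (s' := sl t L σ) (fun u hu => by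
    unfold delOn sl
    by_cases h : u.2 < t
    · rw [if_pos (Finset.mem_filter.2 ⟨hu, h⟩), if_neg (fun h' => absurd h'.1 (not_le.2 h))]
    · rw [if_neg (by rw [Finset.mem_filter]; exact fun h' => h h'.2)]
      exact if_congr ⟨fun h' => ⟨not_lt.1 h, h'.2⟩, fun h' => ⟨ht.trans h'.1, h'.2⟩⟩ rfl rfl)] at h1
  have h2 := Dp_iso z (M := 𝓜.net.M) (m := 𝓜.net.M) 𝓜.net.w (sl t L σ)
    (fun u : X × ℝ => (u.1, u.2 + t)) (U := ball 𝓜.net.φ R (x, τ))
    (fun a _ b _ h => Prod.ext (Prod.mk.inj h).1 (add_right_cancel (Prod.mk.inj h).2))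
    (fun _ => 1) (fun _ _ => norm_one) (fun a _ b _ => by rw [𝓜.net_M_shift]; simp)
    (self_mem_ball _ R (x, τ)) o
  have h3 : (𝓜.net.w ∘ fun u : X × ℝ => (u.1, u.2 + t)) = fun u => Real.exp t * 𝓜.net.w u := by
    funext u
    simp only [Function.comp, PotE_w]
    rw [← Real.exp_add, add_comm]
  have h4 : (sl t L σ ∘ fun u : X × ℝ => (u.1, u.2 + t)) = sl 0 (L - t) σ := by
    funext u
    exact if_congr ⟨fun h => ⟨by linarith [h.1], by linarith [h.2]⟩,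
      fun h => ⟨by linarith [h.1], by linarith [h.2]⟩⟩ rfl rfl
  rw [← 𝓜.net_ball_shift R t (x, τ), h3, h4, Dp_smul _ _ _ _ _ _ _ (Real.exp_pos t)] at h2
  simp only at h2
  rw [h2, PotE_w] at h1
  have h5 : Real.exp (-τ) = Real.exp (-(τ + t)) * Real.exp t := by
    rw [← Real.exp_add]; congr 1; ring
  rw [h5, mul_assoc, ← mul_sub, abs_mul, abs_of_pos (Real.exp_pos _)]
  calc _ ≤ Real.exp (-(τ + t)) * (β * Real.exp (τ + t)) :=
        mul_le_mul_of_nonneg_left h1 (Real.exp_nonneg _)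
    _ = β := by rw [Real.exp_neg]; field_simp

theorem PotE_top [NeZero r] (𝓜 : Model G X) {z β L s₀ CT : ℝ} {R : ℕ} {χ : ℝ[X]}
    {χt : ℕ → ℂ[X]} {ct : ℕ → St r → ℝ}
    (hP : Par (X × ℝ) r (Real.exp 𝓜.k) z β L s₀ CT R χ χt ct) {σ : X → St r} {x : X}
    (hx : σ x = St.unc) {τ b : ℝ} (h0 : 0 ≤ τ) (hb : τ ≤ b) (hL : b ≤ L) {j : ℕ}
    (hj : (j : ℝ) ≤ τ ∧ τ ≤ j + 1) (o : St r) :
    |Real.exp (-τ) * ((𝓜.net.inc (χt j) z R (sl 0 b σ) (x, τ) o).im + ct j o) -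
      Real.exp (-τ) * (Dp z 𝓜.net.M 𝓜.net.w (sl 0 b σ) (ball 𝓜.net.φ R (x, τ)) (x, τ) o -
        Dp z 𝓜.net.M 𝓜.net.w (sl 0 b σ) (ball 𝓜.net.φ R (x, τ)) (x, τ) St.unc)| ≤ β := by
  have h1 := hP.top2 j 𝓜.net.M 𝓜.net.w (sl 0 b σ) (ball 𝓜.net.φ R (x, τ)) (x, τ) o
    (PotE_env 𝓜 _) (𝓜.net.rng (PotE_slab 𝓜 le_rfl hL σ) _) (self_mem_ball _ _ _)
    (by rw [PotE_sl h0 hb, hx]) (Real.exp_le_exp.2 hj.1) (Real.exp_le_exp.2 hj.2)
  rw [PotE_w] at h1
  rw [← mul_sub, abs_mul, abs_of_pos (Real.exp_pos _)]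
  calc _ ≤ Real.exp (-τ) * (β * Real.exp τ) := mul_le_mul_of_nonneg_left h1 (Real.exp_nonneg _)
    _ = β := by rw [Real.exp_neg]; field_simp

/-- `jj_Dp` at both heights; `bot` removes the vertices of height `< t` in the frame
`(x, τ + t)`; shift by `t` (`Dp_iso`, `net_ball_shift`, `net_M_shift`, `Dp_smul`, `Dp_congr`);
`top2` for the states `sl 0 (L - t) σ` and `sl 0 L σ` at `(x, τ)`. -/
theorem Model.jj_shift [NeZero r] (𝓜 : Model G X) {z β L s₀ CT : ℝ} {R : ℕ} {χ : ℝ[X]}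
    {χt : ℕ → ℂ[X]} {ct : ℕ → St r → ℝ} (hz : 0 ≤ z) (hβ : 0 ≤ β)
    (hP : Par (X × ℝ) r (Real.exp 𝓜.k) z β L s₀ CT R χ χt ct) {σ : X → St r} {x : X}
    (hx : σ x = St.unc) {τ t : ℝ} (h0 : 0 ≤ τ) (hτ : s₀ ≤ τ) (ht : 0 ≤ t) (hL : τ + t ≤ L) {j : ℕ}
    (hj : (j : ℝ) ≤ τ ∧ τ ≤ j + 1) (o : St r) :
    |𝓜.jj χ z R L σ x (τ + t) o - 𝓜.jj χ z R L σ x τ o| ≤ 12 * β + Real.exp (-τ) *
      |(𝓜.net.inc (χt j) z R (sl 0 (L - t) σ) (x, τ) o).im -
        (𝓜.net.inc (χt j) z R (sl 0 L σ) (x, τ) o).im| := by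
  have a1 := 𝓜.jj_Dp hz hβ hP.chi R σ x (τ := τ + t) (by linarith) hL o
  have a2 := 𝓜.jj_Dp hz hβ hP.chi R σ x h0 (by linarith) o
  rw [hx] at a1 a2
  have a3 := PotE_Dp_shift 𝓜 hP σ x h0 hτ ht o
  have a4 := PotE_Dp_shift 𝓜 hP σ x h0 hτ ht St.unc
  have a5 := PotE_top 𝓜 hP hx (b := L - t) h0 (by linarith) (by linarith) hj o
  have a6 := PotE_top 𝓜 hP hx (b := L) h0 (by linarith) le_rfl hj o
  rw [← abs_of_pos (Real.exp_pos (-τ)), ← abs_mul]
  have a7 := le_abs_self (Real.exp (-τ) * ((𝓜.net.inc (χt j) z R (sl 0 (L - t) σ) (x, τ) o).im -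
    (𝓜.net.inc (χt j) z R (sl 0 L σ) (x, τ) o).im))
  have a8 := neg_abs_le (Real.exp (-τ) * ((𝓜.net.inc (χt j) z R (sl 0 (L - t) σ) (x, τ) o).im -
    (𝓜.net.inc (χt j) z R (sl 0 L σ) (x, τ) o).im))
  rw [abs_le] at a1 a2 a3 a4 a5 a6 ⊢
  simp only [mul_sub, mul_add] at *
  constructor <;> linarith [a1.1, a1.2, a2.1, a2.2, a3.1, a3.2, a4.1, a4.2, a5.1, a5.2, a6.1, a6.2]

theorem PotE_geom (n : ℕ) : ∑ j ∈ Finset.range n, Real.exp ((j : ℝ) + 1) ≤ 5 / 3 * Real.exp n := by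
  induction n with
  | zero => simp; norm_num
  | succ n ih =>
    rw [Finset.sum_range_succ]
    push_cast
    have h1 := Real.exp_one_gt_d9
    have h2 := Real.exp_pos n
    rw [Real.exp_add] at *
    nlinarith

/-- Cut `[s₀, L - t]` at the integers; `top_iter` with `B = {L - t < τ ≤ L}`
(`delS B (sl 0 L σ) = sl 0 (L - t) σ`), `net_integral`, `net_real_le`;
`∑_{j ≤ L - t} exp (j + 1) ≤ 5 exp (L - t)`. -/
theorem Model.int_shift [NeZero r] (𝓜 : Model G X) {z β L s₀ CT : ℝ} {R : ℕ} {χ : ℝ[X]}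
    {χt : ℕ → ℂ[X]} {ct : ℕ → St r → ℝ} (hz : 0 ≤ z) (hβ : 0 ≤ β) (hs₀ : 0 ≤ s₀) (hCT : 0 ≤ CT)
    (hP : Par (X × ℝ) r (Real.exp 𝓜.k) z β L s₀ CT R χ χt ct) {σ : X → St r}
    (hσ : Measurable σ) {t : ℝ} (ht : 0 ≤ t) (hL : s₀ + t ≤ L) (o : St r) :
    ∫ x in {x | σ x = St.unc}, (∫ τ in s₀..(L - t),
      |𝓜.jj χ z R L σ x (τ + t) o - 𝓜.jj χ z R L σ x τ o|) ∂𝓜.μ ≤
      (12 * β * L + 5 * CT) * 𝓜.μ.real Set.univ := by
  classical
  have := 𝓜.fin
  set E := {x | σ x = St.unc} with hE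
  have hEm : MeasurableSet E := hσ (MeasurableSpace.measurableSet_top (s := {St.unc}))
  set A := {y : X × ℝ | y.1 ∈ E ∧ s₀ ≤ y.2 ∧ y.2 ≤ L - t} with hA
  have hAm : MeasurableSet A := (measurable_fst hEm).inter
    ((measurableSet_le measurable_const measurable_snd).inter
      (measurableSet_le measurable_snd measurable_const))
  have hAf : 𝓜.net.ν A ≠ ⊤ := ne_top_of_le_ne_top (𝓜.net.fin s₀ (L - t))
    (measure_mono fun y hy => hy.2)
  set B := {y : X × ℝ | L - t < y.2 ∧ y.2 ≤ L} with hB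
  have hBm : MeasurableSet B := (measurableSet_lt measurable_const measurable_snd).inter
    (measurableSet_le measurable_snd measurable_const)
  have hBL : B ⊆ 𝓜.net.slab L := fun y hy => ⟨by
    show 0 ≤ y.2
    linarith [hy.1], hy.2⟩
  have hBr : 𝓜.net.ν.real B ≤ Real.exp (-(L - t)) * 𝓜.μ.real Set.univ :=
    (measureReal_mono (fun y hy => And.intro hy.1.le hy.2) (𝓜.net.fin (L - t) L)).trans
      (𝓜.net_real_le _ _)
  have hdel : delS B (sl 0 L σ) = sl 0 (L - t) σ := by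
    funext y
    unfold delS sl
    by_cases h : y ∈ B
    · rw [if_pos h, if_neg (fun h' => absurd h'.2 (not_le.2 h.1))]
    · rw [if_neg h]
      refine if_congr ⟨fun h' => ⟨h'.1, ?_⟩, fun h' => ⟨h'.1, by linarith [h'.2]⟩⟩ rfl rfl
      by_contra h2
      exact h ⟨not_le.1 h2, h'.2⟩
  set F : X × ℝ → ℝ := fun y => Real.exp y.2 *
    |𝓜.jj χ z R L σ y.1 (y.2 + t) o - 𝓜.jj χ z R L σ y.1 y.2 o| with hF
  have hjm := 𝓜.measurable_jj χ z R L hσ o
  have hFm : Measurable F := (Real.measurable_exp.comp measurable_snd).mul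
    ((hjm.comp (measurable_fst.prodMk (measurable_snd.add_const t))).sub hjm).abs
  have hFb : ∀ y : X × ℝ, y.1 ∈ E → s₀ ≤ y.2 → y.2 ≤ L - t →
      |F y| ≤ Real.exp L * (2 * (5 * Real.exp 𝓜.k + 4 * β)) := by
    intro y _ h1 h2
    have a1 := 𝓜.jj_le hz hβ hP.chi R σ y.1 (τ := y.2 + t) (by linarith) (by linarith) o
    have a2 := 𝓜.jj_le hz hβ hP.chi R σ y.1 (τ := y.2) (by linarith) (by linarith) o
    simp only [hF]
    rw [abs_mul, abs_abs, abs_of_pos (Real.exp_pos _)]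
    exact mul_le_mul (Real.exp_le_exp.2 (by linarith)) ((abs_sub _ _).trans (by linarith))
      (abs_nonneg _) (Real.exp_nonneg _)
  have e1 := 𝓜.net_integral hEm (a := s₀) (b := L - t) (by linarith) hFm hFb
  have e1' : ∀ x τ, Real.exp (-τ) * F (x, τ) =
      |𝓜.jj χ z R L σ x (τ + t) o - 𝓜.jj χ z R L σ x τ o| := fun x τ => by
    simp only [hF]
    rw [← mul_assoc, ← Real.exp_add]
    simp
  simp only [e1'] at e1
  rw [← e1]
  have hWm : Measurable fun y : X × ℝ => 12 * β * Real.exp y.2 :=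
    (Real.measurable_exp.comp measurable_snd).const_mul _
  have hWb : ∀ y : X × ℝ, y.1 ∈ E → s₀ ≤ y.2 → y.2 ≤ L - t →
      |12 * β * Real.exp y.2| ≤ 12 * β * Real.exp L := by
    intro y _ _ h2
    rw [abs_of_nonneg (by positivity)]
    exact mul_le_mul_of_nonneg_left (Real.exp_le_exp.2 (by linarith)) (by positivity)
  have e2 := 𝓜.net_integral hEm (a := s₀) (b := L - t) (by linarith) hWm hWb
  have e2' : ∀ τ : ℝ, Real.exp (-τ) * (12 * β * Real.exp τ) = 12 * β := fun τ => by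
    rw [Real.exp_neg]; field_simp
  simp only [e2', intervalIntegral.integral_const, smul_eq_mul, setIntegral_const] at e2
  have hint : ∀ {f : X × ℝ → ℝ} {C : ℝ}, Measurable f →
      (∀ y : X × ℝ, y.1 ∈ E → s₀ ≤ y.2 → y.2 ≤ L - t → |f y| ≤ C) → IntegrableOn f A 𝓜.net.ν :=
    fun {f C} hf hC => Measure.integrableOn_of_bounded (M := C) hAf hf.aestronglyMeasurable
      ((ae_restrict_iff' hAm).2 (Filter.Eventually.of_forall fun y hy => hC y hy.1 hy.2.1 hy.2.2))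
  set D : ℕ → X × ℝ → ℝ := fun j y => |(𝓜.net.inc (χt j) z R (sl 0 (L - t) σ) y o).im -
    (𝓜.net.inc (χt j) z R (sl 0 L σ) y o).im| with hD
  set T : ℕ → Set (X × ℝ) := fun j => {y | (j : ℝ) ≤ y.2 ∧ y.2 ≤ j + 1} with hT
  have hTm : ∀ j, MeasurableSet (T j) := fun j =>
    (measurableSet_le measurable_const measurable_snd).inter
      (measurableSet_le measurable_snd measurable_const)
  have hDi : ∀ j, IntegrableOn (D j) A 𝓜.net.ν := by
    intro j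
    obtain ⟨C, hC⟩ := 𝓜.net.inc_bdd (r := r) (χt j) hz R L
    refine hint (C := 2 * C) ((Complex.measurable_im.comp (PotE_meas_inc 𝓜 _ z R
      (𝓜.adm_sl le_rfl (by linarith : L - t ≤ L) hσ).1 o)).sub (Complex.measurable_im.comp
        (PotE_meas_inc 𝓜 _ z R (𝓜.adm_sl le_rfl le_rfl hσ).1 o))).abs fun y _ h1 h2 => ?_
    have hy : y ∈ 𝓜.net.slab L := ⟨hs₀.trans h1, by show y.2 ≤ L; linarith⟩
    have a1 := (Complex.abs_im_le_norm _).trans
      (hC _ (PotE_slab 𝓜 le_rfl (by linarith : L - t ≤ L) σ) y hy o)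
    have a2 := (Complex.abs_im_le_norm _).trans (hC _ (PotE_slab 𝓜 le_rfl le_rfl σ) y hy o)
    simp only [hD]
    rw [abs_abs]
    exact (abs_sub _ _).trans (by linarith)
  have hDj : ∀ j, ∫ y in A, (T j).indicator (D j) y ∂𝓜.net.ν ≤
      CT * Real.exp (j + 1) * 𝓜.net.ν.real B := by
    intro j
    rw [setIntegral_indicator (hTm j)]
    have := 𝓜.net.top_iter hz hCT hP (𝓜.adm_sl le_rfl le_rfl hσ) (hAm.inter (hTm j)) hBm hBL j
      (fun y hy => ⟨fun h => absurd hy.1.2.2 (not_le.2 h.1),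
        (PotE_sl (hs₀.trans hy.1.2.1) (by linarith [hy.1.2.2]) σ y.1).trans hy.1.1, hy.2⟩) o
    rwa [hdel] at this
  set n := ⌊L - t⌋₊ + 1 with hn
  have hpt : ∀ y ∈ A, F y ≤ 12 * β * Real.exp y.2 +
      ∑ j ∈ Finset.range n, (T j).indicator (D j) y := by
    intro y hy
    have h0 : 0 ≤ y.2 := hs₀.trans hy.2.1
    have hj : ((⌊y.2⌋₊ : ℕ) : ℝ) ≤ y.2 ∧ y.2 ≤ ⌊y.2⌋₊ + 1 :=
      ⟨Nat.floor_le h0, (Nat.lt_floor_add_one _).le⟩
    have h1 := 𝓜.jj_shift hz hβ hP hy.1 h0 hy.2.1 ht (by linarith [hy.2.2]) hj o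
    have h2 : (T ⌊y.2⌋₊).indicator (D ⌊y.2⌋₊) y ≤ ∑ j ∈ Finset.range n, (T j).indicator (D j) y :=
      Finset.single_le_sum (f := fun j => (T j).indicator (D j) y)
        (fun j _ => Set.indicator_nonneg (fun _ _ => abs_nonneg _) _)
        (Finset.mem_range.2 (Nat.lt_succ_of_le (Nat.floor_mono hy.2.2)))
    rw [Set.indicator_of_mem (show y ∈ T ⌊y.2⌋₊ from hj)] at h2
    have h3 := mul_le_mul_of_nonneg_left h1 (Real.exp_nonneg y.2)
    rw [mul_add, ← mul_assoc (Real.exp y.2) (Real.exp _), ← Real.exp_add, add_neg_cancel,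
      Real.exp_zero, one_mul] at h3
    simp only [hF, hD] at h2 ⊢
    linarith
  have hTi : ∀ j, IntegrableOn ((T j).indicator (D j)) A 𝓜.net.ν := fun j =>
    Integrable.indicator (hDi j) (hTm j)
  have hSi : IntegrableOn (fun y => ∑ j ∈ Finset.range n, (T j).indicator (D j) y) A 𝓜.net.ν :=
    integrable_finsetSum _ fun j _ => hTi j
  refine (setIntegral_mono_on (hint hFm hFb) ((hint hWm hWb).add hSi) hAm hpt).trans ?_
  simp only [Pi.add_apply]
  rw [integral_add (hint hWm hWb) hSi, e2, integral_finsetSum _ fun j _ => hTi j]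
  have hμ : 𝓜.μ.real E ≤ 𝓜.μ.real Set.univ := measureReal_mono (Set.subset_univ _)
  have hμ0 : 0 ≤ 𝓜.μ.real E := measureReal_nonneg
  have b1 : 𝓜.μ.real E * ((L - t - s₀) * (12 * β)) ≤ 12 * β * L * 𝓜.μ.real Set.univ := by
    rw [mul_comm]
    exact mul_le_mul (by nlinarith) hμ hμ0 (by nlinarith)
  have b2 : ∑ j ∈ Finset.range n, ∫ y in A, (T j).indicator (D j) y ∂𝓜.net.ν ≤
      5 * CT * 𝓜.μ.real Set.univ := by
    refine (Finset.sum_le_sum fun j _ => hDj j).trans ?_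
    rw [← Finset.sum_mul, ← Finset.mul_sum]
    have c1 : Real.exp n ≤ 3 * Real.exp (L - t) := by
      have c2 : (n : ℝ) ≤ 1 + (L - t) := by
        rw [hn]; push_cast
        linarith [Nat.floor_le (show 0 ≤ L - t by linarith)]
      refine (Real.exp_le_exp.2 c2).trans ?_
      rw [Real.exp_add]
      exact mul_le_mul_of_nonneg_right (by linarith [Real.exp_one_lt_d9]) (Real.exp_nonneg _)
    calc _ ≤ CT * (5 * Real.exp (L - t)) * (Real.exp (-(L - t)) * 𝓜.μ.real Set.univ) :=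
          mul_le_mul (mul_le_mul_of_nonneg_left ((PotE_geom n).trans (by linarith)) hCT) hBr
            measureReal_nonneg (by positivity)
      _ = 5 * CT * 𝓜.μ.real Set.univ := by rw [Real.exp_neg]; field_simp
  linarith

open scoped ENNReal in
theorem PotE_sq {f : ℝ → ℝ} (hf : Measurable f) {s₀ L C : ℝ} (hs₀ : 0 ≤ s₀) (hL : s₀ ≤ L)
    (hC0 : 0 ≤ C) (hC : ∀ τ, 0 ≤ τ → τ ≤ L → |f τ| ≤ C) :
    ‖∫ τ in (0 : ℝ)..L, ∫ τ' in (0 : ℝ)..L, |f τ - f τ'|‖ₑ ≤ ENNReal.ofReal (4 * s₀ * L * C) +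
      2 * ∫⁻ t, ∫⁻ τ, if s₀ < τ ∧ τ < τ + t ∧ τ + t ≤ L then
        ENNReal.ofReal |f (τ + t) - f τ| else 0 := by
  have hL0 : 0 ≤ L := hs₀.trans hL
  set ψ : ℝ × ℝ → ℝ≥0∞ := fun p => if s₀ < p.1 ∧ p.1 < p.2 ∧ p.2 ≤ L then
    ENNReal.ofReal |f p.2 - f p.1| else 0 with hψ
  have hψm : Measurable ψ := Measurable.ite ((measurableSet_lt measurable_const measurable_fst).inter
    ((measurableSet_lt measurable_fst measurable_snd).inter
      (measurableSet_le measurable_snd measurable_const)))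
    ((hf.comp measurable_snd).sub (hf.comp measurable_fst)).abs.ennreal_ofReal measurable_const
  have hφm : Measurable fun p : ℝ × ℝ => ENNReal.ofReal |f p.1 - f p.2| :=
    ((hf.comp measurable_fst).sub (hf.comp measurable_snd)).abs.ennreal_ofReal
  have h1 : ‖∫ τ in (0 : ℝ)..L, ∫ τ' in (0 : ℝ)..L, |f τ - f τ'|‖ₑ ≤
      ∫⁻ p in Set.Ioc 0 L ×ˢ Set.Ioc 0 L, ENNReal.ofReal |f p.1 - f p.2| ∂(volume.prod volume) := by
    rw [setLIntegral_prod _ hφm.aemeasurable]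
    simp only [intervalIntegral.integral_of_le hL0]
    refine (enorm_integral_le_lintegral_enorm _).trans (lintegral_mono fun τ => ?_)
    refine (enorm_integral_le_lintegral_enorm _).trans (lintegral_mono fun τ' => ?_)
    rw [Real.enorm_eq_ofReal (abs_nonneg _)]
  have h2 : ∫⁻ p, ψ p ∂(volume.prod volume) = ∫⁻ t, ∫⁻ τ, ψ (τ, τ + t) := by
    rw [lintegral_prod _ hψm.aemeasurable, ← lintegral_lintegral_swap (f := fun τ t => ψ (τ, τ + t))
      (hψm.comp (measurable_fst.prodMk (measurable_fst.add measurable_snd))).aemeasurable]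
    exact lintegral_congr fun τ => (lintegral_add_left_eq_self (fun τ' => ψ (τ, τ')) τ).symm
  have hm1 : MeasurableSet (Set.Ioc (0 : ℝ) s₀ ×ˢ Set.Ioc (0 : ℝ) L) :=
    measurableSet_Ioc.prod measurableSet_Ioc
  have hm2 : MeasurableSet (Set.Ioc (0 : ℝ) L ×ˢ Set.Ioc (0 : ℝ) s₀) :=
    measurableSet_Ioc.prod measurableSet_Ioc
  refine h1.trans ?_
  rw [← lintegral_indicator (measurableSet_Ioc.prod measurableSet_Ioc)]
  calc _ ≤ ∫⁻ p, ((Set.Ioc (0 : ℝ) s₀ ×ˢ Set.Ioc (0 : ℝ) L).indicator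
          (fun _ => ENNReal.ofReal (2 * C)) p +
        (Set.Ioc (0 : ℝ) L ×ˢ Set.Ioc (0 : ℝ) s₀).indicator (fun _ => ENNReal.ofReal (2 * C)) p) +
        (ψ p + ψ p.swap) ∂(volume.prod volume) := by
        refine lintegral_mono fun p => ?_
        refine Set.indicator_apply_le' (fun hp => ?_) (fun _ => zero_le)
        have hb : ENNReal.ofReal |f p.1 - f p.2| ≤ ENNReal.ofReal (2 * C) :=
          ENNReal.ofReal_le_ofReal ((abs_sub _ _).trans
            (by linarith [hC p.1 hp.1.1.le hp.1.2, hC p.2 hp.2.1.le hp.2.2]))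
        by_cases a1 : p.1 ≤ s₀
        · rw [Set.indicator_of_mem (s := Set.Ioc (0 : ℝ) s₀ ×ˢ Set.Ioc (0 : ℝ) L)
            ⟨⟨hp.1.1, a1⟩, hp.2⟩]
          exact hb.trans (le_add_right le_self_add)
        by_cases a2 : p.2 ≤ s₀
        · rw [Set.indicator_of_mem (s := Set.Ioc (0 : ℝ) L ×ˢ Set.Ioc (0 : ℝ) s₀)
            ⟨hp.1, ⟨hp.2.1, a2⟩⟩]
          exact hb.trans (le_add_right le_add_self)
        refine le_add_left ?_
        rcases lt_trichotomy p.1 p.2 with a3 | a3 | a3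
        · refine le_add_right (le_of_eq ?_)
          simp only [hψ]
          rw [if_pos ⟨not_le.1 a1, a3, hp.2.2⟩, abs_sub_comm]
        · rw [a3]; simp
        · refine le_add_left (le_of_eq ?_)
          simp only [hψ, Prod.fst_swap, Prod.snd_swap]
          rw [if_pos ⟨not_le.1 a2, a3, hp.1.2⟩]
    _ = _ := by
        rw [lintegral_add_right _ (g := fun p => ψ p + ψ p.swap)
            (hψm.add (hψm.comp measurable_swap)),
          lintegral_add_left (measurable_const.indicator hm1), lintegral_add_left hψm,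
          lintegral_indicator_const hm1, lintegral_indicator_const hm2, lintegral_prod_swap, h2,
          Measure.prod_prod, Measure.prod_prod, Real.volume_Ioc, Real.volume_Ioc, sub_zero,
          sub_zero, ← two_mul, ← ENNReal.ofReal_mul hs₀, ← ENNReal.ofReal_mul hL0,
          ← ENNReal.ofReal_mul (by positivity), ← ENNReal.ofReal_mul (by positivity),
          ← ENNReal.ofReal_add (by positivity) (by positivity)]
        congr 2
        ring

open scoped ENNReal in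
theorem PotE_pair {Z : Type*} [MeasurableSpace Z] (μ : Measure Z) [IsFiniteMeasure μ]
    {f : Z → ℝ → ℝ} (hf : Measurable fun y : Z × ℝ => f y.1 y.2) {s₀ L C D : ℝ} (hs₀ : 0 ≤ s₀)
    (hL : s₀ ≤ L) (hC0 : 0 ≤ C) (hD0 : 0 ≤ D) (hC : ∀ x τ, 0 ≤ τ → τ ≤ L → |f x τ| ≤ C)
    (hD : ∀ t, 0 ≤ t → s₀ + t ≤ L → ∫ x, (∫ τ in s₀..(L - t), |f x (τ + t) - f x τ|) ∂μ ≤ D) :
    ∫ x, (∫ τ in (0 : ℝ)..L, ∫ τ' in (0 : ℝ)..L, |f x τ - f x τ'|) ∂μ ≤
      2 * L * D + 4 * s₀ * L * C * μ.real Set.univ := by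
  have hL0 : 0 ≤ L := hs₀.trans hL
  set ψ : (Z × ℝ) × ℝ → ℝ≥0∞ := fun q => if s₀ < q.2 ∧ q.2 < q.2 + q.1.2 ∧ q.2 + q.1.2 ≤ L then
    ENNReal.ofReal |f q.1.1 (q.2 + q.1.2) - f q.1.1 q.2| else 0 with hψ
  have hψm : Measurable ψ := by
    have a1 : Measurable fun q : (Z × ℝ) × ℝ => q.2 + q.1.2 := measurable_snd.add measurable_fst.snd
    exact Measurable.ite ((measurableSet_lt measurable_const measurable_snd).inter
      ((measurableSet_lt measurable_snd a1).inter (measurableSet_le a1 measurable_const)))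
      ((hf.comp (measurable_fst.fst.prodMk a1)).sub
        (hf.comp (measurable_fst.fst.prodMk measurable_snd))).abs.ennreal_ofReal measurable_const
  have hA : ∀ t, ∫⁻ x, ∫⁻ τ, ψ ((x, t), τ) ∂volume ∂μ ≤
      (Set.Ioc 0 (L - s₀)).indicator (fun _ => ENNReal.ofReal D) t := by
    intro t
    by_cases ht : t ∈ Set.Ioc 0 (L - s₀)
    · rw [Set.indicator_of_mem ht]
      have hst : s₀ ≤ L - t := by linarith [ht.2]
      set g : Z × ℝ → ℝ := fun y => |f y.1 (y.2 + t) - f y.1 y.2| with hg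
      have hgm : Measurable g :=
        ((hf.comp (measurable_fst.prodMk (measurable_snd.add_const t))).sub hf).abs
      have hgi : Integrable g (μ.prod (volume.restrict (Set.Ioc s₀ (L - t)))) := by
        refine Integrable.of_bound hgm.aestronglyMeasurable (2 * C) ?_
        filter_upwards [Measure.quasiMeasurePreserving_snd.ae (ae_restrict_mem measurableSet_Ioc)]
          with y hy
        have a1 := hC y.1 (y.2 + t) (by linarith [hy.1, ht.1]) (by linarith [hy.2])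
        have a2 := hC y.1 y.2 (by linarith [hy.1]) (by linarith [hy.2, ht.1])
        simp only [hg, Real.norm_eq_abs, abs_abs]
        exact (abs_sub _ _).trans (by linarith)
      have h1 := hD t ht.1.le (by linarith)
      simp only [intervalIntegral.integral_of_le hst] at h1
      refine le_trans ?_ (ENNReal.ofReal_le_ofReal h1)
      rw [← integral_prod g hgi, ofReal_integral_eq_lintegral_ofReal hgi
        (Filter.Eventually.of_forall fun _ => abs_nonneg _),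
        lintegral_prod _ hgm.ennreal_ofReal.aemeasurable]
      refine lintegral_mono fun x => ?_
      rw [← lintegral_indicator measurableSet_Ioc]
      refine lintegral_mono fun τ => ?_
      simp only [hψ]
      split_ifs with h
      · rw [Set.indicator_of_mem (show τ ∈ Set.Ioc s₀ (L - t) from ⟨h.1, by linarith [h.2.2]⟩)]
      · exact zero_le
    · have : ∀ x τ, ψ ((x, t), τ) = 0 := fun x τ => if_neg fun h =>
        ht ⟨by linarith [h.2.1], by linarith [h.1, h.2.2]⟩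
      simp [this]
  have hB : ∫⁻ x, ∫⁻ t, ∫⁻ τ, ψ ((x, t), τ) ∂volume ∂volume ∂μ ≤ ENNReal.ofReal (L * D) := by
    rw [lintegral_lintegral_swap (hψm.lintegral_prod_right').aemeasurable]
    refine (lintegral_mono hA).trans ?_
    rw [lintegral_indicator_const measurableSet_Ioc, Real.volume_Ioc, ← ENNReal.ofReal_mul hD0]
    exact ENNReal.ofReal_le_ofReal (by nlinarith)
  refine (le_abs_self _).trans ?_
  rw [← Real.norm_eq_abs, ← ENNReal.ofReal_le_ofReal_iff (by positivity), ofReal_norm]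
  refine (enorm_integral_le_lintegral_enorm _).trans ((lintegral_mono fun x =>
    PotE_sq (hf.comp measurable_prodMk_left) hs₀ hL hC0 (hC x)).trans ?_)
  rw [lintegral_add_left measurable_const, lintegral_const_mul' _ _ (by simp), lintegral_const,
    add_comm, ENNReal.ofReal_add (by positivity) (by positivity),
    ENNReal.ofReal_mul (p := 4 * s₀ * L * C) (by positivity), ofReal_measureReal]
  refine add_le_add ?_ le_rfl
  rw [mul_assoc, ENNReal.ofReal_mul (by norm_num), ENNReal.ofReal_ofNat]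
  exact mul_le_mul_right hB _

/-- Fubini: the region `min τ τ' < s₀` has area at most `2 s₀ L` (`jj_le`); on the rest use the
symmetry and the substitution `τ' = τ + t`. -/
theorem Model.int_pair [NeZero r] (𝓜 : Model G X) {z β L s₀ CT : ℝ} {R : ℕ} {χ : ℝ[X]}
    {χt : ℕ → ℂ[X]} {ct : ℕ → St r → ℝ} (hz : 0 ≤ z) (hβ : 0 ≤ β) (hs₀ : 0 ≤ s₀) (hCT : 0 ≤ CT)
    (hL : s₀ ≤ L) (hP : Par (X × ℝ) r (Real.exp 𝓜.k) z β L s₀ CT R χ χt ct) {σ : X → St r}
    (hσ : Measurable σ) (o : St r) :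
    ∫ x in {x | σ x = St.unc}, (∫ τ in (0 : ℝ)..L, ∫ τ' in (0 : ℝ)..L,
      |𝓜.jj χ z R L σ x τ o - 𝓜.jj χ z R L σ x τ' o|) ∂𝓜.μ ≤
      (2 * L * (12 * β * L + 5 * CT) + 4 * s₀ * L * (5 * Real.exp 𝓜.k + 4 * β)) *
        𝓜.μ.real Set.univ := by
  have := 𝓜.fin
  have hL0 : 0 ≤ L := hs₀.trans hL
  have hμ0 : 0 ≤ 𝓜.μ.real Set.univ := measureReal_nonneg
  have h1 := PotE_pair (𝓜.μ.restrict {x | σ x = St.unc}) (f := fun x τ => 𝓜.jj χ z R L σ x τ o)
    (𝓜.measurable_jj χ z R L hσ o) hs₀ hL (C := 5 * Real.exp 𝓜.k + 4 * β) (by positivity)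
    (D := (12 * β * L + 5 * CT) * 𝓜.μ.real Set.univ) (by positivity)
    (fun x τ h0 h1 => 𝓜.jj_le hz hβ hP.chi R σ x h0 h1 o)
    (fun t h0 h1 => 𝓜.int_shift hz hβ hs₀ hCT hP hσ h0 h1 o)
  refine h1.trans ?_
  have h2 : (𝓜.μ.restrict {x | σ x = St.unc}).real Set.univ ≤ 𝓜.μ.real Set.univ := by
    rw [measureReal_restrict_apply_univ]
    exact measureReal_mono (Set.subset_univ _)
  have h3 := mul_le_mul_of_nonneg_left h2
    (show 0 ≤ 4 * s₀ * L * (5 * Real.exp 𝓜.k + 4 * β) by positivity)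
  linarith

end Crest.Agent.R109
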