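import Crest.Agent.R109.Spec
import Crest.Agent.R109.Nor
import Crest.Agent.R109.Gr

/-! Task 109-PRE: the measured data of a finite family of normalising symmetries. -/

set_option autoImplicit false

open scoped InnerProductSpace ComplexOrder
open MeasureTheory

namespace Crest.Agent.R109

variable {H : Type*} [NormedAddCommGroup H] [InnerProductSpace ℂ H] [CompleteSpace H]
variable {M A : VonNeumannAlgebra H} {𝓔 : Nce M A} {X : Type*} [MeasurableSpace X]
variable {G : Type*} [Fintype G] [DecidableEq G]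

/-- `P` is the premodel of `x = ∑ a g * u g`. -/
structure IsPre (S : Spec 𝓔 X) (u : G → Op H) (x : Op H) (P : PreModel G X) : Prop where
  μ : P.μ = S.μ
  𝓑 : P.𝓑 = {B | ∃ p ∈ A, IsStarProjection p ∧ B = S.β p}
  ev : ∀ g, ∀ a ∈ A, ∀ y, S.ev a (P.φ g y) = S.ev (u g * a * u g) y
  F : ∀ w, P.F w = S.β (star (𝓔.E (uw u w)) * 𝓔.E (uw u w))
  m : ∀ w w' y, P.m w w' y = S.ev (𝓔.E (star (uw u w) * x * uw u w')) y

namespace PreA

section Words
omit [Fintype G] [DecidableEq G]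
variable {K : ℝ} {u : G → Op H}

omit [CompleteSpace H] in
theorem uw_nil : uw u [] = 1 := rfl

omit [CompleteSpace H] in
theorem uw_cons (g : G) (w : List G) : uw u (g :: w) = u g * uw u w := by
  simp [uw]

omit [CompleteSpace H] in
theorem uw_append (w w' : List G) : uw u (w ++ w') = uw u w * uw u w' := by
  simp [uw]

theorem uw_mem (hu : ∀ g, 𝓔.Inv K (u g)) (w : List G) : uw u w ∈ M := by
  induction w with
  | nil => exact one_mem M
  | cons g w ih => rw [uw_cons]; exact mul_mem (hu g).mem ih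

theorem uw_star (hu : ∀ g, 𝓔.Inv K (u g)) (w : List G) : star (uw u w) = uw u w.reverse := by
  induction w with
  | nil => simp [uw_nil]
  | cons g w ih =>
    rw [uw_cons, star_mul, ih, (hu g).sa, List.reverse_cons, uw_append, uw_cons, uw_nil, mul_one]

theorem star_mul_uw (hu : ∀ g, 𝓔.Inv K (u g)) (w : List G) : star (uw u w) * uw u w = 1 := by
  induction w with
  | nil => simp [uw_nil]
  | cons g w ih =>
    rw [uw_cons, star_mul, (hu g).sa, mul_assoc, ← mul_assoc (u g), (hu g).sq, one_mul, ih]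

theorem uw_mul_star (hu : ∀ g, 𝓔.Inv K (u g)) (w : List G) : uw u w * star (uw u w) = 1 := by
  have := star_mul_uw hu w.reverse
  rwa [← uw_star hu, star_star] at this

theorem uw_inn (hu : ∀ g, 𝓔.Inv K (u g)) (w : List G) {a : Op H} (ha : a ∈ A) :
    star (uw u w) * a * uw u w ∈ A := by
  induction w generalizing a with
  | nil => simpa [uw_nil] using ha
  | cons g w ih =>
    have := ih ((hu g).nor a ha)
    rw [uw_cons, star_mul, (hu g).sa]
    simpa only [mul_assoc] using this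

theorem uw_nor (hu : ∀ g, 𝓔.Inv K (u g)) (w : List G) : Nor M A (uw u w) where
  mem := uw_mem hu w
  pi := by rw [R124.PI, uw_mul_star hu, one_mul]
  out := fun a ha => by
    have := uw_inn hu w.reverse ha
    rwa [← uw_star hu, star_star] at this
  inn := fun a ha => uw_inn hu w ha

theorem uw_rev (hu : ∀ g, 𝓔.Inv K (u g)) (w w' : List G) :
    uw u (w.reverse ++ w') = star (uw u w) * uw u w' := by
  rw [uw_append, uw_star hu]

theorem conj_proj (hu : ∀ g, 𝓔.Inv K (u g)) (w : List G) {p : Op H} (hp : IsStarProjection p) :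
    IsStarProjection (star (uw u w) * p * uw u w) := by
  refine isStarProjection_iff'.2 ⟨?_, ?_⟩
  · calc star (uw u w) * p * uw u w * (star (uw u w) * p * uw u w)
        = star (uw u w) * p * (uw u w * star (uw u w)) * p * uw u w := by simp only [mul_assoc]
      _ = star (uw u w) * (p * p) * uw u w := by rw [uw_mul_star hu]; simp only [mul_assoc, mul_one]
      _ = _ := by rw [hp.isIdempotentElem.eq]
  · simp only [star_mul, star_star, hp.isSelfAdjoint.star_eq, mul_assoc]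

end Words

section Ev
omit [Fintype G] [DecidableEq G]
variable (S : Spec 𝓔 X)

theorem e_left {a T : Op H} (ha : a ∈ A) (hT : T ∈ M) (y : X) :
    S.ev (𝓔.E (a * T)) y = S.ev a y * S.ev (𝓔.E T) y := by
  rw [𝓔.ce.left a ha T hT, S.mul a ha _ (𝓔.ce.mem T hT)]

theorem e_right {a T : Op H} (ha : a ∈ A) (hT : T ∈ M) (y : X) :
    S.ev (𝓔.E (T * a)) y = S.ev (𝓔.E T) y * S.ev a y := by
  rw [𝓔.ce.right a ha T hT, S.mul _ (𝓔.ce.mem T hT) a ha]

theorem e_star {T : Op H} (hT : T ∈ M) (y : X) :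
    S.ev (𝓔.E (star T)) y = (starRingEnd ℂ) (S.ev (𝓔.E T) y) := by
  rw [𝓔.ce.map_star T hT, S.map_star _ (𝓔.ce.mem T hT)]

theorem e_sum {ι : Type*} (s : Finset ι) {T : ι → Op H} (hT : ∀ i ∈ s, T i ∈ M) (y : X) :
    S.ev (𝓔.E (∑ i ∈ s, T i)) y = ∑ i ∈ s, S.ev (𝓔.E (T i)) y := by
  rw [map_sum, S.ev_sum s fun i hi => 𝓔.ce.mem _ (hT i hi)]

theorem e_smul (c : ℂ) {T : Op H} (hT : T ∈ M) (y : X) :
    S.ev (𝓔.E (c • T)) y = c * S.ev (𝓔.E T) y := by
  rw [map_smul, S.smul c _ (𝓔.ce.mem T hT)]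

theorem e_one (y : X) : S.ev (𝓔.E 1) y = 1 := by rw [𝓔.ce.one, S.one]

theorem e_mono {T T' : Op H} (hT : T ∈ M) (hT' : T' ∈ M) (h : T ≤ T') (y : X) :
    S.ev (𝓔.E T) y ≤ S.ev (𝓔.E T') y := by
  have h1 := S.nonneg _ (sub_mem (𝓔.ce.mem _ hT') (𝓔.ce.mem _ hT))
    (sub_nonneg.2 (𝓔.E_mono hT hT' h)) y
  rwa [S.ev_sub (𝓔.ce.mem _ hT') (𝓔.ce.mem _ hT), sub_nonneg] at h1

theorem f_mem {v : Op H} (hv : v ∈ M) : star (𝓔.E v) * 𝓔.E v ∈ A :=
  mul_mem (star_mem (𝓔.ce.mem v hv)) (𝓔.ce.mem v hv)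

theorem ev_f {v : Op H} (hv : v ∈ M) (y : X) : S.ev (star (𝓔.E v) * 𝓔.E v) y =
    (starRingEnd ℂ) (S.ev (𝓔.E v) y) * S.ev (𝓔.E v) y := by
  rw [S.mul _ (star_mem (𝓔.ce.mem v hv)) _ (𝓔.ce.mem v hv), S.map_star _ (𝓔.ce.mem v hv)]

theorem mem_f {v : Op H} (hv : Nor M A v) {y : X} (h : S.ev (𝓔.E v) y ≠ 0) :
    y ∈ S.β (star (𝓔.E v) * 𝓔.E v) := by
  rcases S.ev_proj (𝓔.E_nor hv).1 (f_mem hv.mem) y with h0 | h1
  · rw [ev_f S hv.mem] at h0
    rcases mul_eq_zero.1 h0 with h2 | h2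
    · exact absurd ((map_eq_zero _).1 h2) h
    · exact absurd h2 h
  · exact h1

theorem norm_of_mem_f {v : Op H} (hv : v ∈ M) {y : X} (h : y ∈ S.β (star (𝓔.E v) * 𝓔.E v)) :
    ‖S.ev (𝓔.E v) y‖ = 1 := by
  have h1 : S.ev (star (𝓔.E v) * 𝓔.E v) y = 1 := h
  rw [ev_f S hv] at h1
  have h2 := congrArg norm h1
  rw [norm_mul, Complex.norm_conj, norm_one] at h2
  nlinarith [norm_nonneg (S.ev (𝓔.E v) y)]

theorem ev_fix {v : Op H} (hv : Nor M A v) {y : X} (h : y ∈ S.β (star (𝓔.E v) * 𝓔.E v))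
    {a : Op H} (ha : a ∈ A) : S.ev (star v * a * v) y = S.ev a y := by
  obtain ⟨hf, hc⟩ := 𝓔.E_nor hv
  have hcA := 𝓔.ce.mem v hv.mem
  have hfA : star (𝓔.E v) * 𝓔.E v ∈ A := f_mem hv.mem
  have h1 : S.ev (star (𝓔.E v) * 𝓔.E v) y = 1 := h
  generalize star (𝓔.E v) * 𝓔.E v = f at hf hc hfA h1
  have h2 : star (𝓔.E v) * a * 𝓔.E v = f * (star v * a * v) * f := by
    rw [hc, star_mul, hf.isSelfAdjoint.star_eq]
    simp only [mul_assoc]
  have h3 : S.ev (star (𝓔.E v) * a * 𝓔.E v) y = S.ev (f * (star v * a * v) * f) y := by rw [h2]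
  rw [S.mul _ (mul_mem hfA (hv.inn a ha)) _ hfA, S.mul _ hfA _ (hv.inn a ha), h1, one_mul, mul_one,
    S.mul _ (mul_mem (star_mem hcA) ha) _ hcA, S.mul _ (star_mem hcA) _ ha] at h3
  have h4 : S.ev (star (𝓔.E v)) y * S.ev (𝓔.E v) y = 1 := by
    rw [← S.mul _ (star_mem hcA) _ hcA]; exact h
  rw [← h3]
  linear_combination (S.ev a y) * h4

variable {K : ℝ} {u : G → Op H} {φ : G → X → X}

theorem ev_act (hu : ∀ g, 𝓔.Inv K (u g))
    (hφ : ∀ g, ∀ a ∈ A, ∀ y, S.ev a (φ g y) = S.ev (u g * a * u g) y) (w : List G) {a : Op H}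
    (ha : a ∈ A) (y : X) : S.ev a (act φ w y) = S.ev (star (uw u w) * a * uw u w) y := by
  induction w generalizing a with
  | nil => simp [uw_nil, act]
  | cons g w ih =>
    rw [act, hφ g a ha, ih ((hu g).nor a ha), uw_cons, star_mul, (hu g).sa]
    simp only [mul_assoc]

theorem invol (hu : ∀ g, 𝓔.Inv K (u g))
    (hφ : ∀ g, ∀ a ∈ A, ∀ y, S.ev a (φ g y) = S.ev (u g * a * u g) y) (g : G) (y : X) :
    φ g (φ g y) = y := by
  refine S.ext _ _ fun a ha => ?_
  rw [hφ g a ha, hφ g _ ((hu g).nor a ha)]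
  congr 1
  calc u g * (u g * a * u g) * u g = (u g * u g) * a * (u g * u g) := by simp only [mul_assoc]
    _ = a := by rw [(hu g).sq, one_mul, mul_one]

theorem fix (hu : ∀ g, 𝓔.Inv K (u g))
    (hφ : ∀ g, ∀ a ∈ A, ∀ y, S.ev a (φ g y) = S.ev (u g * a * u g) y) (w : List G) {y : X}
    (h : y ∈ S.β (star (𝓔.E (uw u w)) * 𝓔.E (uw u w))) : act φ w y = y := by
  refine S.ext _ _ fun a ha => ?_
  rw [ev_act S hu hφ w ha, ev_fix S (uw_nor hu w) h ha]

theorem act_eq (hu : ∀ g, 𝓔.Inv K (u g))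
    (hφ : ∀ g, ∀ a ∈ A, ∀ y, S.ev a (φ g y) = S.ev (u g * a * u g) y) (w w' : List G) {y : X}
    (h : S.ev (𝓔.E (star (uw u w) * uw u w')) y ≠ 0) : act φ w' y = act φ w y := by
  rw [← uw_rev hu] at h
  have h1 := fix S hu hφ _ (mem_f S (uw_nor hu _) h)
  rw [act_append] at h1
  have h2 := congrArg (act φ w) h1
  rwa [act_act_reverse (invol S hu hφ)] at h2

theorem e_gauge (hu : ∀ g, 𝓔.Inv K (u g)) (w₁ w₂ : List G) {y : X}
    (h : y ∈ S.β (star (𝓔.E (uw u (w₂.reverse ++ w₁))) * 𝓔.E (uw u (w₂.reverse ++ w₁))))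
    {T : Op H} (hT : T ∈ M) : S.ev (𝓔.E (T * uw u w₁)) y =
      S.ev (𝓔.E (T * uw u w₂)) y * S.ev (𝓔.E (star (uw u w₂) * uw u w₁)) y := by
  have hv := uw_nor hu (w₂.reverse ++ w₁)
  obtain ⟨-, hc⟩ := 𝓔.E_nor hv
  have hcA := 𝓔.ce.mem _ hv.mem
  have hfA := f_mem (𝓔 := 𝓔) hv.mem
  have h1 : S.ev (star (𝓔.E (uw u (w₂.reverse ++ w₁))) * 𝓔.E (uw u (w₂.reverse ++ w₁))) y = 1 := h
  generalize star (𝓔.E (uw u (w₂.reverse ++ w₁))) * 𝓔.E (uw u (w₂.reverse ++ w₁)) = f
    at hc hfA h1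
  rw [uw_rev hu] at hc hcA
  rw [← e_right S hcA (mul_mem hT (uw_mem hu _)), hc]
  have h2 : T * uw u w₂ * (star (uw u w₂) * uw u w₁ * f) = T * uw u w₁ * f := by
    calc _ = T * (uw u w₂ * star (uw u w₂)) * uw u w₁ * f := by simp only [mul_assoc]
      _ = _ := by rw [uw_mul_star hu, mul_one]
  rw [h2, e_right S hfA (mul_mem hT (uw_mem hu _)), h1, mul_one]

theorem e_gauge' (hu : ∀ g, 𝓔.Inv K (u g)) (w₁ w₂ : List G) {y : X}
    (h : y ∈ S.β (star (𝓔.E (uw u (w₂.reverse ++ w₁))) * 𝓔.E (uw u (w₂.reverse ++ w₁))))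
    {T : Op H} (hT : T ∈ M) : S.ev (𝓔.E (star (uw u w₁) * T)) y =
      S.ev (𝓔.E (star (uw u w₁) * uw u w₂)) y * S.ev (𝓔.E (star (uw u w₂) * T)) y := by
  have h1 := congrArg (starRingEnd ℂ) (e_gauge S hu w₁ w₂ h (star_mem hT))
  rw [map_mul (starRingEnd ℂ), ← e_star S (mul_mem (star_mem hT) (uw_mem hu _)),
    ← e_star S (mul_mem (star_mem hT) (uw_mem hu _)),
    ← e_star S (mul_mem (star_mem (uw_mem hu _)) (uw_mem hu _))] at h1
  simp only [star_mul, star_star] at h1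
  rw [h1, mul_comm]

theorem β_act (hu : ∀ g, 𝓔.Inv K (u g))
    (hφ : ∀ g, ∀ a ∈ A, ∀ y, S.ev a (φ g y) = S.ev (u g * a * u g) y) (w : List G) {p : Op H}
    (hp : p ∈ A) (y : X) : act φ w y ∈ S.β p ↔ y ∈ S.β (star (uw u w) * p * uw u w) := by
  show S.ev p (act φ w y) = 1 ↔ _
  rw [ev_act S hu hφ w hp]
  rfl

theorem sep (hu : ∀ g, 𝓔.Inv K (u g))
    (hφ : ∀ g, ∀ a ∈ A, ∀ y, S.ev a (φ g y) = S.ev (u g * a * u g) y) (w : List G) {ε : ℝ}
    (hε : 0 < ε) : ∃ (n : ℕ) (lab : X → Fin n),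
      Fib {B | ∃ p ∈ A, IsStarProjection p ∧ B = S.β p} lab ∧
      S.μ.real {y | y ∉ S.β (star (𝓔.E (uw u w)) * 𝓔.E (uw u w)) ∧ lab (act φ w y) = lab y} ≤ ε := by
  have := S.fin
  have hv := uw_nor hu w
  obtain ⟨hf, hc⟩ := 𝓔.E_nor hv
  have hfA := f_mem (𝓔 := 𝓔) hv.mem
  generalize star (𝓔.E (uw u w)) * 𝓔.E (uw u w) = f at hf hc hfA
  have hgA : 1 - f ∈ A := sub_mem (one_mem A) hfA
  have hg : IsStarProjection (1 - f) := hf.one_sub
  have hvM : uw u w * (1 - f) ∈ M := mul_mem hv.mem (𝓔.masa.le _ hgA)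
  have hE : 𝓔.E (uw u w * (1 - f)) = 0 := by
    rw [𝓔.ce.right _ hgA _ hv.mem, hc, mul_assoc, hf.mul_one_sub_self, mul_zero]
  obtain ⟨n, p, hp, hap⟩ := 𝓔.EP_approx hvM (Real.sqrt_pos.2 hε)
  have h1 := hap n p hp (Ref.refl p hp.proj)
  rw [hE, sub_zero] at h1
  obtain ⟨lab, hlab⟩ := S.exists_lab hp
  refine ⟨n, lab, fun i => ⟨p i, hp.mem i, hp.proj i, Set.ext fun y => hlab y i⟩, ?_⟩
  have hcA : ∀ i, star (uw u w) * p i * uw u w ∈ A := fun i => hv.inn _ (hp.mem i)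
  have hq1 : ∀ i, IsStarProjection ((1 - f) * (star (uw u w) * p i * uw u w)) := fun i =>
    hg.mul (conj_proj hu w (hp.proj i)) (𝓔.masa.comm _ hgA _ (hcA i))
  have hq1A : ∀ i, (1 - f) * (star (uw u w) * p i * uw u w) ∈ A := fun i => mul_mem hgA (hcA i)
  have hq : ∀ i, IsStarProjection (p i * ((1 - f) * (star (uw u w) * p i * uw u w))) := fun i =>
    (hp.proj i).mul (hq1 i) (𝓔.masa.comm _ (hp.mem i) _ (hq1A i))
  have hqA : ∀ i, p i * ((1 - f) * (star (uw u w) * p i * uw u w)) ∈ A := fun i =>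
    mul_mem (hp.mem i) (hq1A i)
  have hsub : {y | y ∉ S.β f ∧ lab (act φ w y) = lab y} ⊆
      ⋃ i, S.β (p i * ((1 - f) * (star (uw u w) * p i * uw u w))) := by
    rintro y ⟨hy1, hy2⟩
    refine Set.mem_iUnion.2 ⟨lab y, ?_⟩
    rw [S.β_mul (hp.proj _) (hp.mem _) (hq1 _) (hq1A _),
      S.β_mul hg hgA (conj_proj hu w (hp.proj _)) (hcA _), S.β_compl hf hfA]
    exact ⟨(hlab _ _).1 rfl, hy1, (β_act S hu hφ w (hp.mem _) y).1 ((hlab _ _).1 hy2)⟩
  have h2 : 𝓔.n2 (EP p (uw u w * (1 - f))) ^ 2 =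
      ∑ i, (𝓔.ψ (p i * ((1 - f) * (star (uw u w) * p i * uw u w)))).re := by
    rw [𝓔.n2_sq (EP_mem 𝓔.masa hp hvM), EP, R124.star_sum_mul_sum, map_sum, Complex.re_sum]
    · refine Finset.sum_congr rfl fun i _ => ?_
      congr 2
      have e1 : star (p i * (uw u w * (1 - f)) * p i) * (p i * (uw u w * (1 - f)) * p i) =
          p i * ((1 - f) * (star (uw u w) * (p i * p i) * uw u w)) * ((1 - f) * p i) := by
        simp only [star_mul, (hp.proj i).isSelfAdjoint.star_eq, hg.isSelfAdjoint.star_eq,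
          mul_assoc]
      rw [e1, (hp.proj i).isIdempotentElem.eq]
      have c1 := 𝓔.masa.comm _ (hcA i) _ hgA
      have c2 := 𝓔.masa.comm _ (hq1A i) _ (hp.mem i)
      generalize star (uw u w) * p i * uw u w = c at c1 c2
      calc p i * ((1 - f) * c) * ((1 - f) * p i)
          = p i * ((1 - f) * (c * (1 - f)) * p i) := by simp only [mul_assoc]
        _ = p i * (((1 - f) * (1 - f)) * c * p i) := by rw [c1]; simp only [mul_assoc]
        _ = p i * p i * ((1 - f) * c) := by rw [hg.isIdempotentElem.eq, c2, mul_assoc]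
        _ = _ := by rw [(hp.proj i).isIdempotentElem.eq]
    · intro i j hij
      have e1 : star (p i * (uw u w * (1 - f)) * p i) * (p j * (uw u w * (1 - f)) * p j) =
          star (uw u w * (1 - f) * p i) * (p i * p j) * (uw u w * (1 - f) * p j) := by
        simp only [star_mul, (hp.proj i).isSelfAdjoint.star_eq, mul_assoc]
      rw [e1, hp.orth i j hij, mul_zero, zero_mul]
  calc _ ≤ S.μ.real (⋃ i, S.β (p i * ((1 - f) * (star (uw u w) * p i * uw u w)))) :=
        measureReal_mono hsub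
    _ ≤ ∑ i, S.μ.real (S.β (p i * ((1 - f) * (star (uw u w) * p i * uw u w)))) :=
        measureReal_iUnion_fintype_le _
    _ = 𝓔.n2 (EP p (uw u w * (1 - f))) ^ 2 := by
        rw [h2]
        exact Finset.sum_congr rfl fun i _ => S.real_β (hq i) (hqA i)
    _ ≤ Real.sqrt ε ^ 2 := pow_le_pow_left₀ (𝓔.n2_nonneg _) h1 2
    _ = ε := Real.sq_sqrt hε.le

theorem e_form (hu : ∀ g, 𝓔.Inv K (u g)) {T : Op H} (hT : T ∈ M) (W : Finset (List G))
    (η : List G → ℂ) (y : X) :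
    S.ev (𝓔.E (star (∑ w ∈ W, η w • uw u w) * T * ∑ w ∈ W, η w • uw u w)) y =
      form (fun w w' => S.ev (𝓔.E (star (uw u w) * T * uw u w')) y) W η := by
  have hm : ∀ w w', star (uw u w) * T * uw u w' ∈ M := fun w w' =>
    mul_mem (mul_mem (star_mem (uw_mem hu _)) hT) (uw_mem hu _)
  have e1 : star (∑ w ∈ W, η w • uw u w) * T * ∑ w ∈ W, η w • uw u w =
      ∑ w ∈ W, ∑ w' ∈ W, ((starRingEnd ℂ) (η w) * η w') • (star (uw u w) * T * uw u w') := by
    rw [star_sum, Finset.sum_mul, Finset.sum_mul_sum]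
    refine Finset.sum_congr rfl fun w _ => Finset.sum_congr rfl fun w' _ => ?_
    rw [star_smul, smul_mul_assoc, smul_mul_smul_comm]
    rfl
  rw [e1, e_sum S _ fun w _ => sum_mem fun w' _ => R124.csmul_mem _ (hm w w'), form]
  refine Finset.sum_congr rfl fun w _ => ?_
  rw [e_sum S _ fun w' _ => R124.csmul_mem _ (hm w w')]
  refine Finset.sum_congr rfl fun w' _ => ?_
  rw [e_smul S _ (hm w w')]
  ring

theorem bd (hu : ∀ g, 𝓔.Inv K (u g))
    (hφ : ∀ g, ∀ a ∈ A, ∀ y, S.ev a (φ g y) = S.ev (u g * a * u g) y) {x : Op H} (hx : x ∈ M)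
    (hsa : IsSelfAdjoint x) (h1 : ‖x‖ ≤ 1) (y : X) (W : Finset (List G))
    (hinj : Set.InjOn (fun w => act φ w y) W) (η : List G → ℂ) :
    ‖form (fun w w' => S.ev (𝓔.E (star (uw u w) * x * uw u w')) y) W η‖ ≤ nsq W η := by
  rw [← e_form S hu hx]
  have h2 := e_form S hu (one_mem M) W η y
  have h3 : form (fun w w' => S.ev (𝓔.E (star (uw u w) * 1 * uw u w')) y) W η =
      ((nsq W η : ℝ) : ℂ) := by
    rw [form, nsq, Complex.ofReal_sum]
    refine Finset.sum_congr rfl fun w hw => ?_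
    rw [Finset.sum_eq_single_of_mem w hw]
    · rw [mul_one, star_mul_uw hu, e_one, mul_one, Complex.conj_mul']
      push_cast
      rfl
    · intro w' hw' hne
      have : S.ev (𝓔.E (star (uw u w) * 1 * uw u w')) y = 0 := by
        by_contra h
        rw [mul_one] at h
        exact hne (hinj hw' hw (act_eq S hu hφ w w' h))
      rw [this, mul_zero, zero_mul]
  rw [h3] at h2
  have hb : ∑ w ∈ W, η w • uw u w ∈ M := sum_mem fun w _ => R124.csmul_mem _ (uw_mem hu w)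
  generalize ∑ w ∈ W, η w • uw u w = b at h2 hb
  have hx1 : x ≤ 1 := by
    refine hsa.le_algebraMap_norm_self.trans ?_
    rw [← map_one (algebraMap ℝ (Op H))]
    exact algebraMap_mono _ h1
  have hx2 : -x ≤ 1 := by
    refine hsa.neg.le_algebraMap_norm_self.trans ?_
    rw [← map_one (algebraMap ℝ (Op H)), norm_neg]
    exact algebraMap_mono _ h1
  have m1 : star b * 1 * b ∈ M := mul_mem (mul_mem (star_mem hb) (one_mem M)) hb
  have m2 : star b * x * b ∈ M := mul_mem (mul_mem (star_mem hb) hx) hb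
  have a1 := e_mono S m2 m1 (star_left_conjugate_le_conjugate hx1 b) y
  have a2 := e_mono S (mul_mem (mul_mem (star_mem hb) (neg_mem hx)) hb) m1
    (star_left_conjugate_le_conjugate hx2 b) y
  have e1 : star b * -x * b = (-1 : ℂ) • (star b * x * b) := by simp
  rw [e1, e_smul S _ m2, h2] at a2
  rw [h2] at a1
  generalize S.ev (𝓔.E (star b * x * b)) y = c at a1 a2
  obtain ⟨b1, b2⟩ := Complex.le_def.1 a1
  obtain ⟨b3, -⟩ := Complex.le_def.1 a2
  simp only [Complex.ofReal_re, Complex.ofReal_im, neg_mul, one_mul, Complex.neg_re] at b1 b2 b3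
  rw [← Complex.abs_re_eq_norm.2 b2, abs_le]
  exact ⟨by linarith, b1⟩

theorem e_mul_sum (hu : ∀ g, 𝓔.Inv K (u g)) [Fintype G] {b : G → Op H} (hb : ∀ g, b g ∈ A)
    (w : List G) {T : Op H} (hT : T ∈ M) (y : X) :
    S.ev (𝓔.E (star (uw u w) * (∑ g, b g * u g) * T)) y =
      ∑ g, S.ev (star (uw u w) * b g * uw u w) y * S.ev (𝓔.E (star (uw u (g :: w)) * T)) y := by
  have e1 : star (uw u w) * (∑ g, b g * u g) * T =
      ∑ g, (star (uw u w) * b g * uw u w) * (star (uw u (g :: w)) * T) := by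
    rw [Finset.mul_sum, Finset.sum_mul]
    refine Finset.sum_congr rfl fun g _ => ?_
    rw [uw_cons, star_mul, (hu g).sa]
    calc _ = star (uw u w) * b g * (uw u w * star (uw u w)) * u g * T := by
          rw [uw_mul_star hu]; simp only [mul_assoc, one_mul]
      _ = _ := by simp only [mul_assoc]
  have hm : ∀ g, star (uw u (g :: w)) * T ∈ M := fun g => mul_mem (star_mem (uw_mem hu _)) hT
  rw [e1, e_sum S _ fun g _ => mul_mem (𝓔.masa.le _ (uw_inn hu w (hb g))) (hm g)]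
  exact Finset.sum_congr rfl fun g _ => e_left S (uw_inn hu w (hb g)) (hm g) y

theorem edge (hu : ∀ g, 𝓔.Inv K (u g))
    (hφ : ∀ g, ∀ a ∈ A, ∀ y, S.ev a (φ g y) = S.ev (u g * a * u g) y) [Fintype G]
    {b : G → Op H} (hb : ∀ g, b g ∈ A) (w w' : List G) (y : X)
    (h : S.ev (𝓔.E (star (uw u w) * (∑ g, b g * u g) * uw u w')) y ≠ 0) :
    ∃ g, act φ w' y = φ g (act φ w y) := by
  rw [e_mul_sum S hu hb w (uw_mem hu w')] at h
  obtain ⟨g, -, hg⟩ := Finset.exists_ne_zero_of_sum_ne_zero h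
  exact ⟨g, act_eq S hu hφ (g :: w) w' (right_ne_zero_of_mul hg)⟩

end Ev

end PreA

set_option linter.unusedSectionVars false in
open PreA in
/-- `ev a (act w y) = ev (u_w* a u_w) y`. `quasi`: `Inv.le` and `Spec.le_of_β`.
`sep`: with `v = u_w (1 - f_w)`, `E v = 0` (`E_nor`) and
`n2 (EP p v)² = ψ (∑_i p i * (u_w* p i u_w) * (1 - f_w))` (`EP_approx`). `shift`, `diag`: `E_conj`.
`gauge`: `c = E (u_{w₂}* u_{w₁})`, `u_{w₁} f = u_{w₂} c`. `edge`: a nonzero value of
`E (u_w* u_g u_{w'})` at `y` puts `y` in `F (w.reverse ++ g :: w')`. `bd`: `b = ∑ η_w u_w`,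
`± E (b* x b) ≤ E (b* b)`, and `ev (E (u_w* u_{w'})) y = 0` if `act w y ≠ act w' y`. -/
theorem exists_pre (S : Spec 𝓔 X) {K : ℝ} (hK : 1 ≤ K) {u a : G → Op H} (hu : ∀ g, 𝓔.Inv K (u g))
    (ha : ∀ g, a g ∈ A) {x : Op H} (hx : x = ∑ g, a g * u g) (hsa : IsSelfAdjoint x)
    (h1 : ‖x‖ ≤ 1) (h0 : 𝓔.E x = 0) : ∃ P : PreModel G X, IsPre S u x P := by
  have := S.fin
  choose φ hφm hφ using fun g => S.conj (u g) (hu g).mem (hu g).sa (hu g).sq (hu g).nor
  have hxM : x ∈ M := hx ▸ sum_mem fun g _ => mul_mem (𝓔.masa.le _ (ha g)) (hu g).mem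
  have hm : ∀ w w', star (uw u w) * x * uw u w' ∈ M := fun w w' =>
    mul_mem (mul_mem (star_mem (uw_mem hu _)) hxM) (uw_mem hu _)
  have hpre : ∀ g, ∀ p ∈ A, φ g ⁻¹' S.β p = S.β (u g * p * u g) := fun g p hp =>
    Set.ext fun y => by
      show S.ev p (φ g y) = 1 ↔ _
      rw [hφ g p hp]
      rfl
  have hproj : ∀ g p, IsStarProjection p → IsStarProjection (u g * p * u g) := fun g p hp => by
    have := conj_proj hu [g] hp
    rwa [uw_cons, uw_nil, mul_one, (hu g).sa] at this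
  refine ⟨{
    φ := φ
    invol := invol S hu hφ
    meas := hφm
    μ := S.μ
    fin := S.fin
    K := K
    one_le := hK
    quasi := fun g T hT => ?_
    𝓑 := {B | ∃ p ∈ A, IsStarProjection p ∧ B = S.β p}
    alg := S.isSetAlgebra
    meas_𝓑 := ?_
    dense := fun T hT ε hε => ?_
    pre := ?_
    F := fun w => S.β (star (𝓔.E (uw u w)) * 𝓔.E (uw u w))
    F_mem := fun w => ⟨_, f_mem (uw_mem hu w), (𝓔.E_nor (uw_nor hu w)).1, rfl⟩
    F_fix := fun w y hy => fix S hu hφ w hy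
    sep := fun w ε hε => sep S hu hφ w hε
    m := fun w w' y => S.ev (𝓔.E (star (uw u w) * x * uw u w')) y
    meas_m := fun w w' => S.meas _ (𝓔.ce.mem _ (hm w w'))
    herm := fun w w' y => ?_
    diag := fun w y => ?_
    shift := fun w w' v y => ?_
    gauge := fun w₁ w₂ y hy => ?_
    edge := fun w w' y h => edge S hu hφ ha w w' y (hx ▸ h)
    bd := fun y W hinj η => bd S hu hφ hxM hsa h1 y W hinj η }, rfl, rfl, hφ, fun _ => rfl,
    fun _ _ _ => rfl⟩
  · have h2 := S.le_of_β (S.μ.map (φ g)) (K := K) (by linarith) (fun p hpA hp => by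
      rw [map_measureReal_apply (hφm g) (S.measurableSet_β hpA), hpre g p hpA,
        S.real_β (hproj g p hp) ((hu g).nor p hpA), S.real_β hp hpA]
      exact (hu g).le p hpA hp.nonneg) hT
    rwa [map_measureReal_apply (hφm g) hT] at h2
  · rintro B ⟨p, hpA, -, rfl⟩
    exact S.measurableSet_β hpA
  · obtain ⟨p, hpA, hp, h⟩ := S.dense S.μ hT hε
    exact ⟨_, ⟨p, hpA, hp, rfl⟩, h⟩
  · rintro g B ⟨p, hpA, hp, rfl⟩
    exact ⟨_, (hu g).nor p hpA, hproj g p hp, hpre g p hpA⟩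
  · rw [← e_star S (hm w w')]
    simp only [star_mul, star_star, hsa.star_eq, mul_assoc]
  · rw [𝓔.E_conj (uw_nor hu w) hxM, h0, mul_zero, zero_mul, S.ev_zero]
  · rw [ev_act S hu hφ v (𝓔.ce.mem _ (hm w w')), ← 𝓔.E_conj (uw_nor hu v) (hm w w'), uw_append,
      uw_append, star_mul]
    simp only [mul_assoc]
  · refine ⟨S.ev (𝓔.E (star (uw u w₂) * uw u w₁)) y, ?_, fun w =>
      e_gauge S hu w₁ w₂ hy (mul_mem (star_mem (uw_mem hu _)) hxM)⟩
    rw [← uw_rev hu]
    exact norm_of_mem_f S (uw_mem hu _) hy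

open PreA in
/-- Induction on `k` for `ev (E (u_w* Z^k)) y = pw rep Y k w []`, for `w ∈ rep` such that
`act w y = act w₀ y` for some `w₀` with `w₀.length + k ≤ R`. Key step: for `v = u_{g :: w}` and the
representative `w'` of `act (g :: w) y`, `ev (E (v* T)) y = ev (E (v* u_{w'})) y * ev (E (u_{w'}* T)) y`,
while `ev (E (v* u_{w''})) y = 0` for the other `w'' ∈ rep`. -/
theorem IsPre.moment {S : Spec 𝓔 X} {K : ℝ} {u a : G → Op H} (hu : ∀ g, 𝓔.Inv K (u g))
    (ha : ∀ g, a g ∈ A) {x : Op H} (hx : x = ∑ g, a g * u g) {P : PreModel G X}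
    (hP : IsPre S u x P) {r : ℕ} {p : Option (Fin r) → Op H} (hp : Part A p) {y : X}
    (hy : ∀ w, act P.φ w y = y → y ∈ P.F w) {c : List G → Option (Fin r)}
    (hc : ∀ w, act P.φ w y ∈ S.β (p (c w))) {R : ℕ} {rep : Finset (List G)} (h0 : [] ∈ rep)
    (hinj : Set.InjOn (fun w => act P.φ w y) rep)
    (hsurj : ∀ w : List G, w.length ≤ R → ∃ w' ∈ rep, act P.φ w' y = act P.φ w y) {k : ℕ}
    (hk : k ≤ R) :
    S.ev (𝓔.E ((∑ i : Fin r, p (some i) * x * p (some i)) ^ k)) y =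
      pw rep (Mc (fun w w' => P.m w w' y) c) k [] [] := by
  have hφ := hP.ev
  have hxM : x ∈ M := hx ▸ sum_mem fun g _ => mul_mem (𝓔.masa.le _ (ha g)) (hu g).mem
  -- the values of the partition
  have hev : ∀ w o, S.ev (star (uw u w) * p o * uw u w) y = if c w = o then 1 else 0 := by
    intro w o
    rw [← ev_act S hu hφ w (hp.mem o)]
    have h1 : S.ev (p (c w)) (act P.φ w y) = 1 := hc w
    split_ifs with h
    · rw [← h, h1]
    · have h2 := S.mul _ (hp.mem (c w)) _ (hp.mem o) (act P.φ w y)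
      rw [hp.orth _ _ h, S.ev_zero, h1, one_mul] at h2
      exact h2.symm
  -- the coefficients of `Z`
  obtain ⟨b, hb, hZ⟩ : ∃ b : G → Op H, (∀ g, b g ∈ A) ∧
      ∑ i : Fin r, p (some i) * x * p (some i) = ∑ g, b g * u g := by
    refine ⟨fun g => ∑ i : Fin r, p (some i) * a g * (u g * p (some i) * u g), fun g =>
      sum_mem fun i _ => mul_mem (mul_mem (hp.mem _) (ha g)) ((hu g).nor _ (hp.mem _)), ?_⟩
    simp only [hx, Finset.mul_sum, Finset.sum_mul]
    rw [Finset.sum_comm]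
    refine Finset.sum_congr rfl fun g _ => Finset.sum_congr rfl fun i _ => ?_
    calc _ = p (some i) * a g * u g * p (some i) * (u g * u g) := by
          rw [(hu g).sq]; simp only [mul_assoc, mul_one]
      _ = _ := by simp only [mul_assoc]
  have hY : ∀ w w', Mc (fun w w' => P.m w w' y) c w w' =
      S.ev (𝓔.E (star (uw u w) * (∑ g, b g * u g) * uw u w')) y := by
    intro w w'
    have hm : star (uw u w) * x * uw u w' ∈ M :=
      mul_mem (mul_mem (star_mem (uw_mem hu _)) hxM) (uw_mem hu _)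
    have e1 : star (uw u w) * (∑ g, b g * u g) * uw u w' = ∑ i : Fin r,
        (star (uw u w) * p (some i) * uw u w) * ((star (uw u w) * x * uw u w') *
          (star (uw u w') * p (some i) * uw u w')) := by
      rw [← hZ, Finset.mul_sum, Finset.sum_mul]
      refine Finset.sum_congr rfl fun i _ => ?_
      calc _ = star (uw u w) * p (some i) * (uw u w * star (uw u w)) * x *
            (uw u w' * star (uw u w')) * p (some i) * uw u w' := by
            rw [uw_mul_star hu, uw_mul_star hu]; simp only [mul_assoc, one_mul]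
        _ = _ := by simp only [mul_assoc]
    have hA : ∀ w i, star (uw u w) * p (some i) * uw u w ∈ A := fun w i => uw_inn hu w (hp.mem _)
    rw [e1, e_sum S _ fun i _ =>
      mul_mem (𝓔.masa.le _ (hA w i)) (mul_mem hm (𝓔.masa.le _ (hA w' i)))]
    rw [Finset.sum_congr rfl fun i _ => by
      rw [e_left S (hA w i) (mul_mem hm (𝓔.masa.le _ (hA w' i))), e_right S (hA w' i) hm, hev, hev,
        ← hP.m]]
    rw [Mc]
    cases hw : c w with
    | none => simp
    | some i =>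
      rw [Finset.sum_eq_single i]
      · by_cases h : c w' = some i
        · simp [h]
        · simp [h, Ne.symm h]
      · intro j _ hj
        simp [Ne.symm hj]
      · simp
  have hZM : ∑ g, b g * u g ∈ M := sum_mem fun g _ => mul_mem (𝓔.masa.le _ (hb g)) (hu g).mem
  rw [hZ]
  have key : ∀ k, ∀ w ∈ rep, ∀ w₀ : List G, w₀.length + k ≤ R → act P.φ w y = act P.φ w₀ y →
      S.ev (𝓔.E (star (uw u w) * (∑ g, b g * u g) ^ k)) y =
        pw rep (Mc (fun w w' => P.m w w' y) c) k w [] := by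
    intro k
    induction k with
    | zero =>
      intro w hw w₀ _ _
      rw [pow_zero, pw]
      split_ifs with h
      · rw [h, uw_nil, star_one, one_mul, e_one]
      · by_contra h2
        exact h (hinj h0 hw (act_eq S hu hφ w [] h2)).symm
    | succ k ih =>
      intro w hw w₀ hlen hw₀
      have hT : (∑ g, b g * u g) ^ k ∈ M := pow_mem hZM k
      rw [pow_succ', ← mul_assoc, e_mul_sum S hu hb w hT, pw]
      simp only [hY, e_mul_sum S hu hb w (uw_mem hu _), Finset.sum_mul]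
      rw [Finset.sum_comm]
      refine Finset.sum_congr rfl fun g _ => ?_
      obtain ⟨w', hw', e'⟩ := hsurj (g :: w₀) (by rw [List.length_cons]; omega)
      have e2 : act P.φ w' y = act P.φ (g :: w) y := by rw [e', act, act, hw₀]
      rw [Finset.sum_eq_single_of_mem w' hw']
      · have h3 : y ∈ P.F (w'.reverse ++ g :: w) := hy _ (by
          rw [act_append, ← e2, act_reverse_act P.invol])
        rw [hP.F] at h3
        rw [e_gauge' S hu (g :: w) w' h3 hT,
          ih w' hw' (g :: w₀) (by rw [List.length_cons]; omega) e']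
        ring
      · intro w'' hw'' hne
        have : S.ev (𝓔.E (star (uw u (g :: w)) * uw u w'')) y = 0 := by
          by_contra h2
          exact hne (hinj hw'' hw' ((act_eq S hu hφ (g :: w) w'' h2).trans e2.symm))
        rw [this, mul_zero, zero_mul]
  have := key k [] h0 [] (by simpa using hk) rfl
  rwa [uw_nil, star_one, one_mul] at this

end Crest.Agent.R109
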