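import Crest.Agent.R109.PfB
import Crest.Agent.R109.Frac

/-! Task 109-REG: zero-free regions. -/

set_option autoImplicit false
set_option linter.unusedSectionVars false

open Polynomial

namespace Crest.Agent.R109

variable {V : Type*} [DecidableEq V] {r : ℕ}

theorem Reg_ext {ι : Type*} [DecidableEq ι] (B : ι → ι → ℂ) {S S' : Finset ι} (hS : S' ⊆ S)
    (η : ι → ℂ) : form B S (fun u => if u ∈ S' then η u else 0) = form B S' η := by
  unfold form
  rw [← Finset.sum_subset hS fun a _ ha => by simp [ha]]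
  refine Finset.sum_congr rfl fun a ha => ?_
  rw [← Finset.sum_subset hS fun b _ hb => by simp [hb]]
  exact Finset.sum_congr rfl fun b hb => by simp [ha, hb]

theorem PosIm.mono {ι : Type*} {B : ι → ι → ℂ} {S S' : Finset ι} (h : PosIm B S) (hS : S' ⊆ S) :
    PosIm B S' := by
  classical
  rintro η ⟨a, ha, h0⟩
  rw [← Reg_ext B hS η]
  exact h _ ⟨a, hS ha, by simpa [ha] using h0⟩

theorem Reg_minor {ι : Type*} [DecidableEq ι] {B : ι → ι → ℂ} {T : Finset ι} (h : PosIm B T) :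
    minor B T ≠ 0 := by
  intro h0
  obtain ⟨v, hv, hv0⟩ := Matrix.exists_mulVec_eq_zero_iff.mpr h0
  obtain ⟨a, ha⟩ := Function.ne_iff.mp hv
  have h1 := h (fun x => if hx : x ∈ T then v ⟨x, hx⟩ else 0) ⟨a, a.2, by simpa using ha⟩
  have h2 : form B T (fun x => if hx : x ∈ T then v ⟨x, hx⟩ else 0) = 0 := by
    unfold form
    refine Finset.sum_eq_zero fun x hx => ?_
    have h3 := congrFun hv0 ⟨x, hx⟩
    simp only [Matrix.mulVec, dotProduct, Matrix.of_apply, Pi.zero_apply] at h3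
    simp only [mul_assoc]
    rw [← Finset.mul_sum, ← Finset.sum_coe_sort T]
    simp only [Finset.coe_mem, dite_true]
    rw [h3, mul_zero]
  rw [h2] at h1
  exact lt_irrefl _ h1

theorem Reg_supp_ins (U : Finset V) (T : Finset (V × Fin r)) (a : V × Fin r) :
    supp U (insert a T) = insert a (supp U T) := by
  simp only [supp, Finset.insert_union]

theorem Reg_dis {U : Finset V} {T : Finset (V × Fin r)} {a : V × Fin r} (hD : Dis U T)
    (hU : a.1 ∉ U) : Dis U (insert a T) := by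
  intro b hb
  rcases Finset.mem_insert.mp hb with rfl | hb
  · exact hU
  · exact hD b hb

theorem Reg_nmem {U : Finset V} {T : Finset (V × Fin r)} {a : V × Fin r} (ha : a ∉ T)
    (hU : a.1 ∉ U) : a ∉ supp U T := fun h => (PfB_mem_supp.mp h).elim ha hU

theorem Reg_ratio {π : V × Fin r → ℂ} {U : Finset V}
    (ih : ∀ (B : V × Fin r → V × Fin r → ℂ) (T : Finset (V × Fin r)), Dis U T →
      PosIm B (supp U T) → Pf B π U T ≠ 0) {B : V × Fin r → V × Fin r → ℂ}
    {T : Finset (V × Fin r)} {a : V × Fin r} (hD : Dis U T) (ha : a ∉ T) (hU : a.1 ∉ U)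
    (hB : PosIm B (supp U (insert a T))) : 0 < (Pf B π U (insert a T) / Pf B π U T).im := by
  have hP : Pf B π U T ≠ 0 :=
    ih B T hD (hB.mono (by rw [Reg_supp_ins]; exact Finset.subset_insert _ _))
  by_contra hρ
  set t := -(Pf B π U (insert a T) / Pf B π U T) with ht
  have ht0 : 0 ≤ t.im := by rw [ht, Complex.neg_im]; linarith
  set B' : V × Fin r → V × Fin r → ℂ := fun x y => B x y + if x = a ∧ y = a then t else 0 with hB'
  have h1 : PosIm B' (supp U (insert a T)) := by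
    intro η hη
    have e : form B' (supp U (insert a T)) η =
        form B (supp U (insert a T)) η + t * ((‖η a‖ ^ 2 : ℝ) : ℂ) := by
      have ha' : a ∈ supp U (insert a T) := by rw [Reg_supp_ins]; exact Finset.mem_insert_self _ _
      simp only [form, hB', mul_add, add_mul, Finset.sum_add_distrib, add_right_inj]
      rw [Finset.sum_eq_single_of_mem a ha' fun x _ hx => by simp [hx],
        Finset.sum_eq_single_of_mem a ha' fun x _ hx => by simp [hx]]
      simp only [and_self, if_true]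
      rw [mul_right_comm, Complex.conj_mul', mul_comm]
      push_cast
      rfl
    rw [e, Complex.add_im, Complex.im_mul_ofReal]
    have := hB η hη
    positivity
  refine ih B' _ (Reg_dis hD hU) h1 ?_
  have e1 : zeroAt B' a = zeroAt B a := by
    funext x y
    simp only [zeroAt, hB']
    split_ifs <;> simp
  have e2 : Pf B' π U T = Pf B π U T := by
    refine Pf_congr (fun x hx y _ => ?_) fun _ _ _ => rfl
    have : x ≠ a := fun h => Reg_nmem ha hU (h ▸ hx)
    simp [hB', this]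
  have e3 := Pf_aff B π ha hU
  rw [Pf_aff B' π ha hU, e1, e2]
  simp only [hB', and_self, if_true]
  rw [add_mul, add_right_comm, ← e3, ht, neg_mul, div_mul_cancel₀ _ hP, add_neg_cancel]

theorem Reg_ne [NeZero r] {π : V × Fin r → ℝ} (U : Finset V) (hπ : ∀ u ∈ U, ∀ i, 0 < π (u, i))
    (B : V × Fin r → V × Fin r → ℂ) (T : Finset (V × Fin r)) (hD : Dis U T)
    (hB : PosIm B (supp U T)) : Pf B (fun a => (π a : ℂ)) U T ≠ 0 := by
  induction U using Finset.induction_on generalizing B T with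
  | empty =>
    rw [Pf_empty]
    exact Reg_minor (hB.mono fun a ha => PfB_mem_supp.mpr (Or.inl ha))
  | insert v U hv ih =>
    have ih' := ih fun u hu => hπ u (Finset.mem_insert_of_mem hu)
    have hD' : Dis U T := fun a ha h => hD a ha (Finset.mem_insert_of_mem h)
    have hs : ∀ i, supp U (insert (v, i) T) ⊆ supp (insert v U) T := by
      intro i a ha
      rw [PfB_mem_supp] at ha ⊢
      rcases ha with ha | ha
      · rcases Finset.mem_insert.1 ha with rfl | ha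
        · exact Or.inr (Finset.mem_insert_self _ _)
        · exact Or.inl ha
      · exact Or.inr (Finset.mem_insert_of_mem ha)
    have h1 : ∀ i, 0 < (Pf B (fun a => (π a : ℂ)) U (insert (v, i) T) /
        Pf B (fun a => (π a : ℂ)) U T).im := fun i =>
      Reg_ratio ih' hD' (fun h => hD _ h (Finset.mem_insert_self _ _)) hv (hB.mono (hs i))
    intro h0
    rw [Pf_insert _ _ hv] at h0
    have h2 := congrArg (fun x => (x / Pf B (fun a => (π a : ℂ)) U T).im) h0
    simp only [Finset.sum_div, mul_div_assoc, Complex.im_sum, Complex.im_ofReal_mul, zero_div,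
      Complex.zero_im] at h2
    exact (Finset.sum_pos (fun i _ => mul_pos (hπ v (Finset.mem_insert_self _ _) i) (h1 i))
      Finset.univ_nonempty).ne' h2

/-- Induction on `U`, for all `T` and `B`. Base: `det ≠ 0` as `B η = 0` gives `form = 0`.
Step: `Pf_insert`; each `Pf B π U (insert a T) = (B a a - α) * Pf B π U T` (`Pf_aff`) with `α`
independent of `B a a`; adding `t` with `0 ≤ t.im` to `B a a` keeps `PosIm`, so
`B a a + t - α ≠ 0` for all such `t`, hence `0 < (B a a - α).im`. Prove it together with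
`Pf_ratio`. -/
theorem Pf_ne [NeZero r] {B : V × Fin r → V × Fin r → ℂ} {π : V × Fin r → ℝ} {U : Finset V}
    {T : Finset (V × Fin r)} (hD : Dis U T) (hπ : ∀ u ∈ U, ∀ i, 0 < π (u, i))
    (hB : PosIm B (supp U T)) : Pf B (fun a => (π a : ℂ)) U T ≠ 0 :=
  Reg_ne U hπ B T hD hB

theorem Pf_ratio [NeZero r] {B : V × Fin r → V × Fin r → ℂ} {π : V × Fin r → ℝ} {U : Finset V}
    {T : Finset (V × Fin r)} {a : V × Fin r} (hD : Dis U T) (ha : a ∉ T) (hU : a.1 ∉ U)
    (hπ : ∀ u ∈ U, ∀ i, 0 < π (u, i)) (hB : PosIm B (supp U (insert a T))) :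
    0 < (Pf B (fun a => (π a : ℂ)) U (insert a T) / Pf B (fun a => (π a : ℂ)) U T).im :=
  Reg_ratio (Reg_ne U hπ) hD ha hU hB

theorem Reg_real {M : V → V → ℂ} {W : Finset V} (hM : HC M W) (η : V → ℂ) :
    form M W η = ((form M W η).re : ℂ) := by
  refine (Complex.conj_eq_iff_re.mp ?_).symm
  unfold form
  rw [map_sum, Finset.sum_comm]
  refine Finset.sum_congr rfl fun a ha => ?_
  rw [map_sum]
  refine Finset.sum_congr rfl fun b hb => ?_
  rw [hM.herm a ha b hb]
  simp only [map_mul, Complex.conj_conj]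
  ring

/-- The form of the colour copies of `M` is the sum over the colours of forms of `M`. -/
theorem form_Bz {M : V → V → ℂ} {W : Finset V} (hM : HC M W) (Z : V × Fin r → ℂ)
    {S : Finset (V × Fin r)} (hS : ∀ a ∈ S, a.1 ∈ W) (η : V × Fin r → ℂ) :
    ∃ x : ℝ, |x| ≤ nsq S η ∧ form (Bz Z M) S η = ∑ a ∈ S, Z a * ((‖η a‖ ^ 2 : ℝ) : ℂ) - x := by
  have hS' : S ⊆ W ×ˢ Finset.univ := fun a ha => by simp [hS a ha]
  set ζ : V × Fin r → ℂ := fun u => if u ∈ S then η u else 0 with hζ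
  refine ⟨∑ i, (form M W (fun u => ζ (u, i))).re, ?_, ?_⟩
  · refine (Finset.abs_sum_le_sum_abs _ _).trans ((Finset.sum_le_sum fun i _ =>
      (Complex.abs_re_le_norm _).trans (hM.bd _)).trans (le_of_eq ?_))
    unfold nsq
    rw [Finset.sum_comm, ← Finset.sum_product (f := fun a : V × Fin r => ‖ζ a‖ ^ 2),
      ← Finset.sum_subset hS' fun a _ ha => by simp [hζ, ha]]
    exact Finset.sum_congr rfl fun a ha => by simp [hζ, ha]
  · rw [← Reg_ext _ hS' η, Complex.ofReal_sum,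
      ← Finset.sum_congr rfl fun i _ => Reg_real hM (fun u => ζ (u, i))]
    have e1 : ∑ a ∈ S, Z a * ((‖η a‖ ^ 2 : ℝ) : ℂ) =
        ∑ a ∈ W ×ˢ (Finset.univ : Finset (Fin r)), Z a * ((‖ζ a‖ ^ 2 : ℝ) : ℂ) := by
      rw [← Finset.sum_subset hS' fun a _ ha => by simp [hζ, ha]]
      exact Finset.sum_congr rfl fun a ha => by simp [hζ, ha]
    have e2 : ∑ i, form M W (fun u => ζ (u, i)) =
        ∑ a ∈ W ×ˢ (Finset.univ : Finset (Fin r)), ∑ b ∈ W ×ˢ (Finset.univ : Finset (Fin r)),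
          if a.2 = b.2 then (starRingEnd ℂ) (ζ a) * M a.1 b.1 * ζ b else 0 := by
      unfold form
      rw [Finset.sum_comm, Finset.sum_product]
      refine Finset.sum_congr rfl fun u _ => Finset.sum_congr rfl fun i _ => ?_
      rw [Finset.sum_product]
      exact Finset.sum_congr rfl fun u' _ => by simp
    rw [e1, e2, ← Finset.sum_sub_distrib]
    refine Finset.sum_congr rfl fun a ha => ?_
    have e3 : Z a * ((‖ζ a‖ ^ 2 : ℝ) : ℂ) = ∑ b ∈ W ×ˢ (Finset.univ : Finset (Fin r)),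
        if a = b then (starRingEnd ℂ) (ζ a) * Z a * ζ b else 0 := by
      rw [Finset.sum_ite_eq, if_pos ha, mul_right_comm, Complex.conj_mul', mul_comm]
      push_cast
      rfl
    rw [e3, ← Finset.sum_sub_distrib]
    refine Finset.sum_congr rfl fun b _ => ?_
    change (starRingEnd ℂ) (ζ a) * Bz Z M a b * ζ b = _
    by_cases hab : a = b
    · subst hab
      simp [Bz, hM.diag a.1 (Finset.mem_product.mp ha).1]
    · simp only [Bz, hab, if_false]
      split_ifs <;> simp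

theorem Reg_im {M : V → V → ℂ} {W : Finset V} (hM : HC M W) (Z : V × Fin r → ℂ)
    {S : Finset (V × Fin r)} (hS : ∀ a ∈ S, a.1 ∈ W) (η : V × Fin r → ℂ) :
    (form (Bz Z M) S η).im = ∑ a ∈ S, (Z a).im * ‖η a‖ ^ 2 := by
  obtain ⟨x, -, hx⟩ := form_Bz hM Z hS η
  rw [hx, Complex.sub_im, Complex.ofReal_im, sub_zero, Complex.im_sum]
  simp only [Complex.im_mul_ofReal]

theorem Reg_pos {ι : Type*} {S : Finset ι} {c : ι → ℝ} (hc : ∀ a ∈ S, 0 < c a) {η : ι → ℂ}
    (hη : ∃ a ∈ S, η a ≠ 0) : 0 < ∑ a ∈ S, c a * ‖η a‖ ^ 2 := by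
  obtain ⟨a, ha, h0⟩ := hη
  exact Finset.sum_pos' (fun b hb => mul_nonneg (hc b hb).le (sq_nonneg _))
    ⟨a, ha, mul_pos (hc a ha) (by positivity)⟩

theorem posIm_Bz {M : V → V → ℂ} {W : Finset V} (hM : HC M W) {Z : V × Fin r → ℂ}
    {S : Finset (V × Fin r)} (hS : ∀ a ∈ S, a.1 ∈ W) (hZ : ∀ a ∈ S, 0 < (Z a).im) :
    PosIm (Bz Z M) S := by
  intro η hη
  rw [Reg_im hM Z hS]
  exact Reg_pos hZ hη

theorem Reg_row {M : V → V → ℂ} {W : Finset V} (hM : HC M W) {Z : V × Fin r → ℂ}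
    {S : Finset (V × Fin r)} {a : V × Fin r} (ha : a ∉ S) (haW : a.1 ∈ W)
    (hS : ∀ b ∈ S, b.1 ∈ W) (hZ : ∀ b ∈ S, 0 < (Z b).im) {η : ℝ}
    (hN : ∀ b ∈ S, b.2 = a.2 → M a.1 b.1 ≠ 0 → η ≤ (Z b).im) (ξ : V × Fin r → ℂ) :
    ∃ n : ℝ, ‖∑ b ∈ S, Bz Z M a b * ξ b‖ ≤ n ∧ η * n ^ 2 ≤ ∑ b ∈ S, (Z b).im * ‖ξ b‖ ^ 2 := by
  classical
  have hS' : S ⊆ W ×ˢ Finset.univ := fun a ha => by simp [hS a ha]
  set ζ : V → ℂ := fun u => if (u, a.2) ∈ S ∧ M a.1 u ≠ 0 then ξ (u, a.2) else 0 with hζ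
  have hn : 0 ≤ nsq W ζ := Finset.sum_nonneg fun _ _ => sq_nonneg _
  refine ⟨Real.sqrt (nsq W ζ), ?_, ?_⟩
  · have h1 := hM.bilin (fun u => if u = a.1 then 1 else 0) ζ
    have e1 : nsq W (fun u => if u = a.1 then (1 : ℂ) else 0) = 1 := by
      unfold nsq
      rw [Finset.sum_eq_single_of_mem a.1 haW fun u _ hu => by simp [hu]]
      simp
    rw [e1, Real.sqrt_one, one_mul,
      Finset.sum_eq_single_of_mem a.1 haW fun u _ hu => by simp [hu]] at h1
    refine le_trans (le_of_eq ?_) h1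
    rw [← norm_neg, ← Finset.sum_neg_distrib]
    congr 1
    rw [← Finset.sum_filter_of_ne (p := fun b => b ∈ S) (s := S) (fun _ h _ => h),
      ← Finset.inter_eq_left.mpr hS', Finset.inter_comm, ← Finset.filter_mem_eq_inter,
      Finset.filter_filter, Finset.sum_filter, Finset.sum_product]
    refine Finset.sum_congr rfl fun u _ => ?_
    rw [Finset.sum_eq_single a.2]
    · by_cases h2 : (u, a.2) ∈ S
      · have h3 : a ≠ (u, a.2) := fun h => ha (h ▸ h2)
        by_cases h4 : M a.1 u = 0 <;> simp [Bz, hζ, h2, h3, h4, hS _ h2]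
      · simp [hζ, h2]
    · intro i _ hi
      have h3 : a ≠ (u, i) := fun h => hi (by rw [h])
      simp [Bz, h3, Ne.symm hi]
    · simp
  · rw [Real.sq_sqrt hn, nsq, Finset.mul_sum]
    have e2 : ∑ b ∈ S, (Z b).im * ‖ξ b‖ ^ 2 = ∑ u ∈ W, ∑ i,
        if (u, i) ∈ S then (Z (u, i)).im * ‖ξ (u, i)‖ ^ 2 else 0 := by
      rw [← Finset.sum_product (f := fun b : V × Fin r =>
        if b ∈ S then (Z b).im * ‖ξ b‖ ^ 2 else 0), ← Finset.sum_filter,
        Finset.filter_mem_eq_inter, Finset.inter_eq_right.mpr hS']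
    rw [e2]
    refine Finset.sum_le_sum fun u _ => ?_
    have hnn : ∀ i ∈ (Finset.univ : Finset (Fin r)),
        0 ≤ if (u, i) ∈ S then (Z (u, i)).im * ‖ξ (u, i)‖ ^ 2 else 0 := fun i _ => by
      split_ifs with h
      · exact mul_nonneg (hZ _ h).le (sq_nonneg _)
      · exact le_rfl
    refine le_trans ?_ (Finset.single_le_sum hnn (Finset.mem_univ a.2))
    by_cases h : (u, a.2) ∈ S ∧ M a.1 u ≠ 0
    · simp only [hζ, if_pos h, if_pos h.1]
      exact mul_le_mul_of_nonneg_right (hN _ h.1 rfl h.2) (sq_nonneg _)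
    · simp only [hζ, if_neg h, norm_zero]
      simpa using hnn a.2 (Finset.mem_univ _)

/-- Self-energy. `α = -Pf (zeroAt B a) (insert a T) / Pf T` does not depend on `Z a`. Scaling the
off-diagonal part of row `a` and of column `a` by a unimodular `θ` multiplies `α` by `θ ^ 2`
(`Pf_row`, `Pf_col` applied to `zeroAt B a`), and the scaled matrix with diagonal entry `t` at
`a` is `PosIm` as soon as `t.im > 1 / η` (`HC.bilin`, AM-GM). Choose `θ ^ 2 α = ‖α‖ I = t`. -/
theorem selfEnergy [NeZero r] {M : V → V → ℂ} {W : Finset V} (hM : HC M W) {Z : V × Fin r → ℂ}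
    {π : V × Fin r → ℝ} {U : Finset V} {T : Finset (V × Fin r)} {a : V × Fin r} (hD : Dis U T)
    (ha : a ∉ T) (hU : a.1 ∉ U) (hπ : ∀ u ∈ U, ∀ i, 0 < π (u, i)) (haW : a.1 ∈ W)
    (hS : ∀ b ∈ supp U T, b.1 ∈ W) (hZ : ∀ b ∈ supp U T, 0 < (Z b).im) {η : ℝ} (hη : 0 < η)
    (hN : ∀ b ∈ supp U T, b.2 = a.2 → M a.1 b.1 ≠ 0 → η ≤ (Z b).im) :
    (Z a - Pf (Bz Z M) (fun a => (π a : ℂ)) U (insert a T) /
        Pf (Bz Z M) (fun a => (π a : ℂ)) U T).im ≤ 0 ∧
      ‖Z a - Pf (Bz Z M) (fun a => (π a : ℂ)) U (insert a T) /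
        Pf (Bz Z M) (fun a => (π a : ℂ)) U T‖ ≤ 1 / η := by
  have ha' := Reg_nmem ha hU
  have hP : Pf (Bz Z M) (fun a => (π a : ℂ)) U T ≠ 0 := Pf_ne hD hπ (posIm_Bz hM hS hZ)
  set α := Z a - Pf (Bz Z M) (fun a => (π a : ℂ)) U (insert a T) /
    Pf (Bz Z M) (fun a => (π a : ℂ)) U T with hα
  have hα' : Pf (zeroAt (Bz Z M) a) (fun a => (π a : ℂ)) U (insert a T) =
      -α * Pf (Bz Z M) (fun a => (π a : ℂ)) U T := by
    rw [hα, Pf_aff (Bz Z M) _ ha hU]
    simp only [Bz, if_true]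
    field_simp
    ring
  have key : ∀ ω t : ℂ, PosIm (fun x y => (if x = a then ω else 1) * zeroAt (Bz Z M) a x y +
      if x = a ∧ y = a then t else 0) (insert a (supp U T)) → t ≠ ω * α := by
    intro ω t hB ht
    rw [← Reg_supp_ins] at hB
    refine Pf_ne (Reg_dis hD hU) hπ hB ?_
    have e1 : zeroAt (fun x y => (if x = a then ω else 1) * zeroAt (Bz Z M) a x y +
        if x = a ∧ y = a then t else 0) a =
        fun x y => (if x = a then ω else 1) * zeroAt (Bz Z M) a x y := by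
      funext x y
      by_cases h : x = a ∧ y = a <;> simp [zeroAt, h]
    have e2 : Pf (fun x y => (if x = a then ω else 1) * zeroAt (Bz Z M) a x y +
        if x = a ∧ y = a then t else 0) (fun a => (π a : ℂ)) U T =
        Pf (Bz Z M) (fun a => (π a : ℂ)) U T := by
      refine Pf_congr (fun x hx y _ => ?_) fun _ _ _ => rfl
      have : x ≠ a := fun h => ha' (h ▸ hx)
      simp [zeroAt, this]
    have e3 : Pf (zeroAt (Bz Z M) a) (fun x => (π x : ℂ) * if x = a then ω else 1) U (insert a T) =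
        Pf (zeroAt (Bz Z M) a) (fun a => (π a : ℂ)) U (insert a T) := by
      refine Pf_congr (fun _ _ _ _ => rfl) fun u hu i => ?_
      have : (u, i) ≠ a := fun h => hU (h ▸ hu)
      simp [this]
    rw [Pf_aff _ _ ha hU, e1, e2, Pf_row _ _ _ (Reg_dis hD hU), e3, hα', Finset.prod_insert ha,
      Finset.prod_eq_one fun x hx => if_neg fun h : x = a => ha (h ▸ hx), ht]
    simp [zeroAt, mul_assoc]
  have hform : ∀ (ω t : ℂ) (ξ : V × Fin r → ℂ),
      (form (fun x y => (if x = a then ω else 1) * zeroAt (Bz Z M) a x y +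
        if x = a ∧ y = a then t else 0) (insert a (supp U T)) ξ).im =
      t.im * ‖ξ a‖ ^ 2 + (ω * ((starRingEnd ℂ) (ξ a) * ∑ b ∈ supp U T, Bz Z M a b * ξ b) +
        (starRingEnd ℂ) ((starRingEnd ℂ) (ξ a) * ∑ b ∈ supp U T, Bz Z M a b * ξ b)).im +
        ∑ b ∈ supp U T, (Z b).im * ‖ξ b‖ ^ 2 := by
    intro ω t ξ
    rw [← Reg_im hM Z hS, ← Complex.im_mul_ofReal, ← Complex.add_im, ← Complex.add_im]
    congr 1
    have hne : ∀ x ∈ supp U T, x ≠ a := fun x hx h => ha' (h ▸ hx)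
    simp only [form, Finset.sum_insert ha', Finset.sum_add_distrib]
    rw [add_assoc (t * _), add_assoc (ω * _), ← add_assoc (t * _)]
    congr 1
    · congr 1
      · simp only [zeroAt, and_self, if_true, mul_zero, zero_add]
        rw [mul_right_comm, Complex.conj_mul', mul_comm]
        push_cast
        rfl
      · rw [Finset.mul_sum, Finset.mul_sum]
        refine Finset.sum_congr rfl fun b hb => ?_
        simp only [zeroAt, hne b hb, and_false, if_true, if_false]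
        ring
    · congr 1
      · rw [Finset.mul_sum, map_sum]
        refine Finset.sum_congr rfl fun b hb => ?_
        have e : Bz Z M b a = (starRingEnd ℂ) (Bz Z M a b) := by
          simp only [Bz, hne b hb, (hne b hb).symm, if_false]
          by_cases h : a.2 = b.2
          · rw [if_pos h, if_pos h.symm, map_neg, hM.herm _ haW _ (hS b hb)]
          · rw [if_neg h, if_neg (Ne.symm h), map_zero]
        simp only [zeroAt, hne b hb, false_and, if_false, map_mul, Complex.conj_conj, e]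
        ring
      · refine Finset.sum_congr rfl fun x hx => Finset.sum_congr rfl fun y _ => ?_
        simp only [zeroAt, hne x hx, false_and, if_false]
        ring
  have hpos : ∀ (c : ℝ) (ξ : V × Fin r → ℂ), 0 < c → (∃ b ∈ insert a (supp U T), ξ b ≠ 0) →
      ξ a = 0 → 0 < ∑ b ∈ supp U T, (Z b).im * ‖ξ b‖ ^ 2 := by
    rintro c ξ - ⟨b, hb, h0⟩ h1
    exact Reg_pos hZ ⟨b, (Finset.mem_insert.mp hb).resolve_left fun h => h0 (h ▸ h1), h0⟩
  constructor
  · by_contra h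
    refine key 1 α (fun ξ hξ => ?_) (one_mul α).symm
    rw [hform, one_mul, Complex.add_conj, Complex.ofReal_im, add_zero]
    by_cases h1 : ξ a = 0
    · simpa [h1] using hpos 1 ξ one_pos hξ h1
    · have h2 : 0 ≤ ∑ b ∈ supp U T, (Z b).im * ‖ξ b‖ ^ 2 :=
        Finset.sum_nonneg fun b hb => mul_nonneg (hZ b hb).le (sq_nonneg _)
      have h3 : 0 < α.im := not_le.mp h
      positivity
  · by_contra h
    have h' : 1 / η < ‖α‖ := not_le.mp h
    have hα0 : α ≠ 0 := norm_pos_iff.mp (lt_trans (by positivity) h')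
    refine key (‖α‖ * Complex.I / α) (‖α‖ * Complex.I) (fun ξ hξ => ?_)
      (div_mul_cancel₀ _ hα0).symm
    rw [hform]
    by_cases h1 : ξ a = 0
    · simpa [h1] using hpos 1 ξ one_pos hξ h1
    obtain ⟨n, hn1, hn2⟩ := Reg_row hM ha' haW hS hZ hN ξ
    set s := (starRingEnd ℂ) (ξ a) * ∑ b ∈ supp U T, Bz Z M a b * ξ b with hs
    have b1 : ‖s‖ ≤ ‖ξ a‖ * n := by
      rw [hs, norm_mul, Complex.norm_conj]
      exact mul_le_mul_of_nonneg_left hn1 (norm_nonneg _)
    have b2 : ‖‖α‖ * Complex.I / α * s + (starRingEnd ℂ) s‖ ≤ 2 * (‖ξ a‖ * n) := by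
      refine (norm_add_le _ _).trans ?_
      rw [norm_mul, norm_div, norm_mul, Complex.norm_I, Complex.norm_real, norm_norm, mul_one,
        div_self (norm_ne_zero_iff.mpr hα0), one_mul, Complex.norm_conj]
      linarith
    have b3 := (abs_le.mp ((Complex.abs_im_le_norm _).trans b2)).1
    have b4 : ((‖α‖ : ℂ) * Complex.I).im = ‖α‖ := by simp
    have b5 : 0 < ‖ξ a‖ := norm_pos_iff.mpr h1
    have b6 : 2 * (‖ξ a‖ * n) ≤ 1 / η * ‖ξ a‖ ^ 2 + η * n ^ 2 := by
      have : 1 / η * ‖ξ a‖ ^ 2 + η * n ^ 2 - 2 * (‖ξ a‖ * n) = (‖ξ a‖ - η * n) ^ 2 / η := by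
        field_simp
        ring
      have h2 : 0 ≤ (‖ξ a‖ - η * n) ^ 2 / η := by positivity
      linarith
    have b7 := mul_lt_mul_of_pos_right h' (pow_pos b5 2)
    rw [b4]
    linarith

theorem Reg_scale [NeZero r] {K : ℝ} (z : ℝ) {M : V → V → ℂ} {w : V → ℝ} (s : V → St r)
    {U : Finset V} (h : Env K M w U) {t : ℂ} (ω : ℂ)
    (hω : ∀ η : V × Fin r → ℂ, (∃ a ∈ supp (Uu s U) (Tc s U), η a ≠ 0) →
      0 < (ω * form (Bz (Zt z w s t) M) (supp (Uu s U) (Tc s U)) η).im) :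
    (PP z M w s U).eval t ≠ 0 := by
  have hr : (0 : ℝ) < r := by exact_mod_cast Nat.pos_of_ne_zero (NeZero.ne r)
  rw [PP_eval z M s fun u hu => (h.pos u hu).ne']
  refine mul_ne_zero (Finset.prod_ne_zero_iff.mpr fun u hu => ?_) fun h0 => ?_
  · have := (h.pos u (PfB_mem_live.mp hu).1).ne'
    unfold ws
    split_ifs <;> simp [this]
  · have h1 : PosIm (fun a b => ω * Bz (Zt z w s t) M a b) (supp (Uu s U) (Tc s U)) := by
      intro η hη
      refine (hω η hη).trans_eq ?_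
      congr 1
      simp only [form, Finset.mul_sum]
      exact Finset.sum_congr rfl fun _ _ => Finset.sum_congr rfl fun _ _ => by ring
    refine Pf_ne (π := fun _ => (r : ℝ)⁻¹) (dis_state s U) (fun _ _ _ => by positivity) h1 ?_
    rw [Pf_row (fun _ => ω) _ _ (dis_state s U), Pf_weight (fun _ => ω)]
    push_cast
    rw [h0, mul_zero, mul_zero]

theorem Reg_ws {K : ℝ} {M : V → V → ℂ} {w : V → ℝ} (s : V → St r) {U : Finset V}
    (h : Env K M w U) {u : V} (hu : u ∈ U) : 0 < ws w s u ∧ ws w s u ≤ w u := by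
  have := h.pos u hu
  unfold ws
  split_ifs <;> constructor <;> linarith

/-- `PP_eval`, `Pf_ne`; the lower half plane by scaling all rows with `-1` (`Pf_row`,
`Pf_weight`). -/
theorem PP_eval_ne [NeZero r] {K : ℝ} (z : ℝ) {M : V → V → ℂ} {w : V → ℝ} (s : V → St r)
    {U : Finset V} (h : Env K M w U) {t : ℂ} (ht : t.im ≠ 0) : (PP z M w s U).eval t ≠ 0 := by
  refine Reg_scale z s h (t.im : ℂ) fun η hη => ?_
  rw [Complex.im_ofReal_mul, Reg_im h.toHC _ fun a ha => (PfB_supp_live ha).1, Finset.mul_sum]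
  simp only [← mul_assoc]
  refine Reg_pos (fun a ha => ?_) hη
  have h1 := (Reg_ws s h (PfB_supp_live ha).1).1
  simp only [Zt, Complex.add_im, Complex.ofReal_im, Complex.div_ofReal_im, zero_add]
  rw [← mul_div_assoc]
  exact div_pos (mul_self_pos.mpr ht) h1

theorem PP_rr [NeZero r] {K : ℝ} (z : ℝ) {M : V → V → ℂ} {w : V → ℝ} (s : V → St r)
    {U : Finset V} (h : Env K M w U) : ∃ l : Multiset ℝ, RR (PP z M w s U) l :=
  rr_of_ne (PP_monic z M w s U).1 fun _ ht => PP_eval_ne z s h ht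

/-- Scale all rows by the unimodular `ω = I * conj t / ‖t‖` and use `form_Bz`. -/
theorem PP_root_le [NeZero r] {K z lo hi : ℝ} (hz : 0 ≤ z) {M : V → V → ℂ} {w : V → ℝ}
    {s : V → St r} {U : Finset V} (h : Env K M w U) (hR : Rng lo hi w s U) {x : ℂ}
    (hx : x ∈ (PP z M w s U).roots) : ‖x‖ ≤ hi * (25 * z + 1) := by
  by_contra h0
  have h0' : hi * (25 * z + 1) < ‖x‖ := not_le.mp h0
  obtain ⟨ω, hω1, hω⟩ : ∃ ω : ℂ, ‖ω‖ = 1 ∧ (ω * x).im = ‖x‖ := by
    by_cases hx0 : x = 0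
    · exact ⟨1, norm_one, by simp [hx0]⟩
    · refine ⟨‖x‖ * Complex.I / x, ?_, by rw [div_mul_cancel₀ _ hx0]; simp⟩
      rw [norm_div, norm_mul, Complex.norm_I, Complex.norm_real, norm_norm, mul_one,
        div_self (norm_ne_zero_iff.mpr hx0)]
  refine Reg_scale z s h ω (fun η hη => ?_) (isRoot_of_mem_roots hx)
  obtain ⟨y, hy, e⟩ := form_Bz h.toHC (Zt z w s x) (fun a ha => (PfB_supp_live ha).1) η
  have hi1 : |ω.im| ≤ 1 := hω1 ▸ Complex.abs_im_le_norm ω
  rw [e, mul_sub, Complex.sub_im, Complex.im_mul_ofReal, Finset.mul_sum, Complex.im_sum]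
  simp only [← mul_assoc, Complex.im_mul_ofReal]
  have h1 : ω.im * y ≤ nsq (supp (Uu s U) (Tc s U)) η := by
    refine (le_abs_self _).trans ?_
    rw [abs_mul]
    exact (mul_le_of_le_one_left (abs_nonneg _) hi1).trans hy
  have h2 := Reg_pos (c := fun a => (ω * Zt z w s x a).im - 1) (fun a ha => by
    obtain ⟨a1, a2⟩ := PfB_supp_live ha
    obtain ⟨b1, b2⟩ := Reg_ws s h a1
    have b3 := (hR _ a1 a2).2
    have b4 : 0 ≤ zs z s a.1 ∧ zs z s a.1 ≤ 25 * z := by
      unfold zs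
      split_ifs <;> constructor <;> linarith
    simp only [Zt, mul_add, Complex.add_im, Complex.im_mul_ofReal, ← mul_div_assoc,
      Complex.div_ofReal_im, hω]
    have b5 : 25 * z + 1 < ‖x‖ / ws w s a.1 := by
      rw [lt_div_iff₀ b1]
      nlinarith
    nlinarith [(abs_le.mp hi1).1]) hη
  simp only [sub_mul, one_mul, Finset.sum_sub_distrib] at h2
  unfold nsq at h1
  linarith

theorem Reg_cayley {g : ℂ → ℂ} {c : ℝ} (hc : 0 < c)
    (hg : DifferentiableOn ℂ g (Metric.ball 0 c)) (him : ∀ ζ ∈ Metric.ball (0 : ℂ) c, 0 < (g ζ).im) :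
    (∀ ζ ∈ Metric.ball (0 : ℂ) c, g ζ - (starRingEnd ℂ) (g 0) ≠ 0) ∧
    DifferentiableOn ℂ (fun ζ => (g ζ - g 0) / (g ζ - (starRingEnd ℂ) (g 0))) (Metric.ball 0 c) ∧
    Set.MapsTo (fun ζ => (g ζ - g 0) / (g ζ - (starRingEnd ℂ) (g 0))) (Metric.ball 0 c)
      (Metric.closedBall ((fun ζ => (g ζ - g 0) / (g ζ - (starRingEnd ℂ) (g 0))) 0) 1) := by
  have h0 := him 0 (Metric.mem_ball_self hc)
  have hne : ∀ ζ ∈ Metric.ball (0 : ℂ) c, g ζ - (starRingEnd ℂ) (g 0) ≠ 0 := by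
    intro ζ hζ h
    have h1 := congrArg Complex.im h
    have h2 := him ζ hζ
    simp only [Complex.sub_im, Complex.conj_im, Complex.zero_im] at h1
    linarith
  refine ⟨hne, (hg.sub_const _).div (hg.sub_const _) hne, fun ζ hζ => ?_⟩
  simp only [sub_self, zero_div, mem_closedBall_zero_iff, norm_div]
  refine div_le_one_of_le₀ ?_ (norm_nonneg _)
  rw [← sq_le_sq₀ (norm_nonneg _) (norm_nonneg _), ← Complex.normSq_eq_norm_sq,
    ← Complex.normSq_eq_norm_sq, Complex.normSq_apply, Complex.normSq_apply]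
  simp only [Complex.sub_re, Complex.sub_im, Complex.conj_re, Complex.conj_im]
  nlinarith [mul_pos h0 (him ζ hζ)]

/-- Schwarz-Pick, derivative form: apply the Schwarz lemma to `(g - g 0) / (g - conj (g 0))`. -/
theorem schwarz_deriv {g : ℂ → ℂ} {c : ℝ} (hc : 0 < c)
    (hg : DifferentiableOn ℂ g (Metric.ball 0 c)) (him : ∀ ζ ∈ Metric.ball (0 : ℂ) c, 0 < (g ζ).im) :
    ‖deriv g 0‖ ≤ 2 * ‖g 0‖ / c := by
  obtain ⟨h1, h2, h3⟩ := Reg_cayley hc hg him
  have h4 := Complex.norm_deriv_le_div_of_mapsTo_ball h2 h3 hc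
  have h5 := (hg.differentiableAt (Metric.ball_mem_nhds 0 hc)).hasDerivAt
  have h6 := h1 0 (Metric.mem_ball_self hc)
  have h7 := ((h5.sub_const (g 0)).fun_div (h5.sub_const ((starRingEnd ℂ) (g 0))) h6).deriv
  rw [h7, sub_self, zero_mul, sub_zero, pow_two, mul_div_mul_right _ _ h6, norm_div,
    div_le_iff₀ (norm_pos_iff.mpr h6)] at h4
  have h8 : ‖g 0 - (starRingEnd ℂ) (g 0)‖ ≤ 2 * ‖g 0‖ := by
    refine (norm_sub_le _ _).trans ?_
    rw [Complex.norm_conj]
    linarith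
  calc _ ≤ _ := h4
    _ ≤ 1 / c * (2 * ‖g 0‖) := by gcongr
    _ = _ := by ring

/-- Schwarz-Pick, argument form: `‖g 1 - g 0‖ ≤ t ‖g 1 - conj (g 0)‖` with `t = 1 / Θ`, so
`‖g 1 / g 0 - 1‖ ≤ 4 t`. -/
theorem schwarz_arg {g : ℂ → ℂ} {Θ : ℝ} (hΘ : 8 ≤ Θ)
    (hg : DifferentiableOn ℂ g (Metric.ball 0 Θ)) (him : ∀ ζ ∈ Metric.ball (0 : ℂ) Θ, 0 < (g ζ).im) :
    |Complex.arg (g 1) - Complex.arg (g 0)| ≤ 16 / Θ := by
  have hc : 0 < Θ := by linarith
  have h1m : (1 : ℂ) ∈ Metric.ball (0 : ℂ) Θ := by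
    rw [mem_ball_zero_iff, norm_one]; linarith
  obtain ⟨h1, h2, h3⟩ := Reg_cayley hc hg him
  have h4 := Complex.dist_le_div_mul_dist_of_mapsTo_ball h2 h3 h1m
  have i0 := him 0 (Metric.mem_ball_self hc)
  have i1 := him 1 h1m
  have n0 : g 0 ≠ 0 := fun h => by simp [h] at i0
  have n1 : g 1 ≠ 0 := fun h => by simp [h] at i1
  simp only [sub_self, zero_div, dist_zero_right, norm_one, mul_one, norm_div] at h4
  rw [div_le_iff₀ (norm_pos_iff.mpr (h1 1 h1m))] at h4
  set t := 1 / Θ with ht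
  have t0 : 0 < t := by positivity
  have t1 : t ≤ 1 / 8 := one_div_le_one_div_of_le (by norm_num) hΘ
  have h5 : ‖g 1 - (starRingEnd ℂ) (g 0)‖ ≤ ‖g 1 - g 0‖ + 2 * ‖g 0‖ := by
    have := norm_sub_le (g 0) ((starRingEnd ℂ) (g 0))
    rw [Complex.norm_conj] at this
    linarith [norm_sub_le_norm_sub_add_norm_sub (g 1) (g 0) ((starRingEnd ℂ) (g 0))]
  have g0 : 0 < ‖g 0‖ := norm_pos_iff.mpr n0
  have h6 : ‖g 1 - g 0‖ ≤ 3 * t * ‖g 0‖ := by
    nlinarith [norm_nonneg (g 1 - g 0), mul_pos t0 g0]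
  set u := g 1 * (g 0)⁻¹ with hu
  have h7 : ‖u - 1‖ ≤ 3 * t := by
    have : u - 1 = (g 1 - g 0) / g 0 := by rw [hu]; field_simp
    rw [this, norm_div, div_le_iff₀ g0]
    exact h6
  have a0 : 0 ≤ (g 0).arg ∧ (g 0).arg < Real.pi :=
    ⟨Complex.arg_nonneg_iff.mpr i0.le, Complex.arg_lt_pi_iff.mpr (Or.inr i0.ne')⟩
  have a1 : 0 ≤ (g 1).arg ∧ (g 1).arg < Real.pi :=
    ⟨Complex.arg_nonneg_iff.mpr i1.le, Complex.arg_lt_pi_iff.mpr (Or.inr i1.ne')⟩
  have e1 : (g 0)⁻¹.arg = -(g 0).arg := by rw [Complex.arg_inv, if_neg a0.2.ne]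
  have e2 : u.arg = (g 1).arg - (g 0).arg := by
    rw [hu, (Complex.arg_mul_eq_add_arg_iff n1 (inv_ne_zero n0)).mpr (by
      rw [e1]; constructor <;> linarith), e1, sub_eq_add_neg]
  have r1 : 1 / 2 ≤ u.re := by
    have := (abs_le.mp ((Complex.abs_re_le_norm (u - 1)).trans h7)).1
    simp only [Complex.sub_re, Complex.one_re] at this
    linarith
  have r2 : |u.im| ≤ 3 * t := by simpa using (Complex.abs_im_le_norm (u - 1)).trans h7
  have r3 : 1 / 2 ≤ ‖u‖ := r1.trans (Complex.re_le_norm u)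
  have r4 := Real.mul_abs_le_abs_sin (Complex.abs_arg_le_pi_div_two_iff.mpr (by linarith : 0 ≤ u.re))
  rw [Complex.sin_arg, abs_div, abs_norm, le_div_iff₀ (by linarith)] at r4
  have r5 : 1 / 2 ≤ 2 / Real.pi := by
    rw [le_div_iff₀ Real.pi_pos]; linarith [Real.pi_le_four]
  have r6 : 1 / 2 * |u.arg| * (1 / 2) ≤ 2 / Real.pi * |u.arg| * ‖u‖ := by gcongr
  rw [← e2, div_eq_mul_one_div, ← ht]
  linarith

end Crest.Agent.R109
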