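import Crest.Agent.R109.CE

/-! Task 109-SMABS: random colourings in a Hilbert space (no von Neumann algebra). -/

set_option autoImplicit false

open scoped InnerProductSpace ComplexOrder

namespace Crest.Agent.R109

open R124 (av)

variable {K : Type*} [NormedAddCommGroup K] [InnerProductSpace ℂ K] [CompleteSpace K]
variable {ι Λ : Type*} [Fintype ι] [DecidableEq ι] [Fintype Λ] [DecidableEq Λ] [Nonempty Λ] {r : ℕ}

section aux

omit [CompleteSpace K] in
theorem sm_cs {Ω : Type*} [Fintype Ω] (f g : Ω → K) :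
    ‖av fun ω => ⟪f ω, g ω⟫_ℂ‖ ≤
      Real.sqrt (av fun ω => ‖f ω‖ ^ 2) * Real.sqrt (av fun ω => ‖g ω‖ ^ 2) := by
  refine (R124.norm_av_le_av _).trans ((R124.av_mono fun ω => norm_inner_le_norm _ _).trans ?_)
  simp only [av, smul_eq_mul]
  have h := Real.sum_mul_le_sqrt_mul_sqrt Finset.univ (fun ω => ‖f ω‖) (fun ω => ‖g ω‖)
  have hc : (0 : ℝ) ≤ (Fintype.card Ω : ℝ)⁻¹ := by positivity
  rw [Real.sqrt_mul hc, Real.sqrt_mul hc]
  calc _ ≤ (Fintype.card Ω : ℝ)⁻¹ * (√(∑ i, ‖f i‖ ^ 2) * √(∑ i, ‖g i‖ ^ 2)) :=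
        mul_le_mul_of_nonneg_left h hc
    _ = _ := by
        nth_rewrite 1 [← Real.mul_self_sqrt hc]; ring

theorem sm_re_av {Ω : Type*} [Fintype Ω] (f : Ω → ℂ) : (av f).re = av (fun ω => (f ω).re) :=
  (R124.av_map Complex.reLm f).symm

omit [CompleteSpace K] in
theorem sm_re_self (v : K) : (⟪v, v⟫_ℂ).re = ‖v‖ ^ 2 := inner_self_eq_norm_sq (𝕜 := ℂ) v

theorem sm_adj (y : Op K) (u v : K) : ⟪u, y v⟫_ℂ = ⟪star y u, v⟫_ℂ := by
  rw [ContinuousLinearMap.star_eq_adjoint, ContinuousLinearMap.adjoint_inner_left]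

theorem Part0.sm_star {κ : Type*} [Fintype κ] {e : κ → Op K} (he : Part0 e) (a : κ) :
    star (e a) = e a := (he.proj a).isSelfAdjoint

theorem Part0.sm_idem {κ : Type*} [Fintype κ] {e : κ → Op K} (he : Part0 e) (a : κ) :
    e a * e a = e a := (he.proj a).isIdempotentElem

theorem Part0.sm_pyth {κ : Type*} [Fintype κ] {e : κ → Op K} (he : Part0 e) (S : Finset κ)
    (u : κ → K) : ‖∑ a ∈ S, e a (u a)‖ ^ 2 = ∑ a ∈ S, ‖e a (u a)‖ ^ 2 := by
  classical
  rw [← sm_re_self, sum_inner, Complex.re_sum]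
  refine Finset.sum_congr rfl fun a ha => ?_
  rw [inner_sum, Finset.sum_eq_single a, sm_re_self]
  · intro b _ hb
    rw [sm_adj, he.sm_star, ← ContinuousLinearMap.mul_apply, he.orth b a hb]
    simp
  · intro h; exact absurd ha h

theorem Part0.sm_sum_apply {κ : Type*} [Fintype κ] {e : κ → Op K} (he : Part0 e) (v : K) :
    ∑ a, e a v = v := by
  rw [← ContinuousLinearMap.sum_apply, he.sum]; rfl

theorem Part0.sm_pyth1 {κ : Type*} [Fintype κ] {e : κ → Op K} (he : Part0 e) (v : K) :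
    ∑ a, ‖e a v‖ ^ 2 = ‖v‖ ^ 2 := by
  rw [← he.sm_pyth Finset.univ (fun _ => v), he.sm_sum_apply]

theorem Part0.sm_sub_le {κ : Type*} [Fintype κ] {e : κ → Op K} (he : Part0 e) (S : Finset κ)
    (v : K) : ‖∑ a ∈ S, e a v‖ ^ 2 ≤ ‖v‖ ^ 2 := by
  rw [he.sm_pyth S (fun _ => v), ← he.sm_pyth1 v]
  exact Finset.sum_le_sum_of_subset_of_nonneg (Finset.subset_univ _) fun _ _ _ => by positivity

theorem Part0.sm_le {κ : Type*} [Fintype κ] {e : κ → Op K} (he : Part0 e) (a : κ)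
    (v : K) : ‖e a v‖ ≤ ‖v‖ := by
  have := he.sm_sub_le {a} v
  rw [Finset.sum_singleton] at this
  exact (pow_le_pow_iff_left₀ (norm_nonneg _) (norm_nonneg _) two_ne_zero).1 this

end aux

theorem IsRC.part_pc {e : ι → Op K} {D : ℕ} {qq : ι × ((ι → Λ) → Option (Fin r)) → Op K}
    (h : IsRC e D qq) (ω : ι → Λ) : Part0 (pc qq ω) := by
  have hp := h.part
  have key : ∀ o o', pc qq ω o * pc qq ω o' = if o = o' then pc qq ω o else 0 := by
    intro o o'
    simp only [pc, Finset.sum_mul_sum]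
    split_ifs with ho
    · subst ho
      refine Finset.sum_congr rfl fun af haf => ?_
      rw [Finset.sum_eq_single af, hp.sm_idem]
      · intro b _ hb; exact hp.orth _ _ (Ne.symm hb)
      · intro h; exact absurd haf h
    · refine Finset.sum_eq_zero fun af haf => Finset.sum_eq_zero fun bf hbf => hp.orth _ _ ?_
      rintro rfl
      simp only [Finset.mem_filter, Finset.mem_univ, true_and] at haf hbf
      exact ho (haf.symm.trans hbf)
  refine ⟨fun o => ⟨?_, ?_⟩, fun o o' ho => ?_, ?_⟩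
  · have := key o o
    rw [if_pos rfl] at this
    exact this
  · simp only [IsSelfAdjoint, pc, star_sum, hp.sm_star]
  · rw [key, if_neg ho]
  · simp only [pc]
    rw [Finset.sum_fiberwise Finset.univ (fun af : ι × ((ι → Λ) → Option (Fin r)) => af.2 ω) qq,
      hp.sum]

/-- Average over the coordinate `a`. -/
noncomputable def Ea (a : ι) (ζ : (ι → Λ) → K) : (ι → Λ) → K := fun ω =>
  av fun l => ζ (Function.update ω a l)

/-- `Π = ∑ e a ⊗ 𝔼_a`. -/
noncomputable def Pi' (e : ι → Op K) (ζ : (ι → Λ) → K) : (ι → Λ) → K := fun ω =>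
  ∑ a, e a (Ea a ζ ω)

/-- Sums of functions of at most `d` coordinates. -/
def LowDeg (d : ℕ) (ζ : (ι → Λ) → K) : Prop :=
  ζ ∈ Submodule.span ℂ {ζ' : (ι → Λ) → K | Junta d ζ'}

section ES

/-- The Efron-Stein kernel. -/
noncomputable def esK (S : Finset ι) (ω ω' : ι → Λ) : ℝ :=
  (∏ a ∈ S, ((if ω a = ω' a then (1 : ℝ) else 0) - (Fintype.card Λ : ℝ)⁻¹)) *
    ∏ _a ∈ Sᶜ, (Fintype.card Λ : ℝ)⁻¹

/-- The Efron-Stein component. -/
noncomputable def esC (S : Finset ι) (ζ : (ι → Λ) → K) : (ι → Λ) → K := fun ω =>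
  ∑ ω', esK S ω ω' • ζ ω'

omit [Nonempty Λ] in
theorem esK_symm (S : Finset ι) (ω ω' : ι → Λ) : esK S ω ω' = esK S ω' ω := by
  simp only [esK, eq_comm]

omit [Nonempty Λ] in
theorem esK_sum (ω ω' : ι → Λ) : ∑ S : Finset ι, esK S ω ω' = if ω = ω' then 1 else 0 := by
  simp only [esK]
  rw [← Fintype.prod_add]
  simp only [sub_add_cancel]
  rw [Finset.prod_boole]
  simp [funext_iff]

omit [Nonempty Λ] in
theorem esK_not {S : Finset ι} {a : ι} (ha : a ∉ S) (ω ω' : ι → Λ) (l : Λ) :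
    esK S (Function.update ω a l) ω' = esK S ω ω' := by
  simp only [esK]
  congr 1
  refine Finset.prod_congr rfl fun b hb => ?_
  rw [Function.update_of_ne (by rintro rfl; exact ha hb)]

theorem esK_mem {S : Finset ι} {a : ι} (ha : a ∈ S) (ω ω' : ι → Λ) :
    ∑ l, esK S (Function.update ω a l) ω' = 0 := by
  have hc : (Fintype.card Λ : ℝ) ≠ 0 := by exact_mod_cast Fintype.card_ne_zero
  have h1 : ∀ l, esK S (Function.update ω a l) ω' =
      ((if l = ω' a then (1 : ℝ) else 0) - (Fintype.card Λ : ℝ)⁻¹) * esK (S.erase a) ω ω' *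
        ((∏ _a ∈ Sᶜ, (Fintype.card Λ : ℝ)⁻¹) / ∏ _a ∈ (S.erase a)ᶜ, (Fintype.card Λ : ℝ)⁻¹) := by
    intro l
    have h2 : (∏ _a ∈ (S.erase a)ᶜ, (Fintype.card Λ : ℝ)⁻¹) ≠ 0 :=
      Finset.prod_ne_zero_iff.2 fun _ _ => inv_ne_zero hc
    simp only [esK]
    rw [← Finset.mul_prod_erase S _ ha, Function.update_self,
      Finset.prod_congr rfl (s₁ := S.erase a) (g := fun b =>
        ((if ω b = ω' b then (1 : ℝ) else 0) - (Fintype.card Λ : ℝ)⁻¹)) fun b hb => by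
          rw [Function.update_of_ne (Finset.ne_of_mem_erase hb)]]
    field_simp
  simp only [h1]
  rw [← Finset.sum_mul, ← Finset.sum_mul, Finset.sum_sub_distrib]
  simp [hc]

omit [CompleteSpace K] [Nonempty Λ] in
theorem esC_sum (ζ : (ι → Λ) → K) (ω : ι → Λ) : ∑ S : Finset ι, esC S ζ ω = ζ ω := by
  simp only [esC]
  rw [Finset.sum_comm]
  simp only [← Finset.sum_smul, esK_sum]
  simp

omit [CompleteSpace K] in
theorem Ea_esC (a : ι) (S : Finset ι) (ζ : (ι → Λ) → K) (ω : ι → Λ) :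
    Ea a (esC S ζ) ω = if a ∈ S then 0 else esC S ζ ω := by
  split_ifs with ha
  · simp only [Ea, esC, av]
    rw [Finset.sum_comm]
    simp only [← Finset.sum_smul, esK_mem ha]
    simp
  · simp only [Ea, esC, esK_not ha]
    exact R124.av_const _

omit [CompleteSpace K] in
theorem esC_junta {d : ℕ} {ζ : (ι → Λ) → K} (h : Junta d ζ) {S : Finset ι} (hS : d < S.card)
    (ω : ι → Λ) : esC S ζ ω = 0 := by
  obtain ⟨J, hJ, hζ⟩ := h
  obtain ⟨a, haS, haJ⟩ : ∃ a ∈ S, a ∉ J := by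
    by_contra hcon
    push_neg at hcon
    have := Finset.card_le_card (show S ⊆ J from hcon)
    omega
  have h1 := R124.av_update a (fun ω' => esK S ω ω' • ζ ω')
  have h2 : ∀ ω' l, ζ (Function.update ω' a l) = ζ ω' := fun ω' l =>
    hζ _ _ fun b hb => Function.update_of_ne (by rintro rfl; exact haJ hb) _ _
  simp only [h2, esK_symm S ω, av, ← Finset.sum_smul, esK_mem haS] at h1
  simp only [zero_smul, smul_zero, Finset.sum_const_zero] at h1
  have hc : (Fintype.card (ι → Λ) : ℝ)⁻¹ ≠ 0 :=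
    inv_ne_zero (by exact_mod_cast Fintype.card_ne_zero)
  simp only [esC, esK_symm S ω]
  exact (smul_eq_zero.1 h1).resolve_left hc

omit [CompleteSpace K] in
theorem esC_low {d : ℕ} {ζ : (ι → Λ) → K} (h : LowDeg d ζ) {S : Finset ι} (hS : d < S.card)
    (ω : ι → Λ) : esC S ζ ω = 0 := by
  induction h using Submodule.span_induction with
  | mem ζ h => exact esC_junta h hS ω
  | zero => simp [esC]
  | add ζ ζ' _ _ h1 h2 =>
    simp only [esC, Pi.add_apply, smul_add, Finset.sum_add_distrib] at h1 h2 ⊢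
    rw [h1, h2, add_zero]
  | smul c ζ _ h1 =>
    simp only [esC, Pi.smul_apply, smul_comm _ c, ← Finset.smul_sum] at h1 ⊢
    rw [h1, smul_zero]

omit [CompleteSpace K] in
theorem sm_map_av {Ω : Type*} [Fintype Ω] (y : Op K) (f : Ω → K) :
    y (av f) = av fun ω => y (f ω) :=
  (R124.av_map ((y : K →ₗ[ℂ] K).restrictScalars ℝ) f).symm

/-- A function invariant in `a` is orthogonal to a function with mean zero in `a`. -/
theorem sm_orth1 {a : ι} {f g : (ι → Λ) → K} (hf : ∀ ω l, f (Function.update ω a l) = f ω)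
    (hg : ∀ ω, Ea a g ω = 0) (y : Op K) : av (fun ω => ⟪f ω, y (g ω)⟫_ℂ) = 0 := by
  rw [R124.av_update a]
  simp only [hf]
  have : ∀ ω, av (fun l => ⟪f ω, y (g (Function.update ω a l))⟫_ℂ) = 0 := by
    intro ω
    rw [← R124.inner_av, ← sm_map_av]
    have := hg ω
    simp only [Ea] at this
    rw [this]; simp
  simp only [this]
  exact R124.av_zero

theorem sm_conj_av {Ω : Type*} [Fintype Ω] (f : Ω → ℂ) :
    (starRingEnd ℂ) (av f) = av fun ω => (starRingEnd ℂ) (f ω) :=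
  (R124.av_map Complex.conjAe.toLinearMap f).symm

theorem esC_orth {S S' : Finset ι} (h : S' ≠ S) (ζ ζ' : (ι → Λ) → K) (y y' : Op K) :
    av (fun ω => ⟪y' (esC S' ζ' ω), y (esC S ζ ω)⟫_ℂ) = 0 := by
  have key : ∀ {S S' : Finset ι} {a : ι}, a ∈ S → a ∉ S' → ∀ (ζ ζ' : (ι → Λ) → K) (y y' : Op K),
      av (fun ω => ⟪y' (esC S' ζ' ω), y (esC S ζ ω)⟫_ℂ) = 0 := by
    intro S S' a h1 h2 ζ ζ' y y'
    refine sm_orth1 (a := a) (f := fun ω => y' (esC S' ζ' ω)) (fun ω l => ?_) (fun ω => ?_) y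
    · simp only [esC, esK_not h2]
    · rw [Ea_esC, if_pos h1]
  by_cases h1 : S ⊆ S'
  · obtain ⟨a, h2, h3⟩ : ∃ a ∈ S', a ∉ S := by
      by_contra hcon
      push_neg at hcon
      exact h (Finset.Subset.antisymm hcon h1)
    have := congrArg (starRingEnd ℂ) (key h2 h3 ζ' ζ y' y)
    rw [sm_conj_av] at this
    simpa using this
  · obtain ⟨a, h2, h3⟩ := Finset.not_subset.1 h1
    exact key h2 h3 ζ ζ' y y'

theorem esC_inner (ζ ζ' : (ι → Λ) → K) (y y' : Finset ι → Op K) :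
    av (fun ω => ⟪∑ S, y' S (esC S ζ' ω), ∑ S, y S (esC S ζ ω)⟫_ℂ) =
      ∑ S, av (fun ω => ⟪y' S (esC S ζ' ω), y S (esC S ζ ω)⟫_ℂ) := by
  simp only [sum_inner]
  rw [R124.av_sum]
  refine Finset.sum_congr rfl fun S' _ => ?_
  simp only [inner_sum]
  rw [R124.av_sum, Finset.sum_eq_single S']
  · intro S _ hS; exact esC_orth (Ne.symm hS) _ _ _ _
  · intro h; exact absurd (Finset.mem_univ _) h

theorem sub_pi {e : ι → Op K} (he : Part0 e) (ζ : (ι → Λ) → K) (ω : ι → Λ) :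
    ζ ω - Pi' e ζ ω = ∑ S : Finset ι, (∑ a ∈ S, e a) (esC S ζ ω) := by
  have h1 : ∀ a, Ea a ζ ω = ∑ S : Finset ι, if a ∈ S then 0 else esC S ζ ω := by
    intro a
    simp only [← Ea_esC]
    simp only [Ea]
    rw [← R124.av_sum]
    simp only [esC_sum]
  rw [sub_eq_iff_eq_add, Pi']
  simp only [h1, map_sum]
  rw [Finset.sum_comm, ← Finset.sum_add_distrib]
  conv_lhs => rw [← esC_sum ζ ω]
  refine Finset.sum_congr rfl fun S _ => ?_
  rw [ContinuousLinearMap.sum_apply]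
  conv_lhs => rw [← he.sm_sum_apply (esC S ζ ω)]
  rw [← Finset.sum_filter_add_sum_filter_not Finset.univ (· ∈ S)]
  congr 1
  · simp
  · rw [Finset.sum_filter]
    refine Finset.sum_congr rfl fun a _ => ?_
    by_cases ha : a ∈ S <;> simp [ha]

theorem esC_norm (ζ : (ι → Λ) → K) (y : Finset ι → Op K) :
    av (fun ω => ‖∑ S, y S (esC S ζ ω)‖ ^ 2) = ∑ S, av (fun ω => ‖y S (esC S ζ ω)‖ ^ 2) := by
  have := congrArg Complex.re (esC_inner ζ ζ y y)
  rw [sm_re_av, Complex.re_sum] at this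
  simpa only [sm_re_av, sm_re_self] using this

/-- The operator `∑ e a x e b` over the related pairs of `S`. -/
noncomputable def esW (e : ι → Op K) (σ : ι → ι → Prop) [DecidableRel σ] (x : Op K)
    (S : Finset ι) : Op K := ∑ a ∈ S, ∑ b ∈ S.filter (fun b => σ a b), e a * x * e b

theorem esW_le {e : ι → Op K} (he : Part0 e) {x : Op K} (hx : IsSelfAdjoint x)
    {ρ σ : ι → ι → Prop} [DecidableRel ρ] [DecidableRel σ] (hσ : ∀ a b, σ a b → ρ a b)
    (S : Finset ι) (v : K) :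
    ‖esW e σ x S v‖ ^ 2 ≤ S.card * (⟪v, Ysum e ρ x S v⟫_ℂ).re := by
  have h1 : esW e σ x S v = ∑ a ∈ S, e a (∑ b ∈ S.filter (fun b => σ a b), x (e b v)) := by
    simp only [esW, ContinuousLinearMap.sum_apply, map_sum, ContinuousLinearMap.mul_apply]
  have h2 : (⟪v, Ysum e ρ x S v⟫_ℂ).re =
      ∑ a ∈ S, ∑ b ∈ S.filter (fun b => ρ a b), ‖e a (x (e b v))‖ ^ 2 := by
    simp only [Ysum, ContinuousLinearMap.sum_apply, inner_sum, Complex.re_sum]
    refine Finset.sum_congr rfl fun a _ => Finset.sum_congr rfl fun b _ => ?_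
    rw [← sm_re_self, sm_adj (e a), he.sm_star, ← ContinuousLinearMap.mul_apply (e a) (e a),
      he.sm_idem]
    simp only [ContinuousLinearMap.mul_apply]
    rw [sm_adj (e b), he.sm_star, sm_adj x, hx.star_eq, sm_adj (e a), he.sm_star]
  rw [h1, he.sm_pyth, h2, Finset.mul_sum]
  refine Finset.sum_le_sum fun a _ => ?_
  rw [map_sum]
  calc _ ≤ (∑ b ∈ S.filter (fun b => σ a b), ‖e a (x (e b v))‖) ^ 2 :=
        pow_le_pow_left₀ (norm_nonneg _) (norm_sum_le _ _) 2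
    _ ≤ (S.filter (fun b => σ a b)).card *
          ∑ b ∈ S.filter (fun b => σ a b), ‖e a (x (e b v))‖ ^ 2 := sq_sum_le_card_mul_sum_sq
    _ ≤ _ := by
        refine mul_le_mul (by exact_mod_cast Finset.card_filter_le _ _) ?_
          (Finset.sum_nonneg fun _ _ => by positivity) (by positivity)
        refine Finset.sum_le_sum_of_subset_of_nonneg ?_ fun _ _ _ => by positivity
        intro b hb
        simp only [Finset.mem_filter] at hb ⊢
        exact ⟨hb.1, hσ _ _ hb.2⟩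

theorem sm_re_mono {y T : Op K} (h : y ≤ T) (v : K) : (⟪v, y v⟫_ℂ).re ≤ (⟪v, T v⟫_ℂ).re := by
  have h1 : (T - y).IsPositive := (ContinuousLinearMap.le_def _ _).1 h
  have h2 := h1.re_inner_nonneg_right v
  simp only [ContinuousLinearMap.sub_apply, inner_sub_right, map_sub, RCLike.re_to_complex] at h2
  linarith

theorem esW_av {e : ι → Op K} (he : Part0 e) {x T : Op K} (hx : IsSelfAdjoint x) (hT : 0 ≤ T)
    {ρ σ : ι → ι → Prop} [DecidableRel ρ] [DecidableRel σ] (hσ : ∀ a b, σ a b → ρ a b) {d : ℕ}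
    (hY : ∀ S : Finset ι, S.card ≤ d → Ysum e ρ x S ≤ T) {ζ : (ι → Λ) → K} (h : LowDeg d ζ) :
    av (fun ω => ‖∑ S, esW e σ x S (esC S ζ ω)‖ ^ 2) ≤
      d * av fun ω => (⟪ζ ω, T (ζ ω)⟫_ℂ).re := by
  have h1 := congrArg Complex.re (esC_inner ζ ζ (fun _ => T) (fun _ => 1))
  simp only [ContinuousLinearMap.one_apply, ← map_sum, esC_sum, sm_re_av, Complex.re_sum] at h1
  rw [esC_norm, h1, Finset.mul_sum]
  refine Finset.sum_le_sum fun S _ => ?_
  rw [← smul_eq_mul, ← R124.av_rsmul]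
  refine R124.av_mono fun ω => ?_
  rw [smul_eq_mul]
  rcases le_or_gt S.card d with hS | hS
  · refine (esW_le he hx hσ S _).trans ?_
    have h2 := sm_re_mono (hY S hS) (esC S ζ ω)
    have h3 := sm_re_mono hT (esC S ζ ω)
    simp only [ContinuousLinearMap.zero_apply, inner_zero_right, Complex.zero_re] at h3
    calc _ ≤ (S.card : ℝ) * (⟪esC S ζ ω, T (esC S ζ ω)⟫_ℂ).re :=
          mul_le_mul_of_nonneg_left h2 (by positivity)
      _ ≤ _ := mul_le_mul_of_nonneg_right (by exact_mod_cast hS) h3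
  · simp [esC_low h hS]

theorem esW_split {e : ι → Op K} (he : Part0 e) {x : Op K} (hx : IsSelfAdjoint x)
    (ρ : ι → ι → Prop) [DecidableRel ρ] (S : Finset ι) :
    (∑ a ∈ S, e a) * x * (∑ a ∈ S, e a) =
      esW e ρ x S + star (esW e (fun b a => ¬ ρ a b) x S) := by
  simp only [esW, star_sum, star_mul, he.sm_star, hx.star_eq, Finset.sum_filter]
  rw [Finset.sum_comm (f := fun b a => star (if ¬ ρ a b then e b * x * e a else 0)),
    ← Finset.sum_add_distrib, Finset.sum_mul, Finset.sum_mul]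
  refine Finset.sum_congr rfl fun a _ => ?_
  rw [← Finset.sum_add_distrib, Finset.mul_sum]
  refine Finset.sum_congr rfl fun b _ => ?_
  by_cases h : ρ a b <;> simp [h, he.sm_star, hx.star_eq, mul_assoc]

end ES

/-- Efron-Stein: `ζ = ∑_S ζ_S`, `ζ_S = ∏_{a ∈ S} (1 - 𝔼_a) ∏_{a ∉ S} 𝔼_a ζ`, orthogonal for the inner
product `av ⟪·, ·⟫` (also after applying operators of `K`), `ζ_S = 0` if `#S > d`,
`(1 - 𝔼_a) ζ_S = 1[a ∈ S] ζ_S`. So the left side is `∑_S ∑_{a, b ∈ S} ⟪e a ζ'_S, x (e b ζ_S)⟫`. For the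
pairs with `ρ a b` put `x` on `ζ_S`: `‖∑_{a, b ∈ S, ρ a b} e a x e b ζ_S‖² ≤ d ⟪ζ_S, Ysum S ζ_S⟫`
(orthogonality in `a`, Cauchy-Schwarz in `b`); for the others `ρ b a` holds, put `x` on `ζ'_S`. -/
theorem low_deg {e : ι → Op K} (he : Part0 e) {x T : Op K} (hx : IsSelfAdjoint x) (hT : 0 ≤ T)
    {ρ : ι → ι → Prop} [DecidableRel ρ] (hρ : ∀ a b, ρ a b ∨ ρ b a) {d : ℕ}
    (hY : ∀ S : Finset ι, S.card ≤ d → Ysum e ρ x S ≤ T) {ζ ζ' : (ι → Λ) → K} (h : LowDeg d ζ)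
    (h' : LowDeg d ζ') :
    ‖av fun ω => ⟪ζ' ω - Pi' e ζ' ω, x (ζ ω - Pi' e ζ ω)⟫_ℂ‖ ≤
      Real.sqrt (d * av fun ω => (⟪ζ ω, T (ζ ω)⟫_ℂ).re) * Real.sqrt (av fun ω => ‖ζ' ω‖ ^ 2) +
        Real.sqrt (av fun ω => ‖ζ ω‖ ^ 2) *
          Real.sqrt (d * av fun ω => (⟪ζ' ω, T (ζ' ω)⟫_ℂ).re) := by
  have h1 : (av fun ω => ⟪ζ' ω - Pi' e ζ' ω, x (ζ ω - Pi' e ζ ω)⟫_ℂ) =
      (av fun ω => ⟪ζ' ω, ∑ S, esW e ρ x S (esC S ζ ω)⟫_ℂ) +
        av fun ω => ⟪∑ S, esW e (fun b a => ¬ ρ a b) x S (esC S ζ' ω), ζ ω⟫_ℂ := by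
    have e1 := esC_inner ζ ζ' (fun S => x * ∑ a ∈ S, e a) (fun S => ∑ a ∈ S, e a)
    have e2 := esC_inner ζ ζ' (fun S => esW e ρ x S) (fun _ => 1)
    have e3 := esC_inner ζ ζ' (fun _ => 1) (fun S => esW e (fun b a => ¬ ρ a b) x S)
    simp only [ContinuousLinearMap.one_apply, esC_sum] at e2 e3
    simp only [ContinuousLinearMap.mul_apply, ← map_sum, ← sub_pi he] at e1
    rw [e1, e2, e3, ← Finset.sum_add_distrib]
    refine Finset.sum_congr rfl fun S _ => ?_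
    rw [← R124.av_add]
    congr 1
    funext ω
    have e4 : star (∑ a ∈ S, e a) = ∑ a ∈ S, e a := by simp only [star_sum, he.sm_star]
    have e5 := congrArg (fun y : Op K => ⟪esC S ζ' ω, y (esC S ζ ω)⟫_ℂ) (esW_split he hx ρ S)
    simp only [ContinuousLinearMap.mul_apply, ContinuousLinearMap.add_apply,
      inner_add_right] at e5
    rw [sm_adj, e4, sm_adj (star _), star_star] at e5
    exact e5
  rw [h1]
  refine (norm_add_le _ _).trans (add_le_add ?_ ?_)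
  · refine (sm_cs _ _).trans ?_
    rw [mul_comm]
    exact mul_le_mul_of_nonneg_right
      (Real.sqrt_le_sqrt (esW_av he hx hT (fun _ _ h => h) hY h)) (Real.sqrt_nonneg _)
  · refine (sm_cs _ _).trans ?_
    rw [mul_comm]
    exact mul_le_mul_of_nonneg_left
      (Real.sqrt_le_sqrt (esW_av he hx hT (fun b a h => (hρ a b).resolve_left h) hY h'))
      (Real.sqrt_nonneg _)

theorem pi_le {e : ι → Op K} (he : Part0 e) (ζ : (ι → Λ) → K) :
    av (fun ω => ‖ζ ω - Pi' e ζ ω‖ ^ 2) ≤ av fun ω => ‖ζ ω‖ ^ 2 := by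
  have h1 := esC_norm ζ (fun _ => 1)
  simp only [ContinuousLinearMap.one_apply, esC_sum] at h1
  simp only [sub_pi he]
  rw [esC_norm, h1]
  refine Finset.sum_le_sum fun S _ => R124.av_mono fun ω => ?_
  rw [ContinuousLinearMap.sum_apply]
  exact he.sm_sub_le S _

/-- `qq (a, f) (𝔼_a (pc · i ζ))` has at most one nonzero term (`own`). -/
theorem pi_pc {e : ι → Op K} (he : Part0 e) {D : ℕ}
    {qq : ι × ((ι → Λ) → Option (Fin r)) → Op K} (h : IsRC e D qq) (i : Fin r)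
    (ζ : (ι → Λ) → K) :
    av (fun ω => ‖Pi' e (fun ω' => pc qq ω' (some i) (ζ ω')) ω‖ ^ 2) ≤
      (Fintype.card Λ : ℝ)⁻¹ * av fun ω => ‖pc qq ω (some i) (ζ ω)‖ ^ 2 := by
  classical
  set η : (ι → Λ) → K := fun ω' => pc qq ω' (some i) (ζ ω') with hη
  have hq := h.part
  have h1 : ∀ a f ω, qq (a, f) (Pi' e η ω) = av fun l => qq (a, f) (η (Function.update ω a l)) := by
    intro a f ω
    rw [Pi', map_sum, Finset.sum_eq_single a, ← ContinuousLinearMap.mul_apply, h.le, Ea, sm_map_av]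
    · intro b _ hb
      rw [← h.le a f, ContinuousLinearMap.mul_apply, ← ContinuousLinearMap.mul_apply (e a),
        he.orth a b (Ne.symm hb)]
      simp
    · intro h; exact absurd (Finset.mem_univ _) h
  have h2 : ∀ a f ω, f ω ≠ some i → qq (a, f) (η ω) = 0 := by
    intro a f ω hf
    simp only [hη, pc, ← ContinuousLinearMap.mul_apply, Finset.mul_sum]
    rw [Finset.sum_eq_zero]
    · simp
    · intro bf hbf
      refine hq.orth _ _ ?_
      rintro rfl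
      simp only [Finset.mem_filter, Finset.mem_univ, true_and] at hbf
      exact hf hbf
  have h3 : ∀ a f ω, ‖qq (a, f) (Pi' e η ω)‖ ^ 2 ≤
      (Fintype.card Λ : ℝ)⁻¹ * av fun l => ‖qq (a, f) (η (Function.update ω a l))‖ ^ 2 := by
    intro a f ω
    rw [h1]
    by_cases h0 : qq (a, f) = 0
    · simp [h0, av]
    by_cases h4 : ∃ l, f (Function.update ω a l) = some i
    · obtain ⟨l, hl⟩ := h4
      have h5 : ∀ l', l' ≠ l → qq (a, f) (η (Function.update ω a l')) = 0 := fun l' hl' =>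
        h2 _ _ _ fun h6 => hl' (h.own a f h0 ω l' l i h6 hl)
      simp only [av]
      rw [Finset.sum_eq_single l (fun l' _ hl' => h5 l' hl') (by simp),
        Finset.sum_eq_single l (fun l' _ hl' => by rw [h5 l' hl']; simp) (by simp), norm_smul]
      simp only [norm_inv, Real.norm_natCast, smul_eq_mul]
      exact le_of_eq (by ring)
    · push Not at h4
      simp [h2 _ _ _ (h4 _), av]
  have h4 : (av fun ω => ‖η ω‖ ^ 2) = ∑ af, av fun ω => ‖qq af (η ω)‖ ^ 2 := by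
    rw [← R124.av_sum]
    simp only [hq.sm_pyth1]
  calc _ = av fun ω => ∑ af, ‖qq af (Pi' e η ω)‖ ^ 2 := by simp only [hq.sm_pyth1]
    _ ≤ av fun ω => ∑ af : ι × ((ι → Λ) → Option (Fin r)), (Fintype.card Λ : ℝ)⁻¹ •
          av fun l => ‖qq af (η (Function.update ω af.1 l))‖ ^ 2 :=
        R124.av_mono fun ω => Finset.sum_le_sum fun af _ => h3 af.1 af.2 ω
    _ = _ := by
        rw [R124.av_sum, h4, Finset.mul_sum]
        refine Finset.sum_congr rfl fun af _ => ?_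
        rw [R124.av_rsmul, ← R124.av_update af.1 (fun ω => ‖qq af (η ω)‖ ^ 2), smul_eq_mul]

omit [CompleteSpace K] [Fintype ι] [Fintype Λ] [DecidableEq Λ] [Nonempty Λ] [DecidableEq ι] in
theorem LowDeg.mono {d d' : ℕ} (hd : d ≤ d') {ζ : (ι → Λ) → K} (h : LowDeg d ζ) : LowDeg d' ζ :=
  Submodule.span_mono (fun _ hζ => by
    obtain ⟨J, hJ, hζ⟩ := hζ
    exact ⟨J, hJ.trans hd, hζ⟩) h

omit [CompleteSpace K] [Fintype ι] [Fintype Λ] [DecidableEq Λ] [Nonempty Λ] [DecidableEq ι] in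
theorem LowDeg.map {d : ℕ} {ζ : (ι → Λ) → K} (h : LowDeg d ζ) (y : Op K) :
    LowDeg d fun ω => y (ζ ω) := by
  induction h using Submodule.span_induction with
  | mem ζ h =>
    obtain ⟨J, hJ, hζ⟩ := h
    exact Submodule.subset_span ⟨J, hJ, fun ω ω' hω => congrArg y (hζ ω ω' hω)⟩
  | zero =>
    simp only [Pi.zero_apply, map_zero]
    exact Submodule.zero_mem _
  | add ζ ζ' _ _ h1 h2 =>
    simp only [Pi.add_apply, map_add]
    exact Submodule.add_mem _ h1 h2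
  | smul c ζ _ h1 =>
    simp only [Pi.smul_apply, map_smul]
    exact Submodule.smul_mem _ c h1

theorem LowDeg.pc {e : ι → Op K} {D : ℕ} {qq : ι × ((ι → Λ) → Option (Fin r)) → Op K}
    (hq : IsRC e D qq) (o : Option (Fin r)) {d : ℕ} {ζ : (ι → Λ) → K} (h : LowDeg d ζ) :
    LowDeg (d + D) fun ω => pc qq ω o (ζ ω) := by
  induction h using Submodule.span_induction with
  | mem ζ h =>
    obtain ⟨J, hJ, hζ⟩ := h
    have h1 : (fun ω => R109.pc qq ω o (ζ ω)) = ∑ af : ι × ((ι → Λ) → Option (Fin r)),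
        fun ω => if af.2 ω = o then qq af (ζ ω) else 0 := by
      funext ω
      simp only [R109.pc, ContinuousLinearMap.sum_apply, Finset.sum_filter, Finset.sum_apply]
      refine Finset.sum_congr rfl fun af _ => ?_
      split_ifs <;> simp
    rw [h1]
    refine Submodule.sum_mem _ fun af _ => ?_
    by_cases h0 : qq af = 0
    · simp only [h0, ContinuousLinearMap.zero_apply, ite_self]
      exact Submodule.zero_mem _
    · obtain ⟨J', hJ', hf⟩ := hq.junta af.1 af.2 h0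
      refine Submodule.subset_span ⟨J ∪ J', (Finset.card_union_le _ _).trans (by omega),
        fun ω ω' hω => ?_⟩
      beta_reduce
      rw [hζ ω ω' fun a ha => hω a (Finset.mem_union_left _ ha),
        hf ω ω' fun a ha => hω a (Finset.mem_union_right _ ha)]
  | zero =>
    simp only [Pi.zero_apply, map_zero]
    exact Submodule.zero_mem _
  | add ζ ζ' _ _ h1 h2 =>
    simp only [Pi.add_apply, map_add]
    exact Submodule.add_mem _ h1 h2
  | smul c ζ _ h1 =>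
    simp only [Pi.smul_apply, map_smul]
    exact Submodule.smul_mem _ c h1

omit [CompleteSpace K] in
theorem sm_word_fix {p : Op K} (hp : p * p = p) (x : Op K) (k : ℕ) :
    p * ((p * x * p) ^ k * p) = (p * x * p) ^ k * p := by
  cases k with
  | zero => simpa using hp
  | succ k => simp only [pow_succ', ← mul_assoc, hp]

omit [CompleteSpace K] in
theorem sm_word_succ {p : Op K} (hp : p * p = p) (x : Op K) (k : ℕ) :
    (p * x * p) ^ (k + 1) * p = p * (x * ((p * x * p) ^ k * p)) := by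
  conv_rhs => rw [← sm_word_fix hp x k]
  simp only [pow_succ', mul_assoc]

theorem lowDeg_word {e : ι → Op K} {D : ℕ} {qq : ι × ((ι → Λ) → Option (Fin r)) → Op K}
    (h : IsRC e D qq) (i : Fin r) (x : Op K) (ξ : K) (k : ℕ) :
    LowDeg ((k + 1) * D) fun ω =>
      ((pc qq ω (some i) * x * pc qq ω (some i)) ^ k * pc qq ω (some i)) ξ := by
  induction k with
  | zero =>
    have h0 : LowDeg 0 fun _ : ι → Λ => ξ := Submodule.subset_span ⟨∅, by simp, fun _ _ _ => rfl⟩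
    simpa using h0.pc h (some i)
  | succ k ih =>
    have h1 := (ih.map x).pc h (some i)
    rw [show (k + 1 + 1) * D = (k + 1) * D + D by ring]
    convert h1 using 2 with ω
    rw [sm_word_succ ((h.part_pc ω).sm_idem _)]
    rfl

theorem sm_step {e : ι → Op K} (he : Part0 e) {x T : Op K} (hx : IsSelfAdjoint x) (hx2 : ‖x‖ ≤ 2)
    (hT : 0 ≤ T) {ρ : ι → ι → Prop} [DecidableRel ρ] (hρ : ∀ a b, ρ a b ∨ ρ b a) {d : ℕ}
    (hY : ∀ S : Finset ι, S.card ≤ d → Ysum e ρ x S ≤ T) {ζ ζ' : (ι → Λ) → K} (h : LowDeg d ζ)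
    (h' : LowDeg d ζ') {c ε : ℝ} (hc : 0 ≤ c)
    (hp : av (fun ω => ‖Pi' e ζ ω‖ ^ 2) ≤ c ^ 2 * av fun ω => ‖ζ ω‖ ^ 2)
    (hp' : av (fun ω => ‖Pi' e ζ' ω‖ ^ 2) ≤ c ^ 2 * av fun ω => ‖ζ' ω‖ ^ 2) (hε : 0 ≤ ε)
    (ht : ∀ ω, (⟪ζ ω, T (ζ ω)⟫_ℂ).re ≤ ε) (ht' : ∀ ω, (⟪ζ' ω, T (ζ' ω)⟫_ℂ).re ≤ ε) :
    ‖av fun ω => ⟪ζ' ω, x (ζ ω)⟫_ℂ‖ ≤
      4 * c * (Real.sqrt (av fun ω => ‖ζ ω‖ ^ 2) * Real.sqrt (av fun ω => ‖ζ' ω‖ ^ 2)) +
        Real.sqrt (d * ε) *
          (Real.sqrt (av fun ω => ‖ζ ω‖ ^ 2) + Real.sqrt (av fun ω => ‖ζ' ω‖ ^ 2)) := by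
  have h1 : (av fun ω => ⟪ζ' ω, x (ζ ω)⟫_ℂ) = (av fun ω => ⟪Pi' e ζ' ω, x (ζ ω)⟫_ℂ) +
      (av fun ω => ⟪ζ' ω - Pi' e ζ' ω, x (Pi' e ζ ω)⟫_ℂ) +
      av fun ω => ⟪ζ' ω - Pi' e ζ' ω, x (ζ ω - Pi' e ζ ω)⟫_ℂ := by
    rw [← R124.av_add, ← R124.av_add]
    congr 1
    funext ω
    simp only [map_sub, inner_sub_left, inner_sub_right]
    ring
  have hxx : ∀ f : (ι → Λ) → K, Real.sqrt (av fun ω => ‖x (f ω)‖ ^ 2) ≤
      2 * Real.sqrt (av fun ω => ‖f ω‖ ^ 2) := by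
    intro f
    have : (av fun ω => ‖x (f ω)‖ ^ 2) ≤ 2 ^ 2 * av fun ω => ‖f ω‖ ^ 2 := by
      rw [← smul_eq_mul, ← R124.av_rsmul]
      refine R124.av_mono fun ω => ?_
      rw [smul_eq_mul, ← mul_pow]
      exact pow_le_pow_left₀ (norm_nonneg _)
        ((x.le_opNorm _).trans (mul_le_mul_of_nonneg_right hx2 (norm_nonneg _))) 2
    refine (Real.sqrt_le_sqrt this).trans (le_of_eq ?_)
    rw [Real.sqrt_mul (by positivity), Real.sqrt_sq (by positivity)]
  have hq := Real.sqrt_le_sqrt hp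
  have hq' := Real.sqrt_le_sqrt hp'
  rw [Real.sqrt_mul (by positivity), Real.sqrt_sq hc] at hq hq'
  have hr := Real.sqrt_le_sqrt (pi_le he ζ')
  have a1 := (sm_cs (fun ω => Pi' e ζ' ω) (fun ω => x (ζ ω))).trans
    (mul_le_mul hq' (hxx ζ) (Real.sqrt_nonneg _) (by positivity))
  have a2 := (sm_cs (fun ω => ζ' ω - Pi' e ζ' ω) (fun ω => x (Pi' e ζ ω))).trans
    (mul_le_mul hr ((hxx _).trans (mul_le_mul_of_nonneg_left hq (by norm_num)))
      (Real.sqrt_nonneg _) (by positivity))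
  have a3 := low_deg he hx hT hρ hY h h'
  have b1 : Real.sqrt (d * av fun ω => (⟪ζ ω, T (ζ ω)⟫_ℂ).re) ≤ Real.sqrt (d * ε) :=
    Real.sqrt_le_sqrt (mul_le_mul_of_nonneg_left (R124.av_le hε ht) (by positivity))
  have b2 : Real.sqrt (d * av fun ω => (⟪ζ' ω, T (ζ' ω)⟫_ℂ).re) ≤ Real.sqrt (d * ε) :=
    Real.sqrt_le_sqrt (mul_le_mul_of_nonneg_left (R124.av_le hε ht') (by positivity))
  have a4 := a3.trans (add_le_add (mul_le_mul_of_nonneg_right b1 (Real.sqrt_nonneg _))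
    (mul_le_mul_of_nonneg_left b2 (Real.sqrt_nonneg _)))
  rw [h1]
  refine ((norm_add_le _ _).trans (add_le_add (norm_add_le _ _) le_rfl)).trans ?_
  refine (add_le_add (add_le_add a1 a2) a4).trans (le_of_eq ?_)
  ring

theorem sm_quad {s s' θ η C : ℝ} (hs : 0 ≤ s) (hθ : 0 ≤ θ) (hη : 0 ≤ η) (hC : s ≤ C)
    (h : s' ^ 2 ≤ θ * (s * s') + η * (s + s')) : s' ≤ θ * s + (η + Real.sqrt (η * C)) := by
  by_contra hcon
  push Not at hcon
  have h0 := Real.sqrt_nonneg (η * C)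
  have h1 := Real.sq_sqrt (mul_nonneg hη (hs.trans hC))
  have h2 : 0 ≤ θ * s := mul_nonneg hθ hs
  have h3 : η * s ≤ η * C := mul_le_mul_of_nonneg_left hC hη
  set t := Real.sqrt (η * C)
  have h4 : t < s' := by linarith
  have h5 : t < s' - θ * s - η := by linarith
  have h6 : t * t < s' * (s' - θ * s - η) := mul_lt_mul'' h4 h5 h0 h0
  nlinarith

omit [Nonempty Λ] in
theorem sm_Z_pow {p : Option (Fin r) → Op K} (hp : Part0 p) (x : Op K) (k : ℕ) :
    (∑ i : Fin r, p (some i) * x * p (some i)) ^ (k + 1) =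
      ∑ i : Fin r, (p (some i) * x * p (some i)) ^ (k + 1) * p (some i) := by
  induction k with
  | zero => simp only [zero_add, pow_one, mul_assoc, hp.sm_idem]
  | succ k ih =>
    rw [pow_succ', ih, Finset.sum_mul_sum]
    refine Finset.sum_congr rfl fun i _ => ?_
    rw [Finset.sum_eq_single i]
    · rw [← mul_assoc, ← pow_succ']
    · intro j _ hj
      rw [← sm_word_fix (hp.sm_idem (some j)), mul_assoc, ← mul_assoc (p (some i)) (p (some j)),
        hp.orth _ _ (by simpa using Ne.symm hj)]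
      simp
    · intro h; exact absurd (Finset.mem_univ _) h

/-- Let `n k = √(av ‖Z^k ξ‖²)`, `ζ i k = pc i Z^k ξ = (p x p)^k p ξ`. Then
`n (k+1)² = ∑_i av ⟪ζ i (k+1), x ζ i k⟫`; split `⟪ζ', x ζ⟫ = ⟪Π ζ', x ζ⟫ + ⟪ζ' - Π ζ', x Π ζ⟫ +
⟪ζ' - Π ζ', x (ζ - Π ζ)⟫` and use `pi_pc` (`#(Lab r) ≥ r / 2`), `pi_le`, `low_deg`:
`n (k+1)² ≤ (6 / √r) n k n (k+1) + small`, hence `n (k+1) ≤ (6 / √r) n k + √small`. -/
theorem smabs (ξ : K) (r : ℕ) [NeZero r] (D m : ℕ) {δ : ℝ} (hδ : 0 < δ) : ∃ ε : ℝ, 0 < ε ∧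
    ∀ (n : ℕ) (e : Fin n → Op K) (qq : Fin n × ((Fin n → Lab r) → Option (Fin r)) → Op K)
      (x T : Op K) (lev : Fin n → ℕ), Part0 e → IsRC e D qq → IsSelfAdjoint x → ‖x‖ ≤ 2 → 0 ≤ T →
      (∀ S : Finset (Fin n), S.card ≤ (m + 1) * D → Ysum e (fun a b => lev a ≤ lev b) x S ≤ T) →
      (∀ k ≤ m, ∀ ω i, (⟪((pc qq ω (some i) * x * pc qq ω (some i)) ^ k * pc qq ω (some i)) ξ,
        T (((pc qq ω (some i) * x * pc qq ω (some i)) ^ k * pc qq ω (some i)) ξ)⟫_ℂ).re ≤ ε) →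
      av (fun ω => ‖(Zc qq ω x ^ m) ξ‖ ^ 2) ≤ (6 / Real.sqrt r) ^ (2 * m) * ‖ξ‖ ^ 2 + δ := by
  have hr : 0 < r := NeZero.pos r
  have hr1 : (1 : ℝ) ≤ r := by exact_mod_cast hr
  haveI : Nonempty (Lab r) := ⟨⟨0, by omega⟩⟩
  set d : ℕ := (m + 1) * D with hd
  let τ : ℝ → ℝ := fun ε => Real.sqrt (d * ε) + Real.sqrt (Real.sqrt (d * ε) * (2 ^ m * ‖ξ‖))
  let g : ℝ → ℝ := fun ε => r * (2 * (6 ^ m * ‖ξ‖) * (τ ε * 7 ^ m) + (τ ε * 7 ^ m) ^ 2)
  have hg : Continuous g := by fun_prop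
  have hg0 : g 0 < δ := by simpa [g, τ] using hδ
  obtain ⟨ε, hgε, hε⟩ : ∃ ε, g ε < δ ∧ 0 < ε :=
    (((hg.continuousAt.eventually (gt_mem_nhds hg0)).filter_mono
      (nhdsWithin_le_nhds (s := Set.Ioi 0))).and self_mem_nhdsWithin).exists
  refine ⟨ε, hε, fun n e qq x T lev he h hx hx2 hT hY ht => ?_⟩
  rcases Nat.eq_zero_or_pos m with rfl | hm
  · simp only [pow_zero, ContinuousLinearMap.one_apply, R124.av_const, mul_zero, one_mul]
    linarith
  set θ : ℝ := 6 / Real.sqrt r with hθ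
  have hsr : 1 ≤ Real.sqrt r := Real.one_le_sqrt.2 hr1
  have hθ0 : 0 ≤ θ := by positivity
  have hθ6 : θ ≤ 6 := div_le_self (by norm_num) hsr
  have hτ : 0 ≤ τ ε := by positivity
  let ζ : Fin r → ℕ → (Fin n → Lab r) → K := fun i k ω =>
    ((pc qq ω (some i) * x * pc qq ω (some i)) ^ k * pc qq ω (some i)) ξ
  let s : Fin r → ℕ → ℝ := fun i k => Real.sqrt (av fun ω => ‖ζ i k ω‖ ^ 2)
  have hs0 : ∀ i k, 0 ≤ s i k := fun i k => Real.sqrt_nonneg _
  have hsq : ∀ i k, s i k ^ 2 = av fun ω => ‖ζ i k ω‖ ^ 2 := fun i k =>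
    Real.sq_sqrt (R124.av_nonneg fun _ => by positivity)
  have hfix : ∀ i k ω, pc qq ω (some i) (ζ i k ω) = ζ i k ω := by
    intro i k ω
    simp only [ζ]
    rw [← ContinuousLinearMap.mul_apply, sm_word_fix ((h.part_pc ω).sm_idem _)]
  have hsucc : ∀ i k ω, ζ i (k + 1) ω = pc qq ω (some i) (x (ζ i k ω)) := by
    intro i k ω
    simp only [ζ]
    rw [sm_word_succ ((h.part_pc ω).sm_idem _)]
    rfl
  have hbd : ∀ i k ω, ‖ζ i k ω‖ ≤ 2 ^ k * ‖ξ‖ := by
    intro i k ω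
    induction k with
    | zero => simpa [ζ] using (h.part_pc ω).sm_le (some i) ξ
    | succ k ih =>
      rw [hsucc]
      refine ((h.part_pc ω).sm_le _ _).trans ((x.le_opNorm _).trans ?_)
      calc _ ≤ 2 * (2 ^ k * ‖ξ‖) := mul_le_mul hx2 ih (norm_nonneg _) (by norm_num)
        _ = _ := by ring
  have hsbd : ∀ i k, s i k ≤ 2 ^ k * ‖ξ‖ := by
    intro i k
    refine Real.sqrt_le_iff.2 ⟨by positivity, R124.av_le (by positivity) fun ω => ?_⟩
    exact pow_le_pow_left₀ (norm_nonneg _) (hbd i k ω) 2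
  have hc : (Fintype.card (Lab r) : ℝ)⁻¹ ≤ (θ / 4) ^ 2 := by
    rw [Fintype.card_fin, hθ, div_pow, div_pow, Real.sq_sqrt (by positivity)]
    have h1 : r ≤ 2 * ((r + 1) / 2) := by omega
    have h2 : (r : ℝ) ≤ 2 * ((r + 1) / 2 : ℕ) := by exact_mod_cast h1
    have h3 : (0 : ℝ) < ((r + 1) / 2 : ℕ) := by linarith
    rw [inv_eq_one_div, div_div, div_le_div_iff₀ h3 (by positivity)]
    linarith
  have hpi : ∀ i k, av (fun ω => ‖Pi' e (ζ i k) ω‖ ^ 2) ≤
      (θ / 4) ^ 2 * av fun ω => ‖ζ i k ω‖ ^ 2 := by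
    intro i k
    have := pi_pc he h i (ζ i k)
    simp only [hfix] at this
    exact this.trans (mul_le_mul_of_nonneg_right hc (R124.av_nonneg fun _ => by positivity))
  have hlow : ∀ i k, k ≤ m → LowDeg d (ζ i k) := fun i k hk =>
    (lowDeg_word h i x ξ k).mono (Nat.mul_le_mul_right _ (by omega))
  have hstep : ∀ i k, k + 1 ≤ m → s i (k + 1) ≤ θ * s i k + τ ε := by
    intro i k hk
    have h1 := sm_step he hx hx2 hT (ρ := fun a b => lev a ≤ lev b) (fun a b => le_total _ _) hY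
      (hlow i k (by omega)) (hlow i (k + 1) hk) (c := θ / 4) (by positivity) (hpi i k)
      (hpi i (k + 1)) hε.le (fun ω => ht k (by omega) ω i) (fun ω => ht (k + 1) hk ω i)
    have h2 : s i (k + 1) ^ 2 = (av fun ω => ⟪ζ i (k + 1) ω, x (ζ i k ω)⟫_ℂ).re := by
      rw [hsq, sm_re_av]
      congr 1
      funext ω
      rw [← sm_re_self]
      congr 1
      conv_lhs => rw [hsucc i k ω, sm_adj, (h.part_pc ω).sm_star, ← hsucc, hfix]
    have h3 : s i k ≤ 2 ^ m * ‖ξ‖ := (hsbd i k).trans (mul_le_mul_of_nonneg_right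
      (pow_le_pow_right₀ (by norm_num) (by omega)) (norm_nonneg _))
    refine sm_quad (hs0 i k) hθ0 (Real.sqrt_nonneg _) h3 ?_
    rw [h2]
    refine (Complex.re_le_norm _).trans (h1.trans (le_of_eq ?_))
    simp only [s]
    ring
  have hrec : ∀ i k, k ≤ m → s i k ≤ θ ^ k * s i 0 + τ ε * 7 ^ k := by
    intro i k
    induction k with
    | zero => intro _; simpa using hτ
    | succ k ih =>
      intro hk
      have h1 := hstep i k hk
      have h2 := mul_le_mul_of_nonneg_left (ih (by omega)) hθ0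
      have h3 : (1 : ℝ) ≤ 7 ^ k := one_le_pow₀ (by norm_num)
      have h4 : θ * (τ ε * 7 ^ k) ≤ 6 * (τ ε * 7 ^ k) :=
        mul_le_mul_of_nonneg_right hθ6 (by positivity)
      have h5 : τ ε ≤ τ ε * 7 ^ k := le_mul_of_one_le_right hτ h3
      rw [pow_succ', pow_succ']
      nlinarith
  have hZ : av (fun ω => ‖(Zc qq ω x ^ m) ξ‖ ^ 2) = ∑ i, s i m ^ 2 := by
    simp only [hsq]
    rw [← R124.av_sum]
    congr 1
    funext ω
    obtain ⟨k, rfl⟩ : ∃ k, m = k + 1 := ⟨m - 1, by omega⟩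
    have hp := h.part_pc ω
    have h1 := hp.sm_pyth (Finset.univ.map Function.Embedding.some)
      (fun o => o.elim 0 fun i => ζ i (k + 1) ω)
    simp only [Finset.sum_map, Function.Embedding.some_apply, Option.elim_some, hfix] at h1
    rw [← h1, Zc, sm_Z_pow hp, ContinuousLinearMap.sum_apply]
  have h0 : ∑ i, s i 0 ^ 2 ≤ ‖ξ‖ ^ 2 := by
    simp only [hsq]
    rw [← R124.av_sum]
    refine R124.av_le (by positivity) fun ω => ?_
    have hp := h.part_pc ω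
    rw [← hp.sm_pyth1 ξ, Fintype.sum_option]
    simp only [ζ, pow_zero, one_mul]
    exact le_add_of_nonneg_left (by positivity)
  have hfin : ∀ i, s i m ^ 2 ≤ θ ^ (2 * m) * s i 0 ^ 2 +
      (2 * (6 ^ m * ‖ξ‖) * (τ ε * 7 ^ m) + (τ ε * 7 ^ m) ^ 2) := by
    intro i
    have h1 := pow_le_pow_left₀ (hs0 i m) (hrec i m le_rfl) 2
    have h2 : θ ^ m * s i 0 ≤ 6 ^ m * ‖ξ‖ := mul_le_mul (pow_le_pow_left₀ hθ0 hθ6 m)
      (by simpa using hsbd i 0) (hs0 i 0) (by positivity)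
    have h3 := mul_le_mul_of_nonneg_right h2 (show 0 ≤ τ ε * 7 ^ m by positivity)
    rw [mul_comm 2 m, pow_mul]
    nlinarith
  rw [hZ]
  refine (Finset.sum_le_sum fun i _ => hfin i).trans ?_
  rw [Finset.sum_add_distrib, ← Finset.mul_sum, Finset.sum_const, Finset.card_univ,
    Fintype.card_fin, nsmul_eq_mul]
  exact add_le_add (mul_le_mul_of_nonneg_left h0 (by positivity)) hgε.le

end Crest.Agent.R109
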