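import Crest.Agent.R109.VB

/-! Task 109-SPEC: the spectrum of `A`. -/

set_option autoImplicit false

open scoped InnerProductSpace ComplexOrder
open MeasureTheory

namespace Crest.Agent.R109

universe u

variable {H : Type u} [NormedAddCommGroup H] [InnerProductSpace ℂ H] [CompleteSpace H]
variable {M A : VonNeumannAlgebra H}

section Aux
open WeakDual CompactlySupported

theorem SpecA_norm {B : Type*} [CommCStarAlgebra B] (χ : characterSpace ℂ B) (b : B) :
    ‖χ b‖ ≤ ‖b‖ := by
  have h1 := ContinuousMap.norm_coe_le_norm (gelfandTransform ℂ B b) χ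
  rwa [(gelfandTransform_isometry B).norm_map_of_map_zero (map_zero _)] at h1

theorem SpecA_measure {B : Type*} [CommCStarAlgebra B] (ψ : B →ₗ[ℂ] ℂ)
    (hψ : ∀ b, 0 ≤ ψ (star b * b)) :
    ∃ μ : @Measure (characterSpace ℂ B) (borel _), IsFiniteMeasure μ ∧
      ∀ b : B, ∫ χ, χ b ∂μ = ψ b := by
  letI : MeasurableSpace (characterSpace ℂ B) := borel _
  haveI : BorelSpace (characterSpace ℂ B) := ⟨rfl⟩
  let G := gelfandStarTransform B
  let R : C(characterSpace ℂ B, ℝ) →ₗ[ℝ] C(characterSpace ℂ B, ℂ) :=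
    { toFun := fun g => ⟨fun x => (g x : ℂ), by fun_prop⟩
      map_add' := fun f g => by ext x; simp
      map_smul' := fun c g => by ext x; simp }
  let L : C(characterSpace ℂ B, ℝ) →ₗ[ℝ] ℂ :=
    { toFun := fun g => ψ (G.symm (R g))
      map_add' := fun f g => by simp only [map_add]
      map_smul' := fun c g => by
        have h : R (c • g) = (c : ℂ) • R g := by ext x; simp [R]
        rw [h, map_smul, map_smul, RingHom.id_apply, Complex.coe_smul] }
  have hL : ∀ g, 0 ≤ g → 0 ≤ L g := by
    intro g hg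
    let s : C(characterSpace ℂ B, ℝ) := ⟨fun x => Real.sqrt (g x), by fun_prop⟩
    have h1 : R g = star (R s) * R s := by
      ext x
      have : Real.sqrt (g x) * Real.sqrt (g x) = g x := Real.mul_self_sqrt (hg x)
      simp only [R, s, LinearMap.coe_mk, AddHom.coe_mk, ContinuousMap.coe_mk,
        ContinuousMap.mul_apply, ContinuousMap.star_apply, Complex.star_def, Complex.conj_ofReal,
        ← Complex.ofReal_mul, this]
    show 0 ≤ ψ (G.symm (R g))
    rw [h1, map_mul, map_star]
    exact hψ _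
  have hLr : ∀ g, ((L g).re : ℂ) = L g := by
    intro g
    have h1 := (Complex.le_def.1 (hL _ (posPart_nonneg g))).2
    have h2 := (Complex.le_def.1 (hL _ (negPart_nonneg g))).2
    refine Complex.ext rfl ?_
    rw [← posPart_sub_negPart g, map_sub]
    simp only [Complex.ofReal_im, Complex.sub_im, ← h1, ← h2, Complex.zero_im, sub_self]
  let Λ₀ : C_c(characterSpace ℂ B, ℝ) →ₗ[ℝ] ℝ :=
    { toFun := fun f => (L f.toContinuousMap).re
      map_add' := fun f g => by rw [← Complex.add_re, ← map_add]; rfl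
      map_smul' := fun c f => by
        rw [RingHom.id_apply, ← Complex.smul_re, ← map_smul]; rfl }
  let Λ : C_c(characterSpace ℂ B, ℝ) →ₚ[ℝ] ℝ := PositiveLinearMap.mk₀ Λ₀ fun f hf =>
    (Complex.le_def.1 (hL f.toContinuousMap fun x => hf x)).1
  have hint : ∀ g : C(characterSpace ℂ B, ℝ),
      ((∫ x, g x ∂(RealRMK.rieszMeasure Λ) : ℝ) : ℂ) = L g := by
    intro g
    rw [← hLr]
    exact congrArg _ (RealRMK.integral_rieszMeasure Λ
      (CompactlySupportedContinuousMap.continuousMapEquiv g))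
  refine ⟨RealRMK.rieszMeasure Λ, inferInstance, fun b => ?_⟩
  let g₁ : C(characterSpace ℂ B, ℝ) := ⟨fun x => (G b x).re, by fun_prop⟩
  let g₂ : C(characterSpace ℂ B, ℝ) := ⟨fun x => (G b x).im, by fun_prop⟩
  have h1 : G b = R g₁ + Complex.I • R g₂ := by
    ext x
    simp only [R, g₁, g₂, LinearMap.coe_mk, AddHom.coe_mk, ContinuousMap.coe_mk,
      ContinuousMap.add_apply, ContinuousMap.smul_apply, smul_eq_mul]
    rw [mul_comm, Complex.re_add_im]
  have h2 : ψ b = L g₁ + L g₂ * Complex.I := by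
    rw [← G.symm_apply_apply b, h1, map_add, map_smul, map_add, map_smul, smul_eq_mul, mul_comm]
    rfl
  have h3 : Integrable (fun χ => G b χ) (RealRMK.rieszMeasure Λ) :=
    (G b).continuous.integrable_of_hasCompactSupport (HasCompactSupport.of_compactSpace _)
  rw [h2, ← hint, ← hint]
  exact (integral_re_add_im h3).symm

theorem SpecA_main (𝓔 : Nce M A) {B : Type u} [CommCStarAlgebra B] (j : B →⋆ₐ[ℂ] Op H)
    (hj : ∀ b, ‖j b‖ = ‖b‖) (hr : ∀ a, a ∈ A ↔ ∃ b, j b = a) :
    ∃ (X : Type u) (_ : MeasurableSpace X), Nonempty (Spec 𝓔 X) := by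
  have hinj : Function.Injective j := by
    intro b b' h
    rw [← sub_eq_zero, ← norm_eq_zero, ← hj, map_sub, h, sub_self, norm_zero]
  have hA : ∀ b, j b ∈ A := fun b => (hr _).2 ⟨b, rfl⟩
  let k : Op H → B := Function.invFun j
  have hk : ∀ b, k (j b) = b := Function.leftInverse_invFun hinj
  have hk' : ∀ a ∈ A, j (k a) = a := fun a ha => Function.invFun_eq ((hr a).1 ha)
  obtain ⟨μ, hμ, hint⟩ := SpecA_measure (𝓔.ψ ∘ₗ j.toLinearMap) fun b => by
    show 0 ≤ 𝓔.ψ (j (star b * b))
    refine 𝓔.pos _ (𝓔.masa.le _ (hA _)) ?_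
    rw [map_mul, map_star]
    exact star_mul_self_nonneg _
  let m : MeasurableSpace (characterSpace ℂ B) := MeasurableSpace.generateFrom
    {T | ∃ p ∈ A, IsStarProjection p ∧ T = {χ : characterSpace ℂ B | χ (k p) = 1}}
  have hm : m ≤ borel _ := by
    refine MeasurableSpace.generateFrom_le ?_
    rintro _ ⟨p, -, -, rfl⟩
    letI : MeasurableSpace (characterSpace ℂ B) := borel _
    haveI : BorelSpace (characterSpace ℂ B) := ⟨rfl⟩
    exact (isClosed_eq (gelfandTransform ℂ B (k p)).continuous continuous_const).measurableSet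
  have hproj : ∀ p ∈ A, IsStarProjection p →
      Measurable[m] fun χ : characterSpace ℂ B => χ (k p) := by
    intro p hpA hp
    have h1 : k p * k p = k p := hinj (by rw [map_mul, hk' p hpA, hp.isIdempotentElem.eq])
    have h2 : (fun χ : characterSpace ℂ B => χ (k p)) =
        Set.indicator {χ : characterSpace ℂ B | χ (k p) = 1} fun _ => 1 := by
      funext χ
      by_cases h : χ (k p) = 1
      · rw [Set.indicator_of_mem (by exact h), h]
      · rw [Set.indicator_of_notMem (by exact h)]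
        have h3 := congrArg χ h1
        rw [map_mul] at h3
        exact (mul_left_eq_self₀.1 h3).resolve_left h
    rw [h2]
    exact measurable_const.indicator
      (MeasurableSpace.measurableSet_generateFrom ⟨p, hpA, hp, rfl⟩)
  have hsa : ∀ b : B, IsSelfAdjoint b → Measurable[m] fun χ : characterSpace ℂ B => χ b := by
    intro b hb
    have hb' : IsSelfAdjoint (j b) := hb.map j
    choose n c t c₀ hc using fun N : ℕ =>
      R124.exists_step hb' (show (0 : ℝ) < 1 / ((N : ℝ) + 1) by positivity)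
    refine measurable_of_tendsto_metrizable (f := fun N (χ : characterSpace ℂ B) =>
      (c₀ N : ℂ) + ∑ i, (c N i : ℂ) * χ (k (R124.sp (j b) (t N i)))) (fun N => ?_) ?_
    · exact (Finset.measurable_sum _ fun i _ =>
        (hproj _ (R124.sp_mem hb' (hA b) _) (R124.sp_proj _ _)).const_mul _).const_add _
    · refine tendsto_pi_nhds.2 fun χ => tendsto_iff_norm_sub_tendsto_zero.2 ?_
      refine squeeze_zero (fun _ => norm_nonneg _) (fun N => ?_)
        tendsto_one_div_add_atTop_nhds_zero_nat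
      have h1 := SpecA_norm χ (b - ((c₀ N : ℂ) • 1 + ∑ i, (c N i : ℂ) • k (R124.sp (j b) (t N i))))
      rw [← hj] at h1
      simp only [map_sub, map_add, map_smul, map_sum, map_one, smul_eq_mul, mul_one,
        hk' _ (R124.sp_mem hb' (hA b) _)] at h1
      simp only [Complex.coe_smul] at h1
      rw [norm_sub_rev]
      exact h1.trans (hc N)
  have hmeas : ∀ b : B, Measurable[m] fun χ : characterSpace ℂ B => χ b := by
    intro b
    have h1 := hsa _ (IsSelfAdjoint.add_star_self b)
    have h2 := hsa (Complex.I • (b - star b)) (by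
      rw [IsSelfAdjoint, star_smul, star_sub, star_star, Complex.star_def, Complex.conj_I, neg_smul,
        ← smul_neg, neg_sub])
    convert (h1.sub (h2.const_mul Complex.I)).const_mul (1 / 2) using 2 with χ
    simp only [map_add, map_smul, map_sub, smul_eq_mul, Pi.sub_apply]
    linear_combination ((χ b - χ (star b)) / 2) * Complex.I_mul_I
  refine ⟨characterSpace ℂ B, m, ⟨
    { μ := μ.trim hm
      fin := inferInstance
      ev := fun a χ => χ (k a)
      add := fun a ha b hb χ => ?_
      smul := fun c a ha χ => ?_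
      mul := fun a ha b hb χ => ?_
      map_star := fun a ha χ => ?_
      one := fun χ => ?_
      norm_le := fun a ha χ => ?_
      nonneg := fun a ha h0 χ => ?_
      meas := fun a _ => hmeas _
      integral := fun a ha => ?_
      ext := fun χ χ' h => ?_
      conj := fun u _ hu1 hu2 hu => ?_
      gen := rfl }⟩⟩
  · rw [← map_add, ← hk (k a + k b), map_add, hk' a ha, hk' b hb]
  · rw [← smul_eq_mul, ← map_smul, ← hk (c • k a), map_smul, hk' a ha]
  · rw [← map_mul, ← hk (k a * k b), map_mul, hk' a ha, hk' b hb]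
  · rw [← Complex.star_def, ← map_star, ← hk (star (k a)), map_star, hk' a ha]
  · rw [← map_one j, hk, map_one]
  · exact (SpecA_norm χ _).trans (by rw [← hj, hk' a ha])
  · have h1 : cfc Real.sqrt a ∈ A := R124.cfc_mem _ ha
    have h2 : star (cfc Real.sqrt a) * cfc Real.sqrt a = a := by
      rw [(cfc_predicate Real.sqrt a).star_eq, ← cfc_mul _ _ a]
      conv_rhs => rw [← cfc_id' ℝ a]
      exact cfc_congr fun x hx => Real.mul_self_sqrt (spectrum_nonneg_of_nonneg h0 hx)
    have h3 : k a = star (k (cfc Real.sqrt a)) * k (cfc Real.sqrt a) :=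
      hinj (by rw [map_mul, map_star, hk' _ h1, hk' a ha, h2])
    rw [h3, map_mul, map_star]
    exact star_mul_self_nonneg _
  · rw [← integral_trim hm (hmeas _).stronglyMeasurable, hint]
    exact congrArg 𝓔.ψ (hk' a ha)
  · refine DFunLike.ext _ _ fun b => ?_
    have := h _ (hA b)
    rwa [hk] at this
  · let θ : B →ₐ[ℂ] B :=
      { toFun := fun b => k (u * j b * u)
        map_one' := hinj (by rw [hk' _ (hu _ (hA _)), map_one, mul_one, hu2])
        map_mul' := fun a b => hinj (by
          rw [map_mul j (k _), hk' _ (hu _ (hA _)), hk' _ (hu _ (hA _)), hk' _ (hu _ (hA _)),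
            map_mul]
          calc u * (j a * j b) * u = u * j a * (u * u) * j b * u := by rw [hu2]; noncomm_ring
            _ = _ := by noncomm_ring)
        map_zero' := hinj (by rw [hk' _ (hu _ (hA _))]; simp)
        map_add' := fun a b => hinj (by
          rw [map_add j (k _), hk' _ (hu _ (hA _)), hk' _ (hu _ (hA _)), hk' _ (hu _ (hA _)),
            map_add, mul_add, add_mul])
        commutes' := fun c => hinj (by
          rw [hk' _ (hu _ (hA _)), Algebra.algebraMap_eq_smul_one, map_smul, map_one,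
            mul_smul_comm, smul_mul_assoc, mul_one, hu2]) }
    have hφ : ∀ a ∈ A, ∀ χ : characterSpace ℂ B,
        (CharacterSpace.equivAlgHom.symm ((CharacterSpace.equivAlgHom χ).comp θ)) (k a) =
          χ (k (u * a * u)) := by
      intro a ha χ
      show χ (k (u * j (k a) * u)) = _
      rw [hk' a ha]
    refine ⟨fun χ => CharacterSpace.equivAlgHom.symm ((CharacterSpace.equivAlgHom χ).comp θ),
      measurable_generateFrom ?_, hφ⟩
    rintro _ ⟨p, hpA, hp, rfl⟩
    refine MeasurableSpace.measurableSet_generateFrom ⟨u * p * u, hu p hpA, ⟨?_, ?_⟩, ?_⟩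
    · show u * p * u * (u * p * u) = u * p * u
      calc u * p * u * (u * p * u) = u * (p * (u * u) * p) * u := by noncomm_ring
        _ = _ := by rw [hu2, mul_one, hp.isIdempotentElem.eq]
    · show star (u * p * u) = u * p * u
      rw [star_mul, star_mul, hu1, hp.isSelfAdjoint.star_eq, mul_assoc]
    · ext χ
      simp only [Set.mem_preimage, Set.mem_ofPred_eq, hφ p hpA]

end Aux

/-- `X = WeakDual.characterSpace ℂ AA` for a type synonym `AA` of `A` with its commutative
C*-algebra structure, `ev a χ = χ a` (`0` for `a ∉ A`), with the σ-algebra generated by the clopen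
sets `{ev p = 1}` (`ev a` is measurable by `R124.exists_step`); `μ` is the Riesz-Markov measure
(`RealRMK.rieszMeasure`) of `ψ ∘ gelfandStarTransform⁻¹`, trimmed to this σ-algebra. -/
theorem Nce.spec (𝓔 : Nce M A) : ∃ (X : Type u) (_ : MeasurableSpace X), Nonempty (Spec 𝓔 X) := by
  haveI : IsClosed (A.toStarSubalgebra : Set (H →L[ℂ] H)) := R124.isClosed_vn A
  letI : CommCStarAlgebra A.toStarSubalgebra :=
    { StarSubalgebra.cstarAlgebra A.toStarSubalgebra with
      mul_comm := fun a b => Subtype.ext (𝓔.masa.comm _ a.2 _ b.2) }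
  exact SpecA_main 𝓔 (B := A.toStarSubalgebra) A.toStarSubalgebra.subtype (fun _ => rfl)
    fun a => ⟨fun ha => ⟨⟨a, ha⟩, rfl⟩, fun ⟨b, hb⟩ => hb ▸ b.2⟩

variable {𝓔 : Nce M A} {X : Type*} [MeasurableSpace X] (S : Spec 𝓔 X)

namespace Spec

theorem ev_zero (x : X) : S.ev 0 x = 0 := by
  simpa using S.smul 0 0 (zero_mem A) x

theorem ev_sub {a b : Op H} (ha : a ∈ A) (hb : b ∈ A) (x : X) :
    S.ev (a - b) x = S.ev a x - S.ev b x := by
  have := S.add _ (sub_mem ha hb) b hb x
  rw [sub_add_cancel] at this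
  rw [this]; ring

theorem ev_sum {ι : Type*} (s : Finset ι) {a : ι → Op H} (ha : ∀ i ∈ s, a i ∈ A) (x : X) :
    S.ev (∑ i ∈ s, a i) x = ∑ i ∈ s, S.ev (a i) x := by
  classical
  induction s using Finset.induction_on with
  | empty => simpa using S.ev_zero x
  | insert i s hi ih =>
    have h1 : ∀ j ∈ s, a j ∈ A := fun j hj => ha j (Finset.mem_insert_of_mem hj)
    rw [Finset.sum_insert hi, Finset.sum_insert hi,
      S.add _ (ha i (Finset.mem_insert_self _ _)) _ (sum_mem h1), ih h1]

theorem ev_proj {p : Op H} (hp : IsStarProjection p) (hA : p ∈ A) (x : X) :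
    S.ev p x = 0 ∨ S.ev p x = 1 := by
  have := S.mul p hA p hA x
  rw [hp.isIdempotentElem.eq] at this
  exact (mul_left_eq_self₀.1 this.symm).symm

theorem measurableSet_β {p : Op H} (hA : p ∈ A) : MeasurableSet (S.β p) := by
  exact S.meas p hA (measurableSet_singleton 1)

theorem real_β {p : Op H} (hp : IsStarProjection p) (hA : p ∈ A) :
    S.μ.real (S.β p) = (𝓔.ψ p).re := by
  have h2 : S.ev p = Set.indicator (S.β p) fun _ => 1 := by
    funext x
    by_cases h : x ∈ S.β p
    · rw [Set.indicator_of_mem h]; exact h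
    · rw [Set.indicator_of_notMem h]; exact (S.ev_proj hp hA x).resolve_right h
  rw [← S.integral p hA, h2, integral_indicator_const _ (S.measurableSet_β hA)]
  simp

theorem β_one : S.β 1 = Set.univ := by
  exact Set.eq_univ_of_forall S.one

theorem β_zero : S.β 0 = ∅ := by
  ext x
  simp [Spec.β, S.ev_zero]

theorem β_mul {p q : Op H} (hp : IsStarProjection p) (hpA : p ∈ A) (hq : IsStarProjection q)
    (hqA : q ∈ A) : S.β (p * q) = S.β p ∩ S.β q := by
  ext x
  simp only [Spec.β, Set.mem_ofPred_eq, Set.mem_inter_iff, S.mul p hpA q hqA]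
  rcases S.ev_proj hp hpA x with h | h <;> simp [h]

theorem β_compl {p : Op H} (hp : IsStarProjection p) (hA : p ∈ A) : S.β (1 - p) = (S.β p)ᶜ := by
  ext x
  simp only [Spec.β, Set.mem_ofPred_eq, Set.mem_compl_iff, S.ev_sub (one_mem A) hA, S.one]
  rcases S.ev_proj hp hA x with h | h <;> simp [h]

theorem isSetAlgebra : IsSetAlgebra {B | ∃ p ∈ A, IsStarProjection p ∧ B = S.β p} := by
  refine ⟨⟨0, zero_mem A, .zero _, S.β_zero.symm⟩, ?_, ?_⟩
  · rintro _ ⟨p, hA, hp, rfl⟩
    exact ⟨1 - p, sub_mem (one_mem A) hA, hp.one_sub, (S.β_compl hp hA).symm⟩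
  · rintro _ _ ⟨p, hA, hp, rfl⟩ ⟨q, hA', hq, rfl⟩
    have h1 := sub_mem (one_mem A) hA
    have h2 := sub_mem (one_mem A) hA'
    have h3 := hp.one_sub.mul hq.one_sub (𝓔.masa.comm _ h1 _ h2)
    refine ⟨1 - (1 - p) * (1 - q), sub_mem (one_mem A) (mul_mem h1 h2), h3.one_sub, ?_⟩
    rw [S.β_compl h3 (mul_mem h1 h2), S.β_mul hp.one_sub h1 hq.one_sub h2, S.β_compl hp hA,
      S.β_compl hq hA', Set.compl_inter, compl_compl, compl_compl]

/-- `MeasureTheory.Measure.MeasureDense.of_generateFrom_isSetAlgebra_finite`. -/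
theorem dense (ν : Measure X) [IsFiniteMeasure ν] {T : Set X} (hT : MeasurableSet T) {ε : ℝ}
    (hε : 0 < ε) : ∃ p ∈ A, IsStarProjection p ∧ ν.real (symmDiff T (S.β p)) ≤ ε := by
  obtain ⟨_, ⟨p, hA, hp, rfl⟩, h⟩ :=
    (Measure.MeasureDense.of_generateFrom_isSetAlgebra_finite ν S.isSetAlgebra S.gen).approx T hT
      (measure_ne_top _ _) ε hε
  exact ⟨p, hA, hp, ENNReal.toReal_le_of_le_ofReal hε.le h.le⟩

/-- `dense` for `ν + S.μ`. -/
theorem le_of_β (ν : Measure X) [IsFiniteMeasure ν] {K : ℝ} (hK : 0 ≤ K)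
    (h : ∀ p ∈ A, IsStarProjection p → ν.real (S.β p) ≤ K * S.μ.real (S.β p)) {T : Set X}
    (hT : MeasurableSet T) : ν.real T ≤ K * S.μ.real T := by
  haveI := S.fin
  refine le_of_forall_pos_le_add fun ε hε => ?_
  obtain ⟨p, hA, hp, h1⟩ := S.dense (ν + S.μ) hT (show 0 < ε / (K + 1) by positivity)
  rw [measureReal_add_apply, le_div_iff₀ (by positivity)] at h1
  have h2 := abs_measureReal_sub_le_measureReal_symmDiff (μ := ν) hT.nullMeasurableSet
    (S.measurableSet_β hA).nullMeasurableSet
  have h3 := abs_measureReal_sub_le_measureReal_symmDiff (μ := S.μ) hT.nullMeasurableSet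
    (S.measurableSet_β hA).nullMeasurableSet
  have h4 := h p hA hp
  have h5 := (abs_le.1 h2).2
  have h6 := mul_le_mul_of_nonneg_left (abs_le.1 h3).1 hK
  have h7 : 0 ≤ ν.real (symmDiff T (S.β p)) := measureReal_nonneg
  have h8 : 0 ≤ S.μ.real (symmDiff T (S.β p)) := measureReal_nonneg
  nlinarith

/-- An element of `A` vanishing almost everywhere is zero. -/
theorem eq_zero_of_ae {a : Op H} (ha : a ∈ A) (h : ∀ᵐ x ∂S.μ, S.ev a x = 0) : a = 0 := by
  refine 𝓔.faith a (𝓔.masa.le a ha) ?_
  rw [← S.integral _ (mul_mem (star_mem ha) ha)]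
  refine integral_eq_zero_of_ae ?_
  filter_upwards [h] with x hx
  rw [S.mul _ (star_mem ha) _ ha, hx, mul_zero, Pi.zero_apply]

/-- The labelling of a partition. -/
theorem exists_lab {ι : Type*} [Fintype ι] {p : ι → Op H} (hp : Part A p) :
    ∃ lab : X → ι, ∀ x i, lab x = i ↔ x ∈ S.β (p i) := by
  have h1 : ∀ x, ∃ i, x ∈ S.β (p i) := by
    intro x
    by_contra hn
    push Not at hn
    have h2 := S.ev_sum Finset.univ (fun i _ => hp.mem i) x
    rw [hp.sum, S.one, Finset.sum_eq_zero fun i _ =>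
      (S.ev_proj (hp.proj i) (hp.mem i) x).resolve_right (hn i)] at h2
    exact one_ne_zero h2
  choose lab hlab using h1
  refine ⟨lab, fun x i => ⟨fun h => h ▸ hlab x, fun h => ?_⟩⟩
  by_contra hne
  have h3 := S.β_mul (hp.proj (lab x)) (hp.mem _) (hp.proj i) (hp.mem i)
  rw [hp.orth _ _ hne, S.β_zero] at h3
  exact (h3 ▸ (⟨hlab x, h⟩ : x ∈ S.β (p (lab x)) ∩ S.β (p i)) : x ∈ (∅ : Set X))

/-- The partition of a labelling that is given almost everywhere. -/
theorem exists_part {ι : Type*} [Fintype ι] {q : ι → Op H}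
    (hq : ∀ i, q i ∈ A ∧ IsStarProjection (q i)) (h : ∀ᵐ x ∂S.μ, ∃! i, x ∈ S.β (q i)) :
    Part A q := by
  refine ⟨⟨fun i => (hq i).2, fun i j hij => ?_, ?_⟩, fun i => (hq i).1⟩
  · refine S.eq_zero_of_ae (mul_mem (hq i).1 (hq j).1) ?_
    filter_upwards [h] with x hx
    rw [S.mul _ (hq i).1 _ (hq j).1]
    rcases S.ev_proj (hq i).2 (hq i).1 x with h1 | h1
    · rw [h1, zero_mul]
    rcases S.ev_proj (hq j).2 (hq j).1 x with h2 | h2
    · rw [h2, mul_zero]
    exact absurd (hx.unique h1 h2) hij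
  · rw [← sub_eq_zero]
    have hs : ∑ i, q i ∈ A := sum_mem fun i _ => (hq i).1
    refine S.eq_zero_of_ae (sub_mem hs (one_mem A)) ?_
    filter_upwards [h] with x hx
    obtain ⟨i, hi, hu⟩ := hx
    rw [S.ev_sub hs (one_mem A), S.ev_sum _ fun i _ => (hq i).1, S.one,
      Finset.sum_eq_single i (fun j _ hj =>
        (S.ev_proj (hq j).2 (hq j).1 x).resolve_right fun h => hj (hu j h)) (by simp)]
    exact sub_eq_zero.2 hi

theorem le_of_ae {p q : Op H} (hp : IsStarProjection p) (hpA : p ∈ A) (hq : IsStarProjection q)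
    (hqA : q ∈ A) (h : ∀ᵐ x ∂S.μ, x ∈ S.β p → x ∈ S.β q) : p * q = p := by
  rw [← sub_eq_zero]
  refine S.eq_zero_of_ae (sub_mem (mul_mem hpA hqA) hpA) ?_
  filter_upwards [h] with x hx
  rw [S.ev_sub (mul_mem hpA hqA) hpA, S.mul p hpA q hqA]
  rcases S.ev_proj hp hpA x with h1 | h1
  · simp [h1]
  · rw [show S.ev q x = 1 from hx h1, mul_one, sub_self]

end Spec

end Crest.Agent.R109
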