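import Crest.Agent.R109.CE

/-! Task 109-SPLIT, part A: positive functionals on `M`. -/

set_option autoImplicit false
set_option linter.unusedSectionVars false

open scoped InnerProductSpace ComplexOrder
open Filter Topology

namespace Crest.Agent.R109

namespace SplitA

variable {H : Type*} [NormedAddCommGroup H] [InnerProductSpace ℂ H] [CompleteSpace H]
variable {M A : VonNeumannAlgebra H} {φ : Op H →ₗ[ℂ] ℂ}

/-- Positive on `M`. -/
def Pos (M : VonNeumannAlgebra H) (φ : Op H →ₗ[ℂ] ℂ) : Prop := ∀ x ∈ M, 0 ≤ x → 0 ≤ φ x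

/-- The square of the seminorm. -/
noncomputable def q (φ : Op H →ₗ[ℂ] ℂ) (x : Op H) : ℝ := (φ (star x * x)).re

/-- The seminorm. -/
noncomputable def n (φ : Op H →ₗ[ℂ] ℂ) (x : Op H) : ℝ := Real.sqrt (q φ x)

theorem map_rsmul (φ : Op H →ₗ[ℂ] ℂ) (c : ℝ) (x : Op H) : φ (c • x) = c * φ x := by
  rw [← Complex.coe_smul, map_smul, smul_eq_mul]

theorem re_rsmul (φ : Op H →ₗ[ℂ] ℂ) (c : ℝ) (x : Op H) : (φ (c • x)).re = c * (φ x).re := by
  rw [map_rsmul, Complex.re_ofReal_mul]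

theorem Pos.re_nonneg (h : Pos M φ) {x : Op H} (hx : x ∈ M) (h0 : 0 ≤ x) : 0 ≤ (φ x).re :=
  (Complex.nonneg_iff.1 (h x hx h0)).1

theorem Pos.im_eq (h : Pos M φ) {x : Op H} (hx : x ∈ M) (h0 : 0 ≤ x) : (φ x).im = 0 :=
  (Complex.nonneg_iff.1 (h x hx h0)).2.symm

theorem Pos.mono (h : Pos M φ) {x y : Op H} (hx : x ∈ M) (hy : y ∈ M) (hxy : x ≤ y) :
    (φ x).re ≤ (φ y).re := by
  have := h.re_nonneg (sub_mem hy hx) (sub_nonneg.2 hxy)
  rwa [map_sub, Complex.sub_re, sub_nonneg] at this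

theorem Pos.eq_zero (h : Pos M φ) {x : Op H} (hx : x ∈ M) (h0 : 0 ≤ x) (h1 : (φ x).re ≤ 0) :
    φ x = 0 :=
  Complex.ext (le_antisymm h1 (h.re_nonneg hx h0)) (h.im_eq hx h0)

theorem Pos.im_sa (h : Pos M φ) {x : Op H} (hx : x ∈ M) (hs : IsSelfAdjoint x) : (φ x).im = 0 := by
  have h1 := hs.le_algebraMap_norm_self
  rw [Algebra.algebraMap_eq_smul_one] at h1
  have h2 := h.im_eq (sub_mem (R124.rsmul_mem ‖x‖ (one_mem M)) hx) (sub_nonneg.2 h1)
  have h3 := h.im_eq (one_mem M) zero_le_one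
  rw [map_sub, map_rsmul, Complex.sub_im, Complex.im_ofReal_mul, h3] at h2
  linarith

theorem Pos.map_star (h : Pos M φ) {x : Op H} (hx : x ∈ M) :
    φ (star x) = (starRingEnd ℂ) (φ x) := by
  have h1 := h.im_sa (add_mem hx (star_mem hx)) (IsSelfAdjoint.add_star_self x)
  have h2 := h.im_sa (R124.csmul_mem Complex.I (sub_mem hx (star_mem hx))) (by
    rw [IsSelfAdjoint, star_smul, star_sub, star_star, Complex.star_def, Complex.conj_I, neg_smul,
      ← smul_neg, neg_sub])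
  rw [map_add, Complex.add_im] at h1
  rw [map_smul, map_sub, smul_eq_mul, Complex.I_mul_im, Complex.sub_re] at h2
  refine Complex.ext ?_ ?_
  · rw [Complex.conj_re]; linarith
  · rw [Complex.conj_im]; linarith

theorem Pos.q_nonneg (h : Pos M φ) {x : Op H} (hx : x ∈ M) : 0 ≤ q φ x :=
  h.re_nonneg (mul_mem (star_mem hx) hx) (star_mul_self_nonneg x)

theorem n_nonneg (φ : Op H →ₗ[ℂ] ℂ) (x : Op H) : 0 ≤ n φ x := Real.sqrt_nonneg _

theorem Pos.cs (h : Pos M φ) {x y : Op H} (hx : x ∈ M) (hy : y ∈ M) :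
    ‖φ (star x * y)‖ ≤ n φ x * n φ y := by
  let N : Submodule ℂ (Op H) := Subalgebra.toSubmodule M.toStarSubalgebra.toSubalgebra
  have hN : ∀ a : N, (a : Op H) ∈ M := fun a => a.2
  let c : PreInnerProductSpace.Core ℂ N :=
    { inner := fun a b => φ (star (a : Op H) * b)
      conj_inner_symm := fun a b => by
        rw [← h.map_star (mul_mem (star_mem (hN b)) (hN a)), star_mul, star_star]
      re_inner_nonneg := fun a => h.q_nonneg (hN a)
      add_left := fun a b d => by simp [add_mul]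
      smul_left := fun a b r => by simp [star_smul] }
  have h1 := @InnerProductSpace.Core.inner_mul_inner_self_le ℂ N _ _ _ c ⟨x, hx⟩ ⟨y, hy⟩
  change ‖φ (star x * y)‖ * ‖φ (star y * x)‖ ≤ q φ x * q φ y at h1
  have h2 : ‖φ (star y * x)‖ = ‖φ (star x * y)‖ := by
    rw [← Complex.norm_conj, ← h.map_star (mul_mem (star_mem hy) hx), star_mul, star_star]
  rw [h2] at h1
  rw [n, n, ← Real.sqrt_mul (h.q_nonneg hx)]
  exact Real.le_sqrt_of_sq_le (by rwa [sq])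

theorem Pos.q_mul_le (h : Pos M φ) {a x : Op H} (ha : a ∈ M) (hx : x ∈ M) :
    q φ (a * x) ≤ ‖a‖ ^ 2 * q φ x := by
  have h1 : star (a * x) * (a * x) ≤ ‖a‖ ^ 2 • (star x * x) := by
    have := CStarAlgebra.star_left_conjugate_le_norm_smul (a := x) (b := star a * a)
      (IsSelfAdjoint.star_mul_self a)
    rw [CStarRing.norm_star_mul_self, ← sq] at this
    simpa only [star_mul, mul_assoc] using this
  have h2 := h.mono (mul_mem (star_mem (mul_mem ha hx)) (mul_mem ha hx))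
    (R124.rsmul_mem _ (mul_mem (star_mem hx) hx)) h1
  rwa [re_rsmul] at h2

theorem Pos.n_mul_le (h : Pos M φ) {a x : Op H} (ha : a ∈ M) (hx : x ∈ M) :
    n φ (a * x) ≤ ‖a‖ * n φ x := by
  rw [n, n, ← Real.sqrt_sq (norm_nonneg a), ← Real.sqrt_mul (sq_nonneg _)]
  exact Real.sqrt_le_sqrt (h.q_mul_le ha hx)

theorem Pos.n_le (h : Pos M φ) {a : Op H} (ha : a ∈ M) : n φ a ≤ ‖a‖ * n φ 1 := by
  simpa using h.n_mul_le ha (one_mem M)

theorem Pos.norm_le_n (h : Pos M φ) {a : Op H} (ha : a ∈ M) : ‖φ a‖ ≤ n φ 1 * n φ a := by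
  simpa using h.cs (one_mem M) ha

theorem Pos.norm_le (h : Pos M φ) {a : Op H} (ha : a ∈ M) : ‖φ a‖ ≤ n φ 1 * (‖a‖ * n φ 1) :=
  (h.norm_le_n ha).trans (mul_le_mul_of_nonneg_left (h.n_le ha) (n_nonneg _ _))

theorem Pos.cs3 (h : Pos M φ) {s x t : Op H} (hs : s ∈ M) (hx : x ∈ M) (ht : t ∈ M) :
    ‖φ (star s * x * t)‖ ≤ n φ s * (‖x‖ * n φ t) := by
  rw [mul_assoc]
  exact (h.cs hs (mul_mem hx ht)).trans (mul_le_mul_of_nonneg_left (h.n_mul_le hx ht) (n_nonneg _ _))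

theorem n_eq_zero {x : Op H} (h : φ (star x * x) = 0) : n φ x = 0 := by simp [n, q, h]

/-- A null element is orthogonal to everything. -/
theorem Pos.null_left (h : Pos M φ) {x y : Op H} (hx : x ∈ M) (hy : y ∈ M)
    (h0 : φ (star x * x) = 0) : φ (star x * y) = 0 := by
  have := h.cs hx hy
  rwa [n_eq_zero h0, zero_mul, norm_le_zero_iff] at this

theorem Pos.null_right (h : Pos M φ) {x y : Op H} (hx : x ∈ M) (hy : y ∈ M)
    (h0 : φ (star y * y) = 0) : φ (star x * y) = 0 := by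
  have := h.cs hx hy
  rwa [n_eq_zero h0, mul_zero, norm_le_zero_iff] at this

theorem q_par (φ : Op H →ₗ[ℂ] ℂ) (x y : Op H) :
    q φ (x - y) = 2 * q φ x + 2 * q φ y - 4 * q φ ((1 / 2 : ℝ) • (x + y)) := by
  have h1 : star ((1 / 2 : ℝ) • (x + y)) * ((1 / 2 : ℝ) • (x + y)) =
      (1 / 4 : ℝ) • (star (x + y) * (x + y)) := by
    rw [star_smul, smul_mul_smul_comm, star_trivial]; norm_num
  have h2 : star (x - y) * (x - y) =
      star x * x + star x * x + star y * y + star y * y - star (x + y) * (x + y) := by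
    rw [star_sub, star_add]; noncomm_ring
  simp only [q]
  rw [h1, h2, re_rsmul]
  simp only [map_sub, map_add, Complex.sub_re, Complex.add_re]
  ring

/-- Strong continuity on bounded sets. -/
theorem Pos.strong (hpos : Pos M φ)
    (h : ∀ ε : ℝ, 0 < ε → ∃ (F : Finset H) (δ : ℝ), 0 < δ ∧ ∀ x ∈ M, 0 ≤ x → x ≤ 1 →
      (∀ ξ ∈ F, ‖x ξ‖ ≤ δ) → (φ x).re ≤ ε) {C : ℝ} (hC : 0 < C) {ε : ℝ} (hε : 0 < ε) :
    ∃ (F : Finset H) (δ : ℝ), 0 < δ ∧ ∀ z ∈ M, ‖z‖ ≤ C → (∀ ξ ∈ F, ‖z ξ‖ ≤ δ) → ‖φ z‖ ≤ ε := by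
  have h1 := n_nonneg φ 1
  obtain ⟨F, δ, hδ, hF⟩ := h ((ε / (n φ 1 + 1) / C) ^ 2) (by positivity)
  refine ⟨F, δ * C, by positivity, fun z hz hzC hzF => ?_⟩
  have hw0 : 0 ≤ (C⁻¹ * C⁻¹) • (star z * z) :=
    smul_nonneg (by positivity) (star_mul_self_nonneg z)
  have hw := hF _ (R124.rsmul_mem (C⁻¹ * C⁻¹) (mul_mem (star_mem hz) hz)) hw0 (by
    rw [← CStarAlgebra.norm_le_one_iff_of_nonneg _ hw0, norm_smul, CStarRing.norm_star_mul_self,
      Real.norm_of_nonneg (by positivity)]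
    have : C⁻¹ * ‖z‖ ≤ 1 := by rw [inv_mul_le_iff₀ hC]; linarith
    have h0 : 0 ≤ C⁻¹ * ‖z‖ := by positivity
    nlinarith) (fun ξ hξ => by
    change ‖(C⁻¹ * C⁻¹) • (star z) (z ξ)‖ ≤ δ
    rw [norm_smul, Real.norm_of_nonneg (by positivity)]
    have a1 : ‖(star z) (z ξ)‖ ≤ C * (δ * C) :=
      ((star z).le_opNorm _).trans (mul_le_mul (by rwa [norm_star]) (hzF ξ hξ) (norm_nonneg _) hC.le)
    calc C⁻¹ * C⁻¹ * ‖(star z) (z ξ)‖ ≤ C⁻¹ * C⁻¹ * (C * (δ * C)) := by gcongr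
      _ = δ := by field_simp)
  rw [re_rsmul] at hw
  have h2 : n φ z ≤ ε / (n φ 1 + 1) := by
    refine Real.sqrt_le_iff.2 ⟨by positivity, ?_⟩
    have : q φ z = C ^ 2 * (C⁻¹ * C⁻¹ * (φ (star z * z)).re) := by rw [q]; field_simp
    rw [this]
    calc _ ≤ C ^ 2 * (ε / (n φ 1 + 1) / C) ^ 2 := by gcongr
      _ = _ := by field_simp
  refine (hpos.norm_le_n hz).trans ?_
  calc n φ 1 * n φ z ≤ (n φ 1 + 1) * (ε / (n φ 1 + 1)) := by
        gcongr
        · exact n_nonneg _ _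
        · linarith
    _ = ε := by field_simp

/-- The strong neighbourhoods of `y` in `S`. -/
def sn (S : Set (Op H)) (y : Op H) : Filter (Op H) where
  sets := {T | ∃ (F : Finset H) (δ : ℝ), 0 < δ ∧ ∀ s ∈ S, (∀ ξ ∈ F, ‖s ξ - y ξ‖ ≤ δ) → s ∈ T}
  univ_sets := ⟨∅, 1, one_pos, fun _ _ _ => trivial⟩
  sets_of_superset := fun ⟨F, δ, hδ, h⟩ hT => ⟨F, δ, hδ, fun s hs hF => hT (h s hs hF)⟩
  inter_sets := by
    classical
    rintro T T' ⟨F, δ, hδ, h⟩ ⟨F', δ', hδ', h'⟩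
    exact ⟨F ∪ F', min δ δ', lt_min hδ hδ', fun s hs hF =>
      ⟨h s hs fun ξ hξ => (hF ξ (Finset.mem_union_left _ hξ)).trans (min_le_left _ _),
        h' s hs fun ξ hξ => (hF ξ (Finset.mem_union_right _ hξ)).trans (min_le_right _ _)⟩⟩

theorem eventually_sn {S : Set (Op H)} {y : Op H} {p : Op H → Prop} : (∀ᶠ s in sn S y, p s) ↔
    ∃ (F : Finset H) (δ : ℝ), 0 < δ ∧ ∀ s ∈ S, (∀ ξ ∈ F, ‖s ξ - y ξ‖ ≤ δ) → p s := Iff.rfl

theorem sn_mem (S : Set (Op H)) (y : Op H) : ∀ᶠ s in sn S y, s ∈ S :=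
  ⟨∅, 1, one_pos, fun _ hs _ => hs⟩

theorem sn_near (S : Set (Op H)) (y : Op H) (F : Finset H) {δ : ℝ} (hδ : 0 < δ) :
    ∀ᶠ s in sn S y, ∀ ξ ∈ F, ‖s ξ - y ξ‖ ≤ δ := ⟨F, δ, hδ, fun _ _ h => h⟩

theorem sn_neBot {S : Set (Op H)} {y : Op H}
    (h : ∀ (F : Finset H) (δ : ℝ), 0 < δ → ∃ s ∈ S, ∀ ξ ∈ F, ‖s ξ - y ξ‖ ≤ δ) : (sn S y).NeBot := by
  refine forall_mem_nonempty_iff_neBot.1 ?_
  rintro T ⟨F, δ, hδ, hT⟩
  obtain ⟨s, hs, hF⟩ := h F δ hδ
  exact ⟨s, hT s hs hF⟩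

theorem sn_wLim (S : Set (Op H)) (y : Op H) : WLim (sn S y) id y := by
  intro ξ η
  refine Tendsto.inner tendsto_const_nhds (Metric.tendsto_nhds.2 fun ε hε => ?_)
  filter_upwards [sn_near S y {η} (half_pos hε)] with s hs
  rw [dist_eq_norm]
  exact (hs η (Finset.mem_singleton_self η)).trans_lt (half_lt_self hε)

/-- Positive contractions of `M`. -/
def PC (M : VonNeumannAlgebra H) : Set (Op H) := {s | s ∈ M ∧ 0 ≤ s ∧ s ≤ 1}

theorem norm_le_one {s : Op H} (h0 : 0 ≤ s) (h1 : s ≤ 1) : ‖s‖ ≤ 1 :=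
  (CStarAlgebra.norm_le_one_iff_of_nonneg s h0).2 h1

theorem apply_le {s : Op H} (h : ‖s‖ ≤ 1) (ξ : H) : ‖s ξ‖ ≤ ‖ξ‖ :=
  (s.le_opNorm ξ).trans (mul_le_of_le_one_left (norm_nonneg _) h)

theorem conj_pc {s x : Op H} (hs : IsSelfAdjoint s) (hs1 : ‖s‖ ≤ 1) (hsM : s ∈ M) (hx : x ∈ PC M) :
    s * x * s ∈ PC M := by
  have h0 := hs.conjugate_nonneg hx.2.1
  refine ⟨mul_mem (mul_mem hsM hx.1) hsM, h0, ?_⟩
  rw [← CStarAlgebra.norm_le_one_iff_of_nonneg _ h0]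
  have := norm_le_one hx.2.1 hx.2.2
  calc ‖s * x * s‖ ≤ ‖s‖ * ‖x‖ * ‖s‖ := norm_mul₃_le
    _ ≤ 1 * 1 * 1 := by gcongr
    _ = 1 := by ring

theorem mul_self_le {s : Op H} (h0 : 0 ≤ s) (h1 : s ≤ 1) : star s * s ≤ s := by
  rw [h0.star_eq, ← sub_nonneg]
  have : s - s * s = s * (1 - s) := by noncomm_ring
  rw [this]
  exact Commute.mul_nonneg h0 (sub_nonneg.2 h1) ((Commute.one_right s).sub_right (Commute.refl s))

/-- A projection below a multiple of `a` is killed by what kills `a`. -/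
theorem proj_mul_eq_zero {g a f : Op H} (hg : IsStarProjection g) {t : ℝ} (ht : 0 < t)
    (h : t • g ≤ a) (hf : IsSelfAdjoint f) (haf : a * f = 0) : g * f = 0 := by
  have h1 := hf.conjugate_le_conjugate h
  rw [mul_assoc f a, haf, mul_zero, mul_smul_comm, smul_mul_assoc] at h1
  have h2 : f * g * f ≤ 0 := by
    have := smul_le_smul_of_nonneg_left h1 (inv_pos.2 ht).le
    rwa [smul_smul, inv_mul_cancel₀ ht.ne', one_smul, smul_zero] at this
  have h3 : star (g * f) * (g * f) = 0 := by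
    rw [star_mul, hf.star_eq, hg.isSelfAdjoint.star_eq, mul_assoc, ← mul_assoc g,
      hg.isIdempotentElem.eq, ← mul_assoc]
    exact le_antisymm h2 (hf.conjugate_nonneg hg.nonneg)
  exact (CStarRing.star_mul_self_eq_zero_iff _).1 h3

theorem smul_sp_le' {a : Op H} (ha : 0 ≤ a) (t : ℝ) : t • R124.sp a t ≤ a := by
  have hs := IsSelfAdjoint.of_nonneg ha
  refine (R124.smul_sp_le hs t).trans ?_
  rw [← sub_nonneg]
  have : a - a * R124.sp a t = a * (1 - R124.sp a t) := by noncomm_ring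
  rw [this]
  refine R124.nonneg_mul_proj ha (R124.sp_proj a t).one_sub ?_
  rw [mul_sub, sub_mul, R124.sp_comm hs rfl t, mul_one, one_mul]

theorem re_inner_mono {a b : Op H} (h : a ≤ b) (ξ : H) : (⟪ξ, a ξ⟫_ℂ).re ≤ (⟪ξ, b ξ⟫_ℂ).re := by
  have := ((ContinuousLinearMap.nonneg_iff_isPositive _).1 (sub_nonneg.2 h)).re_inner_nonneg_right ξ
  change 0 ≤ (⟪ξ, b ξ - a ξ⟫_ℂ).re at this
  rwa [inner_sub_right, Complex.sub_re, sub_nonneg] at this

theorem norm_sub_sp_le {y : Op H} (hy : IsSelfAdjoint y) (ζ : H) :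
    ‖ζ - R124.sp y (1 / 2) ζ‖ ≤ 2 * ‖ζ - y ζ‖ := by
  set g := 1 - R124.sp y (1 / 2) with hg
  have hgp : IsStarProjection g := (R124.sp_proj y _).one_sub
  have hc : y * g = g * y := by rw [hg, mul_sub, sub_mul, R124.sp_comm hy rfl, mul_one, one_mul]
  have hgg : g (g ζ) = g ζ := DFunLike.congr_fun hgp.isIdempotentElem.eq ζ
  change ‖g ζ‖ ≤ _
  have h1 := re_inner_mono (R124.mul_one_sub_sp_le hy (1 / 2)) (g ζ)
  rw [← hg] at h1
  change (⟪g ζ, y (g (g ζ))⟫_ℂ).re ≤ (⟪g ζ, (1 / 2 : ℝ) • g (g ζ)⟫_ℂ).re at h1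
  have hadj : ∀ u v : H, ⟪u, g v⟫_ℂ = ⟪g u, v⟫_ℂ := fun u v => by
    rw [← ContinuousLinearMap.adjoint_inner_left, hgp.isSelfAdjoint.adjoint_eq]
  have h2 : y (g ζ) = g (y ζ) := DFunLike.congr_fun hc ζ
  rw [hgg, h2, hadj, hgg, ← Complex.coe_smul, inner_smul_right, Complex.re_ofReal_mul] at h1
  have h3 : (⟪g ζ, g ζ⟫_ℂ).re = ‖g ζ‖ ^ 2 := inner_self_eq_norm_sq (𝕜 := ℂ) _
  have h4 : (⟪g ζ, ζ⟫_ℂ).re = ‖g ζ‖ ^ 2 := by rw [← h3, hadj, hgg]
  have h5 : (⟪g ζ, ζ - y ζ⟫_ℂ).re ≤ ‖g ζ‖ * ‖ζ - y ζ‖ :=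
    (Complex.re_le_norm _).trans (norm_inner_le_norm _ _)
  rw [inner_sub_right, Complex.sub_re, h4] at h5
  rw [h3] at h1
  by_contra hlt
  push Not at hlt
  nlinarith [norm_nonneg (ζ - y ζ)]

/-- Commuting with projections under a bounded functional. -/
theorem Pos.cen_of_proj (h : Pos M φ) (hA : ∀ a ∈ A, a ∈ M)
    (hp : ∀ p ∈ A, IsStarProjection p → ∀ x ∈ M, φ (p * x) = φ (x * p)) :
    ∀ a ∈ A, ∀ x ∈ M, φ (a * x) = φ (x * a) := by
  have key : ∀ a ∈ A, IsSelfAdjoint a → ∀ x ∈ M, φ (a * x) = φ (x * a) := by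
    intro a ha hs x hx
    rw [← sub_eq_zero, ← norm_le_zero_iff]
    refine le_of_forall_pos_le_add fun ε hε => ?_
    have h1 := n_nonneg φ 1
    set K := n φ 1 * ‖x‖ * n φ 1 with hK
    have hK0 : 0 ≤ K := by positivity
    obtain ⟨k, c, t, c₀, hb⟩ := R124.exists_step hs (ε := ε / (2 * K + 1)) (by positivity)
    set b := c₀ • (1 : Op H) + ∑ i, c i • R124.sp a (t i) with hbdef
    have hbM : b ∈ M := add_mem (R124.rsmul_mem _ (one_mem M))
      (sum_mem fun i _ => R124.rsmul_mem _ (R124.sp_mem hs (hA a ha) _))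
    have e1 : φ (b * x) = φ (x * b) := by
      simp only [hbdef, add_mul, mul_add, Finset.sum_mul, Finset.mul_sum, smul_mul_assoc,
        mul_smul_comm, one_mul, mul_one, map_add, map_sum, map_rsmul]
      congr 1
      exact Finset.sum_congr rfl fun i _ => by
        rw [hp _ (R124.sp_mem hs ha _) (R124.sp_proj _ _) x hx]
    have e2 : φ (a * x) - φ (x * a) = φ ((a - b) * x) - φ (x * (a - b)) := by
      rw [sub_mul, mul_sub, map_sub, map_sub, e1]; ring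
    have hd := sub_mem (hA a ha) hbM
    have a1 := h.norm_le (mul_mem hd hx)
    have a2 := h.norm_le (mul_mem hx hd)
    have a3 : n φ 1 * (‖(a - b) * x‖ * n φ 1) ≤ n φ 1 * (ε / (2 * K + 1) * ‖x‖ * n φ 1) := by
      gcongr
      exact (norm_mul_le _ _).trans (by gcongr)
    have a4 : n φ 1 * (‖x * (a - b)‖ * n φ 1) ≤ n φ 1 * (‖x‖ * (ε / (2 * K + 1)) * n φ 1) := by
      gcongr
      exact (norm_mul_le _ _).trans (by gcongr)
    have a5 : ε / (2 * K + 1) * (2 * K + 1) = ε := by field_simp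
    have a6 : 0 ≤ ε / (2 * K + 1) := by positivity
    rw [e2]
    refine (norm_sub_le _ _).trans ?_
    nlinarith
  intro a ha x hx
  have h1 := key _ (add_mem ha (star_mem ha)) (IsSelfAdjoint.add_star_self a) x hx
  have h2 := key _ (R124.csmul_mem Complex.I (sub_mem ha (star_mem ha))) (by
    rw [IsSelfAdjoint, star_smul, star_sub, star_star, Complex.star_def, Complex.conj_I, neg_smul,
      ← smul_neg, neg_sub]) x hx
  simp only [smul_mul_assoc, mul_smul_comm, map_smul, smul_eq_mul, add_mul, mul_add, sub_mul,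
    mul_sub, map_add, map_sub] at h1 h2
  have h3 : φ (a * x) - φ (star a * x) = φ (x * a) - φ (x * star a) := by
    apply mul_left_cancel₀ Complex.I_ne_zero
    linear_combination h2
  linear_combination (h1 + h3) / 2

end SplitA

end Crest.Agent.R109
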