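import Crest.Agent.R109.Nev
import Crest.Agent.R109.Ray
import Crest.Agent.R109.Col

/-! Task 109-TOPA: polynomial approximation of the argument integrals. -/

set_option autoImplicit false

open Polynomial

namespace Crest.Agent.R109

/-- Moments of the ray seen from `-H I`. -/
noncomputable def kap (ϑ H σ₁ σ₂ : ℝ) (n : ℕ) : ℂ :=
  ∫ σ in σ₁..σ₂, ((rayPt ϑ σ + H * Complex.I)⁻¹) ^ n

/-- Truncated expansion of `π⁻¹ ∫ log (1 - (X + H I) / (rayPt + H I))`. -/
noncomputable def chiT (ϑ H σ₁ σ₂ : ℝ) (N : ℕ) : ℂ[X] :=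
  ∑ n ∈ Finset.range N,
    C (-(Real.pi : ℂ)⁻¹ * kap ϑ H σ₁ σ₂ (n + 1) / (n + 1)) * (X + C (H * Complex.I)) ^ (n + 1)

/-- `π⁻¹ ∫ ∑_{x ∈ l} arg (rayPt - x)`. -/
noncomputable def argI (ϑ σ₁ σ₂ : ℝ) (l : Multiset ℝ) : ℝ :=
  Real.pi⁻¹ * ∫ σ in σ₁..σ₂, (l.map fun x : ℝ => Complex.arg (rayPt ϑ σ - x)).sum

/-- `π⁻¹ ∫ arg (rayPt + H I)`. -/
noncomputable def arg0 (ϑ H σ₁ σ₂ : ℝ) : ℝ :=
  Real.pi⁻¹ * ∫ σ in σ₁..σ₂, Complex.arg (rayPt ϑ σ + H * Complex.I)

/-- Power sum centred at `-H I`. -/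
noncomputable def psum (H : ℝ) (n : ℕ) (l : Multiset ℝ) : ℂ :=
  (l.map fun x : ℝ => ((x : ℂ) + H * Complex.I) ^ n).sum

namespace TopAux

open MeasureTheory in
theorem int_multiset (l : Multiset ℝ) (f : ℝ → ℝ → ℝ) {a b : ℝ}
    (hf : ∀ x, IntervalIntegrable (f x) volume a b) :
    IntervalIntegrable (fun σ => (l.map fun x => f x σ).sum) volume a b ∧
      ∫ σ in a..b, (l.map fun x => f x σ).sum = (l.map fun x => ∫ σ in a..b, f x σ).sum := by
  induction l using Multiset.induction_on with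
  | empty => simp
  | cons x l ih =>
    simp only [Multiset.map_cons, Multiset.sum_cons]
    exact ⟨(hf x).add ih.1, by rw [intervalIntegral.integral_add (hf x) ih.1, ih.2]⟩

theorem hasSum_multiset (l : Multiset ℝ) (f : ℝ → ℕ → ℂ) (g : ℝ → ℂ)
    (h : ∀ x ∈ l, HasSum (f x) (g x)) :
    HasSum (fun n => (l.map fun x => f x n).sum) (l.map g).sum := by
  induction l using Multiset.induction_on with
  | empty => simp
  | cons x l ih =>
    simp only [Multiset.map_cons, Multiset.sum_cons]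
    exact (h x (Multiset.mem_cons_self _ _)).add
      (ih fun y hy => h y (Multiset.mem_cons_of_mem hy))

/-- the error of the truncated expansion at one point -/
noncomputable def er (ϑ H : ℝ) (N : ℕ) (x σ : ℝ) : ℝ :=
  Complex.arg (rayPt ϑ σ - x) - Complex.arg (rayPt ϑ σ + H * Complex.I) -
    (∑ n ∈ Finset.range N, -(((rayPt ϑ σ + H * Complex.I)⁻¹) ^ (n + 1) / (n + 1) *
      ((x : ℂ) + H * Complex.I) ^ (n + 1))).im

theorem cont_ray (ϑ : ℝ) : Continuous (rayPt ϑ) := by unfold rayPt; fun_prop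

theorem re_pos {ϑ σ : ℝ} (h0 : 0 < ϑ) (h1 : ϑ < 1) (hσ : 0 < σ) : 0 < (rayPt ϑ σ).re := by
  rw [Ray_re]
  refine mul_pos hσ (Real.cos_pos_of_mem_Ioo ⟨?_, ?_⟩) <;> linarith [Real.pi_gt_three]

theorem contOn_arg {ϑ σ₁ σ₂ : ℝ} (h0 : 0 < ϑ) (h1 : ϑ < 1) (hσ : 0 < σ₁) (c : ℂ) (hc : 0 ≤ c.im) :
    ContinuousOn (fun σ => Complex.arg (rayPt ϑ σ + c)) (Set.Icc σ₁ σ₂) := by
  intro σ hσ'
  have him : 0 < (rayPt ϑ σ + c).im := by
    have := Ray_im_pos h0 h1 (hσ.trans_le hσ'.1)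
    rw [Complex.add_im]; linarith
  have c3 : ContinuousAt Complex.arg (rayPt ϑ σ + c) :=
    Complex.continuousAt_arg (Or.inr him.ne')
  exact (ContinuousAt.comp (f := fun σ => rayPt ϑ σ + c) c3
    ((cont_ray ϑ).add continuous_const).continuousAt).continuousWithinAt

theorem contOn_inv {ϑ H σ₁ σ₂ : ℝ} (h0 : 0 < ϑ) (h1 : ϑ < 1) (hσ : 0 < σ₁) (n : ℕ) :
    ContinuousOn (fun σ => ((rayPt ϑ σ + H * Complex.I)⁻¹) ^ n) (Set.Icc σ₁ σ₂) := by
  refine ContinuousOn.pow (ContinuousOn.inv₀ ((cont_ray ϑ).add continuous_const).continuousOn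
    fun σ hσ' h => ?_) n
  have := re_pos h0 h1 (hσ.trans_le hσ'.1)
  have h2 := congrArg Complex.re h
  simp at h2
  linarith

open MeasureTheory in
theorem er_int {ϑ H σ₁ σ₂ : ℝ} (h0 : 0 < ϑ) (h1 : ϑ < 1) (hH : 0 ≤ H) (hσ : 0 < σ₁)
    (hσ' : σ₁ ≤ σ₂) (N : ℕ) (x : ℝ) :
    IntervalIntegrable (fun σ => Complex.arg (rayPt ϑ σ - x)) volume σ₁ σ₂ ∧
    IntervalIntegrable (er ϑ H N x) volume σ₁ σ₂ ∧
    Real.pi⁻¹ * (∫ σ in σ₁..σ₂, Complex.arg (rayPt ϑ σ - x)) - arg0 ϑ H σ₁ σ₂ -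
      ((chiT ϑ H σ₁ σ₂ N).eval (x : ℂ)).im = Real.pi⁻¹ * ∫ σ in σ₁..σ₂, er ϑ H N x σ := by
  have i1 : IntervalIntegrable (fun σ => Complex.arg (rayPt ϑ σ - x)) volume σ₁ σ₂ := by
    have := (contOn_arg (σ₂ := σ₂) h0 h1 hσ (-(x : ℂ)) (by simp)).intervalIntegrable_of_Icc
      (μ := volume) hσ'
    simpa [sub_eq_add_neg] using this
  have i2 : IntervalIntegrable (fun σ => Complex.arg (rayPt ϑ σ + H * Complex.I)) volume σ₁ σ₂ :=
    (contOn_arg h0 h1 hσ _ (by simpa using hH)).intervalIntegrable_of_Icc hσ'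
  have c3 : ∀ n : ℕ, ContinuousOn (fun σ => -(((rayPt ϑ σ + H * Complex.I)⁻¹) ^ (n + 1) / (n + 1) *
      ((x : ℂ) + H * Complex.I) ^ (n + 1))) (Set.Icc σ₁ σ₂) := fun n =>
    (((contOn_inv h0 h1 hσ (n + 1)).div_const _).mul continuousOn_const).neg
  have c4 : ContinuousOn (fun σ => ∑ n ∈ Finset.range N,
      -(((rayPt ϑ σ + H * Complex.I)⁻¹) ^ (n + 1) / (n + 1) *
      ((x : ℂ) + H * Complex.I) ^ (n + 1))) (Set.Icc σ₁ σ₂) :=
    continuousOn_finsetSum _ fun n _ => c3 n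
  have i3 : IntervalIntegrable (fun σ => (∑ n ∈ Finset.range N,
      -(((rayPt ϑ σ + H * Complex.I)⁻¹) ^ (n + 1) / (n + 1) *
      ((x : ℂ) + H * Complex.I) ^ (n + 1))).im) volume σ₁ σ₂ :=
    (Complex.continuous_im.comp_continuousOn c4).intervalIntegrable_of_Icc hσ'
  refine ⟨i1, (i1.sub i2).sub i3, ?_⟩
  unfold er
  rw [intervalIntegral.integral_sub (i1.sub i2) i3, intervalIntegral.integral_sub i1 i2, arg0,
    mul_sub, mul_sub]
  congr 1
  have e1 := (Complex.imCLM.intervalIntegral_comp_comm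
    (c4.intervalIntegrable_of_Icc (μ := volume) hσ'))
  simp only [Complex.imCLM_apply] at e1
  rw [e1, intervalIntegral.integral_finsetSum
    fun n _ => (c3 n).intervalIntegrable_of_Icc (μ := volume) hσ', ← Complex.im_ofReal_mul,
    Finset.mul_sum, chiT, eval_finsetSum]
  congr 1
  refine Finset.sum_congr rfl fun n _ => ?_
  rw [intervalIntegral.integral_neg, intervalIntegral.integral_mul_const,
    intervalIntegral.integral_div]
  simp only [eval_mul, eval_C, eval_pow, eval_add, eval_X, kap, Complex.ofReal_inv]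
  ring

theorem er_hasSum {ϑ H σ : ℝ} (h0 : 0 < ϑ) (h1 : ϑ < 1) (hσ : 0 < σ) (N : ℕ) (x : ℝ)
    (hx : ‖(x : ℂ) + H * Complex.I‖ < ‖rayPt ϑ σ + H * Complex.I‖) :
    ∃ z : ℂ, z.im = er ϑ H N x σ ∧ HasSum (fun n : ℕ =>
      -(((rayPt ϑ σ + H * Complex.I)⁻¹) ^ (n + N + 1) / ((n + N : ℕ) + 1) *
        ((x : ℂ) + H * Complex.I) ^ (n + N + 1))) z := by
  set w := rayPt ϑ σ + H * Complex.I with hw
  have hwre : 0 < w.re := by
    have := re_pos h0 h1 hσ
    simpa [hw] using this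
  have hw0 : w ≠ 0 := by intro h; rw [h] at hwre; simp at hwre
  set q := ((x : ℂ) + H * Complex.I) / w with hq
  have hq1 : ‖q‖ < 1 := by
    rw [hq, norm_div, div_lt_one (norm_pos_iff.2 hw0)]; exact hx
  have hre : 0 < (1 - q).re := by
    have := (abs_le.1 (Complex.abs_re_le_norm q)).2
    simp only [Complex.sub_re, Complex.one_re]; linarith
  have hq0 : 1 - q ≠ 0 := by intro h; rw [h] at hre; simp at hre
  have e : rayPt ϑ σ - x = w * (1 - q) := by
    rw [hq]; field_simp; rw [hw]; ring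
  have a1 := abs_lt.1 (Complex.abs_arg_lt_pi_div_two_iff.2 (Or.inl hwre))
  have a2 := abs_lt.1 (Complex.abs_arg_lt_pi_div_two_iff.2 (Or.inl hre))
  have harg : Complex.arg (rayPt ϑ σ - x) = w.arg + (1 - q).arg := by
    rw [e, Complex.arg_mul_eq_add_arg_iff hw0 hq0]
    constructor <;> linarith [a1.1, a1.2, a2.1, a2.2]
  have hs := (Complex.hasSum_taylorSeries_neg_log' hq1).neg
  rw [neg_neg] at hs
  have hs2 : HasSum (fun n : ℕ => -((w⁻¹) ^ (n + 1) / (n + 1) *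
      ((x : ℂ) + H * Complex.I) ^ (n + 1))) (Complex.log (1 - q)) := by
    have e4 : (fun n : ℕ => -((w⁻¹) ^ (n + 1) / (n + 1) *
      ((x : ℂ) + H * Complex.I) ^ (n + 1))) = fun n : ℕ => -(q ^ (n + 1) / (n + 1)) := by
      funext n
      rw [hq, div_eq_mul_inv _ w, mul_pow]; ring
    rw [e4]; exact hs
  refine ⟨_, ?_, (hasSum_nat_add_iff' N).2 hs2⟩
  rw [Complex.sub_im, Complex.log_im, er, harg]
  ring

theorem polar_bound {δ : ℝ} (hδ : 0 < δ) (hδ' : δ ≤ Real.pi) {r α : ℝ} (hr : 0 ≤ r)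
    (hα : |α| ≤ 2 * (Real.pi - δ)) :
    |α| ≤ Real.pi ^ 2 / δ * ‖(r : ℂ) * Complex.exp (α * Complex.I) - 1‖ := by
  have hπ := Real.pi_pos
  set y := |α| / 2 with hy
  have hy0 : 0 ≤ y := by positivity
  have hy1 : y ≤ Real.pi - δ := by linarith
  have hcos : Real.cos α = 1 - 2 * Real.sin y ^ 2 := by
    have h1 : Real.cos α = Real.cos (2 * y) := by
      rw [show 2 * y = |α| by rw [hy]; ring, Real.cos_abs]
    rw [h1, Real.cos_two_mul, Real.cos_sq']; ring
  have hs : 2 * δ / Real.pi ^ 2 * y ≤ Real.sin y := by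
    have hd : δ / Real.pi ≤ 1 := (div_le_one hπ).2 hδ'
    have e : 2 * δ / Real.pi ^ 2 * y = 2 / Real.pi * (δ / Real.pi * y) := by field_simp
    rw [e]
    by_cases h : y ≤ Real.pi / 2
    · refine le_trans ?_ (Real.mul_le_sin hy0 h)
      exact mul_le_mul_of_nonneg_left (mul_le_of_le_one_left hy0 hd) (by positivity)
    · rw [← Real.sin_pi_sub]
      refine le_trans ?_ (Real.mul_le_sin (by linarith) (by linarith))
      refine mul_le_mul_of_nonneg_left ?_ (by positivity)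
      have : δ / Real.pi * y ≤ δ / Real.pi * Real.pi :=
        mul_le_mul_of_nonneg_left (by linarith) (by positivity)
      rw [div_mul_cancel₀ _ hπ.ne'] at this
      linarith
  have hn : Real.sin y ≤ ‖(r : ℂ) * Complex.exp (α * Complex.I) - 1‖ := by
    refine le_trans (le_abs_self _) (abs_le_of_sq_le_sq' ?_ (norm_nonneg _) |> fun h => abs_le.2 h)
    rw [Complex.sq_norm, Complex.normSq_apply]
    simp only [Complex.sub_re, Complex.sub_im, Complex.re_ofReal_mul, Complex.im_ofReal_mul,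
      Complex.exp_ofReal_mul_I_re, Complex.exp_ofReal_mul_I_im, Complex.one_re, Complex.one_im]
    have h1 := Real.sin_sq_add_cos_sq α
    have h2 : Real.sin y ^ 2 = (1 - Real.cos α) / 2 := by rw [hcos]; ring
    have h3 := Real.cos_le_one α
    have h4 := Real.neg_one_le_cos α
    rw [h2]
    have e : (r * Real.cos α - 1) * (r * Real.cos α - 1) +
        (r * Real.sin α - 0) * (r * Real.sin α - 0) = r ^ 2 - 2 * r * Real.cos α + 1 := by
      linear_combination r ^ 2 * h1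
    rw [e]
    by_cases hc : 0 ≤ Real.cos α
    · nlinarith [sq_nonneg (r - Real.cos α), mul_nonneg hc (sub_nonneg.2 h3)]
    · nlinarith [mul_nonneg hr (neg_nonneg.2 (not_le.1 hc).le), sq_nonneg r]
  have e2 : |α| = Real.pi ^ 2 / δ * (2 * δ / Real.pi ^ 2 * y) := by
    rw [hy]; field_simp
  rw [e2]
  exact mul_le_mul_of_nonneg_left (hs.trans hn) (by positivity)

theorem arg_range {η B : ℝ} (hη : 0 < η) {x : ℂ} (h1 : η ≤ x.im) (h2 : ‖x‖ ≤ B) :
    η / (|B| + η) ≤ x.arg ∧ x.arg ≤ Real.pi - η / (|B| + η) := by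
  have hx0 : x ≠ 0 := by rintro rfl; simp at h1; linarith
  have hn : 0 < ‖x‖ := norm_pos_iff.2 hx0
  have hs : η / (|B| + η) ≤ Real.sin x.arg := by
    rw [Complex.sin_arg]
    exact div_le_div₀ (by linarith) h1 hn (by linarith [le_abs_self B])
  have ha0 : 0 ≤ x.arg := Complex.arg_nonneg_iff.2 (by linarith)
  have ha1 := Complex.arg_le_pi x
  refine ⟨hs.trans (Real.sin_le ha0), ?_⟩
  rw [← Real.sin_pi_sub] at hs
  have := Real.sin_le (x := Real.pi - x.arg) (by linarith)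
  linarith

theorem circ_multiset (l : Multiset ℝ) {c : ℂ} {R : ℝ} (hR : 0 ≤ R) (m : ℕ)
    (hl : ∀ x ∈ l, ‖(x : ℂ) - c‖ < R) :
    ContinuousOn (fun s : ℂ => (l.map fun x : ℝ => (s - x)⁻¹).sum * (s - c) ^ m)
      (Metric.sphere c R) ∧
    (∮ s in C(c, R), (l.map fun x : ℝ => (s - x)⁻¹).sum * (s - c) ^ m) =
      2 * Real.pi * Complex.I * (l.map fun x : ℝ => ((x : ℂ) - c) ^ m).sum := by
  induction l using Multiset.induction_on with
  | empty => simp [continuousOn_const, circleIntegral]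
  | cons x l ih =>
    obtain ⟨i1, i2⟩ := ih fun y hy => hl y (Multiset.mem_cons_of_mem hy)
    have hx := hl x (Multiset.mem_cons_self _ _)
    have c1 : ContinuousOn (fun s : ℂ => (s - x)⁻¹ * (s - c) ^ m) (Metric.sphere c R) := by
      refine ContinuousOn.mul (ContinuousOn.inv₀ (by fun_prop) fun s hs h => ?_) (by fun_prop)
      rw [sub_eq_zero] at h
      rw [mem_sphere_iff_norm, h] at hs
      linarith
    simp only [Multiset.map_cons, Multiset.sum_cons, add_mul]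
    refine ⟨c1.add i1, ?_⟩
    rw [circleIntegral.integral_add (c1.circleIntegrable hR) (i1.circleIntegrable hR), i2]
    have hd : DiffContOnCl ℂ (fun s : ℂ => (s - c) ^ m) (Metric.ball c R) :=
      Differentiable.diffContOnCl (by fun_prop)
    have := hd.circleIntegral_sub_inv_smul (w := (x : ℂ)) (by rwa [mem_ball_iff_norm])
    simp only [smul_eq_mul] at this
    rw [this]; ring

end TopAux

open TopAux

theorem chiT_natDegree (ϑ H σ₁ σ₂ : ℝ) (N : ℕ) : (chiT ϑ H σ₁ σ₂ N).natDegree ≤ N := by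
  refine natDegree_sum_le_of_forall_le _ _ fun n hn => ?_
  refine (natDegree_C_mul_le _ _).trans (natDegree_pow_le.trans ?_)
  rw [natDegree_X_add_C]
  have := Finset.mem_range.1 hn
  omega

/-- For `t = rayPt ϑ σ`, `q = (x + H I) / (t + H I)`, `‖q‖ < 1`:
`arg (t - x) = arg (t + H I) + Im log (1 - q)` (both arguments lie in `(0, π)`, `Re (1 - q) > 0`) and
`log (1 - q) = -∑ q ^ n / n` (`Complex.hasSum_taylorSeries_neg_log`). Take the linear
combination first, bound the tail pointwise in `σ`, then integrate. -/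
theorem expand {ι : Type*} (I : Finset ι) (l : ι → Multiset ℝ) (ε : ι → ℝ)
    {ϑ H σ₁ σ₂ ρ ρ₁ C : ℝ} (h0 : 0 < ϑ) (h1 : ϑ < 1) (hH : 0 ≤ H) (hσ : 0 < σ₁) (hσ' : σ₁ ≤ σ₂)
    (hρ : 0 < ρ) (hρ₁ : ρ < ρ₁) (hl : ∀ k ∈ I, ∀ x ∈ l k, ‖(x : ℂ) + H * Complex.I‖ < ρ₁)
    (hray : ∀ σ ∈ Set.Icc σ₁ σ₂, ρ₁ ≤ ‖rayPt ϑ σ + H * Complex.I‖)
    (hC : ∀ n : ℕ, ‖∑ k ∈ I, (ε k : ℂ) * psum H (n + 1) (l k)‖ ≤ C * (n + 1) * ρ ^ (n + 1))
    (N : ℕ) :
    |∑ k ∈ I, ε k * (argI ϑ σ₁ σ₂ (l k) - Multiset.card (l k) * arg0 ϑ H σ₁ σ₂ -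
        (((l k).map fun x : ℝ => (chiT ϑ H σ₁ σ₂ N).eval (x : ℂ)).sum).im)| ≤
      C * (σ₂ - σ₁) * ((ρ / ρ₁) ^ N / (1 - ρ / ρ₁)) := by
  have hπ := Real.pi_gt_three
  have hρ1 : 0 < ρ₁ := hρ.trans hρ₁
  set r := ρ / ρ₁ with hr
  have hr0 : 0 < r := div_pos hρ hρ1
  have hr1 : r < 1 := (div_lt_one hρ1).2 hρ₁
  have hC0 : 0 ≤ C := by
    have := (norm_nonneg _).trans (hC 0)
    simp only [Nat.cast_zero, zero_add, mul_one, pow_one] at this
    exact nonneg_of_mul_nonneg_left this hρ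
  have hint := fun x => er_int h0 h1 hH hσ hσ' N x
  have e1 : ∀ k, argI ϑ σ₁ σ₂ (l k) - Multiset.card (l k) * arg0 ϑ H σ₁ σ₂ -
      (((l k).map fun x : ℝ => (chiT ϑ H σ₁ σ₂ N).eval (x : ℂ)).sum).im =
      Real.pi⁻¹ * ∫ σ in σ₁..σ₂, ((l k).map fun x => er ϑ H N x σ).sum := by
    intro k
    rw [argI, (int_multiset (l k) _ fun x => (hint x).1).2,
      (int_multiset (l k) _ fun x => (hint x).2.1).2]
    induction l k using Multiset.induction_on with
    | empty => simp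
    | cons x m ih =>
      simp only [Multiset.map_cons, Multiset.sum_cons, Multiset.card_cons, Complex.add_im]
      push_cast
      linear_combination ih + (hint x).2.2
  have e2 : ∑ k ∈ I, ε k * (argI ϑ σ₁ σ₂ (l k) - Multiset.card (l k) * arg0 ϑ H σ₁ σ₂ -
      (((l k).map fun x : ℝ => (chiT ϑ H σ₁ σ₂ N).eval (x : ℂ)).sum).im) =
      Real.pi⁻¹ * ∫ σ in σ₁..σ₂, ∑ k ∈ I, ε k * ((l k).map fun x => er ϑ H N x σ).sum := by
    rw [intervalIntegral.integral_finsetSum fun k _ =>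
      (int_multiset (l k) _ fun x => (hint x).2.1).1.const_mul (ε k), Finset.mul_sum]
    refine Finset.sum_congr rfl fun k _ => ?_
    rw [e1, intervalIntegral.integral_const_mul]; ring
  have hb : ∀ σ ∈ Set.uIoc σ₁ σ₂, ‖∑ k ∈ I, ε k * ((l k).map fun x => er ϑ H N x σ).sum‖ ≤
      C * (r ^ N / (1 - r)) := by
    intro σ hσ2
    rw [Set.uIoc_of_le hσ'] at hσ2
    have hw := hray σ ⟨hσ2.1.le, hσ2.2⟩
    have hex : ∀ x : ℝ, ∃ z : ℂ, ‖(x : ℂ) + H * Complex.I‖ < ρ₁ → z.im = er ϑ H N x σ ∧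
        HasSum (fun n : ℕ =>
          -(((rayPt ϑ σ + H * Complex.I)⁻¹) ^ (n + N + 1) / ((n + N : ℕ) + 1) *
            ((x : ℂ) + H * Complex.I) ^ (n + N + 1))) z := by
      intro x
      by_cases hx : ‖(x : ℂ) + H * Complex.I‖ < ρ₁
      · obtain ⟨z, hz⟩ := er_hasSum h0 h1 (hσ.trans hσ2.1) N x (hx.trans_le hw)
        exact ⟨z, fun _ => hz⟩
      · exact ⟨0, fun h => (hx h).elim⟩
    choose z hz using hex
    have hs := hasSum_sum (s := I) fun k hk =>
      (hasSum_multiset (l k) _ z fun x hx => (hz x (hl k hk x hx)).2).mul_left (ε k : ℂ)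
    have him : ∑ k ∈ I, ε k * ((l k).map fun x => er ϑ H N x σ).sum =
        (∑ k ∈ I, (ε k : ℂ) * ((l k).map z).sum).im := by
      rw [Complex.im_sum]
      refine Finset.sum_congr rfl fun k hk => ?_
      rw [Complex.im_ofReal_mul]
      congr 1
      have := map_multiset_sum Complex.imCLM ((l k).map z)
      rw [Complex.imCLM_apply] at this
      rw [this, Multiset.map_map]
      congr 1
      exact Multiset.map_congr rfl fun x hx => (hz x (hl k hk x hx)).1.symm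
    rw [him, Real.norm_eq_abs]
    refine (Complex.abs_im_le_norm _).trans ?_
    have hg := (hasSum_geometric_of_lt_one hr0.le hr1).mul_left (C * r ^ N)
    rw [mul_assoc, ← div_eq_mul_inv] at hg
    refine hs.norm_le_of_bounded hg fun n => ?_
    have e3 : ∑ k ∈ I, (ε k : ℂ) * ((l k).map fun x : ℝ =>
        -(((rayPt ϑ σ + H * Complex.I)⁻¹) ^ (n + N + 1) / ((n + N : ℕ) + 1) *
          ((x : ℂ) + H * Complex.I) ^ (n + N + 1))).sum =
        -(((rayPt ϑ σ + H * Complex.I)⁻¹) ^ (n + N + 1) / ((n + N : ℕ) + 1)) *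
          ∑ k ∈ I, (ε k : ℂ) * psum H (n + N + 1) (l k) := by
      rw [Finset.mul_sum]
      refine Finset.sum_congr rfl fun k _ => ?_
      simp only [← neg_mul]
      rw [Multiset.sum_map_mul_left, psum]; ring
    rw [e3, norm_mul, norm_neg, norm_div, norm_pow, norm_inv]
    have hn : ‖((n + N : ℕ) : ℂ) + 1‖ = ((n + N : ℕ) : ℝ) + 1 := by
      exact_mod_cast Complex.norm_natCast (n + N + 1)
    rw [hn]
    have hp : (0 : ℝ) < ((n + N : ℕ) : ℝ) + 1 := by positivity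
    have hw' : ‖rayPt ϑ σ + H * Complex.I‖⁻¹ ^ (n + N + 1) ≤ ρ₁⁻¹ ^ (n + N + 1) :=
      pow_le_pow_left₀ (by positivity) (inv_anti₀ hρ1 hw) _
    calc ‖rayPt ϑ σ + H * Complex.I‖⁻¹ ^ (n + N + 1) / (((n + N : ℕ) : ℝ) + 1) *
          ‖∑ k ∈ I, (ε k : ℂ) * psum H (n + N + 1) (l k)‖
        ≤ ρ₁⁻¹ ^ (n + N + 1) / (((n + N : ℕ) : ℝ) + 1) *
          (C * (((n + N : ℕ) : ℝ) + 1) * ρ ^ (n + N + 1)) :=
          mul_le_mul (div_le_div_of_nonneg_right hw' hp.le) (hC (n + N)) (norm_nonneg _)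
            (by positivity)
      _ = C * r ^ N * r ^ n * r := by
          rw [hr, div_eq_mul_inv ρ, mul_pow, mul_pow]
          generalize ρ₁⁻¹ = u
          field_simp
          ring
      _ ≤ C * r ^ N * r ^ n := mul_le_of_le_one_right (by positivity) hr1.le
  have h3 := intervalIntegral.norm_integral_le_of_norm_le_const hb
  rw [Real.norm_eq_abs, abs_of_nonneg (sub_nonneg.2 hσ')] at h3
  rw [e2, abs_mul, abs_of_pos (by positivity : (0 : ℝ) < Real.pi⁻¹)]
  have h4 : Real.pi⁻¹ ≤ 1 := inv_le_one_of_one_le₀ (by linarith)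
  refine (mul_le_of_le_one_left (abs_nonneg _) h4).trans (h3.trans (le_of_eq ?_))
  ring

/-- `interlace`, `layer` for the real and imaginary parts of `(x + H I) ^ (n + 1)`. -/
theorem psum_interlace {P Q : ℂ[X]} {lp lq : Multiset ℝ} (hP' : RR P lp) (hQ : RR Q lq)
    {S : Finset ℝ} (hS : S ⊆ lq.toFinset) {ν : ℝ → ℝ} (hν : ∀ p, 0 ≤ ν p) {c : ℝ}
    (hP : Rel P Q S ν c) {T H ρ : ℝ} (hT : 0 ≤ T) (hρ : 1 ≤ ρ) (hρT : T ^ 2 + H ^ 2 ≤ ρ ^ 2)
    (hp : ∀ x ∈ lp, |x| ≤ T) (hq : ∀ x ∈ lq, |x| ≤ T) (n : ℕ) :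
    ‖psum H (n + 1) lp - psum H (n + 1) lq‖ ≤ (2 + 4 * T) * (n + 1) * ρ ^ (n + 1) := by
  obtain ⟨lp', hlp, hc, -, Z, hZ⟩ := interlace hQ hS hν hP
  have hl : lp' = lp := by
    have h := hlp.roots.symm.trans hP'.roots
    exact Multiset.map_injective Complex.ofReal_injective h
  subst hl
  have hnorm : ∀ t : ℝ, |t| ≤ T → ‖(t : ℂ) + H * Complex.I‖ ≤ ρ := by
    intro t ht
    refine abs_le_of_sq_le_sq' ?_ (by linarith) |>.2
    rw [Complex.sq_norm, Complex.normSq_add_mul_I]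
    have := sq_le_sq' (abs_le.1 ht).1 (abs_le.1 ht).2
    linarith
  have key : ∀ L : ℂ →L[ℝ] ℝ, (∀ z, |L z| ≤ ‖z‖) →
      |L (psum H (n + 1) lp' - psum H (n + 1) lq)| ≤ (1 + 2 * T) * (n + 1) * ρ ^ (n + 1) := by
    intro L hL
    have hder : ∀ t : ℝ, HasDerivAt (fun t : ℝ => L (((t : ℂ) + H * Complex.I) ^ (n + 1)))
        (L (((n + 1 : ℕ) : ℂ) * ((t : ℂ) + H * Complex.I) ^ n)) t := by
      intro t
      have h1 : HasDerivAt (fun z : ℂ => (z + H * Complex.I) ^ (n + 1))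
          (((n + 1 : ℕ) : ℂ) * ((t : ℂ) + H * Complex.I) ^ n) (t : ℂ) := by
        have := ((hasDerivAt_id (t : ℂ)).add_const (H * Complex.I)).fun_pow (n + 1)
        simp only [id, Nat.add_sub_cancel, mul_one] at this
        exact this
      exact L.hasFDerivAt.comp_hasDerivAt t h1.comp_ofReal
    have hcont : Continuous fun t : ℝ => L (((n + 1 : ℕ) : ℂ) * ((t : ℂ) + H * Complex.I) ^ n) := by
      fun_prop
    have h := layer hc hZ hT hp hq (φ := fun t : ℝ => L (((t : ℂ) + H * Complex.I) ^ (n + 1)))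
      (hcont.intervalIntegrable _ _) fun x _ => by
        rw [intervalIntegral.integral_eq_sub_of_hasDerivAt (fun t _ => hder t)
          (hcont.intervalIntegrable _ _)]
        ring
    rw [map_sub, psum, psum, map_multiset_sum, map_multiset_sum, Multiset.map_map, Multiset.map_map]
    erw [h]
    have hρn : ρ ^ n ≤ ρ ^ (n + 1) := pow_le_pow_right₀ hρ (Nat.le_succ n)
    have h1 : |L ((((-T : ℝ) : ℂ) + H * Complex.I) ^ (n + 1))| ≤ ρ ^ (n + 1) := by
      refine (hL _).trans ?_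
      rw [norm_pow]
      exact pow_le_pow_left₀ (norm_nonneg _) (hnorm _ (by rw [abs_neg, abs_of_nonneg hT])) _
    have h2 := intervalIntegral.norm_integral_le_of_norm_le_const (a := -T) (b := T)
      (C := (n + 1) * ρ ^ (n + 1))
      (f := fun t : ℝ => L (((n + 1 : ℕ) : ℂ) * ((t : ℂ) + H * Complex.I) ^ n) * xi (gR S ν c) t)
      (by
        intro t ht
        rw [Set.uIoc_of_le (by linarith)] at ht
        rw [norm_mul]
        have hx : ‖xi (gR S ν c) t‖ ≤ 1 := by unfold xi; split_ifs <;> simp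
        refine (mul_le_of_le_one_right (norm_nonneg _) hx).trans ((hL _).trans ?_)
        rw [norm_mul, norm_pow, Complex.norm_natCast]
        push_cast
        refine mul_le_mul_of_nonneg_left (le_trans ?_ hρn) (by positivity)
        exact pow_le_pow_left₀ (norm_nonneg _) (hnorm _ (abs_le.2 ⟨ht.1.le, ht.2⟩)) _)
    rw [Real.norm_eq_abs, show |T - -T| = 2 * T by rw [abs_of_nonneg (by linarith)]; ring] at h2
    refine (abs_add_le _ _).trans ?_
    have h3 : 0 ≤ (n : ℝ) * ρ ^ (n + 1) := by positivity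
    nlinarith
  have h1 := key Complex.reCLM fun z => Complex.abs_re_le_norm z
  have h2 := key Complex.imCLM fun z => Complex.abs_im_le_norm z
  refine (Complex.norm_le_abs_re_add_abs_im _).trans ?_
  simp only [Complex.reCLM_apply, Complex.imCLM_apply] at h1 h2
  linarith

/-- Cauchy estimate: `G u = ∑ ε_k ∑_{x} (x + H I) / (1 - (x + H I) u) = ∑_n d_{n+1} u ^ n` is
holomorphic near the closed disc of radius `1 / ρ`; for `s = -H I + 1 / u`,
`∑ ε_k ∑_x 1 / (s - x) = u * (d_0 + u G u)` with `d_0 = 0`. -/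
theorem psum_cauchy {ι : Type*} (I : Finset ι) (l : ι → Multiset ℝ) (ε : ι → ℝ) {H ρ C : ℝ}
    (hρ : 0 < ρ) (hl : ∀ k ∈ I, ∀ x ∈ l k, ‖(x : ℂ) + H * Complex.I‖ < ρ)
    (hd : ∑ k ∈ I, ε k * Multiset.card (l k) = 0)
    (hC : ∀ s : ℂ, ‖s + H * Complex.I‖ = ρ →
      ‖∑ k ∈ I, (ε k : ℂ) * ((l k).map fun x : ℝ => (s - x)⁻¹).sum‖ ≤ C) (n : ℕ) :
    ‖∑ k ∈ I, (ε k : ℂ) * psum H (n + 1) (l k)‖ ≤ C * ρ * ρ ^ (n + 1) := by
  have _ := hd
  have hm := fun k (hk : k ∈ I) => circ_multiset (l k) (c := -(H * Complex.I)) hρ.le (n + 1)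
    (fun x hx => by rw [sub_neg_eq_add]; exact hl k hk x hx)
  have e : (∮ s in C(-(H * Complex.I), ρ), ∑ k ∈ I, (ε k : ℂ) *
      (((l k).map fun x : ℝ => (s - x)⁻¹).sum * (s - -(H * Complex.I)) ^ (n + 1))) =
      2 * Real.pi * Complex.I * ∑ k ∈ I, (ε k : ℂ) * psum H (n + 1) (l k) := by
    rw [circleIntegral.integral_fun_sum (f := fun k s => (ε k : ℂ) *
      (((l k).map fun x : ℝ => (s - x)⁻¹).sum * (s - -(H * Complex.I)) ^ (n + 1))) fun k hk =>
      (continuousOn_const.mul (hm k hk).1).circleIntegrable hρ.le, Finset.mul_sum]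
    refine Finset.sum_congr rfl fun k hk => ?_
    rw [circleIntegral.integral_const_mul, (hm k hk).2, psum]
    simp only [sub_neg_eq_add]
    ring
  have hb := circleIntegral.norm_integral_le_of_norm_le_const (c := -(H * Complex.I)) hρ.le
    (C := C * ρ ^ (n + 1)) (f := fun s => ∑ k ∈ I, (ε k : ℂ) *
      (((l k).map fun x : ℝ => (s - x)⁻¹).sum * (s - -(H * Complex.I)) ^ (n + 1))) (by
      intro s hs
      rw [mem_sphere_iff_norm] at hs
      simp only [← mul_assoc]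
      rw [← Finset.sum_mul, norm_mul, norm_pow, hs]
      rw [sub_neg_eq_add] at hs
      exact mul_le_mul_of_nonneg_right (hC s hs) (by positivity))
  rw [e, norm_mul] at hb
  have hn : ‖2 * (Real.pi : ℂ) * Complex.I‖ = 2 * Real.pi := by
    simp [abs_of_pos Real.pi_pos]
  rw [hn] at hb
  refine le_of_mul_le_mul_left (hb.trans (le_of_eq ?_)) (by positivity : 0 < 2 * Real.pi)
  ring

/-- If `a, b, c, d ∈ ℂ` have arguments in `[θ, π - θ]` then the alternating sum of the arguments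
is controlled by the distance of the cross ratio to `1`. -/
theorem arg_cross {η B : ℝ} (hη : 0 < η) : ∃ C : ℝ, 0 ≤ C ∧ ∀ a b c d : ℂ,
    (∀ x ∈ ({a, b, c, d} : Set ℂ), η ≤ x.im ∧ ‖x‖ ≤ B) →
    |(a.arg - b.arg) - (c.arg - d.arg)| ≤ C * ‖(a / b) / (c / d) - 1‖ ∧
      |b.arg - d.arg| ≤ C * ‖d / b - 1‖ := by
  set θ := η / (|B| + η) with hθ
  have hB := abs_nonneg B
  have hθ0 : 0 < θ := by positivity
  have hθ1 : θ ≤ 1 := (div_le_one (by positivity)).2 (by linarith)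
  have hπ := Real.pi_gt_three
  refine ⟨Real.pi ^ 2 / (2 * θ), by positivity, fun a b c d h => ?_⟩
  have ha := h a (by simp)
  have hb := h b (by simp)
  have hc := h c (by simp)
  have hd := h d (by simp)
  obtain ⟨a1, a2⟩ := arg_range hη ha.1 ha.2
  obtain ⟨b1, b2⟩ := arg_range hη hb.1 hb.2
  obtain ⟨c1, c2⟩ := arg_range hη hc.1 hc.2
  obtain ⟨d1, d2⟩ := arg_range hη hd.1 hd.2
  have hne : ∀ x : ℂ, η ≤ x.im → (‖x‖ : ℂ) ≠ 0 := by
    intro x hx h0
    have : x = 0 := by simpa using h0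
    subst this
    simp at hx; linarith
  constructor
  · have e : (a / b) / (c / d) = ((‖a‖ * ‖d‖ / (‖b‖ * ‖c‖) : ℝ) : ℂ) *
        Complex.exp (((a.arg - b.arg) - (c.arg - d.arg) : ℝ) * Complex.I) := by
      conv_lhs => rw [← Complex.norm_mul_exp_arg_mul_I a, ← Complex.norm_mul_exp_arg_mul_I b,
        ← Complex.norm_mul_exp_arg_mul_I c, ← Complex.norm_mul_exp_arg_mul_I d]
      have := hne b hb.1
      have := hne c hc.1
      have := hne d hd.1
      push_cast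
      simp only [sub_mul, Complex.exp_sub]
      field_simp
    rw [e]
    exact polar_bound (by positivity) (by linarith) (by positivity)
      (abs_le.2 ⟨by linarith, by linarith⟩)
  · have e : d / b = ((‖d‖ / ‖b‖ : ℝ) : ℂ) * Complex.exp ((d.arg - b.arg : ℝ) * Complex.I) := by
      conv_lhs => rw [← Complex.norm_mul_exp_arg_mul_I b, ← Complex.norm_mul_exp_arg_mul_I d]
      have := hne b hb.1
      push_cast
      simp only [sub_mul, Complex.exp_sub]
      field_simp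
    rw [e, abs_sub_comm]
    exact polar_bound (by positivity) (by linarith) (by positivity)
      (abs_le.2 ⟨by linarith, by linarith⟩)

end Crest.Agent.R109
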