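import Crest.Agent.R109.CE

/-! Task 109-VB: basic facts on a faithful normal functional and its expectation. -/

set_option autoImplicit false

open scoped InnerProductSpace ComplexOrder
open Filter Topology

namespace Crest.Agent.R109

variable {H : Type*} [NormedAddCommGroup H] [InnerProductSpace ℂ H] [CompleteSpace H]
variable {M A : VonNeumannAlgebra H} (𝓔 : Nce M A) {ι : Type*}

namespace Nce

theorem E_of_mem {a : Op H} (ha : a ∈ A) : 𝓔.E a = a := by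
  have := 𝓔.ce.left a ha 1 (one_mem M)
  rwa [mul_one, 𝓔.ce.one, mul_one] at this

theorem E_mem {x : Op H} (hx : x ∈ M) : 𝓔.E x ∈ M := by
  exact 𝓔.masa.le _ (𝓔.ce.mem x hx)

theorem E_mono {x y : Op H} (hx : x ∈ M) (hy : y ∈ M) (h : x ≤ y) : 𝓔.E x ≤ 𝓔.E y := by
  have := 𝓔.ce.nonneg _ (sub_mem hy hx) (sub_nonneg.2 h)
  rwa [map_sub, sub_nonneg] at this

theorem im_ψ_of_nonneg {x : Op H} (hx : x ∈ M) (h : 0 ≤ x) : (𝓔.ψ x).im = 0 :=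
  ((Complex.le_def.1 (𝓔.pos x hx h)).2).symm

theorem ψ_rsmul (c : ℝ) (x : Op H) : 𝓔.ψ (c • x) = c * 𝓔.ψ x := by
  rw [← Complex.coe_smul, map_smul, smul_eq_mul]

theorem im_ψ_of_sa {x : Op H} (hx : x ∈ M) (h : IsSelfAdjoint x) : (𝓔.ψ x).im = 0 := by
  have h1 : 0 ≤ x + ‖x‖ • (1 : Op H) := by
    have := h.neg_algebraMap_norm_le_self
    rw [Algebra.algebraMap_eq_smul_one] at this
    exact neg_le_iff_add_nonneg.1 this
  have h2 := 𝓔.im_ψ_of_nonneg (add_mem hx (R124.rsmul_mem _ (one_mem M))) h1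
  have h3 := 𝓔.im_ψ_of_nonneg (one_mem M) zero_le_one
  rw [map_add, ψ_rsmul, Complex.add_im, Complex.im_ofReal_mul, h3] at h2
  simpa using h2

theorem ψ_star {x : Op H} (hx : x ∈ M) : 𝓔.ψ (star x) = (starRingEnd ℂ) (𝓔.ψ x) := by
  have h1 := 𝓔.im_ψ_of_sa (add_mem hx (star_mem hx)) (IsSelfAdjoint.add_star_self x)
  have h2 := 𝓔.im_ψ_of_sa (x := Complex.I • (x - star x))
    (R124.csmul_mem _ (sub_mem hx (star_mem hx))) (by
      rw [IsSelfAdjoint, star_smul, star_sub, star_star, Complex.star_def, Complex.conj_I,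
        neg_smul, ← smul_neg, neg_sub])
  rw [map_add, Complex.add_im] at h1
  rw [map_smul, map_sub, smul_eq_mul, Complex.I_mul_im, Complex.sub_re] at h2
  apply Complex.ext
  · simp; linarith
  · simp; linarith

theorem ψ_cen {a x : Op H} (ha : a ∈ A) (hx : x ∈ M) : 𝓔.ψ (a * x) = 𝓔.ψ (x * a) := by
  have haM := 𝓔.masa.le a ha
  rw [← 𝓔.ψ_E _ (mul_mem haM hx), ← 𝓔.ψ_E _ (mul_mem hx haM), 𝓔.ce.left a ha x hx,
    𝓔.ce.right a ha x hx, 𝓔.masa.comm a ha _ (𝓔.ce.mem x hx)]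

theorem re_ψ_nonneg {x : Op H} (hx : x ∈ M) (h : 0 ≤ x) : 0 ≤ (𝓔.ψ x).re := by
  exact (Complex.le_def.1 (𝓔.pos x hx h)).1

theorem re_ψ_mono {x y : Op H} (hx : x ∈ M) (hy : y ∈ M) (h : x ≤ y) :
    (𝓔.ψ x).re ≤ (𝓔.ψ y).re := by
  have := 𝓔.re_ψ_nonneg (sub_mem hy hx) (sub_nonneg.2 h)
  rwa [map_sub, Complex.sub_re, sub_nonneg] at this

theorem eq_zero_of_nonneg {x : Op H} (hx : x ∈ M) (h : 0 ≤ x) (h0 : (𝓔.ψ x).re ≤ 0) : x = 0 := by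
  have hs : cfc Real.sqrt x ∈ M := R124.cfc_mem _ hx
  have hsa : IsSelfAdjoint (cfc Real.sqrt x) := cfc_predicate _ _
  have h1 : star (cfc Real.sqrt x) * cfc Real.sqrt x = x := by
    rw [hsa.star_eq, ← cfc_mul _ _ x]
    conv_rhs => rw [← cfc_id' ℝ x (IsSelfAdjoint.of_nonneg h)]
    exact cfc_congr fun t ht => Real.mul_self_sqrt (spectrum_nonneg_of_nonneg h ht)
  have h2 : 𝓔.ψ x = 0 := Complex.ext (le_antisymm h0 (𝓔.re_ψ_nonneg hx h))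
    (𝓔.im_ψ_of_nonneg hx h)
  have := 𝓔.faith _ hs (by rw [h1, h2])
  rw [← h1, this, mul_zero]

theorem n2_nonneg (x : Op H) : 0 ≤ 𝓔.n2 x := by
  exact Real.sqrt_nonneg _

theorem n2_sq {x : Op H} (hx : x ∈ M) : 𝓔.n2 x ^ 2 = (𝓔.ψ (star x * x)).re := by
  exact Real.sq_sqrt (𝓔.re_ψ_nonneg (mul_mem (star_mem hx) hx) (star_mul_self_nonneg x))

theorem ψ_star_mul_self {x : Op H} (hx : x ∈ M) :
    𝓔.ψ (star x * x) = ((𝓔.n2 x ^ 2 : ℝ) : ℂ) := by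
  apply Complex.ext
  · rw [Complex.ofReal_re, 𝓔.n2_sq hx]
  · rw [Complex.ofReal_im]
    exact 𝓔.im_ψ_of_nonneg (mul_mem (star_mem hx) hx) (star_mul_self_nonneg x)

theorem n2_eq_zero {x : Op H} (hx : x ∈ M) (h : 𝓔.n2 x = 0) : x = 0 := by
  exact 𝓔.faith x hx (by rw [𝓔.ψ_star_mul_self hx, h]; simp)

/-- The pre-inner product of `ψ`. -/
@[reducible] noncomputable def core : PreInnerProductSpace.Core ℂ M.toStarSubalgebra where
  inner x y := 𝓔.ψ (star (x : Op H) * y)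
  conj_inner_symm x y := by
    rw [← 𝓔.ψ_star (mul_mem (star_mem y.2) x.2), star_mul, star_star]
  re_inner_nonneg x := 𝓔.re_ψ_nonneg (mul_mem (star_mem x.2) x.2) (star_mul_self_nonneg _)
  add_left x y z := by simp [add_mul]
  smul_left x y c := by simp

theorem cs {x y : Op H} (hx : x ∈ M) (hy : y ∈ M) : ‖𝓔.ψ (star x * y)‖ ≤ 𝓔.n2 x * 𝓔.n2 y := by
  letI := 𝓔.core
  have h := InnerProductSpace.Core.inner_mul_inner_self_le (𝕜 := ℂ) (F := M.toStarSubalgebra)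
    ⟨x, hx⟩ ⟨y, hy⟩
  change ‖𝓔.ψ (star x * y)‖ * ‖𝓔.ψ (star y * x)‖ ≤
    (𝓔.ψ (star x * x)).re * (𝓔.ψ (star y * y)).re at h
  have h1 : ‖𝓔.ψ (star y * x)‖ = ‖𝓔.ψ (star x * y)‖ := by
    rw [← Complex.norm_conj (𝓔.ψ (star x * y)), ← 𝓔.ψ_star (mul_mem (star_mem hx) hy), star_mul,
      star_star]
  rw [h1, ← 𝓔.n2_sq hx, ← 𝓔.n2_sq hy, ← sq, ← mul_pow] at h
  exact (abs_le_of_sq_le_sq' h (mul_nonneg (𝓔.n2_nonneg x) (𝓔.n2_nonneg y))).2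

theorem n2_add_sq' {x y : Op H} (hx : x ∈ M) (hy : y ∈ M) :
    𝓔.n2 (x + y) ^ 2 = 𝓔.n2 x ^ 2 + 2 * (𝓔.ψ (star x * y)).re + 𝓔.n2 y ^ 2 := by
  have h1 : (𝓔.ψ (star y * x)).re = (𝓔.ψ (star x * y)).re := by
    rw [← Complex.conj_re (𝓔.ψ (star x * y)), ← 𝓔.ψ_star (mul_mem (star_mem hx) hy), star_mul,
      star_star]
  rw [𝓔.n2_sq (add_mem hx hy), 𝓔.n2_sq hx, 𝓔.n2_sq hy, star_add, add_mul, mul_add, mul_add]
  simp only [map_add, Complex.add_re, h1]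
  ring

theorem le_of_sq {a b : ℝ} (hb : 0 ≤ b) (h : a ^ 2 ≤ b ^ 2) : a ≤ b := (abs_le_of_sq_le_sq' h hb).2

theorem n2_add_le {x y : Op H} (hx : x ∈ M) (hy : y ∈ M) : 𝓔.n2 (x + y) ≤ 𝓔.n2 x + 𝓔.n2 y := by
  refine le_of_sq (add_nonneg (𝓔.n2_nonneg x) (𝓔.n2_nonneg y)) ?_
  rw [𝓔.n2_add_sq' hx hy]
  have := (Complex.re_le_norm _).trans (𝓔.cs hx hy)
  nlinarith

theorem n2_zero : 𝓔.n2 0 = 0 := by simp [n2]

theorem n2_sum_le (s : Finset ι) {x : ι → Op H} (hx : ∀ i ∈ s, x i ∈ M) :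
    𝓔.n2 (∑ i ∈ s, x i) ≤ ∑ i ∈ s, 𝓔.n2 (x i) := by
  classical
  induction s using Finset.induction_on with
  | empty => simp [n2_zero]
  | insert a s ha ih =>
    rw [Finset.sum_insert ha, Finset.sum_insert ha]
    have h1 : ∀ i ∈ s, x i ∈ M := fun i hi => hx i (Finset.mem_insert_of_mem hi)
    exact (𝓔.n2_add_le (hx a (Finset.mem_insert_self _ _)) (sum_mem h1)).trans
      (add_le_add le_rfl (ih h1))

theorem n2_smul (c : ℂ) (x : Op H) : 𝓔.n2 (c • x) = ‖c‖ * 𝓔.n2 x := by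
  have : star (c • x) * (c • x) = (‖c‖ ^ 2 : ℝ) • (star x * x) := by
    rw [star_smul, smul_mul_smul_comm, ← Complex.coe_smul, Complex.star_def, Complex.conj_mul',
      Complex.ofReal_pow]
  rw [n2, this, ψ_rsmul, Complex.re_ofReal_mul, Real.sqrt_mul (sq_nonneg _),
    Real.sqrt_sq (norm_nonneg _), n2]

theorem n2_neg (x : Op H) : 𝓔.n2 (-x) = 𝓔.n2 x := by
  simp [n2]

theorem n2_sub_comm (x y : Op H) : 𝓔.n2 (x - y) = 𝓔.n2 (y - x) := by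
  rw [← n2_neg, neg_sub]

theorem n2_mul_left {a x : Op H} (ha : a ∈ M) (hx : x ∈ M) : 𝓔.n2 (a * x) ≤ ‖a‖ * 𝓔.n2 x := by
  refine le_of_sq (mul_nonneg (norm_nonneg _) (𝓔.n2_nonneg x)) ?_
  rw [mul_pow, 𝓔.n2_sq (mul_mem ha hx), 𝓔.n2_sq hx, ← Complex.re_ofReal_mul, ← ψ_rsmul]
  refine 𝓔.re_ψ_mono (mul_mem (star_mem (mul_mem ha hx)) (mul_mem ha hx))
    (R124.rsmul_mem _ (mul_mem (star_mem hx) hx)) ?_
  have := CStarAlgebra.star_left_conjugate_le_norm_smul (a := x) (b := star a * a)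
    (IsSelfAdjoint.star_mul_self a)
  rw [CStarRing.norm_star_mul_self, ← sq] at this
  simpa only [star_mul, mul_assoc] using this

theorem n2_mul_right {a x : Op H} (ha : a ∈ A) (hx : x ∈ M) : 𝓔.n2 (x * a) ≤ ‖a‖ * 𝓔.n2 x := by
  have haM := 𝓔.masa.le a ha
  refine le_of_sq (mul_nonneg (norm_nonneg _) (𝓔.n2_nonneg x)) ?_
  have hT : star x * x ∈ M := mul_mem (star_mem hx) hx
  have hE := 𝓔.ce.mem _ hT
  have hE0 := 𝓔.ce.nonneg _ hT (star_mul_self_nonneg x)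
  obtain ⟨s, hsA, hs, hss⟩ : ∃ s ∈ A, IsSelfAdjoint s ∧ star s * s = 𝓔.E (star x * x) := by
    refine ⟨cfc Real.sqrt (𝓔.E (star x * x)), R124.cfc_mem _ hE, cfc_predicate _ _, ?_⟩
    rw [(cfc_predicate Real.sqrt (𝓔.E (star x * x)) : IsSelfAdjoint _).star_eq, ← cfc_mul _ _ _]
    conv_rhs => rw [← cfc_id' ℝ _ (IsSelfAdjoint.of_nonneg hE0)]
    exact cfc_congr fun t ht => Real.mul_self_sqrt (spectrum_nonneg_of_nonneg hE0 ht)
  have h1 : 𝓔.n2 (x * a) ^ 2 = 𝓔.n2 (a * s) ^ 2 := by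
    rw [𝓔.n2_sq (mul_mem hx haM), 𝓔.n2_sq (mul_mem haM (𝓔.masa.le s hsA)),
      ← 𝓔.ψ_E _ (mul_mem (star_mem (mul_mem hx haM)) (mul_mem hx haM))]
    have e1 : star (x * a) * (x * a) = star a * (star x * x * a) := by
      simp only [star_mul, mul_assoc]
    rw [e1, 𝓔.ce.left _ (star_mem ha) _ (mul_mem hT haM), 𝓔.ce.right _ ha _ hT, ← hss,
      𝓔.masa.comm a ha s hsA]
    simp only [star_mul, mul_assoc]
  have h2 : 𝓔.n2 s ^ 2 = 𝓔.n2 x ^ 2 := by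
    rw [𝓔.n2_sq (𝓔.masa.le s hsA), hss, 𝓔.ψ_E _ hT, 𝓔.n2_sq hx]
  rw [h1, mul_pow, ← h2, ← mul_pow]
  exact pow_le_pow_left₀ (𝓔.n2_nonneg _) (𝓔.n2_mul_left haM (𝓔.masa.le s hsA)) 2

theorem n2_le_norm {x : Op H} (hx : x ∈ M) : 𝓔.n2 x ≤ ‖x‖ * Real.sqrt (𝓔.ψ 1).re := by
  have := 𝓔.n2_mul_left hx (one_mem M)
  rwa [mul_one, n2, n2, star_one, mul_one] at this

theorem norm_ψ_le {x : Op H} (hx : x ∈ M) : ‖𝓔.ψ x‖ ≤ ‖x‖ * (𝓔.ψ 1).re := by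
  have h1 := 𝓔.cs (one_mem M) hx
  rw [star_one, one_mul] at h1
  have h2 := 𝓔.n2_le_norm hx
  have h3 : 𝓔.n2 1 = Real.sqrt (𝓔.ψ 1).re := by rw [n2, star_one, mul_one]
  have h4 := Real.mul_self_sqrt (𝓔.re_ψ_nonneg (one_mem M) zero_le_one)
  calc ‖𝓔.ψ x‖ ≤ Real.sqrt (𝓔.ψ 1).re * (‖x‖ * Real.sqrt (𝓔.ψ 1).re) :=
        h1.trans (by rw [h3]; exact mul_le_mul_of_nonneg_left h2 (Real.sqrt_nonneg _))
    _ = ‖x‖ * (𝓔.ψ 1).re := by rw [mul_left_comm, h4]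

theorem n2_star_of_mem {a : Op H} (ha : a ∈ A) : 𝓔.n2 (star a) = 𝓔.n2 a := by
  rw [n2, n2, star_star, 𝓔.masa.comm a ha _ (star_mem ha)]

theorem n2_E_le {x : Op H} (hx : x ∈ M) : 𝓔.n2 (𝓔.E x) ≤ 𝓔.n2 x := by
  have hE := 𝓔.ce.mem x hx
  have h1 : 𝓔.ψ (star (𝓔.E x) * 𝓔.E x) = 𝓔.ψ (star (𝓔.E x) * x) := by
    rw [← 𝓔.ce.left _ (star_mem hE) x hx, 𝓔.ψ_E _ (mul_mem (star_mem (𝓔.E_mem hx)) hx)]
  have h2 : 𝓔.n2 (𝓔.E x) ^ 2 ≤ 𝓔.n2 (𝓔.E x) * 𝓔.n2 x := by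
    rw [𝓔.n2_sq (𝓔.E_mem hx), h1]
    exact (Complex.re_le_norm _).trans (𝓔.cs (𝓔.E_mem hx) hx)
  have := 𝓔.n2_nonneg (𝓔.E x)
  have := 𝓔.n2_nonneg x
  nlinarith

/-- Pythagoras. -/
theorem n2_add_sq {x y : Op H} (hx : x ∈ M) (hy : y ∈ M) (h : 𝓔.ψ (star x * y) = 0) :
    𝓔.n2 (x + y) ^ 2 = 𝓔.n2 x ^ 2 + 𝓔.n2 y ^ 2 := by
  rw [𝓔.n2_add_sq' hx hy, h]; simp

/-- `E x` is determined by `a ↦ ψ (a * x)`. -/
theorem E_eq {x c : Op H} (hx : x ∈ M) (hc : c ∈ A) (h : ∀ a ∈ A, 𝓔.ψ (a * x) = 𝓔.ψ (a * c)) :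
    𝓔.E x = c := by
  have hd : 𝓔.E x - c ∈ A := sub_mem (𝓔.ce.mem x hx) hc
  rw [← sub_eq_zero]
  refine 𝓔.faith _ (𝓔.masa.le _ hd) ?_
  rw [mul_sub, map_sub, ← h _ (star_mem hd), ← 𝓔.ce.left _ (star_mem hd) x hx,
    𝓔.ψ_E _ (mul_mem (star_mem (𝓔.masa.le _ hd)) hx), sub_self]

theorem _root_.Crest.Agent.R109.exists_wLim' {α : Type*} (U : Ultrafilter α) (x : α → Op H)
    {C : ℝ} (hx : ∀ᶠ i in (U : Filter α), ‖x i‖ ≤ C) : ∃ y, WLim (U : Filter α) x y := by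
  classical
  obtain ⟨y, hy⟩ := exists_wLim U (fun i => if ‖x i‖ ≤ C then x i else 0) (C := max C 0)
    fun i => by
      split_ifs with h
      · exact h.trans (le_max_left _ _)
      · simp
  exact ⟨y, hy.congr' (hx.mono fun i hi => by simp [hi])⟩

theorem _root_.Crest.Agent.R109.WLim.sub {α : Type*} {l : Filter α} {x x' : α → Op H}
    {y y' : Op H} (h : WLim l x y) (h' : WLim l x' y') :
    WLim l (fun i => x i - x' i) (y - y') := by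
  have := h.add (h'.smul (-1))
  simpa [sub_eq_add_neg] using this

theorem _root_.Crest.Agent.R109.WLim.mono {α : Type*} {l l' : Filter α} {x : α → Op H}
    {y : Op H} (h : WLim l x y) (hl : l' ≤ l) : WLim l' x y := fun ξ η => (h ξ η).mono_left hl

theorem E_wLim {α : Type*} {l : Filter α} {x : α → Op H} {y : Op H} {C : ℝ}
    (hx : ∀ᶠ i in l, x i ∈ M ∧ ‖x i‖ ≤ C) (hy : y ∈ M) (h : WLim l x y) :
    WLim l (fun i => 𝓔.E (x i)) (𝓔.E y) := by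
  intro ξ η
  refine tendsto_iff_ultrafilter _ _ _ |>.2 fun U hU => ?_
  have hx' := hU hx
  obtain ⟨c, hc⟩ := exists_wLim' U (fun i => 𝓔.E (x i)) (C := C)
    (Filter.Eventually.mono hx' fun i hi => (𝓔.ce.norm_le _ hi.1).trans hi.2)
  have hcA : c ∈ A := hc.mem (Filter.Eventually.mono hx' fun i hi => 𝓔.ce.mem _ hi.1)
  have : 𝓔.E y = c := 𝓔.E_eq hy hcA fun a ha => by
    have haM := 𝓔.masa.le a ha
    have t1 := 𝓔.normal.tendsto (C := ‖a‖ * C) (Filter.Eventually.mono hx' fun i hi =>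
      ⟨mul_mem haM hi.1, (norm_mul_le _ _).trans
        (mul_le_mul_of_nonneg_left hi.2 (norm_nonneg _))⟩) (mul_mem haM hy)
      ((h.mono hU).mul_left a)
    have t2 := 𝓔.normal.tendsto (C := ‖a‖ * C) (Filter.Eventually.mono hx' fun i hi =>
      ⟨mul_mem haM (𝓔.E_mem hi.1), (norm_mul_le _ _).trans
        (mul_le_mul_of_nonneg_left ((𝓔.ce.norm_le _ hi.1).trans hi.2) (norm_nonneg _))⟩)
      (mul_mem haM (𝓔.masa.le c hcA)) (hc.mul_left a)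
    refine tendsto_nhds_unique t1 (t2.congr' (Filter.Eventually.mono hx' fun i hi => ?_))
    change 𝓔.ψ (a * 𝓔.E (x i)) = 𝓔.ψ (a * x i)
    rw [← 𝓔.ce.left a ha _ hi.1, 𝓔.ψ_E _ (mul_mem haM hi.1)]
  rw [this]
  exact hc ξ η

/-- Markov. -/
theorem markov {x : Op H} (hx : x ∈ M) (h : 0 ≤ x) {t : ℝ} (ht : 0 < t) :
    (𝓔.ψ (R124.sp x t)).re ≤ (𝓔.ψ x).re / t := by
  have hsa := IsSelfAdjoint.of_nonneg h
  have hp := R124.sp_mem hsa hx t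
  have h1 := R124.smul_sp_le hsa t
  have h2 : x * R124.sp x t ≤ x := by
    have := R124.nonneg_mul_proj h (R124.sp_proj x t).one_sub (by
      rw [mul_sub, sub_mul, mul_one, one_mul, R124.sp_comm hsa rfl t])
    rwa [mul_sub, mul_one, sub_nonneg] at this
  have h3 := 𝓔.re_ψ_mono (R124.rsmul_mem t hp) hx (h1.trans h2)
  rw [ψ_rsmul, Complex.re_ofReal_mul] at h3
  rw [le_div_iff₀ ht]; linarith

variable [Fintype ι]

theorem E_EP {p : ι → Op H} (hp : Part A p) {x : Op H} (hx : x ∈ M) : 𝓔.E (EP p x) = 𝓔.E x := by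
  have h1 : ∀ i, 𝓔.E (p i * x * p i) = p i * 𝓔.E x := fun i => by
    rw [𝓔.ce.right _ (hp.mem i) _ (mul_mem (𝓔.masa.le _ (hp.mem i)) hx),
      𝓔.ce.left _ (hp.mem i) x hx, mul_assoc, 𝓔.masa.comm _ (𝓔.ce.mem x hx) _ (hp.mem i),
      ← mul_assoc, (hp.proj i).isIdempotentElem.eq]
  rw [EP, map_sum]
  simp only [h1]
  rw [← Finset.sum_mul, hp.sum, one_mul]

theorem ψ_EP {p : ι → Op H} (hp : Part A p) {x : Op H} (hx : x ∈ M) : 𝓔.ψ (EP p x) = 𝓔.ψ x := by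
  rw [← 𝓔.ψ_E _ (EP_mem 𝓔.masa hp hx), 𝓔.E_EP hp hx, 𝓔.ψ_E _ hx]

omit [CompleteSpace H] in
theorem _root_.Crest.Agent.R109.EP_mul_EP [CompleteSpace H] {p : ι → Op H} (hp : Part0 p)
    (x y : Op H) : EP p (EP p x * y) = EP p x * EP p y := by
  have h1 := EP_comm hp hp (Ref.refl p hp.proj) x
  conv_lhs => rw [EP]
  conv_rhs => rw [EP.eq_1 p y, Finset.mul_sum]
  refine Finset.sum_congr rfl fun i _ => ?_
  rw [← mul_assoc, h1 i]
  simp only [mul_assoc]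

theorem ψ_EP_mul {p : ι → Op H} (hp : Part A p) {x y : Op H} (hx : x ∈ M) (hy : y ∈ M) :
    𝓔.ψ (star (EP p x) * y) = 𝓔.ψ (star (EP p x) * EP p y) := by
  rw [star_EP hp.toPart0, ← EP_mul_EP hp.toPart0,
    𝓔.ψ_EP hp (mul_mem (EP_mem 𝓔.masa hp (star_mem hx)) hy)]

theorem n2_EP_le {p : ι → Op H} (hp : Part A p) {x : Op H} (hx : x ∈ M) :
    𝓔.n2 (EP p x) ≤ 𝓔.n2 x := by
  have hE := EP_mem 𝓔.masa hp hx
  have h2 : 𝓔.n2 (EP p x) ^ 2 ≤ 𝓔.n2 (EP p x) * 𝓔.n2 x := by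
    rw [𝓔.n2_sq hE, ← 𝓔.ψ_EP_mul hp hx hx]
    exact (Complex.re_le_norm _).trans (𝓔.cs hE hx)
  have := 𝓔.n2_nonneg (EP p x)
  have := 𝓔.n2_nonneg x
  nlinarith

theorem ac_aux {x : ℕ → Op H} {C : ℝ} (hx : ∀ n, x n ∈ M ∧ ‖x n‖ ≤ C)
    (h : ∀ n : ℕ, 𝓔.n2 (x n) ≤ 1 / ((n : ℝ) + 1)) :
    WLim (hyperfilter ℕ : Filter ℕ) (fun n => star (x n) * x n) 0 := by
  have hb : ∀ n, star (x n) * x n ∈ M ∧ ‖star (x n) * x n‖ ≤ C * C := fun n =>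
    ⟨mul_mem (star_mem (hx n).1) (hx n).1, by
      rw [CStarRing.norm_star_mul_self]
      exact mul_self_le_mul_self (norm_nonneg _) (hx n).2⟩
  obtain ⟨T, hT⟩ := exists_wLim (hyperfilter ℕ) _ fun n => (hb n).2
  have hTM : T ∈ M := hT.mem (Filter.Eventually.of_forall fun n => (hb n).1)
  have t1 := 𝓔.normal.tendsto (Filter.Eventually.of_forall hb) hTM hT
  have t2 : Tendsto (fun n => (𝓔.ψ (star (x n) * x n)).re) (hyperfilter ℕ : Filter ℕ) (𝓝 0) := by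
    have h0 : Tendsto (fun n => 𝓔.n2 (x n)) atTop (𝓝 0) :=
      squeeze_zero (fun n => 𝓔.n2_nonneg _) h tendsto_one_div_add_atTop_nhds_zero_nat
    have h1 := (h0.pow 2).mono_left (Nat.hyperfilter_le_atTop)
    simp only [ne_eq, OfNat.ofNat_ne_zero, not_false_eq_true, zero_pow] at h1
    exact h1.congr fun n => 𝓔.n2_sq (hx n).1
  have h0 : (𝓔.ψ T).re = 0 := tendsto_nhds_unique ((Complex.continuous_re.tendsto _).comp t1) t2
  rwa [𝓔.eq_zero_of_nonneg hTM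
    (hT.nonneg (Filter.Eventually.of_forall fun n => star_mul_self_nonneg _)) h0.le] at hT

/-- By contradiction: `T n = (x n)* (x n)` has a weak ultralimit `T ≥ 0` with `ψ T = 0`. -/
theorem ac_vec (ξ : H) (C : ℝ) {ε : ℝ} (hε : 0 < ε) :
    ∃ δ : ℝ, 0 < δ ∧ ∀ x ∈ M, ‖x‖ ≤ C → 𝓔.n2 x ≤ δ → ‖x ξ‖ ≤ ε := by
  by_contra hc
  push Not at hc
  choose x hxM hxC hx2 hxε using fun n : ℕ => hc (1 / ((n : ℝ) + 1)) (by positivity)
  have h := 𝓔.ac_aux (fun n => ⟨hxM n, hxC n⟩) hx2 ξ ξ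
  have h1 := (Complex.continuous_re.tendsto _).comp h
  simp only [ContinuousLinearMap.zero_apply, inner_zero_right, Complex.zero_re] at h1
  have h2 : ε ^ 2 ≤ 0 := ge_of_tendsto' h1 fun n => by
    change ε ^ 2 ≤ (⟪ξ, (star (x n)) (x n ξ)⟫_ℂ).re
    rw [ContinuousLinearMap.star_eq_adjoint, ContinuousLinearMap.adjoint_inner_right,
      inner_self_eq_norm_sq_to_K]
    norm_cast
    exact pow_le_pow_left₀ hε.le (hxε n).le 2
  nlinarith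

theorem ac_mul {y : Op H} (hy : y ∈ M) (C : ℝ) {ε : ℝ} (hε : 0 < ε) :
    ∃ δ : ℝ, 0 < δ ∧ ∀ x ∈ M, ‖x‖ ≤ C → 𝓔.n2 x ≤ δ → 𝓔.n2 (x * y) ≤ ε := by
  by_contra hc
  push Not at hc
  choose x hxM hxC hx2 hxε using fun n : ℕ => hc (1 / ((n : ℝ) + 1)) (by positivity)
  have h := ((𝓔.ac_aux (fun n => ⟨hxM n, hxC n⟩) hx2).mul_right y).mul_left (star y)
  rw [zero_mul, mul_zero] at h
  have t1 := 𝓔.normal.tendsto (C := ‖star y‖ * (C * C * ‖y‖))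
    (Filter.Eventually.of_forall fun n => ⟨mul_mem (star_mem hy)
      (mul_mem (mul_mem (star_mem (hxM n)) (hxM n)) hy), (norm_mul_le _ _).trans
        (mul_le_mul_of_nonneg_left ((norm_mul_le _ _).trans (mul_le_mul_of_nonneg_right (by
          rw [CStarRing.norm_star_mul_self]
          exact mul_self_le_mul_self (norm_nonneg _) (hxC n)) (norm_nonneg _)))
          (norm_nonneg _))⟩) (zero_mem M) h
  have h1 := (Complex.continuous_re.tendsto _).comp t1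
  simp only [map_zero, Complex.zero_re] at h1
  have h2 : ε ^ 2 ≤ 0 := ge_of_tendsto' h1 fun n => by
    have := 𝓔.n2_sq (mul_mem (hxM n) hy)
    simp only [star_mul, mul_assoc] at this
    simp only [Function.comp, mul_assoc]
    rw [← this]
    exact pow_le_pow_left₀ hε.le (hxε n).le 2
  nlinarith

/-- Strong convergence of a bounded family implies convergence in the 2-norm. -/
theorem n2_tendsto {α : Type*} {l : Filter α} {x : α → Op H} {C : ℝ}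
    (hx : ∀ᶠ i in l, x i ∈ M ∧ ‖x i‖ ≤ C) (h : ∀ ξ, Tendsto (fun i => x i ξ) l (𝓝 0)) :
    Tendsto (fun i => 𝓔.n2 (x i)) l (𝓝 0) := by
  have h1 : WLim l (fun i => star (x i) * x i) 0 := fun ξ η => by
    have := (h ξ).inner (𝕜 := ℂ) (h η)
    simp only [inner_zero_right] at this
    simp only [ContinuousLinearMap.zero_apply, inner_zero_right]
    refine this.congr fun i => ?_
    change _ = ⟪ξ, (star (x i)) (x i η)⟫_ℂ
    rw [ContinuousLinearMap.star_eq_adjoint, ContinuousLinearMap.adjoint_inner_right]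
  have t1 := 𝓔.normal.tendsto (C := C * C) (hx.mono fun i hi =>
    ⟨mul_mem (star_mem hi.1) hi.1, by
      rw [CStarRing.norm_star_mul_self]
      exact mul_self_le_mul_self (norm_nonneg _) hi.2⟩) (zero_mem M) h1
  have t2 := ((Complex.continuous_re.tendsto _).comp t1).sqrt
  simpa [n2] using t2

/-- Lower semicontinuity of the 2-norm (Cauchy-Schwarz and normality). -/
theorem n2_le_of_wLim {α : Type*} {l : Filter α} [l.NeBot] {x : α → Op H} {y : Op H} {C c : ℝ}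
    (hx : ∀ᶠ i in l, x i ∈ M ∧ ‖x i‖ ≤ C) (h : WLim l x y) (hc : ∀ᶠ i in l, 𝓔.n2 (x i) ≤ c) :
    𝓔.n2 y ≤ c := by
  have hy : y ∈ M := h.mem (hx.mono fun i hi => hi.1)
  have hc0 : 0 ≤ c := by
    obtain ⟨i, hi⟩ := hc.exists
    exact (𝓔.n2_nonneg _).trans hi
  have t1 := 𝓔.normal.tendsto (C := ‖star y‖ * C) (hx.mono fun i hi =>
    ⟨mul_mem (star_mem hy) hi.1, (norm_mul_le _ _).trans
      (mul_le_mul_of_nonneg_left hi.2 (norm_nonneg _))⟩) (mul_mem (star_mem hy) hy)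
    (h.mul_left (star y))
  have h1 : 𝓔.n2 y ^ 2 ≤ 𝓔.n2 y * c := by
    rw [𝓔.n2_sq hy]
    refine le_of_tendsto ((Complex.continuous_re.tendsto _).comp t1) ?_
    filter_upwards [hx, hc] with i hi hi'
    exact (Complex.re_le_norm _).trans ((𝓔.cs hy hi.1).trans
      (mul_le_mul_of_nonneg_left hi' (𝓔.n2_nonneg _)))
  have := 𝓔.n2_nonneg y
  nlinarith

theorem exists_lim {x : ℕ → Op H} {C : ℝ} (hx : ∀ n, x n ∈ M ∧ ‖x n‖ ≤ C)
    (hsa : ∀ n, IsSelfAdjoint (x n))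
    (hc : ∀ ε : ℝ, 0 < ε → ∃ N, ∀ m ≥ N, ∀ n ≥ N, 𝓔.n2 (x m - x n) ≤ ε) :
    ∃ y ∈ M, ‖y‖ ≤ C ∧ IsSelfAdjoint y ∧ ∀ ε : ℝ, 0 < ε → ∃ N, ∀ n ≥ N, 𝓔.n2 (x n - y) ≤ ε := by
  obtain ⟨y, hy⟩ := exists_wLim (hyperfilter ℕ) x fun n => (hx n).2
  refine ⟨y, hy.mem (Filter.Eventually.of_forall fun n => (hx n).1),
    hy.norm_le (Filter.Eventually.of_forall fun n => (hx n).2), ?_, fun ε hε => ?_⟩
  · exact (hy.star.congr' (Filter.Eventually.of_forall fun n => (hsa n).star_eq)).unique hy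
  · obtain ⟨N, hN⟩ := hc ε hε
    refine ⟨N, fun n hn => 𝓔.n2_le_of_wLim (C := C + C) (Filter.Eventually.of_forall fun m =>
      ⟨sub_mem (hx n).1 (hx m).1, (norm_sub_le _ _).trans (add_le_add (hx n).2 (hx m).2)⟩)
      ((wLim_const _ (x n)).sub hy) ?_⟩
    exact Nat.hyperfilter_le_atTop ((eventually_ge_atTop N).mono fun m hm => hN n hn m hm)

theorem n2_EP_sub {κ : Type*} [Fintype κ] {p : ι → Op H} {q : κ → Op H} (hp : Part A p)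
    (hq : Part A q) (h : Ref p q) {x : Op H} (hx : x ∈ M) :
    𝓔.n2 (EP p x - EP q x) ^ 2 = 𝓔.n2 (EP p x) ^ 2 - 𝓔.n2 (EP q x) ^ 2 := by
  have h1 := EP_mem 𝓔.masa hp hx
  have h2 := EP_mem 𝓔.masa hq hx
  have h3 := 𝓔.n2_add_sq h2 (sub_mem h1 h2) (by
    rw [mul_sub, map_sub, 𝓔.ψ_EP_mul hq hx h1, EP_EP hp.toPart0 hq.toPart0 h, sub_self])
  rw [add_sub_cancel] at h3
  linarith

/-- `n2 (EP p x)` decreases under refinement with Pythagoras (`EP_EP`), so the net is Cauchy; its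
weak ultralimit (`exists_ce`) lies in `A` and equals `E x` (`E_eq`). -/
theorem EP_approx {x : Op H} (hx : x ∈ M) {ε : ℝ} (hε : 0 < ε) :
    ∃ (n : ℕ) (p : Fin n → Op H), Part A p ∧ ∀ (m : ℕ) (q : Fin m → Op H), Part A q → Ref p q →
      𝓔.n2 (EP q x - 𝓔.E x) ≤ ε := by
  obtain ⟨E', U, hE', hU, hlim⟩ := exists_ce 𝓔.masa
  have hb : ∀ P : PT A, EP P.2.1 x ∈ M ∧ ‖EP P.2.1 x‖ ≤ ‖x‖ := fun P =>
    ⟨EP_mem 𝓔.masa P.2.2 hx, norm_EP_le P.2.2.toPart0 x⟩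
  have hEE : E' x = 𝓔.E x := by
    have h1 := 𝓔.E_wLim (Filter.Eventually.of_forall hb) (𝓔.masa.le _ (hE'.mem x hx)) (hlim x)
    rw [𝓔.E_of_mem (hE'.mem x hx)] at h1
    exact h1.unique ((wLim_const _ _).congr'
      (Filter.Eventually.of_forall fun P => (𝓔.E_EP P.2.2 hx).symm))
  haveI : Nonempty (PT A) := ⟨⟨1, _, part_one A⟩⟩
  have hbdd : BddBelow (Set.range fun P : PT A => 𝓔.n2 (EP P.2.1 x) ^ 2) :=
    ⟨0, by rintro _ ⟨P, rfl⟩; exact sq_nonneg _⟩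
  obtain ⟨P₀, hP₀⟩ := exists_lt_of_ciInf_lt
    (lt_add_of_pos_right (⨅ P : PT A, 𝓔.n2 (EP P.2.1 x) ^ 2) (pow_pos hε 2))
  refine ⟨P₀.1, P₀.2.1, P₀.2.2, fun m q hq hr => ?_⟩
  rw [← hEE]
  refine 𝓔.n2_le_of_wLim (C := ‖x‖ + ‖x‖) (Filter.Eventually.of_forall fun P =>
    ⟨sub_mem (EP_mem 𝓔.masa hq hx) (hb P).1,
      (norm_sub_le _ _).trans (add_le_add (norm_EP_le hq.toPart0 x) (hb P).2)⟩)
    ((wLim_const _ (EP q x)).sub (hlim x)) ?_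
  filter_upwards [hU ⟨m, q, hq⟩] with P hP
  refine le_of_sq hε.le ?_
  have h1 := 𝓔.n2_EP_sub hq P.2.2 hP hx
  have h2 := 𝓔.n2_EP_sub P₀.2.2 hq hr hx
  have h3 := ciInf_le hbdd P
  have h4 := sq_nonneg (𝓔.n2 (EP P₀.2.1 x - EP q x))
  linarith

end Nce

end Crest.Agent.R109
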