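import Crest.Agent.R109.Gr0
import Crest.Agent.R124.Basic
import Crest.Agent.R124.Mat
import Crest.Agent.R124.SimAux1

/-! Row 109: definitions of the von Neumann algebra layer. -/

set_option autoImplicit false

open scoped InnerProductSpace ComplexOrder
open Filter Topology MeasureTheory

namespace Crest.Agent.R109

/-- Bounded operators. -/
abbrev Op (H : Type*) [NormedAddCommGroup H] [InnerProductSpace ℂ H] := H →L[ℂ] H

variable {H : Type*} [NormedAddCommGroup H] [InnerProductSpace ℂ H] [CompleteSpace H]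

/-- Maximal abelian subalgebra. -/
structure Masa (M A : VonNeumannAlgebra H) : Prop where
  le : ∀ a ∈ A, a ∈ M
  comm : ∀ a ∈ A, ∀ b ∈ A, a * b = b * a
  max : ∀ y ∈ M, (∀ a ∈ A, a * y = y * a) → y ∈ A

/-- Partition of unity by projections. -/
structure Part0 {ι : Type*} [Fintype ι] (p : ι → Op H) : Prop where
  proj : ∀ i, IsStarProjection (p i)
  orth : ∀ i j, i ≠ j → p i * p j = 0
  sum : ∑ i, p i = 1

/-- Partition of unity by projections of `A`. -/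
structure Part (A : VonNeumannAlgebra H) {ι : Type*} [Fintype ι] (p : ι → Op H) : Prop
    extends Part0 p where
  mem : ∀ i, p i ∈ A

/-- `q` refines `p`. -/
def Ref {ι κ : Type*} (p : ι → Op H) (q : κ → Op H) : Prop := ∀ k, ∃ i, q k * p i = q k

/-- Compression along a partition. -/
noncomputable def EP {ι : Type*} [Fintype ι] (p : ι → Op H) (x : Op H) : Op H :=
  ∑ i, p i * x * p i

/-- The partitions of `A`. -/
def PT (A : VonNeumannAlgebra H) : Type _ := Σ n : ℕ, {p : Fin n → Op H // Part A p}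

/-- Weak operator convergence. -/
def WLim {ι : Type*} (l : Filter ι) (x : ι → Op H) (y : Op H) : Prop :=
  ∀ ξ η : H, Tendsto (fun i => ⟪ξ, x i η⟫_ℂ) l (𝓝 ⟪ξ, y η⟫_ℂ)

/-- `ψ` is weakly continuous on the bounded subsets of `M`. -/
def Normal (M : VonNeumannAlgebra H) (ψ : Op H →ₗ[ℂ] ℂ) : Prop :=
  ∀ (l : Filter (Op H)) (C : ℝ) (y : Op H), (∀ᶠ x in l, x ∈ M ∧ ‖x‖ ≤ C) → y ∈ M →
    WLim l id y → Tendsto ψ l (𝓝 (ψ y))

/-- A conditional expectation of `M` onto `A`. -/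
structure IsCE (M A : VonNeumannAlgebra H) (E : Op H →ₗ[ℂ] Op H) : Prop where
  mem : ∀ x ∈ M, E x ∈ A
  left : ∀ a ∈ A, ∀ x ∈ M, E (a * x) = a * E x
  right : ∀ a ∈ A, ∀ x ∈ M, E (x * a) = E x * a
  one : E 1 = 1
  nonneg : ∀ x ∈ M, 0 ≤ x → 0 ≤ E x
  map_star : ∀ x ∈ M, E (star x) = star (E x)
  norm_le : ∀ x ∈ M, ‖E x‖ ≤ ‖x‖

/-- A conditional expectation preserving a faithful normal positive functional. -/
structure Nce (M A : VonNeumannAlgebra H) where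
  masa : Masa M A
  E : Op H →ₗ[ℂ] Op H
  ce : IsCE M A E
  ψ : Op H →ₗ[ℂ] ℂ
  pos : ∀ x ∈ M, 0 ≤ x → 0 ≤ ψ x
  ψ_E : ∀ x ∈ M, ψ (E x) = ψ x
  faith : ∀ x ∈ M, ψ (star x * x) = 0 → x = 0
  normal : Normal M ψ

variable {M A : VonNeumannAlgebra H}

/-- The 2-norm. -/
noncomputable def Nce.n2 (𝓔 : Nce M A) (x : Op H) : ℝ := Real.sqrt (𝓔.ψ (star x * x)).re

/-- Partial isometries normalising `A`. -/
structure Nor (M A : VonNeumannAlgebra H) (v : Op H) : Prop where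
  mem : v ∈ M
  pi : R124.PI v
  out : ∀ a ∈ A, v * a * star v ∈ A
  inn : ∀ a ∈ A, star v * a * v ∈ A

/-- Normalisers with bounded Radon-Nikodym derivatives. -/
structure Nce.BN (𝓔 : Nce M A) (K : ℝ) (v : Op H) : Prop extends Nor M A v where
  out_le : ∀ a ∈ A, 0 ≤ a → (𝓔.ψ (v * a * star v)).re ≤ K * (𝓔.ψ a).re
  inn_le : ∀ a ∈ A, 0 ≤ a → (𝓔.ψ (star v * a * v)).re ≤ K * (𝓔.ψ a).re

/-- Normalising symmetries with bounded Radon-Nikodym derivative. -/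
structure Nce.Inv (𝓔 : Nce M A) (K : ℝ) (u : Op H) : Prop where
  mem : u ∈ M
  sa : star u = u
  sq : u * u = 1
  nor : ∀ a ∈ A, u * a * u ∈ A
  le : ∀ a ∈ A, 0 ≤ a → (𝓔.ψ (u * a * u)).re ≤ K * (𝓔.ψ a).re

/-- Orthogonal to all normalisers. -/
def Nce.Perp (𝓔 : Nce M A) (b : Op H) : Prop := ∀ v, Nor M A v → 𝓔.E (star v * b) = 0

/-- The span of the bounded normalisers. -/
def Nce.N0 (𝓔 : Nce M A) : Submodule ℂ (Op H) := Submodule.span ℂ {v | ∃ K, 𝓔.BN K v}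

/-- A representation of `M` in which `ψ` is a vector functional. -/
structure IsRep (M : VonNeumannAlgebra H) (ψ : Op H →ₗ[ℂ] ℂ) {K : Type*} [NormedAddCommGroup K]
    [InnerProductSpace ℂ K] [CompleteSpace K] (π : Op H → Op K) (ξ : K) : Prop where
  add : ∀ x ∈ M, ∀ y ∈ M, π (x + y) = π x + π y
  smul : ∀ (c : ℂ), ∀ x ∈ M, π (c • x) = c • π x
  mul : ∀ x ∈ M, ∀ y ∈ M, π (x * y) = π x * π y
  map_star : ∀ x ∈ M, π (star x) = star (π x)
  one : π 1 = 1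
  norm_le : ∀ x ∈ M, ‖π x‖ ≤ ‖x‖
  mono : ∀ x ∈ M, ∀ y ∈ M, x ≤ y → π x ≤ π y
  inner : ∀ x ∈ M, ⟪ξ, π x ξ⟫_ℂ = ψ x

section RC
variable {ι Λ : Type*} [Fintype ι] [DecidableEq ι] [Fintype Λ] [DecidableEq Λ] {r : ℕ}

/-- A random colouring subordinate to the partition `e`. -/
structure IsRC (e : ι → Op H) (D : ℕ) (qq : ι × ((ι → Λ) → Option (Fin r)) → Op H) : Prop where
  part : Part0 qq
  le : ∀ a f, qq (a, f) * e a = qq (a, f)
  junta : ∀ a f, qq (a, f) ≠ 0 → Junta D f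
  own : ∀ a f, qq (a, f) ≠ 0 → Own a f

/-- The projection of colour `o` for the labels `ω`. -/
noncomputable def pc (qq : ι × ((ι → Λ) → Option (Fin r)) → Op H) (ω : ι → Λ)
    (o : Option (Fin r)) : Op H := ∑ af ∈ Finset.univ.filter (fun af => af.2 ω = o), qq af

/-- The compression of `x` along the colours. -/
noncomputable def Zc (qq : ι × ((ι → Λ) → Option (Fin r)) → Op H) (ω : ι → Λ) (x : Op H) : Op H :=
  ∑ i : Fin r, pc qq ω (some i) * x * pc qq ω (some i)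

/-- The sum that `tame` bounds. -/
noncomputable def Ysum (e : ι → Op H) (ρ : ι → ι → Prop) [DecidableRel ρ] (x : Op H)
    (S : Finset ι) : Op H :=
  ∑ a ∈ S, ∑ b ∈ S.filter (fun b => ρ a b), e b * x * e a * x * e b

end RC

/-- The spectrum of `A` with the measure of `ψ`. -/
structure Spec (𝓔 : Nce M A) (X : Type*) [MeasurableSpace X] where
  μ : Measure X
  fin : IsFiniteMeasure μ
  ev : Op H → X → ℂ
  add : ∀ a ∈ A, ∀ b ∈ A, ∀ x, ev (a + b) x = ev a x + ev b x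
  smul : ∀ (c : ℂ), ∀ a ∈ A, ∀ x, ev (c • a) x = c * ev a x
  mul : ∀ a ∈ A, ∀ b ∈ A, ∀ x, ev (a * b) x = ev a x * ev b x
  map_star : ∀ a ∈ A, ∀ x, ev (star a) x = (starRingEnd ℂ) (ev a x)
  one : ∀ x, ev 1 x = 1
  norm_le : ∀ a ∈ A, ∀ x, ‖ev a x‖ ≤ ‖a‖
  nonneg : ∀ a ∈ A, 0 ≤ a → ∀ x, 0 ≤ ev a x
  meas : ∀ a ∈ A, Measurable (ev a)
  integral : ∀ a ∈ A, ∫ x, ev a x ∂μ = 𝓔.ψ a
  ext : ∀ x y, (∀ a ∈ A, ev a x = ev a y) → x = y
  conj : ∀ u ∈ M, star u = u → u * u = 1 → (∀ a ∈ A, u * a * u ∈ A) →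
    ∃ φ : X → X, Measurable φ ∧ ∀ a ∈ A, ∀ x, ev a (φ x) = ev (u * a * u) x
  gen : ‹MeasurableSpace X› = MeasurableSpace.generateFrom
    {B | ∃ p ∈ A, IsStarProjection p ∧ B = {x | ev p x = 1}}

/-- The clopen set of a projection. -/
def Spec.β {𝓔 : Nce M A} {X : Type*} [MeasurableSpace X] (S : Spec 𝓔 X) (p : Op H) : Set X :=
  {x | S.ev p x = 1}

/-- The unitary of a word. -/
def uw {G : Type*} (u : G → Op H) (w : List G) : Op H := (w.map u).prod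

/-- The measured data before removing the null sets. -/
structure PreModel (G X : Type*) [MeasurableSpace X] where
  φ : G → X → X
  invol : ∀ g x, φ g (φ g x) = x
  meas : ∀ g, Measurable (φ g)
  μ : Measure X
  fin : IsFiniteMeasure μ
  K : ℝ
  one_le : 1 ≤ K
  quasi : ∀ g S, MeasurableSet S → μ.real (φ g ⁻¹' S) ≤ K * μ.real S
  𝓑 : Set (Set X)
  alg : IsSetAlgebra 𝓑
  meas_𝓑 : ∀ B ∈ 𝓑, MeasurableSet B
  dense : ∀ S, MeasurableSet S → ∀ ε : ℝ, 0 < ε → ∃ B ∈ 𝓑, μ.real (symmDiff S B) ≤ ε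
  pre : ∀ g, ∀ B ∈ 𝓑, φ g ⁻¹' B ∈ 𝓑
  F : List G → Set X
  F_mem : ∀ w, F w ∈ 𝓑
  F_fix : ∀ w, ∀ x ∈ F w, act φ w x = x
  sep : ∀ (w : List G) (ε : ℝ), 0 < ε → ∃ (n : ℕ) (lab : X → Fin n), Fib 𝓑 lab ∧
    μ.real {x | x ∉ F w ∧ lab (act φ w x) = lab x} ≤ ε
  m : List G → List G → X → ℂ
  meas_m : ∀ w w', Measurable (m w w')
  herm : ∀ w w' x, m w' w x = (starRingEnd ℂ) (m w w' x)
  diag : ∀ w x, m w w x = 0
  shift : ∀ w w' v x, m w w' (act φ v x) = m (w ++ v) (w' ++ v) x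
  gauge : ∀ w₁ w₂, ∀ x ∈ F (w₂.reverse ++ w₁), ∃ c : ℂ, ‖c‖ = 1 ∧ ∀ w, m w w₁ x = m w w₂ x * c
  edge : ∀ w w' x, m w w' x ≠ 0 → ∃ g, act φ w' x = φ g (act φ w x)
  bd : ∀ x (S : Finset (List G)), Set.InjOn (fun w => act φ w x) S → ∀ η : List G → ℂ,
    ‖form (fun w w' => m w w' x) S η‖ ≤ nsq S η

end Crest.Agent.R109
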