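import Crest.Agent.R109.Nor

/-! Task 109-WM: elements orthogonal to the normalisers have non-atomic kernels. -/

set_option autoImplicit false

open scoped InnerProductSpace ComplexOrder
open Filter Topology

namespace Crest.Agent.R109

variable {H : Type*} [NormedAddCommGroup H] [InnerProductSpace ℂ H] [CompleteSpace H]
variable {M A : VonNeumannAlgebra H} (𝓔 : Nce M A)

namespace Nce

/-- `ψ (∑ Φ(p i)²)`, `Φ a = E (b* a b)`. -/
noncomputable def sq2 (b : Op H) {n : ℕ} (p : Fin n → Op H) : ℝ :=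
  (𝓔.ψ (∑ i, 𝓔.E (star b * p i * b) * 𝓔.E (star b * p i * b))).re

include 𝓔 in
theorem Wm_nn {x y : Op H} (hx : x ∈ A) (hy : y ∈ A) (h : 0 ≤ x) (h' : 0 ≤ y) : 0 ≤ x * y :=
  Commute.mul_nonneg h h' (𝓔.masa.comm x hx y hy)

include 𝓔 in
theorem Wm_le {x y g : Op H} (hx : x ∈ A) (hy : y ∈ A) (hg : g ∈ A) (h : x ≤ y) (h' : 0 ≤ g) :
    x * g ≤ y * g := by
  have := 𝓔.Wm_nn (sub_mem hy hx) hg (sub_nonneg.2 h) h'
  rwa [sub_mul, sub_nonneg] at this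

include 𝓔 in
theorem Wm_sp {x g : Op H} (hx : x ∈ A) (hs : IsSelfAdjoint x) (hg : g ∈ A)
    (hp : IsStarProjection g) (h : x * g ≤ 0) : g * R124.sp x 0 = 0 := by
  have he := R124.sp_mem hs hx 0
  have hpe := R124.sp_proj x 0
  refine R124.mul_sp_eq_zero ?_
  rw [← R124.sub_mul_sp hs 0, zero_smul, sub_zero]
  have h1 : 0 ≤ x * R124.sp x 0 := by simpa using R124.smul_sp_le hs 0
  refine le_antisymm ?_ (𝓔.Wm_nn hg (mul_mem hx he) hp.nonneg h1)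
  have := 𝓔.Wm_le (mul_mem hx hg) (zero_mem A) he h hpe.nonneg
  rwa [zero_mul, 𝓔.masa.comm x hx g hg, mul_assoc] at this

/-- `Φ a = E (b* a b)`. -/
noncomputable def WmΦ (b a : Op H) : Op H := 𝓔.E (star b * a * b)

section Phi
variable {b : Op H} (hb : b ∈ M)
include hb

include 𝓔 in
theorem Wm_memM {a : Op H} (ha : a ∈ A) : star b * a * b ∈ M :=
  mul_mem (mul_mem (star_mem hb) (𝓔.masa.le a ha)) hb

theorem WmΦ_mem {a : Op H} (ha : a ∈ A) : 𝓔.WmΦ b a ∈ A := 𝓔.ce.mem _ (𝓔.Wm_memM hb ha)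

theorem WmΦ_mono {a a' : Op H} (ha : a ∈ A) (ha' : a' ∈ A) (h : a ≤ a') :
    𝓔.WmΦ b a ≤ 𝓔.WmΦ b a' :=
  𝓔.E_mono (𝓔.Wm_memM hb ha) (𝓔.Wm_memM hb ha') (star_left_conjugate_le_conjugate h b)

theorem WmΦ_nonneg {a : Op H} (ha : a ∈ A) (h : 0 ≤ a) : 0 ≤ 𝓔.WmΦ b a := by
  simpa [WmΦ] using 𝓔.WmΦ_mono hb (zero_mem A) ha h

theorem WmΦ_le {a : Op H} (ha : a ∈ A) (h : IsStarProjection a) :
    𝓔.WmΦ b a ≤ (‖b‖ * ‖b‖) • (1 : Op H) := by
  have h1 := (IsSelfAdjoint.of_nonneg (𝓔.WmΦ_nonneg hb ha h.nonneg)).le_algebraMap_norm_self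
  rw [Algebra.algebraMap_eq_smul_one] at h1
  refine h1.trans (smul_le_smul_of_nonneg_right ?_ zero_le_one)
  refine (𝓔.ce.norm_le _ (𝓔.Wm_memM hb ha)).trans ((norm_mul_le _ _).trans ?_)
  refine mul_le_mul_of_nonneg_right ((norm_mul_le _ _).trans ?_) (norm_nonneg _)
  rw [norm_star]
  exact mul_le_of_le_one_right (norm_nonneg _) (h.norm_le a)

omit hb in
theorem WmΦ_sum {ι : Type*} (s : Finset ι) (a : ι → Op H) :
    𝓔.WmΦ b (∑ i ∈ s, a i) = ∑ i ∈ s, 𝓔.WmΦ b (a i) := by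
  simp only [WmΦ, Finset.mul_sum, Finset.sum_mul, map_sum]

theorem Wm_anti {n m : ℕ} {p : Fin n → Op H} {q : Fin m → Op H} (hp : Part A p) (hq : Part A q)
    (h : Ref p q) : 𝓔.sq2 b q ≤ 𝓔.sq2 b p := by
  obtain ⟨c, h1, h2⟩ := h.exists_map hp.toPart0 hq.toPart0
  have m1 : ∀ k, 𝓔.WmΦ b (q k) ∈ A := fun k => 𝓔.WmΦ_mem hb (hq.mem k)
  have m2 : ∀ i, 𝓔.WmΦ b (p i) ∈ A := fun i => 𝓔.WmΦ_mem hb (hp.mem i)
  refine 𝓔.re_ψ_mono (𝓔.masa.le _ (sum_mem fun k _ => mul_mem (m1 k) (m1 k)))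
    (𝓔.masa.le _ (sum_mem fun i _ => mul_mem (m2 i) (m2 i))) ?_
  change ∑ k, 𝓔.WmΦ b (q k) * 𝓔.WmΦ b (q k) ≤ ∑ i, 𝓔.WmΦ b (p i) * 𝓔.WmΦ b (p i)
  have e : ∑ i, 𝓔.WmΦ b (p i) * 𝓔.WmΦ b (p i) = ∑ k, 𝓔.WmΦ b (p (c k)) * 𝓔.WmΦ b (q k) := by
    rw [← Finset.sum_fiberwise Finset.univ c]
    refine Finset.sum_congr rfl fun i _ => ?_
    conv_lhs => rw [h2 i, WmΦ_sum, Finset.mul_sum, ← WmΦ_sum, ← h2 i]
    exact Finset.sum_congr rfl fun k hk => by rw [(Finset.mem_filter.1 hk).2]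
  rw [e]
  refine Finset.sum_le_sum fun k _ => 𝓔.Wm_le (m1 k) (m2 _) (m1 k)
    (𝓔.WmΦ_mono hb (hq.mem k) (hp.mem _) ?_) (𝓔.WmΦ_nonneg hb (hq.mem k) (hq.proj k).nonneg)
  have := 𝓔.Wm_le (hq.mem k) (one_mem A) (hp.mem (c k)) (hq.proj k).le_one (hp.proj _).nonneg
  rwa [h1, one_mul] at this

/-- The projection on which `a q` carries more than half of the mass of `q`. -/
noncomputable def Wmθ (b q a : Op H) : Op H :=
  R124.sp (𝓔.WmΦ b (a * q) - (1 / 2 : ℝ) • 𝓔.WmΦ b q) 0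

variable {q : Op H} (hq : q ∈ A) (hq' : IsStarProjection q)
include hq hq'

theorem Wm_x {a : Op H} (ha : a ∈ A) (ha' : IsStarProjection a) :
    𝓔.WmΦ b (a * q) - (1 / 2 : ℝ) • 𝓔.WmΦ b q ∈ A ∧
      IsSelfAdjoint (𝓔.WmΦ b (a * q) - (1 / 2 : ℝ) • 𝓔.WmΦ b q) :=
  ⟨sub_mem (𝓔.WmΦ_mem hb (mul_mem ha hq)) (R124.rsmul_mem _ (𝓔.WmΦ_mem hb hq)),
    (IsSelfAdjoint.of_nonneg (𝓔.WmΦ_nonneg hb (mul_mem ha hq)
      (𝓔.Wm_nn ha hq ha'.nonneg hq'.nonneg))).sub (IsSelfAdjoint.of_nonneg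
        (smul_nonneg (by norm_num) (𝓔.WmΦ_nonneg hb hq hq'.nonneg)))⟩

theorem Wmθ_mem {a : Op H} (ha : a ∈ A) (ha' : IsStarProjection a) : 𝓔.Wmθ b q a ∈ A :=
  R124.sp_mem (𝓔.Wm_x hb hq hq' ha ha').2 (𝓔.Wm_x hb hq hq' ha ha').1 0

theorem Wmθ_orth {a a' : Op H} (ha : a ∈ A) (hp : IsStarProjection a) (ha' : a' ∈ A)
    (hp' : IsStarProjection a') (h : a * a' = 0) : 𝓔.Wmθ b q a * 𝓔.Wmθ b q a' = 0 := by
  obtain ⟨x1, x2⟩ := 𝓔.Wm_x hb hq hq' ha hp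
  obtain ⟨y1, y2⟩ := 𝓔.Wm_x hb hq hq' ha' hp'
  have hm := 𝓔.Wmθ_mem hb hq hq' ha hp
  refine 𝓔.Wm_sp y1 y2 hm (R124.sp_proj _ _) ?_
  have h1 : a + a' ≤ 1 := (hp.add hp' h).le_one
  have h2 := 𝓔.WmΦ_mono hb (mul_mem (add_mem ha ha') hq) (mul_mem (one_mem A) hq)
    (𝓔.Wm_le (add_mem ha ha') (one_mem A) hq h1 hq'.nonneg)
  have h3 : 𝓔.WmΦ b ((a + a') * q) = 𝓔.WmΦ b (a * q) + 𝓔.WmΦ b (a' * q) := by
    simp only [WmΦ, add_mul, mul_add, map_add]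
  rw [h3, one_mul] at h2
  have h4 : 𝓔.WmΦ b (a' * q) - (1 / 2 : ℝ) • 𝓔.WmΦ b q ≤
      -(𝓔.WmΦ b (a * q) - (1 / 2 : ℝ) • 𝓔.WmΦ b q) := by
    rw [← sub_nonneg] at h2 ⊢
    refine h2.trans_eq ?_
    module
  refine (𝓔.Wm_le y1 (neg_mem x1) hm h4 (R124.sp_proj _ _).nonneg).trans ?_
  rw [neg_mul, neg_nonpos]
  simpa only [zero_smul, Wmθ] using R124.smul_sp_le x2 0

theorem Wmθ_mono {a a' : Op H} (ha : a ∈ A) (hp : IsStarProjection a) (ha' : a' ∈ A)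
    (hp' : IsStarProjection a') (h : a * a' = a) :
    𝓔.Wmθ b q a * 𝓔.Wmθ b q a' = 𝓔.Wmθ b q a := by
  obtain ⟨x1, x2⟩ := 𝓔.Wm_x hb hq hq' ha hp
  obtain ⟨y1, y2⟩ := 𝓔.Wm_x hb hq hq' ha' hp'
  have hm := 𝓔.Wmθ_mem hb hq hq' ha hp
  have hm' := 𝓔.Wmθ_mem hb hq hq' ha' hp'
  have h1 : a ≤ a' := by
    have := 𝓔.Wm_le ha (one_mem A) ha' hp.le_one hp'.nonneg
    rwa [h, one_mul] at this
  have h2 := 𝓔.WmΦ_mono hb (mul_mem ha hq) (mul_mem ha' hq) (𝓔.Wm_le ha ha' hq h1 hq'.nonneg)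
  have h3 : (1 - 𝓔.Wmθ b q a') * 𝓔.Wmθ b q a = 0 := by
    refine 𝓔.Wm_sp x1 x2 (sub_mem (one_mem A) hm') (R124.sp_proj _ _).one_sub ?_
    refine (𝓔.Wm_le x1 y1 (sub_mem (one_mem A) hm') (sub_le_sub_right h2 _)
      (R124.sp_proj _ _).one_sub.nonneg).trans ?_
    simpa only [zero_smul, Wmθ] using R124.mul_one_sub_sp_le y2 0
  rw [sub_mul, one_mul, sub_eq_zero] at h3
  rw [𝓔.masa.comm _ hm _ hm', ← h3]

theorem Wm_key {a : Op H} (ha : a ∈ A) (hp : IsStarProjection a) :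
    𝓔.WmΦ b (a * q) * 𝓔.WmΦ b (a * q) ≤ (‖b‖ * ‖b‖) • (𝓔.Wmθ b q a * 𝓔.WmΦ b a) +
      (1 / 2 : ℝ) • (𝓔.WmΦ b q * 𝓔.WmΦ b (a * q)) := by
  obtain ⟨x1, x2⟩ := 𝓔.Wm_x hb hq hq' ha hp
  have hm := 𝓔.Wmθ_mem hb hq hq' ha hp
  have hθ : IsStarProjection (𝓔.Wmθ b q a) := R124.sp_proj _ _
  have haq : IsStarProjection (a * q) := hp.mul hq' (𝓔.masa.comm a ha q hq)
  have u1 := 𝓔.WmΦ_mem hb (mul_mem ha hq)
  have u2 := 𝓔.WmΦ_nonneg hb (mul_mem ha hq) haq.nonneg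
  have v1 := R124.rsmul_mem (1 / 2 : ℝ) (𝓔.WmΦ_mem hb hq)
  have v2 : 0 ≤ (1 / 2 : ℝ) • 𝓔.WmΦ b q :=
    smul_nonneg (by norm_num) (𝓔.WmΦ_nonneg hb hq hq'.nonneg)
  have h1 : (𝓔.WmΦ b (a * q) - (1 / 2 : ℝ) • 𝓔.WmΦ b q) * (1 - 𝓔.Wmθ b q a) ≤ 0 := by
    simpa only [zero_smul, Wmθ] using R124.mul_one_sub_sp_le x2 0
  have h2 := 𝓔.Wm_nn v1 hm v2 hθ.nonneg
  have h3 := 𝓔.Wm_le u1 (R124.rsmul_mem _ (one_mem A)) hm (𝓔.WmΦ_le hb (mul_mem ha hq) haq)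
    hθ.nonneg
  have h4 : 𝓔.WmΦ b (a * q) ≤ (‖b‖ * ‖b‖) • 𝓔.Wmθ b q a + (1 / 2 : ℝ) • 𝓔.WmΦ b q := by
    rw [smul_mul_assoc, one_mul, ← sub_nonneg] at h3
    rw [← neg_nonneg] at h1
    rw [← sub_nonneg]
    refine (add_nonneg (add_nonneg h1 h2) h3).trans_eq ?_
    noncomm_ring
  have h5 : a * q ≤ a := by
    have := 𝓔.Wm_le hq (one_mem A) ha hq'.le_one hp.nonneg
    rwa [one_mul, 𝓔.masa.comm q hq a ha] at this
  have h6 := 𝓔.Wm_le u1 (𝓔.WmΦ_mem hb ha) hm (𝓔.WmΦ_mono hb (mul_mem ha hq) ha h5) hθ.nonneg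
  refine (𝓔.Wm_le u1 (add_mem (R124.rsmul_mem _ hm) v1) u1 h4 u2).trans ?_
  rw [add_mul, smul_mul_assoc, smul_mul_assoc, 𝓔.masa.comm _ hm _ u1,
    𝓔.masa.comm _ hm _ (𝓔.WmΦ_mem hb ha)]
  exact add_le_add (smul_le_smul_of_nonneg_left h6 (by positivity)) le_rfl

end Phi

/-- Atomic kernels give intertwiners. `sq2` decreases under refinement; let `c > 0` be its
infimum and `P₀` a partition with `sq2 ≤ (5/4) c`. For `p₀ ∈ P₀` and a projection `a ≤ p₀` of `A` put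
`θ a = sp (Φ a - Φ p₀ / 2) 0`: monotone in `a`, `θ a * θ a' = 0` if `a a' = 0`. For `P` refining
`P₀` let `b_P = ∑_{p ≤ p₀} p b θ(p)`, `‖b_P‖ ≤ ‖b‖`, `g_P = ∑_{p ≤ p₀} θ p`. Off `g_P`,
`∑_{p ≤ p₀} Φ(p)² ≤ Φ(p₀)² / 2`, so `∑_{p₀} ψ (Φ(p₀)² g_P) ≥ c - c / 2`, and
`ψ (b_P* b) = ψ (∑ θ(p) Φ p) ≥ ψ (g_P Φ(p₀)²) / (2 ‖b‖²)`. Along an ultrafilter of partitions
(`exists_ce`) some `p₀` has a weak limit `b'` with `ψ (b'* b) ≠ 0`; `a b_P = b_P θ(a p₀)` once `P`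
refines `{a, 1 - a}`. Last part: if `y` has the same intertwining property then
`y = ∑_{p ≤ p₀} p y θ(p)`, so `E (y* b) = E (y* b_P) → E (y* b')` (`E_wLim`). -/
theorem atomic {b : Op H} (hb : b ∈ M) {c : ℝ} (hc : 0 < c)
    (h : ∀ (n : ℕ) (p : Fin n → Op H), Part A p → c ≤ 𝓔.sq2 b p) :
    ∃ (b' : Op H) (θ : Op H → Op H), b' ∈ M ∧ b' ≠ 0 ∧
      (∀ a ∈ A, IsStarProjection a → θ a ∈ A ∧ IsStarProjection (θ a) ∧ a * b' = b' * θ a) ∧
      (∀ y ∈ M, (∀ a ∈ A, IsStarProjection a → a * y = y * θ a) →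
        𝓔.E (star y * b) = 𝓔.E (star y * b')) ∧
      ∀ s ∈ A, ∀ t ∈ A, b * s = t * b → b' * s = t * b' := by
  classical
  obtain ⟨S, hS⟩ : ∃ S : Set ℝ, S = {x | ∃ (n : ℕ) (p : Fin n → Op H), Part A p ∧ x = 𝓔.sq2 b p} :=
    ⟨_, rfl⟩
  have hmem : ∀ (n : ℕ) (p : Fin n → Op H), Part A p → 𝓔.sq2 b p ∈ S := fun n p hp => by
    rw [hS]; exact ⟨n, p, hp, rfl⟩
  have hne : S.Nonempty := ⟨_, hmem 1 _ (part_one A)⟩
  have hlb : ∀ x ∈ S, c ≤ x := by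
    rw [hS]; rintro _ ⟨n, p, hp, rfl⟩; exact h n p hp
  have hc' : c ≤ sInf S := le_csInf hne hlb
  obtain ⟨x, hx, hx'⟩ := exists_lt_of_csInf_lt hne (show sInf S < 5 / 4 * sInf S by linarith)
  rw [hS] at hx
  obtain ⟨m, q, hq, rfl⟩ := hx
  obtain ⟨-, U, -, hU, -⟩ := exists_ce 𝓔.masa
  set B : Fin m → PT A → Op H := fun j P => ∑ i, P.2.1 i * b * 𝓔.Wmθ b (q j) (P.2.1 i) with hB
  have θm : ∀ j, ∀ a ∈ A, IsStarProjection a → 𝓔.Wmθ b (q j) a ∈ A := fun j a ha hp =>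
    𝓔.Wmθ_mem hb (hq.mem j) (hq.proj j) ha hp
  have θp : ∀ j a, IsStarProjection (𝓔.Wmθ b (q j) a) := fun j a => R124.sp_proj _ _
  have Bn : ∀ j P, ‖B j P‖ ≤ ‖b‖ := fun j P =>
    norm_sum_orth_le (y := fun _ => b) P.2.2.proj P.2.2.orth (fun i => θp j _)
      (fun i k hik => 𝓔.Wmθ_orth hb (hq.mem j) (hq.proj j) (P.2.2.mem i) (P.2.2.proj i)
        (P.2.2.mem k) (P.2.2.proj k) (P.2.2.orth i k hik)) (norm_nonneg _) fun i => by
        refine (norm_mul_le _ _).trans ((mul_le_of_le_one_right (norm_nonneg _)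
          ((θp j _).norm_le _)).trans ((norm_mul_le _ _).trans ?_))
        exact mul_le_of_le_one_left (norm_nonneg _) ((P.2.2.proj i).norm_le _)
  have Bm : ∀ j P, B j P ∈ M := fun j P => sum_mem fun i _ =>
    mul_mem (mul_mem (𝓔.masa.le _ (P.2.2.mem i)) hb)
      (𝓔.masa.le _ (θm j _ (P.2.2.mem i) (P.2.2.proj i)))
  choose b' hb' using fun j => exists_wLim U (B j) (Bn j)
  have b'm : ∀ j, b' j ∈ M := fun j => (hb' j).mem (Eventually.of_forall (Bm j))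
  have low : ∀ P : PT A, 3 / 8 * sInf S ≤ ‖b‖ * ‖b‖ * ∑ j, (𝓔.ψ (star (B j P) * b)).re := by
    intro P
    obtain ⟨n, p, hp⟩ := P
    have hpq := ((hp.prod 𝓔.masa hq).1).equiv finProdFinEquiv.symm
    have h1 : sInf S ≤ _ := csInf_le ⟨c, hlb⟩ (hmem _ _ hpq)
    have e1 : 𝓔.sq2 b ((fun ik : Fin n × Fin m => p ik.1 * q ik.2) ∘ finProdFinEquiv.symm) =
        ∑ j, ∑ i, (𝓔.ψ (𝓔.WmΦ b (p i * q j) * 𝓔.WmΦ b (p i * q j))).re := by
      rw [sq2, map_sum, Complex.re_sum, ← Equiv.sum_comp finProdFinEquiv, Fintype.sum_prod_type_right]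
      simp only [Function.comp, Equiv.symm_apply_apply, WmΦ]
    have e2 : ∀ j, (𝓔.ψ (star (B j ⟨n, p, hp⟩) * b)).re =
        ∑ i, (𝓔.ψ (𝓔.Wmθ b (q j) (p i) * 𝓔.WmΦ b (p i))).re := fun j => by
      simp only [hB, star_sum, Finset.sum_mul, map_sum, Complex.re_sum]
      refine Finset.sum_congr rfl fun i _ => ?_
      have m1 := θm j _ (hp.mem i) (hp.proj i)
      rw [WmΦ, ← 𝓔.ce.left _ m1 _ (𝓔.Wm_memM hb (hp.mem i)),
        𝓔.ψ_E _ (mul_mem (𝓔.masa.le _ m1) (𝓔.Wm_memM hb (hp.mem i))), star_mul, star_mul,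
        (θp j _).isSelfAdjoint.star_eq, (hp.proj i).isSelfAdjoint.star_eq, mul_assoc]
    have e3 : ∀ j, ∑ i, (𝓔.ψ (𝓔.WmΦ b (q j) * 𝓔.WmΦ b (p i * q j))).re =
        (𝓔.ψ (𝓔.WmΦ b (q j) * 𝓔.WmΦ b (q j))).re := fun j => by
      rw [← Complex.re_sum, ← map_sum, ← Finset.mul_sum, ← WmΦ_sum, ← Finset.sum_mul, hp.sum,
        one_mul]
    have e4 : 𝓔.sq2 b q = ∑ j, (𝓔.ψ (𝓔.WmΦ b (q j) * 𝓔.WmΦ b (q j))).re := by
      rw [sq2, map_sum, Complex.re_sum]; rfl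
    have h2 : ∀ j i, (𝓔.ψ (𝓔.WmΦ b (p i * q j) * 𝓔.WmΦ b (p i * q j))).re ≤
        ‖b‖ * ‖b‖ * (𝓔.ψ (𝓔.Wmθ b (q j) (p i) * 𝓔.WmΦ b (p i))).re +
          1 / 2 * (𝓔.ψ (𝓔.WmΦ b (q j) * 𝓔.WmΦ b (p i * q j))).re := fun j i => by
      have m1 := 𝓔.WmΦ_mem hb (mul_mem (hp.mem i) (hq.mem j))
      have := 𝓔.re_ψ_mono (𝓔.masa.le _ (mul_mem m1 m1)) (𝓔.masa.le _ (add_mem
        (R124.rsmul_mem _ (mul_mem (θm j _ (hp.mem i) (hp.proj i)) (𝓔.WmΦ_mem hb (hp.mem i))))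
        (R124.rsmul_mem _ (mul_mem (𝓔.WmΦ_mem hb (hq.mem j)) m1))))
        (𝓔.Wm_key hb (hq.mem j) (hq.proj j) (hp.mem i) (hp.proj i))
      simpa only [map_add, LinearMap.map_smul_of_tower, Complex.add_re, Complex.smul_re,
        smul_eq_mul] using this
    have h3 := Finset.sum_le_sum fun j (_ : j ∈ Finset.univ) =>
      Finset.sum_le_sum fun i (_ : i ∈ Finset.univ) => h2 j i
    simp only [Finset.sum_add_distrib, ← Finset.mul_sum, e3] at h3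
    simp only [e2]
    linarith
  have lim : ∀ j, Tendsto (fun P => (𝓔.ψ (star (B j P) * b)).re) U
      (𝓝 (𝓔.ψ (star (b' j) * b)).re) := fun j =>
    (Complex.continuous_re.tendsto _).comp (𝓔.normal.tendsto (C := ‖b‖ * ‖b‖)
      (Eventually.of_forall fun P => ⟨mul_mem (star_mem (Bm j P)) hb, (norm_mul_le _ _).trans
        (by rw [norm_star]; exact mul_le_mul_of_nonneg_right (Bn j P) (norm_nonneg _))⟩)
      (mul_mem (star_mem (b'm j)) hb) ((hb' j).star.mul_right b))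
  have h4 := ge_of_tendsto' ((tendsto_finsetSum Finset.univ fun j _ => lim j).const_mul
    (‖b‖ * ‖b‖)) low
  obtain ⟨j, hj⟩ : ∃ j, b' j ≠ 0 := by
    by_contra h0
    simp only [not_exists, not_not] at h0
    simp only [h0, star_zero, zero_mul, map_zero, Complex.zero_re, Finset.sum_const_zero,
      mul_zero] at h4
    linarith
  refine ⟨b' j, 𝓔.Wmθ b (q j), b'm j, hj, fun a ha hp => ⟨θm j a ha hp, θp j a, ?_⟩,
    fun y hy hy' => ?_, fun s hs t ht hst => ?_⟩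
  · refine (((hb' j).mul_left a).congr' ?_).unique ((hb' j).mul_right _)
    filter_upwards [hU ⟨2, _, part_two hp ha⟩] with P hP
    simp only [hB, Finset.mul_sum, Finset.sum_mul]
    refine Finset.sum_congr rfl fun i _ => ?_
    obtain ⟨k, hk⟩ := hP i
    have c1 := 𝓔.masa.comm _ (P.2.2.mem i) a ha
    fin_cases k
    · have hk' : P.2.1 i * a = P.2.1 i := hk
      rw [mul_assoc _ _ (𝓔.Wmθ b (q j) a), 𝓔.Wmθ_mono hb (hq.mem j) (hq.proj j) (P.2.2.mem i)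
        (P.2.2.proj i) ha hp hk', ← mul_assoc, ← mul_assoc, ← c1, hk']
    · have hk' : P.2.1 i * (1 - a) = P.2.1 i := hk
      rw [mul_sub, mul_one, sub_eq_self] at hk'
      rw [mul_assoc _ _ (𝓔.Wmθ b (q j) a), 𝓔.Wmθ_orth hb (hq.mem j) (hq.proj j) (P.2.2.mem i)
        (P.2.2.proj i) ha hp hk', ← mul_assoc, ← mul_assoc, ← c1, hk']
      simp
  · refine (wLim_const (U : Filter (PT A)) _).unique ((𝓔.E_wLim (C := ‖y‖ * ‖b‖)
      (Eventually.of_forall fun P => ⟨mul_mem (star_mem hy) (Bm j P), (norm_mul_le _ _).trans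
        (by rw [norm_star]; exact mul_le_mul_of_nonneg_left (Bn j P) (norm_nonneg _))⟩)
      (mul_mem (star_mem hy) (b'm j)) ((hb' j).mul_left (star y))).congr'
        (Eventually.of_forall fun P => ?_))
    have e : star y * b = ∑ i, star y * P.2.1 i * b := by
      rw [← Finset.sum_mul, ← Finset.mul_sum, P.2.2.sum, mul_one]
    simp only [hB, e, Finset.mul_sum, map_sum]
    refine Finset.sum_congr rfl fun i _ => ?_
    have m1 := θm j _ (P.2.2.mem i) (P.2.2.proj i)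
    have m2 : star y * P.2.1 i * b ∈ M :=
      mul_mem (mul_mem (star_mem hy) (𝓔.masa.le _ (P.2.2.mem i))) hb
    have e1 := congrArg star (hy' _ (P.2.2.mem i) (P.2.2.proj i))
    rw [star_mul, star_mul, (θp j _).isSelfAdjoint.star_eq,
      (P.2.2.proj i).isSelfAdjoint.star_eq] at e1
    rw [← mul_assoc, ← mul_assoc, 𝓔.ce.right _ m1 _ m2, 𝓔.masa.comm _ (𝓔.ce.mem _ m2) _ m1,
      ← 𝓔.ce.left _ m1 _ m2, e1, ← mul_assoc, ← mul_assoc, (θp j _).isIdempotentElem.eq]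
  · refine (((hb' j).mul_right s).congr' (Eventually.of_forall fun P => ?_)).unique
      ((hb' j).mul_left t)
    simp only [hB, Finset.mul_sum, Finset.sum_mul]
    refine Finset.sum_congr rfl fun i _ => ?_
    rw [mul_assoc, 𝓔.masa.comm _ (θm j _ (P.2.2.mem i) (P.2.2.proj i)) s hs, ← mul_assoc,
      mul_assoc _ b s, hst, ← mul_assoc, 𝓔.masa.comm _ (P.2.2.mem i) t ht]
    simp only [mul_assoc]

include 𝓔 in
/-- Conjugation by an intertwiner preserves `A`. -/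
theorem Wm_conj {w : Op H} (hw : w ∈ M) {θ : Op H → Op H}
    (h : ∀ a ∈ A, IsStarProjection a → θ a ∈ A ∧ IsStarProjection (θ a) ∧ a * w = w * θ a)
    {x : Op H} (hx : x ∈ A) : w * x * star w ∈ A := by
  refine 𝓔.masa.mem_of_proj (mul_mem (mul_mem hw (𝓔.masa.le x hx)) (star_mem hw)) fun a ha hp => ?_
  obtain ⟨h1, h2, h3⟩ := h a ha hp
  have h4 := congrArg star h3
  rw [star_mul, star_mul, hp.isSelfAdjoint.star_eq, h2.isSelfAdjoint.star_eq] at h4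
  rw [← mul_assoc, ← mul_assoc, h3, mul_assoc w, 𝓔.masa.comm _ h1 x hx, mul_assoc _ _ a, h4]
  simp only [mul_assoc]

theorem Wm_low {b : Op H} (hb : b ∈ M) (h0 : b ≠ 0) (h : ∀ x ∈ A, b * x * star b ∈ A) :
    ∃ c : ℝ, 0 < c ∧ ∀ (n : ℕ) (p : Fin n → Op H), Part A p → c ≤ 𝓔.sq2 (star b) p := by
  have hT : star b * b ∈ M := mul_mem (star_mem hb) hb
  have hE := 𝓔.ce.mem _ hT
  have hE0 := 𝓔.ce.nonneg _ hT (star_mul_self_nonneg b)
  have hm : b * 𝓔.E (star b * b) * star b ∈ M := 𝓔.masa.le _ (h _ hE)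
  obtain ⟨d, hd⟩ : ∃ d, d = (𝓔.ψ (b * 𝓔.E (star b * b) * star b)).re := ⟨_, rfl⟩
  have hd0 : 0 < d := by
    by_contra hd0
    have h1 := 𝓔.eq_zero_of_nonneg hm (star_right_conjugate_nonneg hE0 b) (hd ▸ not_lt.1 hd0)
    obtain ⟨s, hs⟩ := CStarAlgebra.nonneg_iff_eq_star_mul_self.1 hE0
    have h2 : s * star b = 0 := by
      rw [← CStarRing.star_mul_self_eq_zero_iff, star_mul, star_star, ← h1, hs]
      simp only [mul_assoc]
    have h3 : 𝓔.E (star b * b) * (star b * b) = 0 := by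
      rw [hs, mul_assoc, ← mul_assoc s, h2, zero_mul, mul_zero]
    have h4 := 𝓔.ce.left _ hE _ hT
    rw [h3, map_zero] at h4
    have h5 : 𝓔.E (star b * b) = 0 := by
      rw [← CStarRing.star_mul_self_eq_zero_iff, (IsSelfAdjoint.of_nonneg hE0).star_eq, ← h4]
    exact h0 (𝓔.faith b hb (by rw [← 𝓔.ψ_E _ hT, h5, map_zero]))
  have hn := 𝓔.n2_nonneg (star b)
  obtain ⟨δ, hδ, hδ'⟩ := 𝓔.ac_mul (star_mem hb) (‖star b * b‖ + ‖star b * b‖)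
    (ε := d / 2 / (𝓔.n2 (star b) + 1)) (by positivity)
  obtain ⟨n₀, p₀, hp₀, hp₀'⟩ := 𝓔.EP_approx hT hδ
  refine ⟨d / 2, by positivity, fun n p hp => ?_⟩
  obtain ⟨m, q, hq, r1, r2⟩ := hp.exists_ref 𝓔.masa hp₀
  refine le_trans ?_ (𝓔.Wm_anti (star_mem hb) hp hq r1)
  have e : 𝓔.sq2 (star b) q = (𝓔.ψ (b * EP q (star b * b) * star b)).re := by
    rw [sq2, EP, Finset.mul_sum, Finset.sum_mul]
    congr 2
    refine Finset.sum_congr rfl fun i _ => ?_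
    rw [star_star, 𝓔.E_of_mem (h _ (hq.mem i))]
    simp only [mul_assoc]
  have hD : EP q (star b * b) - 𝓔.E (star b * b) ∈ M :=
    sub_mem (EP_mem 𝓔.masa hq hT) (𝓔.masa.le _ hE)
  have h1 := hδ' _ hD ((norm_sub_le _ _).trans (add_le_add (norm_EP_le hq.toPart0 _)
    (𝓔.ce.norm_le _ hT))) (hp₀' m q hq r2)
  have h2 := 𝓔.cs (star_mem hb) (mul_mem hD (star_mem hb))
  rw [star_star, sub_mul, mul_sub, map_sub, ← mul_assoc, ← mul_assoc] at h2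
  have h3 := (Complex.abs_re_le_norm _).trans h2
  rw [Complex.sub_re, ← e, ← hd, ← sub_mul] at h3
  have h4 : 𝓔.n2 (star b) * (d / 2 / (𝓔.n2 (star b) + 1)) ≤ d / 2 := by
    rw [mul_div_assoc', div_le_iff₀ (by positivity)]
    nlinarith
  linarith [(abs_le.1 h3).1, mul_le_mul_of_nonneg_left h1 hn]

/-- Suppose `sq2 b ≥ c > 0`; get `b', θ`. Then `∑_i Φ'(p i)² = b' EP p (b'* b') b'*` for
`Φ' a = E (b' a b'*) = b' a b'*` (it commutes with the projections of `A`); it tends to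
`b' E(b'* b') b'* ≠ 0`, so `atomic` applies to `b'*` and gives `b''`, `w₀ = b''*` with
`a w₀ = w₀ θ(a)`, `w₀ a = θ'(a) w₀`, `E (w₀ b'*) = E (w₀ w₀*)`. Then `w₀* w₀, w₀ w₀* ∈ A`; the polar part
`w = w₀ * h`, `h = (w₀* w₀)^{-1/2} sp (w₀* w₀) t ∈ A` (`R124.polar_init`), is a normaliser with the
same intertwining properties (`R124.exists_step` to pass from projections to `A`).
`E (w* b') = E (w* b) = 0` gives `E (b' w*) = 0` (`E_mul_star_eq_zero`). With `r = w w*`,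
`w₀* r = sp * w₀* = h' w* = w* (w h' w*)` for an `h' ∈ A` (`Nor.mul_comm`), so
`0 = E (b' w₀*) r = w₀ w₀* r = w₀ sp w₀* ≠ 0`. -/
theorem sq2_small {b : Op H} (hb : b ∈ M) (h : 𝓔.Perp b) {c : ℝ} (hc : 0 < c) :
    ∃ (n : ℕ) (p : Fin n → Op H), Part A p ∧ 𝓔.sq2 b p ≤ c := by
  by_contra h0
  obtain ⟨b', θ, m1, n1, i1, e1, -⟩ := 𝓔.atomic hb hc fun n p hp =>
    (not_le.1 fun hle => h0 ⟨n, p, hp, hle⟩).le
  obtain ⟨c', hc', hlow⟩ := 𝓔.Wm_low m1 n1 fun x hx => 𝓔.Wm_conj m1 i1 hx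
  obtain ⟨v, θ', m2, n2, i2, e2, s2⟩ := 𝓔.atomic (star_mem m1) hc' hlow
  have i3 : ∀ a ∈ A, IsStarProjection a →
      θ a ∈ A ∧ IsStarProjection (θ a) ∧ a * star v = star v * θ a := fun a ha hp => by
    obtain ⟨h1, h2, h3⟩ := i1 a ha hp
    have h4 := congrArg star h3
    rw [star_mul, star_mul, hp.isSelfAdjoint.star_eq, h2.isSelfAdjoint.star_eq] at h4
    have h5 := congrArg star (s2 a ha _ h1 h4)
    rw [star_mul, star_mul, hp.isSelfAdjoint.star_eq, h2.isSelfAdjoint.star_eq] at h5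
    exact ⟨h1, h2, h5⟩
  have c1 : ∀ x ∈ A, star v * x * v ∈ A := fun x hx => by
    simpa using 𝓔.Wm_conj (star_mem m2) i3 hx
  have c2 : ∀ x ∈ A, v * x * star v ∈ A := fun x hx => 𝓔.Wm_conj m2 i2 hx
  have hT : v * star v ∈ A := by simpa using c2 1 (one_mem A)
  have hT' : star v * v ∈ A := by simpa using c1 1 (one_mem A)
  have hTs : IsSelfAdjoint (v * star v) := IsSelfAdjoint.mul_star_self v
  obtain ⟨t, ht, hsp⟩ := R124.exists_sp_ne_zero (mul_star_self_nonneg v)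
    fun h => n2 ((CStarRing.mul_star_self_eq_zero_iff v).1 h)
  have hpol := R124.polar_init (star v) ht
  rw [star_star] at hpol
  set k := cfc (fun s : ℝ => (√(max s t))⁻¹) (v * star v) with hk
  set s := R124.sp (v * star v) t with hs
  have hkA : k ∈ A := R124.cfc_mem _ hT
  have hks : star k = k := (cfc_predicate _ _ : IsSelfAdjoint k).star_eq
  have hsA : s ∈ A := R124.sp_mem hTs hT t
  have hsp' : IsStarProjection s := R124.sp_proj _ _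
  obtain ⟨g, hg⟩ : ∃ g, g = k * s := ⟨_, rfl⟩
  have hgA : g ∈ A := hg ▸ mul_mem hkA hsA
  have hgs : star g = g := by
    rw [hg, star_mul, hks, hsp'.isSelfAdjoint.star_eq, 𝓔.masa.comm s hsA k hkA]
  have hw : g * (v * star v) * g = s := by
    rw [star_mul, star_star, hks] at hpol
    calc g * (v * star v) * g = s * (k * v * (star v * k) * s) := by
          have e : g = s * k := hg.trans (𝓔.masa.comm k hkA s hsA)
          nth_rewrite 1 [e]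
          rw [hg]
          simp only [mul_assoc]
      _ = s := by rw [hpol, hsp'.isIdempotentElem.eq]
  have hww : star (star v * g) * (star v * g) = s := by
    rw [star_mul, star_star, hgs, ← hw]; simp only [mul_assoc]
  have hN : Nor M A (star v * g) :=
    ⟨mul_mem (star_mem m2) (𝓔.masa.le g hgA), R124.pi_of_init (hww ▸ hsp'), fun a ha => by
      have := c1 _ (mul_mem (mul_mem hgA ha) hgA)
      rw [star_mul, star_star, hgs]
      simpa only [mul_assoc] using this, fun a ha => by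
      have := mul_mem (mul_mem hgA (c2 a ha)) hgA
      rw [star_mul, star_star, hgs]
      simpa only [mul_assoc] using this⟩
  have z1 : 𝓔.E (star (star v * g) * b') = 0 := by
    rw [← e1 _ hN.mem fun a ha hp => ?_, h _ hN]
    obtain ⟨h1, -, h3⟩ := i3 a ha hp
    rw [← mul_assoc, h3, mul_assoc, 𝓔.masa.comm _ h1 g hgA, mul_assoc]
  have z2 := 𝓔.E_mul_star_eq_zero hN m1 z1
  have z3 : 𝓔.E (b' * v) = star v * v := by
    have := congrArg star (e2 v m2 fun a ha hp => (i2 a ha hp).2.2)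
    rw [← 𝓔.ce.map_star _ (mul_mem (star_mem m2) (star_mem m1)), 𝓔.E_of_mem hT', star_mul,
      star_mul, star_star, star_star] at this
    exact this
  have hm : v * star v * g ∈ A := mul_mem hT hgA
  have z4 : star v * v * (star v * g * star (star v * g)) = 0 := by
    have h1 := (hN.star.mul_comm 𝓔.masa hm).2
    have h2 := hN.out _ hm
    rw [← z3, ← 𝓔.ce.right _ hN.fin _ (mul_mem m1 m2)]
    have h3 : b' * v * (star v * g * star (star v * g)) = b' * star (star v * g) *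
        (star v * g * (v * star v * g) * star (star v * g)) := by
      rw [star_star] at h1
      rw [mul_assoc b' (star _), ← h1]
      simp only [mul_assoc]
    rw [h3, 𝓔.ce.right _ h2 _ (mul_mem m1 (star_mem hN.mem)), z2, zero_mul]
  have z5 : g * (v * star v) * (v * star v * g) * s = 0 := by
    have := congrArg (fun x => star (star v * g) * x * (star v * g)) z4
    simp only [mul_zero, zero_mul] at this
    rw [← this, ← hww, star_mul, star_star, hgs]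
    simp only [mul_assoc]
  refine hsp ?_
  have cT := 𝓔.masa.comm _ hT g hgA
  generalize v * star v = T at hw z5 cT
  calc s = s * s * s := by rw [hsp'.isIdempotentElem.eq, hsp'.isIdempotentElem.eq]
    _ = g * T * g * (g * T * g) * s := by rw [hw]
    _ = g * (T * g) * g * T * (g * s) := by simp only [mul_assoc]
    _ = g * (g * T * (g * T) * s) * g := by
      rw [cT, 𝓔.masa.comm g hgA s hsA]; simp only [mul_assoc]
    _ = 0 := by rw [← cT] at z5 ⊢; rw [z5, mul_zero, zero_mul]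

/-- Markov: `g = 1 - sp (∑ Φ(p i)²) (κ²)`. -/
theorem wm {b : Op H} (hb : b ∈ M) (h : 𝓔.Perp b) {κ : ℝ} (hκ : 0 < κ) :
    ∃ (n : ℕ) (p : Fin n → Op H), Part A p ∧ ∃ g ∈ A, IsStarProjection g ∧
      (𝓔.ψ (1 - g)).re ≤ κ ∧ ∀ i, g * 𝓔.E (star b * p i * b) ≤ κ • (1 : Op H) := by
  obtain ⟨n, p, hp, hs⟩ := 𝓔.sq2_small hb h (c := κ ^ 3) (by positivity)
  have m1 : ∀ i, 𝓔.WmΦ b (p i) ∈ A := fun i => 𝓔.WmΦ_mem hb (hp.mem i)
  have n1 : ∀ i, 0 ≤ 𝓔.WmΦ b (p i) := fun i => 𝓔.WmΦ_nonneg hb (hp.mem i) (hp.proj i).nonneg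
  have n2 : ∀ i, 0 ≤ 𝓔.WmΦ b (p i) * 𝓔.WmΦ b (p i) := fun i => 𝓔.Wm_nn (m1 i) (m1 i) (n1 i) (n1 i)
  obtain ⟨X, hX⟩ : ∃ X, X = ∑ i, 𝓔.WmΦ b (p i) * 𝓔.WmΦ b (p i) := ⟨_, rfl⟩
  have hXA : X ∈ A := hX ▸ sum_mem fun i _ => mul_mem (m1 i) (m1 i)
  have hX0 : 0 ≤ X := hX ▸ Finset.sum_nonneg fun i _ => n2 i
  have hXs := IsSelfAdjoint.of_nonneg hX0
  have hg : 1 - R124.sp X (κ ^ 2) ∈ A := sub_mem (one_mem A) (R124.sp_mem hXs hXA _)
  have hg' := (R124.sp_proj X (κ ^ 2)).one_sub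
  refine ⟨n, p, hp, _, hg, hg', ?_, fun i => ?_⟩
  · rw [sub_sub_cancel]
    refine (𝓔.markov (𝓔.masa.le X hXA) hX0 (by positivity)).trans ?_
    rw [div_le_iff₀ (by positivity), hX]
    exact hs.trans_eq (by ring)
  · have h1 := R124.mul_one_sub_sp_le hXs (κ ^ 2)
    generalize 1 - R124.sp X (κ ^ 2) = g at hg hg' h1
    change g * 𝓔.WmΦ b (p i) ≤ _
    have h2 : 𝓔.WmΦ b (p i) * 𝓔.WmΦ b (p i) ≤ X :=
      hX ▸ Finset.single_le_sum (fun j _ => n2 j) (Finset.mem_univ i)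
    have h3 := (𝓔.Wm_le (mul_mem (m1 i) (m1 i)) hXA hg h2 hg'.nonneg).trans (h1.trans
      (smul_le_smul_of_nonneg_left hg'.le_one (by positivity)))
    have c := 𝓔.masa.comm _ (m1 i) g hg
    have h4 : g * 𝓔.WmΦ b (p i) * (g * 𝓔.WmΦ b (p i)) = 𝓔.WmΦ b (p i) * 𝓔.WmΦ b (p i) * g := by
      rw [mul_assoc, ← mul_assoc _ g, c, mul_assoc, ← mul_assoc g g, hg'.isIdempotentElem.eq,
        ← 𝓔.masa.comm _ (mul_mem (m1 i) (m1 i)) g hg]
    have hy := IsSelfAdjoint.of_nonneg (𝓔.Wm_nn hg (m1 i) hg'.nonneg (n1 i))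
    rw [← h4] at h3
    generalize g * 𝓔.WmΦ b (p i) = y at hy h3
    have h5 := star_mul_self_nonneg (κ • (1 : Op H) - y)
    rw [star_sub, hy.star_eq, star_smul, star_one, star_trivial] at h5
    have h6 := smul_nonneg (show 0 ≤ (2 * κ)⁻¹ by positivity) (add_nonneg h5 (sub_nonneg.2 h3))
    rw [← sub_nonneg]
    refine h6.trans_eq ?_
    rw [inv_smul_eq_iff₀ (by positivity)]
    simp only [sub_mul, mul_sub, smul_mul_assoc, mul_smul_comm, one_mul, mul_one]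
    module

end Nce

end Crest.Agent.R109
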